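import Vale.Agent.P237.Petty.Cor.Grid.Tiny.N10.Cert

/-!
# P237: a cell down to zero in dimension 10, subdivisions
-/

namespace Vale.Agent.P237.Petty.Cor.Grid.Tiny.N10

theorem covers24 : cell.Covers Vale.Agent.P237.Petty.Cor.Grid.N10.table row24.1 :=
  ⟨(.cut .d 0 (.cut .v 16777216 (.cut .v 8388608 (.void 2 ⟨⟨0, 0, 100000, 0, 0, 0, 0, 0, 0, ⟨0, 0⟩, 0⟩, 0, 0⟩ 0 0) (.cut .d (-8388608) (.void 3 ⟨⟨100000, 0, 0, 0, 0, 0, 0, 0, 0, ⟨0, 0⟩, 0⟩, 0, 0⟩ 0 0) (.cut .d (-4194304) (.void 3 ⟨⟨100000, 0, 0, 0, 0, 0, 0, 0, 0, ⟨0, 0⟩, 0⟩, 0, 0⟩ 0 0) (.cut .d (-2097152) (.void 3 ⟨⟨0, 0, 0, 0, 0, 100000, 0, 0, 0, ⟨0, 0⟩, 0⟩, 0, 0⟩ 0 0) (.cut .d (-1048576)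 (.void 3 ⟨⟨0, 0, 0, 0, 0, 100000, 0, 0, 0, ⟨0, 0⟩, 0⟩, 0, 0⟩ 0 0) (.cut .d (-524288) (.void 3 ⟨⟨0, 0, 0, 0, 0, 100000, 0, 0, 0, ⟨0, 0⟩, 0⟩, 0, 0⟩ 0 0) (.cut .s 13631488 (.pos 3 .mm ⟨⟨0, 0, 0, 0, 0, 750744919, 0, 0, 0, ⟨0, 0⟩, 0⟩, 0, 0⟩ 0 0) (.pos 3 .mm ⟨⟨0, 0, 0, 0, 0, 842724754, 0, 0, 0, ⟨0, 0⟩, 0⟩, 0, 0⟩ 0 0)))))))) (.cut .v 268435456 (.cut .v 67108864 (.cut .v 33554432 (.cut .v 25165824 (.cut .d (-8388608) (.void 23 ⟨⟨100000, 0, 0, 0, 0, 0, 0, 0, 0, ⟨0, 0⟩, 0⟩, 0, 0⟩ 0 0) (.cut .d (-4194304) (.void 23 ⟨⟨100000, 0, 0, 0, 0, 0, 0, 0, 0, ⟨0, 0⟩, 0⟩, 0, 0⟩ 0 0) (.cut .v 20971520 (.cut .d (-2097152) (.void 25 ⟨⟨100000, 0, 0, 0, 0, 0,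 0, 0, 0, ⟨0, 0⟩, 0⟩, 0, 0⟩ 0 0) (.cut .v 18874368 (.cut .d (-1048576) (.void 27 ⟨⟨100000, 0, 0, 0, 0, 0, 0, 0, 0, ⟨0, 0⟩, 0⟩, 0, 0⟩ 0 0) (.cut .v 17825792 (.cut .d (-524288) (.void 29 ⟨⟨100000, 0, 0, 0, 0, 0, 0, 0, 0, ⟨0, 0⟩, 0⟩, 0, 0⟩ 0 0) (.cut .v 17301504 (.cut .d (-262144) (.void 31 ⟨⟨100000, 0, 0, 0, 0, 0, 0, 0, 0, ⟨0, 0⟩, 0⟩, 0, 0⟩ 0 0) (.cut .d (-131072) (.void 31 ⟨⟨100000, 0, 0, 0, 0, 0, 0, 0, 0, ⟨0, 0⟩, 0⟩, 0, 0⟩ 0 0) (.cut .d (-65536) (.void 31 ⟨⟨100000, 0, 0, 0, 0, 0, 0, 0, 0, ⟨0, 0⟩, 0⟩, 0, 0⟩ 0 0) (.cut .d (-32768) (.void 31 ⟨⟨100000, 0, 0, 0, 0, 0, 0, 0, 0, ⟨0, 0⟩, 0⟩, 0, 0⟩ 0 0) (.cut .v 17039360 (.cut .d (-16384) (.cut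 .v 16908288 (.cut .d (-24576) (.void 35 ⟨⟨0, 0, 0, 0, 0, 100000, 0, 0, 0, ⟨0, 0⟩, 0⟩, 0, 0⟩ 0 0) (.cut .d (-20480) (.void 35 ⟨⟨0, 0, 0, 0, 0, 100000, 0, 0, 0, ⟨0, 0⟩, 0⟩, 0, 0⟩ 0 0) (.cut .d (-18432) (.void 35 ⟨⟨0, 0, 0, 0, 0, 100000, 0, 0, 0, ⟨0, 0⟩, 0⟩, 0, 0⟩ 0 0) (.cut .l 184549 (.void 35 ⟨⟨100000, 0, 0, 0, 0, 0, 0, 0, 0, ⟨0, 0⟩, 0⟩, 0, 0⟩ 0 0) (.cut .v 16842752 (.pos 45 .mp ⟨⟨0, 0, 0, 0, 0, 898315165, 0, 0, 0, ⟨0, 0⟩, 0⟩, 0, 0⟩ 0 0) (.cut .v 16875520 (.cut .l 276824 (.void 96 ⟨⟨100000, 0, 0, 0, 0, 0, 0, 0, 0, ⟨0, 0⟩, 0⟩, 0, 0⟩ 0 0) (.cut .l 322961 (.void 96 ⟨⟨100000, 0, 0, 0, 0, 0, 0, 0, 0, ⟨0, 0⟩, 0⟩, 0, 0⟩ 0 0) (.cut .l 346030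 (.pos 96 .mp ⟨⟨326406099, 0, 0, 0, 0, 332578509, 0, 0, 0, ⟨0, 0⟩, 0⟩, 0, 0⟩ 0 0) (.cut .s 13631488 (.cut .s 13565952 (.pos 96 .mp ⟨⟨344324069, 0, 0, 0, 0, 95167986, 0, 0, 0, ⟨0, 0⟩, 0⟩, 0, 0⟩ 0 0) (.pos 96 .mp ⟨⟨348109655, 0, 0, 0, 0, 138301538, 0, 0, 0, ⟨0, 0⟩, 0⟩, 0, 0⟩ 0 0)) (.cut .s 13697024 (.pos 96 .mp ⟨⟨366390780, 0, 0, 0, 0, 146652965, 0, 0, 0, ⟨0, 0⟩, 0⟩, 0, 0⟩ 0 0) (.pos 96 .mp ⟨⟨378740457, 0, 0, 0, 0, 201651643, 0, 0, 0, ⟨0, 0⟩, 0⟩, 0, 0⟩ 0 0)))))) (.pos 97 .mp ⟨⟨474354630, 0, 0, 0, 0, 0, 0, 0, 0, ⟨0, 0⟩, 0⟩, 0, 0⟩ 0 0))))))) (.void 36 ⟨⟨100000, 0, 0, 0, 0, 0, 0, 0, 0, ⟨0, 0⟩, 0⟩, 0, 0⟩ 0 0)) (.cut .s 13631488 (.cut .v 16908288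 (.cut .s 13565952 (.cut .s 13533184 (.cut .v 16842752 (.cut .s 13516800 (.cut .d (-8192) (.cut .s 13508608 (.pos 45 .mp ⟨⟨322848819, 0, 0, 0, 0, 111137810, 0, 0, 0, ⟨0, 0⟩, 0⟩, 0, 0⟩ 0 0) (.pos 45 .mp ⟨⟨319575316, 0, 0, 0, 0, 124328563, 0, 0, 0, ⟨0, 0⟩, 0⟩, 0, 0⟩ 0 0)) (.cut .l 184549 (.cut .v 16809984 (.cut .l 92274 (.cut .d (-4096) (.pos 49 .mp ⟨⟨322731780, 0, 0, 0, 0, 118270245, 0, 0, 0, ⟨0, 0⟩, 0⟩, 0, 0⟩ 0 0) (.cut .s 13508608 (.pos 49 .mp ⟨⟨325969867, 0, 0, 0, 0, 100448164, 0, 0, 0, ⟨0, 0⟩, 0⟩, 0, 0⟩ 0 0) (.pos 49 .mp ⟨⟨327982939, 0, 0, 0, 0, 101100169, 0, 0, 0, ⟨0, 0⟩, 0⟩, 0, 0⟩ 0 0))) (.pos 49 .mp ⟨⟨319215226, 0, 0, 0, 0, 113929716,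 0, 0, 0, ⟨0, 0⟩, 0⟩, 0, 0⟩ 0 0)) (.pos 50 .mp ⟨⟨356374363, 0, 0, 0, 0, 49611433, 0, 0, 0, ⟨0, 0⟩, 0⟩, 0, 0⟩ 0 0)) (.pos 45 .mp ⟨⟨324835493, 0, 0, 0, 0, 0, 0, 0, 0, ⟨0, 0⟩, 0⟩, 0, 0⟩ 0 0))) (.cut .d (-8192) (.cut .l 184549 (.pos 45 .mp ⟨⟨327819693, 0, 0, 0, 0, 119302185, 0, 0, 0, ⟨0, 0⟩, 0⟩, 0, 0⟩ 0 0) (.pos 45 .mp ⟨⟨321556196, 0, 0, 0, 0, 124407650, 0, 0, 0, ⟨0, 0⟩, 0⟩, 0, 0⟩ 0 0)) (.cut .l 184549 (.cut .v 16809984 (.cut .s 13524992 (.cut .s 13520896 (.pos 49 .mp ⟨⟨329684989, 0, 0, 0, 0, 101913520, 0, 0, 0, ⟨0, 0⟩, 0⟩, 0, 0⟩ 0 0) (.pos 49 .mp ⟨⟨330337311, 0, 0, 0, 0, 102989324, 0, 0, 0, ⟨0, 0⟩, 0⟩, 0, 0⟩ 0 0)) (.cut .s 13529088 (.pos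 49 .mp ⟨⟨331001227, 0, 0, 0, 0, 104053260, 0, 0, 0, ⟨0, 0⟩, 0⟩, 0, 0⟩ 0 0) (.pos 49 .mp ⟨⟨331676914, 0, 0, 0, 0, 105104984, 0, 0, 0, ⟨0, 0⟩, 0⟩, 0, 0⟩ 0 0))) (.pos 50 .mp ⟨⟨360032596, 0, 0, 0, 0, 51670317, 0, 0, 0, ⟨0, 0⟩, 0⟩, 0, 0⟩ 0 0)) (.pos 45 .mp ⟨⟨328896606, 0, 0, 0, 0, 0, 0, 0, 0, ⟨0, 0⟩, 0⟩, 0, 0⟩ 0 0)))) (.pos 46 .mp ⟨⟨375976904, 0, 0, 0, 0, 20769772, 0, 0, 0, ⟨0, 0⟩, 0⟩, 0, 0⟩ 0 0)) (.cut .v 16842752 (.cut .s 13549568 (.cut .d (-8192) (.cut .l 184549 (.pos 45 .mp ⟨⟨331920844, 0, 0, 0, 0, 120743807, 0, 0, 0, ⟨0, 0⟩, 0⟩, 0, 0⟩ 0 0) (.pos 45 .mp ⟨⟨325560264, 0, 0, 0, 0, 126100232, 0, 0, 0, ⟨0, 0⟩, 0⟩, 0, 0⟩ 0 0)) (.cut .l 184549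 (.cut .v 16809984 (.cut .s 13541376 (.cut .s 13537280 (.pos 49 .mp ⟨⟨332364549, 0, 0, 0, 0, 106144152, 0, 0, 0, ⟨0, 0⟩, 0⟩, 0, 0⟩ 0 0) (.pos 49 .mp ⟨⟨333064307, 0, 0, 0, 0, 107170421, 0, 0, 0, ⟨0, 0⟩, 0⟩, 0, 0⟩ 0 0)) (.cut .s 13545472 (.pos 49 .mp ⟨⟨333776366, 0, 0, 0, 0, 108183447, 0, 0, 0, ⟨0, 0⟩, 0⟩, 0, 0⟩ 0 0) (.pos 49 .mp ⟨⟨334500902, 0, 0, 0, 0, 109182886, 0, 0, 0, ⟨0, 0⟩, 0⟩, 0, 0⟩ 0 0))) (.pos 50 .mp ⟨⟨363826713, 0, 0, 0, 0, 53652555, 0, 0, 0, ⟨0, 0⟩, 0⟩, 0, 0⟩ 0 0)) (.pos 45 .mp ⟨⟨333014787, 0, 0, 0, 0, 0, 0, 0, 0, ⟨0, 0⟩, 0⟩, 0, 0⟩ 0 0))) (.cut .d (-8192) (.cut .l 184549 (.pos 45 .mp ⟨⟨336078965, 0, 0, 0, 0, 122272180, 0,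 0, 0, ⟨0, 0⟩, 0⟩, 0, 0⟩ 0 0) (.cut .s 13557760 (.pos 45 .mp ⟨⟨330324935, 0, 0, 0, 0, 123977826, 0, 0, 0, ⟨0, 0⟩, 0⟩, 0, 0⟩ 0 0) (.pos 45 .mp ⟨⟨332231717, 0, 0, 0, 0, 125178786, 0, 0, 0, ⟨0, 0⟩, 0⟩, 0, 0⟩ 0 0))) (.cut .l 184549 (.cut .v 16809984 (.cut .s 13557760 (.cut .s 13553664 (.pos 49 .mp ⟨⟨335238092, 0, 0, 0, 0, 110168394, 0, 0, 0, ⟨0, 0⟩, 0⟩, 0, 0⟩ 0 0) (.pos 49 .mp ⟨⟨336165227, 0, 0, 0, 0, 110782683, 0, 0, 0, ⟨0, 0⟩, 0⟩, 0, 0⟩ 0 0)) (.cut .s 13561856 (.pos 49 .mp ⟨⟨337103445, 0, 0, 0, 0, 111386159, 0, 0, 0, ⟨0, 0⟩, 0⟩, 0, 0⟩ 0 0) (.pos 49 .mp ⟨⟨338048558, 0, 0, 0, 0, 111987273, 0, 0, 0, ⟨0, 0⟩, 0⟩, 0, 0⟩ 0 0))) (.pos 50 .mp ⟨⟨367766188,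 0, 0, 0, 0, 55541489, 0, 0, 0, ⟨0, 0⟩, 0⟩, 0, 0⟩ 0 0)) (.pos 45 .mp ⟨⟨337190864, 0, 0, 0, 0, 0, 0, 0, 0, ⟨0, 0⟩, 0⟩, 0, 0⟩ 0 0)))) (.pos 46 .mp ⟨⟨384380566, 0, 0, 0, 0, 23276781, 0, 0, 0, ⟨0, 0⟩, 0⟩, 0, 0⟩ 0 0))) (.cut .s 13598720 (.cut .v 16842752 (.cut .s 13582336 (.cut .d (-8192) (.cut .l 184549 (.pos 45 .mp ⟨⟨340294876, 0, 0, 0, 0, 123888790, 0, 0, 0, ⟨0, 0⟩, 0⟩, 0, 0⟩ 0 0) (.cut .s 13574144 (.pos 45 .mp ⟨⟨334161883, 0, 0, 0, 0, 126377241, 0, 0, 0, ⟨0, 0⟩, 0⟩, 0, 0⟩ 0 0) (.pos 45 .mp ⟨⟨336115941, 0, 0, 0, 0, 127572230, 0, 0, 0, ⟨0, 0⟩, 0⟩, 0, 0⟩ 0 0))) (.cut .l 184549 (.cut .v 16809984 (.cut .s 13574144 (.cut .s 13570048 (.pos 49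 .mp ⟨⟨339000653, 0, 0, 0, 0, 112585868, 0, 0, 0, ⟨0, 0⟩, 0⟩, 0, 0⟩ 0 0) (.cut .s 13572096 (.pos 49 .mp ⟨⟨343150035, 0, 0, 0, 0, 106129744, 0, 0, 0, ⟨0, 0⟩, 0⟩, 0, 0⟩ 0 0) (.pos 49 .mp ⟨⟨343562101, 0, 0, 0, 0, 106566360, 0, 0, 0, ⟨0, 0⟩, 0⟩, 0, 0⟩ 0 0))) (.cut .d (-4096) (.pos 49 .mp ⟨⟨337275907, 0, 0, 0, 0, 125839449, 0, 0, 0, ⟨0, 0⟩, 0⟩, 0, 0⟩ 0 0) (.cut .s 13578240 (.pos 49 .mp ⟨⟨343188152, 0, 0, 0, 0, 108767537, 0, 0, 0, ⟨0, 0⟩, 0⟩, 0, 0⟩ 0 0) (.pos 49 .mp ⟨⟨344299427, 0, 0, 0, 0, 109060762, 0, 0, 0, ⟨0, 0⟩, 0⟩, 0, 0⟩ 0 0)))) (.pos 50 .mp ⟨⟨371860650, 0, 0, 0, 0, 57320132, 0, 0, 0, ⟨0, 0⟩, 0⟩, 0, 0⟩ 0 0)) (.pos 45 .mp ⟨⟨341425683,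 0, 0, 0, 0, 0, 0, 0, 0, ⟨0, 0⟩, 0⟩, 0, 0⟩ 0 0))) (.cut .d (-8192) (.cut .l 184549 (.pos 45 .mp ⟨⟨344569416, 0, 0, 0, 0, 125595156, 0, 0, 0, ⟨0, 0⟩, 0⟩, 0, 0⟩ 0 0) (.cut .s 13590528 (.pos 45 .mp ⟨⟨338094404, 0, 0, 0, 0, 128762784, 0, 0, 0, ⟨0, 0⟩, 0⟩, 0, 0⟩ 0 0) (.pos 45 .mp ⟨⟨340097788, 0, 0, 0, 0, 129947924, 0, 0, 0, ⟨0, 0⟩, 0⟩, 0, 0⟩ 0 0))) (.cut .l 184549 (.cut .v 16809984 (.cut .s 13590528 (.cut .d (-4096) (.pos 49 .mp ⟨⟨339374590, 0, 0, 0, 0, 126710947, 0, 0, 0, ⟨0, 0⟩, 0⟩, 0, 0⟩ 0 0) (.cut .s 13586432 (.pos 49 .mp ⟨⟨345412751, 0, 0, 0, 0, 109362081, 0, 0, 0, ⟨0, 0⟩, 0⟩, 0, 0⟩ 0 0) (.pos 49 .mp ⟨⟨346528089, 0, 0, 0, 0, 109671598,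 0, 0, 0, ⟨0, 0⟩, 0⟩, 0, 0⟩ 0 0))) (.cut .d (-4096) (.pos 49 .mp ⟨⟨341488218, 0, 0, 0, 0, 127604359, 0, 0, 0, ⟨0, 0⟩, 0⟩, 0, 0⟩ 0 0) (.cut .s 13594624 (.pos 49 .mp ⟨⟨347645409, 0, 0, 0, 0, 109989418, 0, 0, 0, ⟨0, 0⟩, 0⟩, 0, 0⟩ 0 0) (.pos 49 .mp ⟨⟨348764674, 0, 0, 0, 0, 110315645, 0, 0, 0, ⟨0, 0⟩, 0⟩, 0, 0⟩ 0 0)))) (.pos 50 .mp ⟨⟨376119888, 0, 0, 0, 0, 58971163, 0, 0, 0, ⟨0, 0⟩, 0⟩, 0, 0⟩ 0 0)) (.pos 45 .mp ⟨⟨345720107, 0, 0, 0, 0, 0, 0, 0, 0, ⟨0, 0⟩, 0⟩, 0, 0⟩ 0 0)))) (.cut .s 13582336 (.pos 46 .mp ⟨⟨369664656, 0, 0, 0, 0, 63716277, 0, 0, 0, ⟨0, 0⟩, 0⟩, 0, 0⟩ 0 0) (.pos 46 .mp ⟨⟨373888585, 0, 0, 0, 0, 65469534, 0, 0, 0, ⟨0, 0⟩, 0⟩, 0,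 0⟩ 0 0))) (.cut .v 16842752 (.cut .s 13615104 (.cut .d (-8192) (.cut .l 184549 (.pos 45 .mp ⟨⟨348903439, 0, 0, 0, 0, 127392827, 0, 0, 0, ⟨0, 0⟩, 0⟩, 0, 0⟩ 0 0) (.cut .s 13606912 (.pos 45 .mp ⟨⟨342156145, 0, 0, 0, 0, 131061672, 0, 0, 0, ⟨0, 0⟩, 0⟩, 0, 0⟩ 0 0) (.pos 45 .mp ⟨⟨344297633, 0, 0, 0, 0, 132042198, 0, 0, 0, ⟨0, 0⟩, 0⟩, 0, 0⟩ 0 0))) (.cut .l 184549 (.cut .v 16809984 (.cut .s 13606912 (.cut .d (-4096) (.pos 49 .mp ⟨⟨343616905, 0, 0, 0, 0, 128519865, 0, 0, 0, ⟨0, 0⟩, 0⟩, 0, 0⟩ 0 0) (.cut .s 13602816 (.pos 49 .mp ⟨⟨349885851, 0, 0, 0, 0, 110650388, 0, 0, 0, ⟨0, 0⟩, 0⟩, 0, 0⟩ 0 0) (.pos 49 .mp ⟨⟨351008903, 0, 0, 0, 0, 110993755,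 0, 0, 0, ⟨0, 0⟩, 0⟩, 0, 0⟩ 0 0))) (.cut .d (-4096) (.pos 49 .mp ⟨⟨345760763, 0, 0, 0, 0, 129457646, 0, 0, 0, ⟨0, 0⟩, 0⟩, 0, 0⟩ 0 0) (.cut .s 13611008 (.pos 49 .mp ⟨⟨352133796, 0, 0, 0, 0, 111345853, 0, 0, 0, ⟨0, 0⟩, 0⟩, 0, 0⟩ 0 0) (.pos 49 .mp ⟨⟨353260492, 0, 0, 0, 0, 111706792, 0, 0, 0, ⟨0, 0⟩, 0⟩, 0, 0⟩ 0 0)))) (.pos 50 .mp ⟨⟨380553859, 0, 0, 0, 0, 60476922, 0, 0, 0, ⟨0, 0⟩, 0⟩, 0, 0⟩ 0 0)) (.pos 45 .mp ⟨⟨350075018, 0, 0, 0, 0, 0, 0, 0, 0, ⟨0, 0⟩, 0⟩, 0, 0⟩ 0 0))) (.cut .d (-8192) (.cut .l 184549 (.pos 45 .mp ⟨⟨353297816, 0, 0, 0, 0, 129283387, 0, 0, 0, ⟨0, 0⟩, 0⟩, 0, 0⟩ 0 0) (.cut .s 13623296 (.pos 45 .mp ⟨⟨346454386, 0, 0, 0, 0,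 133039012, 0, 0, 0, ⟨0, 0⟩, 0⟩, 0, 0⟩ 0 0) (.pos 45 .mp ⟨⟨348626519, 0, 0, 0, 0, 134052025, 0, 0, 0, ⟨0, 0⟩, 0⟩, 0, 0⟩ 0 0))) (.cut .l 184549 (.cut .v 16809984 (.cut .s 13623296 (.cut .d (-4096) (.pos 49 .mp ⟨⟨347919907, 0, 0, 0, 0, 130417887, 0, 0, 0, ⟨0, 0⟩, 0⟩, 0, 0⟩ 0 0) (.cut .s 13619200 (.pos 49 .mp ⟨⟨354388956, 0, 0, 0, 0, 112076684, 0, 0, 0, ⟨0, 0⟩, 0⟩, 0, 0⟩ 0 0) (.pos 49 .mp ⟨⟨355501484, 0, 0, 0, 0, 112493576, 0, 0, 0, ⟨0, 0⟩, 0⟩, 0, 0⟩ 0 0))) (.cut .d (-4096) (.pos 49 .mp ⟨⟨350094452, 0, 0, 0, 0, 131400772, 0, 0, 0, ⟨0, 0⟩, 0⟩, 0, 0⟩ 0 0) (.cut .s 13627392 (.pos 49 .mp ⟨⟨356611735, 0, 0, 0, 0, 112928181, 0, 0, 0, ⟨0, 0⟩,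 0⟩, 0, 0⟩ 0 0) (.pos 49 .mp ⟨⟨357725962, 0, 0, 0, 0, 113367102, 0, 0, 0, ⟨0, 0⟩, 0⟩, 0, 0⟩ 0 0)))) (.pos 50 .mp ⟨⟨385172690, 0, 0, 0, 0, 61819395, 0, 0, 0, ⟨0, 0⟩, 0⟩, 0, 0⟩ 0 0)) (.pos 45 .mp ⟨⟨354491312, 0, 0, 0, 0, 0, 0, 0, 0, ⟨0, 0⟩, 0⟩, 0, 0⟩ 0 0)))) (.cut .s 13615104 (.pos 46 .mp ⟨⟨378286925, 0, 0, 0, 0, 67078924, 0, 0, 0, ⟨0, 0⟩, 0⟩, 0, 0⟩ 0 0) (.pos 46 .mp ⟨⟨382869838, 0, 0, 0, 0, 68526380, 0, 0, 0, ⟨0, 0⟩, 0⟩, 0, 0⟩ 0 0))))) (.cut .s 13565952 (.pos 36 .mp ⟨⟨396433931, 0, 0, 0, 0, 0, 0, 0, 0, ⟨0, 0⟩, 0⟩, 0, 0⟩ 0 0) (.pos 36 .mp ⟨⟨416912597, 0, 0, 0, 0, 0, 0, 0, 0, ⟨0, 0⟩, 0⟩, 0, 0⟩ 0 0))) (.cut .v 16908288 (.cut .s 13697024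 (.cut .s 13664256 (.cut .v 16842752 (.cut .s 13647872 (.cut .d (-8192) (.cut .l 184549 (.pos 45 .mp ⟨⟨357753437, 0, 0, 0, 0, 131268455, 0, 0, 0, ⟨0, 0⟩, 0⟩, 0, 0⟩ 0 0) (.cut .s 13639680 (.pos 45 .mp ⟨⟨350814148, 0, 0, 0, 0, 135081149, 0, 0, 0, ⟨0, 0⟩, 0⟩, 0, 0⟩ 0 0) (.pos 45 .mp ⟨⟨353017391, 0, 0, 0, 0, 136126294, 0, 0, 0, ⟨0, 0⟩, 0⟩, 0, 0⟩ 0 0))) (.cut .l 184549 (.cut .v 16809984 (.cut .s 13639680 (.cut .d (-4096) (.pos 49 .mp ⟨⟨352284516, 0, 0, 0, 0, 132406490, 0, 0, 0, ⟨0, 0⟩, 0⟩, 0, 0⟩ 0 0) (.cut .s 13635584 (.pos 49 .mp ⟨⟨358844181, 0, 0, 0, 0, 113810337, 0, 0, 0, ⟨0, 0⟩, 0⟩, 0, 0⟩ 0 0) (.pos 49 .mp ⟨⟨359966406, 0, 0, 0, 0, 114257885,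 0, 0, 0, ⟨0, 0⟩, 0⟩, 0, 0⟩ 0 0))) (.cut .d (-4096) (.pos 49 .mp ⟨⟨354490217, 0, 0, 0, 0, 133435230, 0, 0, 0, ⟨0, 0⟩, 0⟩, 0, 0⟩ 0 0) (.cut .s 13643776 (.pos 49 .mp ⟨⟨361092653, 0, 0, 0, 0, 114709744, 0, 0, 0, ⟨0, 0⟩, 0⟩, 0, 0⟩ 0 0) (.pos 49 .mp ⟨⟨362222938, 0, 0, 0, 0, 115165913, 0, 0, 0, ⟨0, 0⟩, 0⟩, 0, 0⟩ 0 0)))) (.pos 50 .mp ⟨⟨389986683, 0, 0, 0, 0, 62980206, 0, 0, 0, ⟨0, 0⟩, 0⟩, 0, 0⟩ 0 0)) (.pos 45 .mp ⟨⟨358969908, 0, 0, 0, 0, 0, 0, 0, 0, ⟨0, 0⟩, 0⟩, 0, 0⟩ 0 0))) (.cut .d (-8192) (.cut .l 184549 (.pos 45 .mp ⟨⟨362271211, 0, 0, 0, 0, 133349684, 0, 0, 0, ⟨0, 0⟩, 0⟩, 0, 0⟩ 0 0) (.cut .s 13656064 (.pos 45 .mp ⟨⟨355236368, 0, 0, 0, 0,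 137187366, 0, 0, 0, ⟨0, 0⟩, 0⟩, 0, 0⟩ 0 0) (.pos 45 .mp ⟨⟨357471200, 0, 0, 0, 0, 138264271, 0, 0, 0, ⟨0, 0⟩, 0⟩, 0, 0⟩ 0 0))) (.cut .l 184549 (.cut .v 16809984 (.cut .s 13656064 (.cut .d (-4096) (.pos 49 .mp ⟨⟨356711674, 0, 0, 0, 0, 134487183, 0, 0, 0, ⟨0, 0⟩, 0⟩, 0, 0⟩ 0 0) (.cut .s 13651968 (.pos 49 .mp ⟨⟨363357275, 0, 0, 0, 0, 115626389, 0, 0, 0, ⟨0, 0⟩, 0⟩, 0, 0⟩ 0 0) (.pos 49 .mp ⟨⟨364495681, 0, 0, 0, 0, 116091171, 0, 0, 0, ⟨0, 0⟩, 0⟩, 0, 0⟩ 0 0))) (.cut .d (-4096) (.pos 49 .mp ⟨⟨358949007, 0, 0, 0, 0, 135562543, 0, 0, 0, ⟨0, 0⟩, 0⟩, 0, 0⟩ 0 0) (.cut .s 13660160 (.pos 49 .mp ⟨⟨365638170, 0, 0, 0, 0, 116560257, 0, 0, 0, ⟨0, 0⟩,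 0⟩, 0, 0⟩ 0 0) (.pos 49 .mp ⟨⟨366784758, 0, 0, 0, 0, 117033645, 0, 0, 0, ⟨0, 0⟩, 0⟩, 0, 0⟩ 0 0)))) (.pos 50 .mp ⟨⟨395006318, 0, 0, 0, 0, 63940613, 0, 0, 0, ⟨0, 0⟩, 0⟩, 0, 0⟩ 0 0)) (.pos 45 .mp ⟨⟨363511741, 0, 0, 0, 0, 0, 0, 0, 0, ⟨0, 0⟩, 0⟩, 0, 0⟩ 0 0)))) (.cut .s 13647872 (.pos 46 .mp ⟨⟨387647662, 0, 0, 0, 0, 69793472, 0, 0, 0, ⟨0, 0⟩, 0⟩, 0, 0⟩ 0 0) (.pos 46 .mp ⟨⟨392630913, 0, 0, 0, 0, 70861400, 0, 0, 0, ⟨0, 0⟩, 0⟩, 0, 0⟩ 0 0))) (.cut .v 16842752 (.cut .s 13680640 (.cut .d (-8192) (.cut .l 184549 (.pos 45 .mp ⟨⟨366852062, 0, 0, 0, 0, 135528765, 0, 0, 0, ⟨0, 0⟩, 0⟩, 0, 0⟩ 0 0) (.cut .s 13672448 (.pos 45 .mp ⟨⟨359722007, 0, 0, 0, 0,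 139356912, 0, 0, 0, ⟨0, 0⟩, 0⟩, 0, 0⟩ 0 0) (.pos 45 .mp ⟨⟨361988914, 0, 0, 0, 0, 140465189, 0, 0, 0, ⟨0, 0⟩, 0⟩, 0, 0⟩ 0 0))) (.cut .l 184549 (.cut .v 16809984 (.cut .s 13672448 (.cut .d (-4096) (.pos 49 .mp ⟨⟨361202340, 0, 0, 0, 0, 136661506, 0, 0, 0, ⟨0, 0⟩, 0⟩, 0, 0⟩ 0 0) (.cut .s 13668352 (.pos 49 .mp ⟨⟨367935462, 0, 0, 0, 0, 117511332, 0, 0, 0, ⟨0, 0⟩, 0⟩, 0, 0⟩ 0 0) (.pos 49 .mp ⟨⟨369090297, 0, 0, 0, 0, 117993317, 0, 0, 0, ⟨0, 0⟩, 0⟩, 0, 0⟩ 0 0))) (.cut .d (-4096) (.pos 49 .mp ⟨⟨363471794, 0, 0, 0, 0, 137784268, 0, 0, 0, ⟨0, 0⟩, 0⟩, 0, 0⟩ 0 0) (.cut .s 13676544 (.pos 49 .mp ⟨⟨370249279, 0, 0, 0, 0, 118479597, 0, 0, 0, ⟨0, 0⟩,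 0⟩, 0, 0⟩ 0 0) (.pos 49 .mp ⟨⟨371412424, 0, 0, 0, 0, 118970170, 0, 0, 0, ⟨0, 0⟩, 0⟩, 0, 0⟩ 0 0)))) (.pos 50 .mp ⟨⟨400242262, 0, 0, 0, 0, 64681491, 0, 0, 0, ⟨0, 0⟩, 0⟩, 0, 0⟩ 0 0)) (.pos 45 .mp ⟨⟨368117767, 0, 0, 0, 0, 0, 0, 0, 0, ⟨0, 0⟩, 0⟩, 0, 0⟩ 0 0))) (.cut .d (-8192) (.cut .l 184549 (.pos 45 .mp ⟨⟨371496936, 0, 0, 0, 0, 137807424, 0, 0, 0, ⟨0, 0⟩, 0⟩, 0, 0⟩ 0 0) (.cut .s 13688832 (.pos 45 .mp ⟨⟨364272043, 0, 0, 0, 0, 141589003, 0, 0, 0, ⟨0, 0⟩, 0⟩, 0, 0⟩ 0 0) (.pos 45 .mp ⟨⟨366571522, 0, 0, 0, 0, 142728249, 0, 0, 0, ⟨0, 0⟩, 0⟩, 0, 0⟩ 0 0))) (.cut .l 184549 (.cut .v 16809984 (.cut .s 13688832 (.cut .d (-4096) (.pos 49 .mp ⟨⟨365757494,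 0, 0, 0, 0, 138931029, 0, 0, 0, ⟨0, 0⟩, 0⟩, 0, 0⟩ 0 0) (.cut .s 13684736 (.pos 49 .mp ⟨⟨372579748, 0, 0, 0, 0, 119465033, 0, 0, 0, ⟨0, 0⟩, 0⟩, 0, 0⟩ 0 0) (.pos 49 .mp ⟨⟨373751268, 0, 0, 0, 0, 119964184, 0, 0, 0, ⟨0, 0⟩, 0⟩, 0, 0⟩ 0 0))) (.cut .d (-4096) (.pos 49 .mp ⟨⟨368059567, 0, 0, 0, 0, 140101991, 0, 0, 0, ⟨0, 0⟩, 0⟩, 0, 0⟩ 0 0) (.cut .s 13692928 (.pos 49 .mp ⟨⟨374926999, 0, 0, 0, 0, 120467621, 0, 0, 0, ⟨0, 0⟩, 0⟩, 0, 0⟩ 0 0) (.pos 49 .mp ⟨⟨376106958, 0, 0, 0, 0, 120975340, 0, 0, 0, ⟨0, 0⟩, 0⟩, 0, 0⟩ 0 0)))) (.pos 50 .mp ⟨⟨405705371, 0, 0, 0, 0, 65183326, 0, 0, 0, ⟨0, 0⟩, 0⟩, 0, 0⟩ 0 0)) (.pos 45 .mp ⟨⟨372788961, 0, 0, 0, 0, 0,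 0, 0, 0, ⟨0, 0⟩, 0⟩, 0, 0⟩ 0 0)))) (.cut .s 13680640 (.pos 46 .mp ⟨⟨397830295, 0, 0, 0, 0, 71710984, 0, 0, 0, ⟨0, 0⟩, 0⟩, 0, 0⟩ 0 0) (.pos 46 .mp ⟨⟨403256702, 0, 0, 0, 0, 72322650, 0, 0, 0, ⟨0, 0⟩, 0⟩, 0, 0⟩ 0 0)))) (.cut .s 13729792 (.cut .v 16842752 (.cut .s 13713408 (.cut .d (-8192) (.cut .l 184549 (.pos 45 .mp ⟨⟨374604409, 0, 0, 0, 0, 310427240, 0, 0, 0, ⟨0, 0⟩, 0⟩, 0, 0⟩ 0 0) (.cut .s 13705216 (.pos 45 .mp ⟨⟨368887477, 0, 0, 0, 0, 143882822, 0, 0, 0, ⟨0, 0⟩, 0⟩, 0, 0⟩ 0 0) (.pos 45 .mp ⟨⟨371220037, 0, 0, 0, 0, 145052615, 0, 0, 0, ⟨0, 0⟩, 0⟩, 0, 0⟩ 0 0))) (.cut .l 184549 (.cut .v 16809984 (.cut .s 13705216 (.cut .d (-4096) (.pos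 49 .mp ⟨⟨370378140, 0, 0, 0, 0, 141297358, 0, 0, 0, ⟨0, 0⟩, 0⟩, 0, 0⟩ 0 0) (.cut .s 13701120 (.pos 49 .mp ⟨⟨377269449, 0, 0, 0, 0, 121534069, 0, 0, 0, ⟨0, 0⟩, 0⟩, 0, 0⟩ 0 0) (.pos 49 .mp ⟨⟨378425849, 0, 0, 0, 0, 122119369, 0, 0, 0, ⟨0, 0⟩, 0⟩, 0, 0⟩ 0 0))) (.cut .d (-4096) (.pos 49 .mp ⟨⟨372713340, 0, 0, 0, 0, 142517336, 0, 0, 0, ⟨0, 0⟩, 0⟩, 0, 0⟩ 0 0) (.cut .s 13709312 (.pos 49 .mp ⟨⟨379583105, 0, 0, 0, 0, 122716324, 0, 0, 0, ⟨0, 0⟩, 0⟩, 0, 0⟩ 0 0) (.pos 49 .mp ⟨⟨380741170, 0, 0, 0, 0, 123325070, 0, 0, 0, ⟨0, 0⟩, 0⟩, 0, 0⟩ 0 0)))) (.pos 50 .mp ⟨⟨411406694, 0, 0, 0, 0, 65426203, 0, 0, 0, ⟨0, 0⟩, 0⟩, 0, 0⟩ 0 0)) (.pos 45 .mp ⟨⟨376391951,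 0, 0, 0, 0, 120516624, 0, 0, 0, ⟨0, 0⟩, 0⟩, 0, 0⟩ 0 0))) (.cut .d (-8192) (.cut .l 184549 (.void 45 ⟨⟨0, 0, 0, 0, 0, 100000, 0, 0, 0, ⟨0, 0⟩, 0⟩, 0, 0⟩ 0 0) (.cut .s 13721600 (.pos 45 .mp ⟨⟨373569330, 0, 0, 0, 0, 146237518, 0, 0, 0, ⟨0, 0⟩, 0⟩, 0, 0⟩ 0 0) (.pos 45 .mp ⟨⟨375978924, 0, 0, 0, 0, 147341718, 0, 0, 0, ⟨0, 0⟩, 0⟩, 0, 0⟩ 0 0))) (.cut .l 184549 (.cut .v 16809984 (.cut .s 13721600 (.cut .d (-4096) (.pos 49 .mp ⟨⟨375065298, 0, 0, 0, 0, 143762133, 0, 0, 0, ⟨0, 0⟩, 0⟩, 0, 0⟩ 0 0) (.cut .s 13717504 (.pos 49 .mp ⟨⟨381899998, 0, 0, 0, 0, 123945745, 0, 0, 0, ⟨0, 0⟩, 0⟩, 0, 0⟩ 0 0) (.pos 49 .mp ⟨⟨383059540, 0, 0, 0, 0, 124578486, 0,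 0, 0, ⟨0, 0⟩, 0⟩, 0, 0⟩ 0 0))) (.cut .d (-4096) (.pos 49 .mp ⟨⟨377434146, 0, 0, 0, 0, 145031958, 0, 0, 0, ⟨0, 0⟩, 0⟩, 0, 0⟩ 0 0) (.cut .s 13725696 (.pos 49 .mp ⟨⟨384219748, 0, 0, 0, 0, 125223434, 0, 0, 0, ⟨0, 0⟩, 0⟩, 0, 0⟩ 0 0) (.pos 49 .mp ⟨⟨385380575, 0, 0, 0, 0, 125880729, 0, 0, 0, ⟨0, 0⟩, 0⟩, 0, 0⟩ 0 0)))) (.pos 50 .mp ⟨⟨417357484, 0, 0, 0, 0, 65389795, 0, 0, 0, ⟨0, 0⟩, 0⟩, 0, 0⟩ 0 0)) (.pos 45 .mp ⟨⟨381173879, 0, 0, 0, 0, 122432961, 0, 0, 0, ⟨0, 0⟩, 0⟩, 0, 0⟩ 0 0)))) (.cut .s 13713408 (.pos 46 .mp ⟨⟨408921222, 0, 0, 0, 0, 72676426, 0, 0, 0, ⟨0, 0⟩, 0⟩, 0, 0⟩ 0 0) (.pos 46 .mp ⟨⟨414835146, 0, 0, 0, 0, 72751923, 0, 0, 0, ⟨0, 0⟩,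 0⟩, 0, 0⟩ 0 0))) (.cut .v 16842752 (.cut .s 13746176 (.cut .d (-8192) (.cut .l 184549 (.void 45 ⟨⟨0, 0, 0, 0, 0, 100000, 0, 0, 0, ⟨0, 0⟩, 0⟩, 0, 0⟩ 0 0) (.cut .s 13737984 (.pos 45 .mp ⟨⟨378489141, 0, 0, 0, 0, 148276525, 0, 0, 0, ⟨0, 0⟩, 0⟩, 0, 0⟩ 0 0) (.pos 45 .mp ⟨⟨381034330, 0, 0, 0, 0, 149186748, 0, 0, 0, ⟨0, 0⟩, 0⟩, 0, 0⟩ 0 0))) (.cut .l 184549 (.cut .v 16809984 (.cut .s 13737984 (.cut .s 13733888 (.cut .s 13731840 (.pos 49 .mp ⟨⟨387301507, 0, 0, 0, 0, 124820020, 0, 0, 0, ⟨0, 0⟩, 0⟩, 0, 0⟩ 0 0) (.pos 49 .mp ⟨⟨388048511, 0, 0, 0, 0, 124812477, 0, 0, 0, ⟨0, 0⟩, 0⟩, 0, 0⟩ 0 0)) (.pos 49 .mp ⟨⟨385167666, 0, 0, 0, 0, 132892040, 0, 0,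 0, ⟨0, 0⟩, 0⟩, 0, 0⟩ 0 0)) (.cut .s 13742080 (.pos 49 .mp ⟨⟨386496205, 0, 0, 0, 0, 133230948, 0, 0, 0, ⟨0, 0⟩, 0⟩, 0, 0⟩ 0 0) (.pos 49 .mp ⟨⟨387835814, 0, 0, 0, 0, 133559750, 0, 0, 0, ⟨0, 0⟩, 0⟩, 0, 0⟩ 0 0))) (.pos 50 .mp ⟨⟨423569198, 0, 0, 0, 0, 65053355, 0, 0, 0, ⟨0, 0⟩, 0⟩, 0, 0⟩ 0 0)) (.pos 45 .mp ⟨⟨386023640, 0, 0, 0, 0, 124369451, 0, 0, 0, ⟨0, 0⟩, 0⟩, 0, 0⟩ 0 0))) (.cut .d (-8192) (.cut .l 184549 (.void 45 ⟨⟨0, 0, 0, 0, 0, 100000, 0, 0, 0, ⟨0, 0⟩, 0⟩, 0, 0⟩ 0 0) (.pos 45 .mp ⟨⟨383136490, 0, 0, 0, 0, 154034660, 0, 0, 0, ⟨0, 0⟩, 0⟩, 0, 0⟩ 0 0)) (.cut .l 184549 (.cut .v 16809984 (.cut .s 13754368 (.cut .s 13750272 (.pos 49 .mp ⟨⟨389186596,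 0, 0, 0, 0, 133878252, 0, 0, 0, ⟨0, 0⟩, 0⟩, 0, 0⟩ 0 0) (.pos 49 .mp ⟨⟨390552856, 0, 0, 0, 0, 134177754, 0, 0, 0, ⟨0, 0⟩, 0⟩, 0, 0⟩ 0 0)) (.cut .s 13758464 (.pos 49 .mp ⟨⟨392149504, 0, 0, 0, 0, 134023067, 0, 0, 0, ⟨0, 0⟩, 0⟩, 0, 0⟩ 0 0) (.pos 49 .mp ⟨⟨393767954, 0, 0, 0, 0, 133836519, 0, 0, 0, ⟨0, 0⟩, 0⟩, 0, 0⟩ 0 0))) (.pos 50 .mp ⟨⟨430053505, 0, 0, 0, 0, 64395697, 0, 0, 0, ⟨0, 0⟩, 0⟩, 0, 0⟩ 0 0)) (.pos 45 .mp ⟨⟨390942317, 0, 0, 0, 0, 126323390, 0, 0, 0, ⟨0, 0⟩, 0⟩, 0, 0⟩ 0 0)))) (.cut .s 13746176 (.pos 46 .mp ⟨⟨421009972, 0, 0, 0, 0, 72528330, 0, 0, 0, ⟨0, 0⟩, 0⟩, 0, 0⟩ 0 0) (.pos 46 .mp ⟨⟨427457408, 0, 0, 0, 0, 71984403, 0, 0, 0, ⟨0,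 0⟩, 0⟩, 0, 0⟩ 0 0))))) (.cut .s 13697024 (.pos 36 .mp ⟨⟨438914696, 0, 0, 0, 0, 0, 0, 0, 0, ⟨0, 0⟩, 0⟩, 0, 0⟩ 0 0) (.pos 36 .mp ⟨⟨462471236, 0, 0, 0, 0, 0, 0, 0, 0, ⟨0, 0⟩, 0⟩, 0, 0⟩ 0 0))))) (.pos 34 .mp ⟨⟨467323879, 0, 0, 0, 0, 0, 0, 0, 0, ⟨0, 0⟩, 0⟩, 0, 0⟩ 0 0)))))) (.void 32 ⟨⟨100000, 0, 0, 0, 0, 0, 0, 0, 0, ⟨0, 0⟩, 0⟩, 0, 0⟩ 0 0))) (.void 30 ⟨⟨100000, 0, 0, 0, 0, 0, 0, 0, 0, ⟨0, 0⟩, 0⟩, 0, 0⟩ 0 0))) (.void 28 ⟨⟨100000, 0, 0, 0, 0, 0, 0, 0, 0, ⟨0, 0⟩, 0⟩, 0, 0⟩ 0 0))) (.void 26 ⟨⟨100000, 0, 0, 0, 0, 0, 0, 0, 0, ⟨0, 0⟩, 0⟩, 0, 0⟩ 0 0)))) (.void 24 ⟨⟨100000, 0, 0, 0, 0, 0, 0, 0, 0, ⟨0, 0⟩, 0⟩, 0, 0⟩ 0 0)) (.void 91 ⟨⟨100000, 0, 0,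 0, 0, 0, 0, 0, 0, ⟨0, 0⟩, 0⟩, 0, 0⟩ 0 0)) (.void 112 ⟨⟨100000, 0, 0, 0, 0, 0, 0, 0, 0, ⟨0, 0⟩, 0⟩, 0, 0⟩ 0 0)) (.void 121 ⟨⟨93060, 0, 0, 6940, 0, 0, 0, 0, 0, ⟨0, 0⟩, 0⟩, 0, 0⟩ 0 0))) (.cut .v 16777216 (.cut .v 8388608 (.cut .v 4194304 (.cut .v 2097152 (.cut .v 1048576 (.pos 117 .pm ⟨⟨0, 0, 18108656, 0, 0, 0, 0, 0, 0, ⟨0, 0⟩, 0⟩, 0, 22481⟩ 0 0) (.pos 118 .pm ⟨⟨0, 0, 15051651, 0, 0, 0, 0, 0, 0, ⟨0, 0⟩, 0⟩, 0, 43233⟩ 0 0)) (.pos 114 .pm ⟨⟨0, 0, 13971132, 0, 0, 0, 0, 0, 0, ⟨0, 0⟩, 0⟩, 0, 62447⟩ 0 0)) (.pos 5 .pm ⟨⟨0, 0, 18440521, 0, 0, 0, 0, 0, 0, ⟨0, 0⟩, 0⟩, 0, 112405⟩ 0 0)) (.pos 3 .pm ⟨⟨0, 0, 0, 0, 0, 0, 0, 0, 0, ⟨0, 0⟩, 0⟩, 0, 0⟩ 0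 0)) (.cut .v 268435456 (.cut .v 67108864 (.cut .d 2036071 (.cut .v 33554432 (.cut .d 1018035 (.cut .v 25165824 (.cut .d 509017 (.cut .v 20971520 (.cut .d 254508 (.cut .v 18874368 (.cut .d 127254 (.cut .v 17825792 (.cut .d 63627 (.cut .d 31813 (.cut .v 17301504 (.cut .s 13631488 (.pos 31 .pp ⟨⟨355307732, 0, 0, 0, 0, 0, 0, 0, 0, ⟨0, 0⟩, 0⟩, 4366142, 0⟩ 0 0) (.pos 31 .pp ⟨⟨389295544, 0, 0, 0, 0, 0, 0, 0, 0, ⟨0, 0⟩, 0⟩, 5521507, 0⟩ 0 0)) (.pos 32 .pp ⟨⟨448521460, 0, 0, 0, 0, 0, 0, 0, 0, ⟨0, 0⟩, 0⟩, 0, 0⟩ 0 0)) (.pos 29 .pp ⟨⟨362445990, 0, 0, 0, 0, 0, 0, 0, 0, ⟨0, 0⟩, 0⟩, 0, 12132⟩ 0 0)) (.pos 29 .pp ⟨⟨0, 0, 0, 0, 0, 0, 0, 0, 0, ⟨0, 0⟩,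 0⟩, 0, 356307⟩ 0 0)) (.cut .d 63627 (.pos 30 .pp ⟨⟨499248446, 0, 0, 0, 0, 0, 0, 0, 0, ⟨0, 0⟩, 0⟩, 0, 0⟩ 0 0) (.pos 30 .pp ⟨⟨426877843, 0, 0, 0, 0, 0, 0, 0, 0, ⟨0, 0⟩, 0⟩, 0, 0⟩ 0 0))) (.pos 27 .pp ⟨⟨0, 0, 0, 0, 0, 0, 0, 0, 0, ⟨0, 0⟩, 0⟩, 0, 366170⟩ 0 0)) (.cut .d 127254 (.pos 28 .pp ⟨⟨598881955, 0, 0, 0, 0, 0, 0, 0, 0, ⟨0, 0⟩, 0⟩, 0, 0⟩ 0 0) (.cut .v 19922944 (.pos 53 .pp ⟨⟨440744660, 0, 0, 0, 0, 0, 0, 0, 0, ⟨0, 0⟩, 0⟩, 0, 0⟩ 0 0) (.pos 54 .pp ⟨⟨520915001, 0, 0, 0, 0, 0, 0, 0, 0, ⟨0, 0⟩, 0⟩, 0, 0⟩ 0 0)))) (.pos 25 .pp ⟨⟨0, 0, 0, 0, 0, 0, 0, 0, 0, ⟨0, 0⟩, 0⟩, 0, 384253⟩ 0 0)) (.cut .d 254508 (.cut .v 23068672 (.cut .v 22020096 (.cut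 .d 127254 (.void 57 ⟨⟨0, 0, 0, 0, 0, 0, 0, 0, 0, ⟨0, 0⟩, 0⟩, 100000, 0⟩ 0 0) (.pos 57 .pp ⟨⟨610845126, 0, 0, 0, 0, 0, 0, 0, 0, ⟨0, 0⟩, 0⟩, 0, 0⟩ 0 0)) (.pos 58 .pp ⟨⟨720106912, 0, 0, 0, 0, 0, 0, 0, 0, ⟨0, 0⟩, 0⟩, 0, 0⟩ 0 0)) (.void 56 ⟨⟨0, 0, 0, 0, 0, 0, 0, 0, 0, ⟨0, 0⟩, 0⟩, 100000, 0⟩ 0 0)) (.cut .v 23068672 (.cut .v 22020096 (.pos 57 .pp ⟨⟨482747307, 0, 0, 0, 0, 0, 18647, 0, 0, ⟨0, 0⟩, 0⟩, 0, 0⟩ 0 0) (.pos 58 .pp ⟨⟨26209816, 0, 0, 0, 0, 0, 4433, 0, 0, ⟨0, 0⟩, 0⟩, 79079700, 0⟩ 0 0)) (.pos 56 .pp ⟨⟨0, 0, 0, 0, 0, 0, 0, 0, 0, ⟨0, 0⟩, 0⟩, 93661800, 0⟩ 0 0)))) (.pos 23 .pp ⟨⟨0, 0, 0, 0, 0, 0, 0, 0, 0, ⟨0, 0⟩, 0⟩, 0, 414993⟩ 0 0)) (.cut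 .d 509017 (.cut .v 29360128 (.pos 75 .pp ⟨⟨0, 0, 0, 0, 0, 0, 0, 0, 0, ⟨0, 0⟩, 0⟩, 136910510, 0⟩ 0 0) (.void 76 ⟨⟨0, 0, 0, 0, 0, 0, 0, 0, 0, ⟨0, 0⟩, 0⟩, 100000, 0⟩ 0 0)) (.pos 24 .pp ⟨⟨0, 0, 0, 0, 0, 0, 0, 0, 0, ⟨0, 0⟩, 0⟩, 88522942, 0⟩ 0 0))) (.pos 22 .pp ⟨⟨0, 0, 0, 0, 0, 0, 1382027, 0, 0, ⟨0, 0⟩, 0⟩, 0, 0⟩ 0 0)) (.cut .d 1018035 (.pos 91 .pp ⟨⟨0, 0, 0, 0, 0, 0, 0, 0, 0, ⟨0, 0⟩, 0⟩, 276733500, 0⟩ 0 0) (.pos 91 .pp ⟨⟨0, 0, 0, 0, 0, 0, 0, 0, 0, ⟨0, 0⟩, 0⟩, 116570319, 0⟩ 0 0))) (.pos 90 .pp ⟨⟨0, 0, 0, 0, 0, 0, 0, 0, 0, ⟨0, 0⟩, 0⟩, 0, 345827⟩ 0 0)) (.void 112 ⟨⟨0, 0, 0, 48217, 0, 0, 0, 0, 0, ⟨0, 0⟩, 0⟩, 51783, 0⟩ 0 0)) (.void 121 ⟨⟨0, 0,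 0, 0, 0, 0, 0, 0, 0, ⟨0, 0⟩, 0⟩, 100000, 0⟩ 0 0)))),
    by decide +kernel⟩

theorem covers25 : cell.Covers Vale.Agent.P237.Petty.Cor.Grid.N10.table row25.1 :=
  ⟨(.cut .d 0 (.cut .v 16777216 (.cut .v 8388608 (.void 2 ⟨⟨0, 0, 100000, 0, 0, 0, 0, 0, 0, ⟨0, 0⟩, 0⟩, 0, 0⟩ 0 0) (.cut .d (-8388608) (.void 3 ⟨⟨100000, 0, 0, 0, 0, 0, 0, 0, 0, ⟨0, 0⟩, 0⟩, 0, 0⟩ 0 0) (.cut .d (-4194304) (.void 3 ⟨⟨100000, 0, 0, 0, 0, 0, 0, 0, 0, ⟨0, 0⟩, 0⟩, 0, 0⟩ 0 0) (.cut .d (-2097152) (.void 3 ⟨⟨76187, 0, 23813, 0, 0, 0, 0, 0, 0, ⟨0, 0⟩, 0⟩, 0, 0⟩ 0 0) (.cut .d (-1048576) (.void 3 ⟨⟨0, 0, 0, 0, 0, 100000, 0, 0, 0, ⟨0, 0⟩, 0⟩, 0, 0⟩ 0 0) (.cut .d (-524288)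 (.void 3 ⟨⟨0, 0, 0, 0, 0, 100000, 0, 0, 0, ⟨0, 0⟩, 0⟩, 0, 0⟩ 0 0) (.cut .s 13860864 (.pos 3 .mm ⟨⟨0, 0, 0, 0, 0, 920846746, 0, 0, 0, ⟨0, 0⟩, 0⟩, 0, 0⟩ 0 0) (.pos 3 .mm ⟨⟨0, 0, 0, 0, 0, 1006348972, 0, 0, 0, ⟨0, 0⟩, 0⟩, 0, 0⟩ 0 0)))))))) (.cut .v 268435456 (.cut .v 67108864 (.cut .v 33554432 (.cut .d (-8388608) (.void 22 ⟨⟨100000, 0, 0, 0, 0, 0, 0, 0, 0, ⟨0, 0⟩, 0⟩, 0, 0⟩ 0 0) (.cut .v 25165824 (.cut .d (-4194304) (.void 23 ⟨⟨100000, 0, 0, 0, 0, 0, 0, 0, 0, ⟨0, 0⟩, 0⟩, 0, 0⟩ 0 0) (.cut .v 20971520 (.cut .d (-2097152) (.void 25 ⟨⟨100000, 0, 0, 0, 0, 0, 0, 0, 0, ⟨0, 0⟩, 0⟩, 0, 0⟩ 0 0) (.cut .v 18874368 (.cut .d (-1048576) (.void 27 ⟨⟨100000,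 0, 0, 0, 0, 0, 0, 0, 0, ⟨0, 0⟩, 0⟩, 0, 0⟩ 0 0) (.cut .v 17825792 (.cut .d (-524288) (.void 29 ⟨⟨100000, 0, 0, 0, 0, 0, 0, 0, 0, ⟨0, 0⟩, 0⟩, 0, 0⟩ 0 0) (.cut .v 17301504 (.cut .d (-262144) (.void 31 ⟨⟨100000, 0, 0, 0, 0, 0, 0, 0, 0, ⟨0, 0⟩, 0⟩, 0, 0⟩ 0 0) (.cut .v 17039360 (.cut .d (-131072) (.void 33 ⟨⟨100000, 0, 0, 0, 0, 0, 0, 0, 0, ⟨0, 0⟩, 0⟩, 0, 0⟩ 0 0) (.cut .d (-65536) (.void 33 ⟨⟨100000, 0, 0, 0, 0, 0, 0, 0, 0, ⟨0, 0⟩, 0⟩, 0, 0⟩ 0 0) (.cut .d (-32768) (.void 33 ⟨⟨100000, 0, 0, 0, 0, 0, 0, 0, 0, ⟨0, 0⟩, 0⟩, 0, 0⟩ 0 0) (.cut .d (-16384) (.void 33 ⟨⟨0, 0, 0, 0, 0, 100000, 0, 0, 0, ⟨0, 0⟩, 0⟩, 0, 0⟩ 0 0) (.cut .s 13860864 (.cut .v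 16908288 (.cut .s 13811712 (.cut .s 13787136 (.cut .v 16842752 (.cut .d (-8192) (.cut .d (-12288) (.pos 45 .mp ⟨⟨391085785, 0, 0, 0, 0, 162070928, 0, 0, 0, ⟨0, 0⟩, 0⟩, 0, 0⟩ 0 0) (.cut .l 184549 (.void 45 ⟨⟨0, 0, 0, 0, 0, 100000, 0, 0, 0, ⟨0, 0⟩, 0⟩, 0, 0⟩ 0 0) (.cut .s 13774848 (.pos 45 .mp ⟨⟨388105153, 0, 0, 0, 0, 155022929, 0, 0, 0, ⟨0, 0⟩, 0⟩, 0, 0⟩ 0 0) (.pos 45 .mp ⟨⟨391742059, 0, 0, 0, 0, 156777592, 0, 0, 0, ⟨0, 0⟩, 0⟩, 0, 0⟩ 0 0)))) (.cut .l 184549 (.cut .v 16809984 (.cut .s 13774848 (.cut .d (-4096) (.pos 49 .mp ⟨⟨389533239, 0, 0, 0, 0, 153591693, 0, 0, 0, ⟨0, 0⟩, 0⟩, 0, 0⟩ 0 0) (.cut .s 13768704 (.pos 49 .mp ⟨⟨397455978, 0,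 0, 0, 0, 129497564, 0, 0, 0, ⟨0, 0⟩, 0⟩, 0, 0⟩ 0 0) (.pos 49 .mp ⟨⟨399350660, 0, 0, 0, 0, 130137242, 0, 0, 0, ⟨0, 0⟩, 0⟩, 0, 0⟩ 0 0))) (.cut .d (-4096) (.pos 49 .mp ⟨⟨393255132, 0, 0, 0, 0, 155046056, 0, 0, 0, ⟨0, 0⟩, 0⟩, 0, 0⟩ 0 0) (.cut .s 13780992 (.pos 49 .mp ⟨⟨401256049, 0, 0, 0, 0, 130789918, 0, 0, 0, ⟨0, 0⟩, 0⟩, 0, 0⟩ 0 0) (.pos 49 .mp ⟨⟨403172210, 0, 0, 0, 0, 131455589, 0, 0, 0, ⟨0, 0⟩, 0⟩, 0, 0⟩ 0 0)))) (.pos 50 .mp ⟨⟨448669234, 0, 0, 0, 0, 44661598, 0, 0, 0, ⟨0, 0⟩, 0⟩, 0, 0⟩ 0 0)) (.pos 45 .mp ⟨⟨399013092, 0, 0, 0, 0, 123187558, 0, 0, 0, ⟨0, 0⟩, 0⟩, 0, 0⟩ 0 0))) (.pos 46 .mp ⟨⟨445965541, 0, 0, 0, 0, 52515932, 0, 0, 0, ⟨0,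 0⟩, 0⟩, 0, 0⟩ 0 0)) (.cut .v 16842752 (.cut .d (-8192) (.cut .v 16809984 (.pos 49 .mp ⟨⟨0, 0, 0, 0, 0, 978390934, 0, 0, 0, ⟨0, 0⟩, 0⟩, 0, 0⟩ 0 0) (.cut .l 184549 (.void 50 ⟨⟨0, 0, 0, 0, 0, 100000, 0, 0, 0, ⟨0, 0⟩, 0⟩, 0, 0⟩ 0 0) (.cut .s 13799424 (.pos 50 .mp ⟨⟨396972232, 0, 0, 0, 0, 156101444, 0, 0, 0, ⟨0, 0⟩, 0⟩, 0, 0⟩ 0 0) (.pos 50 .mp ⟨⟨400791700, 0, 0, 0, 0, 157798191, 0, 0, 0, ⟨0, 0⟩, 0⟩, 0, 0⟩ 0 0)))) (.cut .l 184549 (.cut .v 16809984 (.cut .s 13799424 (.cut .d (-4096) (.pos 49 .mp ⟨⟨397018959, 0, 0, 0, 0, 156565142, 0, 0, 0, ⟨0, 0⟩, 0⟩, 0, 0⟩ 0 0) (.cut .s 13793280 (.pos 49 .mp ⟨⟨405099208, 0, 0, 0, 0, 132134251, 0, 0, 0, ⟨0,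 0⟩, 0⟩, 0, 0⟩ 0 0) (.cut .s 13796352 (.pos 49 .mp ⟨⟨406473111, 0, 0, 0, 0, 133383564, 0, 0, 0, ⟨0, 0⟩, 0⟩, 0, 0⟩ 0 0) (.pos 49 .mp ⟨⟨407370519, 0, 0, 0, 0, 133870884, 0, 0, 0, ⟨0, 0⟩, 0⟩, 0, 0⟩ 0 0)))) (.cut .s 13805568 (.cut .s 13802496 (.pos 49 .mp ⟨⟨406005178, 0, 0, 0, 0, 139308753, 0, 0, 0, ⟨0, 0⟩, 0⟩, 0, 0⟩ 0 0) (.pos 49 .mp ⟨⟨406744059, 0, 0, 0, 0, 140163097, 0, 0, 0, ⟨0, 0⟩, 0⟩, 0, 0⟩ 0 0)) (.cut .s 13808640 (.pos 49 .mp ⟨⟨407492945, 0, 0, 0, 0, 141005732, 0, 0, 0, ⟨0, 0⟩, 0⟩, 0, 0⟩ 0 0) (.pos 49 .mp ⟨⟨408251938, 0, 0, 0, 0, 141836464, 0, 0, 0, ⟨0, 0⟩, 0⟩, 0, 0⟩ 0 0)))) (.pos 50 .mp ⟨⟨456213104, 0, 0, 0, 0, 47784201, 0, 0, 0,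 ⟨0, 0⟩, 0⟩, 0, 0⟩ 0 0)) (.pos 45 .mp ⟨⟨406780710, 0, 0, 0, 0, 125998508, 0, 0, 0, ⟨0, 0⟩, 0⟩, 0, 0⟩ 0 0))) (.pos 46 .mp ⟨⟨453440124, 0, 0, 0, 0, 55835620, 0, 0, 0, ⟨0, 0⟩, 0⟩, 0, 0⟩ 0 0))) (.cut .s 13836288 (.cut .v 16842752 (.cut .d (-8192) (.cut .l 184549 (.void 45 ⟨⟨0, 0, 0, 0, 0, 100000, 0, 0, 0, ⟨0, 0⟩, 0⟩, 0, 0⟩ 0 0) (.cut .s 13824000 (.pos 45 .mp ⟨⟨403160361, 0, 0, 0, 0, 162305783, 0, 0, 0, ⟨0, 0⟩, 0⟩, 0, 0⟩ 0 0) (.cut .s 13830144 (.pos 45 .mp ⟨⟨407976403, 0, 0, 0, 0, 159485176, 0, 0, 0, ⟨0, 0⟩, 0⟩, 0, 0⟩ 0 0) (.pos 45 .mp ⟨⟨409848457, 0, 0, 0, 0, 160594415, 0, 0, 0, ⟨0, 0⟩, 0⟩, 0, 0⟩ 0 0)))) (.cut .l 184549 (.cut .v 16809984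 (.cut .s 13824000 (.cut .s 13817856 (.cut .s 13814784 (.pos 49 .mp ⟨⟨409131230, 0, 0, 0, 0, 142431863, 0, 0, 0, ⟨0, 0⟩, 0⟩, 0, 0⟩ 0 0) (.pos 49 .mp ⟨⟨410030246, 0, 0, 0, 0, 142995840, 0, 0, 0, ⟨0, 0⟩, 0⟩, 0, 0⟩ 0 0)) (.cut .s 13820928 (.pos 49 .mp ⟨⟨410934890, 0, 0, 0, 0, 143556981, 0, 0, 0, ⟨0, 0⟩, 0⟩, 0, 0⟩ 0 0) (.pos 49 .mp ⟨⟨411845214, 0, 0, 0, 0, 144115191, 0, 0, 0, ⟨0, 0⟩, 0⟩, 0, 0⟩ 0 0))) (.cut .s 13830144 (.cut .s 13827072 (.pos 49 .mp ⟨⟨412761271, 0, 0, 0, 0, 144670370, 0, 0, 0, ⟨0, 0⟩, 0⟩, 0, 0⟩ 0 0) (.pos 49 .mp ⟨⟨413683114, 0, 0, 0, 0, 145222422, 0, 0, 0, ⟨0, 0⟩, 0⟩, 0, 0⟩ 0 0)) (.cut .s 13833216 (.pos 49 .mp ⟨⟨414610795,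 0, 0, 0, 0, 145771247, 0, 0, 0, ⟨0, 0⟩, 0⟩, 0, 0⟩ 0 0) (.cut .s 13834752 (.pos 49 .mp ⟨⟨418246663, 0, 0, 0, 0, 140209943, 0, 0, 0, ⟨0, 0⟩, 0⟩, 0, 0⟩ 0 0) (.pos 49 .mp ⟨⟨418676289, 0, 0, 0, 0, 140559996, 0, 0, 0, ⟨0, 0⟩, 0⟩, 0, 0⟩ 0 0))))) (.pos 50 .mp ⟨⟨464277630, 0, 0, 0, 0, 50457273, 0, 0, 0, ⟨0, 0⟩, 0⟩, 0, 0⟩ 0 0)) (.pos 45 .mp ⟨⟨414718064, 0, 0, 0, 0, 128940595, 0, 0, 0, ⟨0, 0⟩, 0⟩, 0, 0⟩ 0 0))) (.cut .s 13824000 (.pos 46 .mp ⟨⟨439120579, 0, 0, 0, 0, 94982908, 0, 0, 0, ⟨0, 0⟩, 0⟩, 0, 0⟩ 0 0) (.pos 46 .mp ⟨⟨442952873, 0, 0, 0, 0, 96866488, 0, 0, 0, ⟨0, 0⟩, 0⟩, 0, 0⟩ 0 0))) (.cut .v 16842752 (.cut .d (-8192) (.cut .l 184549 (.void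 45 ⟨⟨0, 0, 0, 0, 0, 100000, 0, 0, 0, ⟨0, 0⟩, 0⟩, 0, 0⟩ 0 0) (.cut .v 16809984 (.pos 49 .mp ⟨⟨0, 0, 0, 0, 0, 1009408899, 0, 0, 0, ⟨0, 0⟩, 0⟩, 0, 0⟩ 0 0) (.cut .s 13848576 (.cut .s 13842432 (.pos 50 .mp ⟨⟨412805075, 0, 0, 0, 0, 159940982, 0, 0, 0, ⟨0, 0⟩, 0⟩, 0, 0⟩ 0 0) (.pos 50 .mp ⟨⟨414685543, 0, 0, 0, 0, 161086921, 0, 0, 0, ⟨0, 0⟩, 0⟩, 0, 0⟩ 0 0)) (.cut .s 13854720 (.pos 50 .mp ⟨⟨416590405, 0, 0, 0, 0, 162218215, 0, 0, 0, ⟨0, 0⟩, 0⟩, 0, 0⟩ 0 0) (.pos 50 .mp ⟨⟨418520257, 0, 0, 0, 0, 163333732, 0, 0, 0, ⟨0, 0⟩, 0⟩, 0, 0⟩ 0 0))))) (.cut .l 184549 (.cut .v 16809984 (.cut .s 13848576 (.cut .d (-4096) (.cut .s 13842432 (.pos 49 .mp ⟨⟨412503844,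 0, 0, 0, 0, 160342042, 0, 0, 0, ⟨0, 0⟩, 0⟩, 0, 0⟩ 0 0) (.pos 49 .mp ⟨⟨414488866, 0, 0, 0, 0, 161236597, 0, 0, 0, ⟨0, 0⟩, 0⟩, 0, 0⟩ 0 0)) (.cut .l 92274 (.cut .v 16793600 (.cut .d (-2048) (.pos 83 .mp ⟨⟨413266295, 0, 0, 0, 0, 160554104, 0, 0, 0, ⟨0, 0⟩, 0⟩, 0, 0⟩ 0 0) (.cut .s 13842432 (.pos 83 .mp ⟨⟨418462937, 0, 0, 0, 0, 142627331, 0, 0, 0, ⟨0, 0⟩, 0⟩, 0, 0⟩ 0 0) (.pos 83 .mp ⟨⟨420474926, 0, 0, 0, 0, 143452713, 0, 0, 0, ⟨0, 0⟩, 0⟩, 0, 0⟩ 0 0))) (.pos 84 .mp ⟨⟨451361071, 0, 0, 0, 0, 85868677, 0, 0, 0, ⟨0, 0⟩, 0⟩, 0, 0⟩ 0 0)) (.pos 49 .mp ⟨⟨418346174, 0, 0, 0, 0, 138750906, 0, 0, 0, ⟨0, 0⟩, 0⟩, 0, 0⟩ 0 0))) (.cut .d (-4096) (.cut .s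 13854720 (.pos 49 .mp ⟨⟨416485093, 0, 0, 0, 0, 162148441, 0, 0, 0, ⟨0, 0⟩, 0⟩, 0, 0⟩ 0 0) (.pos 49 .mp ⟨⟨418492594, 0, 0, 0, 0, 163077688, 0, 0, 0, ⟨0, 0⟩, 0⟩, 0, 0⟩ 0 0)) (.cut .l 92274 (.cut .v 16793600 (.cut .d (-2048) (.pos 83 .mp ⟨⟨417247779, 0, 0, 0, 0, 162395828, 0, 0, 0, ⟨0, 0⟩, 0⟩, 0, 0⟩ 0 0) (.cut .s 13854720 (.pos 83 .mp ⟨⟨422498312, 0, 0, 0, 0, 144291247, 0, 0, 0, ⟨0, 0⟩, 0⟩, 0, 0⟩ 0 0) (.pos 83 .mp ⟨⟨424533163, 0, 0, 0, 0, 145142925, 0, 0, 0, ⟨0, 0⟩, 0⟩, 0, 0⟩ 0 0))) (.pos 84 .mp ⟨⟨455537145, 0, 0, 0, 0, 87321492, 0, 0, 0, ⟨0, 0⟩, 0⟩, 0, 0⟩ 0 0)) (.pos 49 .mp ⟨⟨422397405, 0, 0, 0, 0, 140438537, 0, 0, 0, ⟨0, 0⟩, 0⟩, 0, 0⟩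 0 0)))) (.pos 50 .mp ⟨⟨472910385, 0, 0, 0, 0, 52595336, 0, 0, 0, ⟨0, 0⟩, 0⟩, 0, 0⟩ 0 0)) (.pos 45 .mp ⟨⟨422829361, 0, 0, 0, 0, 132002955, 0, 0, 0, ⟨0, 0⟩, 0⟩, 0, 0⟩ 0 0))) (.cut .s 13848576 (.pos 46 .mp ⟨⟨446926637, 0, 0, 0, 0, 98618790, 0, 0, 0, ⟨0, 0⟩, 0⟩, 0, 0⟩ 0 0) (.pos 46 .mp ⟨⟨451047981, 0, 0, 0, 0, 100228806, 0, 0, 0, ⟨0, 0⟩, 0⟩, 0, 0⟩ 0 0))))) (.pos 36 .mp ⟨⟨496143421, 0, 0, 0, 0, 0, 0, 0, 0, ⟨0, 0⟩, 0⟩, 0, 0⟩ 0 0)) (.cut .v 16908288 (.cut .s 13910016 (.cut .s 13885440 (.cut .v 16842752 (.cut .d (-8192) (.cut .l 184549 (.void 45 ⟨⟨0, 0, 0, 0, 0, 100000, 0, 0, 0, ⟨0, 0⟩, 0⟩, 0, 0⟩ 0 0) (.cut .v 16809984 (.pos 49 .mp ⟨⟨0, 0,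 0, 0, 0, 1030768819, 0, 0, 0, ⟨0, 0⟩, 0⟩, 0, 0⟩ 0 0) (.cut .s 13873152 (.cut .s 13867008 (.pos 50 .mp ⟨⟨420546085, 0, 0, 0, 0, 164289540, 0, 0, 0, ⟨0, 0⟩, 0⟩, 0, 0⟩ 0 0) (.pos 50 .mp ⟨⟨422583364, 0, 0, 0, 0, 165257145, 0, 0, 0, ⟨0, 0⟩, 0⟩, 0, 0⟩ 0 0)) (.cut .s 13879296 (.pos 50 .mp ⟨⟨424632164, 0, 0, 0, 0, 166236488, 0, 0, 0, ⟨0, 0⟩, 0⟩, 0, 0⟩ 0 0) (.pos 50 .mp ⟨⟨426692559, 0, 0, 0, 0, 167227507, 0, 0, 0, ⟨0, 0⟩, 0⟩, 0, 0⟩ 0 0))))) (.cut .l 184549 (.cut .v 16809984 (.cut .s 13873152 (.cut .d (-4096) (.cut .s 13867008 (.pos 49 .mp ⟨⟨420511439, 0, 0, 0, 0, 164024454, 0, 0, 0, ⟨0, 0⟩, 0⟩, 0, 0⟩ 0 0) (.pos 49 .mp ⟨⟨422541696, 0, 0, 0, 0,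 164988857, 0, 0, 0, ⟨0, 0⟩, 0⟩, 0, 0⟩ 0 0)) (.cut .l 92274 (.cut .v 16793600 (.cut .d (-2048) (.pos 83 .mp ⟨⟨421274365, 0, 0, 0, 0, 164307377, 0, 0, 0, ⟨0, 0⟩, 0⟩, 0, 0⟩ 0 0) (.cut .s 13867008 (.pos 83 .mp ⟨⟨426579551, 0, 0, 0, 0, 146007738, 0, 0, 0, ⟨0, 0⟩, 0⟩, 0, 0⟩ 0 0) (.pos 83 .mp ⟨⟨428637547, 0, 0, 0, 0, 146885675, 0, 0, 0, ⟨0, 0⟩, 0⟩, 0, 0⟩ 0 0))) (.pos 84 .mp ⟨⟨459867232, 0, 0, 0, 0, 88619456, 0, 0, 0, ⟨0, 0⟩, 0⟩, 0, 0⟩ 0 0)) (.pos 49 .mp ⟨⟨426493749, 0, 0, 0, 0, 142152142, 0, 0, 0, ⟨0, 0⟩, 0⟩, 0, 0⟩ 0 0))) (.cut .d (-4096) (.cut .s 13879296 (.pos 49 .mp ⟨⟨424583438, 0, 0, 0, 0, 165971015, 0, 0, 0, ⟨0, 0⟩, 0⟩, 0, 0⟩ 0 0) (.pos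 49 .mp ⟨⟨426636736, 0, 0, 0, 0, 166971046, 0, 0, 0, ⟨0, 0⟩, 0⟩, 0, 0⟩ 0 0)) (.cut .l 92274 (.cut .v 16793600 (.cut .d (-2048) (.pos 83 .mp ⟨⟨425346611, 0, 0, 0, 0, 166289685, 0, 0, 0, ⟨0, 0⟩, 0⟩, 0, 0⟩ 0 0) (.cut .s 13879296 (.pos 83 .mp ⟨⟨430707224, 0, 0, 0, 0, 147776726, 0, 0, 0, ⟨0, 0⟩, 0⟩, 0, 0⟩ 0 0) (.pos 83 .mp ⟨⟨432788653, 0, 0, 0, 0, 148680879, 0, 0, 0, ⟨0, 0⟩, 0⟩, 0, 0⟩ 0 0))) (.pos 84 .mp ⟨⟨464357587, 0, 0, 0, 0, 89751244, 0, 0, 0, ⟨0, 0⟩, 0⟩, 0, 0⟩ 0 0)) (.pos 49 .mp ⟨⟨430635769, 0, 0, 0, 0, 143890295, 0, 0, 0, ⟨0, 0⟩, 0⟩, 0, 0⟩ 0 0)))) (.pos 50 .mp ⟨⟨482160322, 0, 0, 0, 0, 54110091, 0, 0, 0, ⟨0, 0⟩, 0⟩, 0, 0⟩ 0 0)) (.pos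 45 .mp ⟨⟨431118954, 0, 0, 0, 0, 135174461, 0, 0, 0, ⟨0, 0⟩, 0⟩, 0, 0⟩ 0 0))) (.cut .s 13873152 (.pos 46 .mp ⟨⟨455323104, 0, 0, 0, 0, 101685344, 0, 0, 0, ⟨0, 0⟩, 0⟩, 0, 0⟩ 0 0) (.pos 46 .mp ⟨⟨459758296, 0, 0, 0, 0, 102977031, 0, 0, 0, ⟨0, 0⟩, 0⟩, 0, 0⟩ 0 0))) (.cut .v 16842752 (.cut .d (-8192) (.cut .l 184549 (.void 45 ⟨⟨0, 0, 0, 0, 0, 100000, 0, 0, 0, ⟨0, 0⟩, 0⟩, 0, 0⟩ 0 0) (.cut .v 16809984 (.pos 49 .mp ⟨⟨0, 0, 0, 0, 0, 1052834954, 0, 0, 0, ⟨0, 0⟩, 0⟩, 0, 0⟩ 0 0) (.cut .s 13897728 (.cut .s 13891584 (.pos 50 .mp ⟨⟨428764620, 0, 0, 0, 0, 168230141, 0, 0, 0, ⟨0, 0⟩, 0⟩, 0, 0⟩ 0 0) (.pos 50 .mp ⟨⟨430848419, 0, 0, 0, 0, 169244329, 0, 0,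 0, ⟨0, 0⟩, 0⟩, 0, 0⟩ 0 0)) (.cut .s 13903872 (.pos 50 .mp ⟨⟨432944030, 0, 0, 0, 0, 170270005, 0, 0, 0, ⟨0, 0⟩, 0⟩, 0, 0⟩ 0 0) (.pos 50 .mp ⟨⟨435051527, 0, 0, 0, 0, 171307105, 0, 0, 0, ⟨0, 0⟩, 0⟩, 0, 0⟩ 0 0))))) (.cut .l 184549 (.cut .v 16809984 (.cut .s 13897728 (.cut .d (-4096) (.cut .s 13891584 (.pos 49 .mp ⟨⟨428701661, 0, 0, 0, 0, 167989071, 0, 0, 0, ⟨0, 0⟩, 0⟩, 0, 0⟩ 0 0) (.pos 49 .mp ⟨⟨430778286, 0, 0, 0, 0, 169025210, 0, 0, 0, ⟨0, 0⟩, 0⟩, 0, 0⟩ 0 0)) (.cut .l 92274 (.cut .v 16793600 (.cut .d (-2048) (.pos 83 .mp ⟨⟨429465086, 0, 0, 0, 0, 168343703, 0, 0, 0, ⟨0, 0⟩, 0⟩, 0, 0⟩ 0 0) (.cut .s 13891584 (.cut .s 13888512 (.pos 83 .mp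 ⟨⟨435490715, 0, 0, 0, 0, 147849297, 0, 0, 0, ⟨0, 0⟩, 0⟩, 0, 0⟩ 0 0) (.pos 83 .mp ⟨⟨436549323, 0, 0, 0, 0, 148296016, 0, 0, 0, ⟨0, 0⟩, 0⟩, 0, 0⟩ 0 0)) (.pos 83 .mp ⟨⟨436987064, 0, 0, 0, 0, 150528447, 0, 0, 0, ⟨0, 0⟩, 0⟩, 0, 0⟩ 0 0))) (.pos 84 .mp ⟨⟨469014559, 0, 0, 0, 0, 90705347, 0, 0, 0, ⟨0, 0⟩, 0⟩, 0, 0⟩ 0 0)) (.pos 49 .mp ⟨⟨434824038, 0, 0, 0, 0, 145651550, 0, 0, 0, ⟨0, 0⟩, 0⟩, 0, 0⟩ 0 0))) (.cut .d (-4096) (.cut .s 13903872 (.pos 49 .mp ⟨⟨432866684, 0, 0, 0, 0, 170079586, 0, 0, 0, ⟨0, 0⟩, 0⟩, 0, 0⟩ 0 0) (.pos 49 .mp ⟨⟨434966928, 0, 0, 0, 0, 171152321, 0, 0, 0, ⟨0, 0⟩, 0⟩, 0, 0⟩ 0 0)) (.cut .l 92274 (.cut .v 16793600 (.cut .d (-2048)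 (.pos 83 .mp ⟨⟨433630367, 0, 0, 0, 0, 170470397, 0, 0, 0, ⟨0, 0⟩, 0⟩, 0, 0⟩ 0 0) (.cut .s 13903872 (.pos 83 .mp ⟨⟨439104194, 0, 0, 0, 0, 151471835, 0, 0, 0, ⟨0, 0⟩, 0⟩, 0, 0⟩ 0 0) (.pos 83 .mp ⟨⟨441233374, 0, 0, 0, 0, 152428275, 0, 0, 0, ⟨0, 0⟩, 0⟩, 0, 0⟩ 0 0))) (.pos 84 .mp ⟨⟨473844591, 0, 0, 0, 0, 91470061, 0, 0, 0, ⟨0, 0⟩, 0⟩, 0, 0⟩ 0 0)) (.pos 49 .mp ⟨⟨439059138, 0, 0, 0, 0, 147434443, 0, 0, 0, ⟨0, 0⟩, 0⟩, 0, 0⟩ 0 0)))) (.pos 50 .mp ⟨⟨492077831, 0, 0, 0, 0, 54910294, 0, 0, 0, ⟨0, 0⟩, 0⟩, 0, 0⟩ 0 0)) (.pos 45 .mp ⟨⟨439591339, 0, 0, 0, 0, 138443707, 0, 0, 0, ⟨0, 0⟩, 0⟩, 0, 0⟩ 0 0))) (.cut .s 13897728 (.pos 46 .mp ⟨⟨464359937, 0, 0,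 0, 0, 104092306, 0, 0, 0, ⟨0, 0⟩, 0⟩, 0, 0⟩ 0 0) (.pos 46 .mp ⟨⟨469134503, 0, 0, 0, 0, 105019413, 0, 0, 0, ⟨0, 0⟩, 0⟩, 0, 0⟩ 0 0)))) (.cut .s 13934592 (.cut .v 16842752 (.cut .d (-8192) (.cut .l 184549 (.void 45 ⟨⟨0, 0, 0, 0, 0, 100000, 0, 0, 0, ⟨0, 0⟩, 0⟩, 0, 0⟩ 0 0) (.cut .s 13922304 (.cut .s 13916160 (.pos 45 .mp ⟨⟨436079448, 0, 0, 0, 0, 174199776, 0, 0, 0, ⟨0, 0⟩, 0⟩, 0, 0⟩ 0 0) (.pos 45 .mp ⟨⟨438254297, 0, 0, 0, 0, 175161908, 0, 0, 0, ⟨0, 0⟩, 0⟩, 0, 0⟩ 0 0)) (.pos 45 .mp ⟨⟨439821841, 0, 0, 0, 0, 180420098, 0, 0, 0, ⟨0, 0⟩, 0⟩, 0, 0⟩ 0 0))) (.cut .l 184549 (.cut .v 16809984 (.cut .s 13922304 (.cut .d (-4096) (.cut .s 13916160 (.pos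 49 .mp ⟨⟨437079094, 0, 0, 0, 0, 172243541, 0, 0, 0, ⟨0, 0⟩, 0⟩, 0, 0⟩ 0 0) (.pos 49 .mp ⟨⟨439203257, 0, 0, 0, 0, 173353369, 0, 0, 0, ⟨0, 0⟩, 0⟩, 0, 0⟩ 0 0)) (.cut .l 92274 (.cut .v 16793600 (.cut .d (-2048) (.pos 83 .mp ⟨⟨437843042, 0, 0, 0, 0, 172670749, 0, 0, 0, ⟨0, 0⟩, 0⟩, 0, 0⟩ 0 0) (.cut .s 13916160 (.pos 83 .mp ⟨⟨443374680, 0, 0, 0, 0, 153397752, 0, 0, 0, ⟨0, 0⟩, 0⟩, 0, 0⟩ 0 0) (.pos 83 .mp ⟨⟨445528188, 0, 0, 0, 0, 154380250, 0, 0, 0, ⟨0, 0⟩, 0⟩, 0, 0⟩ 0 0))) (.pos 84 .mp ⟨⟨478854220, 0, 0, 0, 0, 92033488, 0, 0, 0, ⟨0, 0⟩, 0⟩, 0, 0⟩ 0 0)) (.pos 49 .mp ⟨⟨443341661, 0, 0, 0, 0, 149237491, 0, 0, 0, ⟨0, 0⟩, 0⟩, 0, 0⟩ 0 0))) (.cut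 .d (-4096) (.cut .s 13928448 (.pos 49 .mp ⟨⟨441339491, 0, 0, 0, 0, 174481933, 0, 0, 0, ⟨0, 0⟩, 0⟩, 0, 0⟩ 0 0) (.pos 49 .mp ⟨⟨443487873, 0, 0, 0, 0, 175629359, 0, 0, 0, ⟨0, 0⟩, 0⟩, 0, 0⟩ 0 0)) (.cut .l 92274 (.cut .v 16793600 (.cut .d (-2048) (.pos 83 .mp ⟨⟨442103708, 0, 0, 0, 0, 174945760, 0, 0, 0, ⟨0, 0⟩, 0⟩, 0, 0⟩ 0 0) (.cut .s 13928448 (.pos 83 .mp ⟨⟨447693976, 0, 0, 0, 0, 155375755, 0, 0, 0, ⟨0, 0⟩, 0⟩, 0, 0⟩ 0 0) (.pos 83 .mp ⟨⟨449872120, 0, 0, 0, 0, 156384250, 0, 0, 0, ⟨0, 0⟩, 0⟩, 0, 0⟩ 0 0))) (.pos 84 .mp ⟨⟨484050081, 0, 0, 0, 0, 92383530, 0, 0, 0, ⟨0, 0⟩, 0⟩, 0, 0⟩ 0 0)) (.pos 49 .mp ⟨⟨447672209, 0, 0, 0, 0, 151059193, 0, 0,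 0, ⟨0, 0⟩, 0⟩, 0, 0⟩ 0 0)))) (.pos 50 .mp ⟨⟨502714808, 0, 0, 0, 0, 54901627, 0, 0, 0, ⟨0, 0⟩, 0⟩, 0, 0⟩ 0 0)) (.pos 45 .mp ⟨⟨448251169, 0, 0, 0, 0, 141798995, 0, 0, 0, ⟨0, 0⟩, 0⟩, 0, 0⟩ 0 0))) (.cut .s 13922304 (.pos 46 .mp ⟨⟨474088565, 0, 0, 0, 0, 105746401, 0, 0, 0, ⟨0, 0⟩, 0⟩, 0, 0⟩ 0 0) (.pos 46 .mp ⟨⟨479228794, 0, 0, 0, 0, 106261118, 0, 0, 0, ⟨0, 0⟩, 0⟩, 0, 0⟩ 0 0))) (.cut .v 16842752 (.cut .d (-8192) (.cut .l 184549 (.void 45 ⟨⟨0, 0, 0, 0, 0, 100000, 0, 0, 0, ⟨0, 0⟩, 0⟩, 0, 0⟩ 0 0) (.cut .s 13946880 (.pos 45 .mp ⟨⟨444130384, 0, 0, 0, 0, 182664015, 0, 0, 0, ⟨0, 0⟩, 0⟩, 0, 0⟩ 0 0) (.pos 45 .mp ⟨⟨448488128, 0, 0, 0, 0, 184952238,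 0, 0, 0, ⟨0, 0⟩, 0⟩, 0, 0⟩ 0 0))) (.cut .l 184549 (.cut .v 16809984 (.cut .s 13946880 (.cut .d (-4096) (.cut .s 13940736 (.pos 49 .mp ⟨⟨445648481, 0, 0, 0, 0, 176795777, 0, 0, 0, ⟨0, 0⟩, 0⟩, 0, 0⟩ 0 0) (.pos 49 .mp ⟨⟨447821392, 0, 0, 0, 0, 177981314, 0, 0, 0, ⟨0, 0⟩, 0⟩, 0, 0⟩ 0 0)) (.cut .l 92274 (.cut .v 16793600 (.cut .d (-2048) (.pos 83 .mp ⟨⟨446412975, 0, 0, 0, 0, 177296446, 0, 0, 0, ⟨0, 0⟩, 0⟩, 0, 0⟩ 0 0) (.cut .s 13940736 (.pos 83 .mp ⟨⟨452062700, 0, 0, 0, 0, 157405717, 0, 0, 0, ⟨0, 0⟩, 0⟩, 0, 0⟩ 0 0) (.pos 83 .mp ⟨⟨454257137, 0, 0, 0, 0, 158458893, 0, 0, 0, ⟨0, 0⟩, 0⟩, 0, 0⟩ 0 0))) (.pos 84 .mp ⟨⟨489438911, 0, 0, 0, 0, 92507884,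 0, 0, 0, ⟨0, 0⟩, 0⟩, 0, 0⟩ 0 0)) (.pos 49 .mp ⟨⟨452051395, 0, 0, 0, 0, 152898026, 0, 0, 0, ⟨0, 0⟩, 0⟩, 0, 0⟩ 0 0))) (.cut .d (-4096) (.pos 49 .mp ⟨⟨450006684, 0, 0, 0, 0, 182609219, 0, 0, 0, ⟨0, 0⟩, 0⟩, 0, 0⟩ 0 0) (.cut .l 92274 (.cut .v 16793600 (.cut .s 13953024 (.cut .s 13949952 (.pos 83 .mp ⟨⟨459310920, 0, 0, 0, 0, 153071287, 0, 0, 0, ⟨0, 0⟩, 0⟩, 0, 0⟩ 0 0) (.pos 83 .mp ⟨⟨460542372, 0, 0, 0, 0, 153362151, 0, 0, 0, ⟨0, 0⟩, 0⟩, 0, 0⟩ 0 0)) (.pos 83 .mp ⟨⟨456828104, 0, 0, 0, 0, 164757651, 0, 0, 0, ⟨0, 0⟩, 0⟩, 0, 0⟩ 0 0)) (.pos 84 .mp ⟨⟨495027549, 0, 0, 0, 0, 92394039, 0, 0, 0, ⟨0, 0⟩, 0⟩, 0, 0⟩ 0 0)) (.pos 49 .mp ⟨⟨456479841, 0, 0,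 0, 0, 154752447, 0, 0, 0, ⟨0, 0⟩, 0⟩, 0, 0⟩ 0 0)))) (.pos 50 .mp ⟨⟨514124719, 0, 0, 0, 0, 53986568, 0, 0, 0, ⟨0, 0⟩, 0⟩, 0, 0⟩ 0 0)) (.pos 45 .mp ⟨⟨457103256, 0, 0, 0, 0, 145228326, 0, 0, 0, ⟨0, 0⟩, 0⟩, 0, 0⟩ 0 0))) (.cut .s 13946880 (.pos 46 .mp ⟨⟨484561959, 0, 0, 0, 0, 106551208, 0, 0, 0, ⟨0, 0⟩, 0⟩, 0, 0⟩ 0 0) (.pos 46 .mp ⟨⟨490094934, 0, 0, 0, 0, 106604103, 0, 0, 0, ⟨0, 0⟩, 0⟩, 0, 0⟩ 0 0))))) (.pos 36 .mp ⟨⟨537051476, 0, 0, 0, 0, 0, 0, 0, 0, ⟨0, 0⟩, 0⟩, 0, 0⟩ 0 0))))))) (.pos 34 .mp ⟨⟨601525107, 0, 0, 0, 0, 0, 0, 0, 0, ⟨0, 0⟩, 0⟩, 0, 0⟩ 0 0))) (.void 32 ⟨⟨100000, 0, 0, 0, 0, 0, 0, 0, 0, ⟨0, 0⟩, 0⟩, 0, 0⟩ 0 0))) (.void 30 ⟨⟨100000,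 0, 0, 0, 0, 0, 0, 0, 0, ⟨0, 0⟩, 0⟩, 0, 0⟩ 0 0))) (.void 28 ⟨⟨100000, 0, 0, 0, 0, 0, 0, 0, 0, ⟨0, 0⟩, 0⟩, 0, 0⟩ 0 0))) (.void 26 ⟨⟨100000, 0, 0, 0, 0, 0, 0, 0, 0, ⟨0, 0⟩, 0⟩, 0, 0⟩ 0 0))) (.void 24 ⟨⟨100000, 0, 0, 0, 0, 0, 0, 0, 0, ⟨0, 0⟩, 0⟩, 0, 0⟩ 0 0))) (.void 91 ⟨⟨100000, 0, 0, 0, 0, 0, 0, 0, 0, ⟨0, 0⟩, 0⟩, 0, 0⟩ 0 0)) (.void 112 ⟨⟨100000, 0, 0, 0, 0, 0, 0, 0, 0, ⟨0, 0⟩, 0⟩, 0, 0⟩ 0 0)) (.void 121 ⟨⟨92968, 0, 0, 7032, 0, 0, 0, 0, 0, ⟨0, 0⟩, 0⟩, 0, 0⟩ 0 0))) (.cut .v 16777216 (.cut .v 8388608 (.cut .v 4194304 (.cut .v 2097152 (.cut .v 1048576 (.pos 117 .pm ⟨⟨0, 0, 19664959, 0, 0, 0, 0, 0, 0, ⟨0, 0⟩, 0⟩, 0, 18805⟩ 0 0) (.pos 118 .pm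 ⟨⟨0, 0, 18911203, 0, 0, 0, 0, 0, 0, ⟨0, 0⟩, 0⟩, 0, 36163⟩ 0 0)) (.pos 114 .pm ⟨⟨0, 0, 19671368, 0, 0, 0, 0, 0, 0, ⟨0, 0⟩, 0⟩, 0, 52235⟩ 0 0)) (.pos 5 .pm ⟨⟨0, 0, 32852217, 0, 0, 0, 0, 0, 0, ⟨0, 0⟩, 0⟩, 0, 112424⟩ 0 0)) (.pos 3 .pm ⟨⟨0, 0, 0, 0, 0, 0, 0, 0, 0, ⟨0, 0⟩, 0⟩, 0, 0⟩ 0 0)) (.cut .v 268435456 (.cut .v 67108864 (.cut .d 1837506 (.cut .v 33554432 (.cut .d 918753 (.cut .v 25165824 (.cut .d 459376 (.cut .v 20971520 (.cut .d 229688 (.cut .v 18874368 (.cut .d 114844 (.cut .d 57422 (.cut .v 17825792 (.cut .v 17301504 (.cut .s 13860864 (.pos 31 .pp ⟨⟨418812202, 0, 0, 0, 0, 0, 0, 0, 0, ⟨0, 0⟩, 0⟩, 7442433, 0⟩ 0 0) (.pos 31 .pp ⟨⟨449362484,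 0, 0, 0, 0, 0, 0, 0, 0, ⟨0, 0⟩, 0⟩, 8673285, 0⟩ 0 0)) (.pos 32 .pp ⟨⟨518716058, 0, 0, 0, 0, 0, 0, 0, 0, ⟨0, 0⟩, 0⟩, 0, 0⟩ 0 0)) (.pos 30 .pp ⟨⟨588065931, 0, 0, 0, 0, 0, 0, 0, 0, ⟨0, 0⟩, 0⟩, 0, 0⟩ 0 0)) (.pos 27 .pp ⟨⟨460927158, 0, 0, 0, 0, 0, 0, 0, 0, ⟨0, 0⟩, 0⟩, 0, 0⟩ 0 0)) (.pos 27 .pp ⟨⟨0, 0, 0, 0, 0, 0, 0, 0, 0, ⟨0, 0⟩, 0⟩, 0, 297592⟩ 0 0)) (.cut .d 114844 (.pos 28 .pp ⟨⟨701874090, 0, 0, 0, 0, 0, 0, 0, 0, ⟨0, 0⟩, 0⟩, 0, 0⟩ 0 0) (.cut .v 19922944 (.pos 53 .pp ⟨⟨537097242, 0, 0, 0, 0, 0, 0, 0, 0, ⟨0, 0⟩, 0⟩, 0, 0⟩ 0 0) (.pos 54 .pp ⟨⟨625981674, 0, 0, 0, 0, 0, 0, 0, 0, ⟨0, 0⟩, 0⟩, 0, 0⟩ 0 0)))) (.pos 25 .pp ⟨⟨0, 0, 0, 0, 0, 0, 0, 0,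 0, ⟨0, 0⟩, 0⟩, 0, 312288⟩ 0 0)) (.cut .d 229688 (.cut .v 23068672 (.cut .v 22020096 (.cut .d 114844 (.void 57 ⟨⟨0, 0, 0, 0, 0, 0, 0, 0, 0, ⟨0, 0⟩, 0⟩, 100000, 0⟩ 0 0) (.pos 57 .pp ⟨⟨722744830, 0, 0, 0, 0, 0, 0, 0, 0, ⟨0, 0⟩, 0⟩, 0, 0⟩ 0 0)) (.pos 58 .pp ⟨⟨841067064, 0, 0, 0, 0, 0, 0, 0, 0, ⟨0, 0⟩, 0⟩, 0, 0⟩ 0 0)) (.void 56 ⟨⟨0, 0, 0, 0, 0, 0, 0, 0, 0, ⟨0, 0⟩, 0⟩, 100000, 0⟩ 0 0)) (.cut .v 23068672 (.pos 55 .pp ⟨⟨73250575, 0, 0, 0, 0, 0, 52427, 0, 0, ⟨0, 0⟩, 0⟩, 82506433, 0⟩ 0 0) (.pos 56 .pp ⟨⟨0, 0, 0, 0, 0, 0, 0, 0, 0, ⟨0, 0⟩, 0⟩, 112814452, 0⟩ 0 0)))) (.pos 23 .pp ⟨⟨0, 0, 0, 0, 0, 0, 0, 0, 0, ⟨0, 0⟩, 0⟩, 0, 337271⟩ 0 0)) (.cut .d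 459376 (.cut .v 29360128 (.pos 75 .pp ⟨⟨0, 0, 0, 0, 0, 0, 0, 0, 0, ⟨0, 0⟩, 0⟩, 159729391, 0⟩ 0 0) (.void 76 ⟨⟨0, 0, 0, 0, 0, 0, 0, 0, 0, ⟨0, 0⟩, 0⟩, 100000, 0⟩ 0 0)) (.pos 24 .pp ⟨⟨0, 0, 0, 0, 0, 0, 0, 0, 0, ⟨0, 0⟩, 0⟩, 107689348, 0⟩ 0 0))) (.pos 22 .pp ⟨⟨0, 0, 0, 0, 0, 0, 1123548, 0, 0, ⟨0, 0⟩, 0⟩, 0, 0⟩ 0 0)) (.cut .d 918753 (.pos 91 .pp ⟨⟨0, 0, 0, 0, 0, 0, 0, 0, 0, ⟨0, 0⟩, 0⟩, 319248535, 0⟩ 0 0) (.pos 91 .pp ⟨⟨0, 0, 0, 0, 0, 0, 0, 0, 0, ⟨0, 0⟩, 0⟩, 145204686, 0⟩ 0 0))) (.pos 90 .pp ⟨⟨0, 0, 0, 0, 0, 0, 0, 0, 0, ⟨0, 0⟩, 0⟩, 0, 281059⟩ 0 0)) (.void 112 ⟨⟨0, 0, 0, 48488, 0, 0, 0, 0, 0, ⟨0, 0⟩, 0⟩, 51512, 0⟩ 0 0)) (.void 121 ⟨⟨0, 0, 0,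 0, 0, 0, 0, 0, 0, ⟨0, 0⟩, 0⟩, 100000, 0⟩ 0 0)))),
    by decide +kernel⟩

theorem covers26 : cell.Covers Vale.Agent.P237.Petty.Cor.Grid.N10.table row26.1 :=
  ⟨(.cut .d 0 (.cut .v 16777216 (.cut .v 8388608 (.void 2 ⟨⟨0, 0, 100000, 0, 0, 0, 0, 0, 0, ⟨0, 0⟩, 0⟩, 0, 0⟩ 0 0) (.cut .d (-8388608) (.void 3 ⟨⟨100000, 0, 0, 0, 0, 0, 0, 0, 0, ⟨0, 0⟩, 0⟩, 0, 0⟩ 0 0) (.cut .d (-4194304) (.void 3 ⟨⟨100000, 0, 0, 0, 0, 0, 0, 0, 0, ⟨0, 0⟩, 0⟩, 0, 0⟩ 0 0) (.cut .d (-2097152) (.void 3 ⟨⟨100000, 0, 0, 0, 0, 0, 0, 0, 0, ⟨0, 0⟩, 0⟩, 0, 0⟩ 0 0) (.cut .d (-1048576) (.void 3 ⟨⟨0, 0, 0, 0, 0, 100000, 0, 0, 0, ⟨0, 0⟩, 0⟩, 0, 0⟩ 0 0) (.cut .d (-524288) (.void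 3 ⟨⟨0, 0, 0, 0, 0, 100000, 0, 0, 0, ⟨0, 0⟩, 0⟩, 0, 0⟩ 0 0) (.cut .s 14057472 (.pos 3 .mm ⟨⟨0, 0, 0, 0, 0, 1101163032, 0, 0, 0, ⟨0, 0⟩, 0⟩, 0, 0⟩ 0 0) (.pos 3 .mm ⟨⟨0, 0, 0, 0, 0, 1206326545, 0, 0, 0, ⟨0, 0⟩, 0⟩, 0, 0⟩ 0 0)))))))) (.cut .v 268435456 (.cut .v 67108864 (.cut .v 33554432 (.cut .d (-8388608) (.void 22 ⟨⟨99943, 0, 0, 0, 0, 0, 0, 0, 0, ⟨0, 0⟩, 0⟩, 0, 0⟩ 0 0) (.cut .v 25165824 (.cut .d (-4194304) (.void 23 ⟨⟨100000, 0, 0, 0, 0, 0, 0, 0, 0, ⟨0, 0⟩, 0⟩, 0, 0⟩ 0 0) (.cut .v 20971520 (.cut .d (-2097152) (.void 25 ⟨⟨100000, 0, 0, 0, 0, 0, 0, 0, 0, ⟨0, 0⟩, 0⟩, 0, 0⟩ 0 0) (.cut .v 18874368 (.cut .d (-1048576) (.void 27 ⟨⟨100000, 0,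 0, 0, 0, 0, 0, 0, 0, ⟨0, 0⟩, 0⟩, 0, 0⟩ 0 0) (.cut .v 17825792 (.cut .d (-524288) (.void 29 ⟨⟨100000, 0, 0, 0, 0, 0, 0, 0, 0, ⟨0, 0⟩, 0⟩, 0, 0⟩ 0 0) (.cut .v 17301504 (.cut .d (-262144) (.void 31 ⟨⟨100000, 0, 0, 0, 0, 0, 0, 0, 0, ⟨0, 0⟩, 0⟩, 0, 0⟩ 0 0) (.cut .v 17039360 (.cut .d (-131072) (.void 33 ⟨⟨100000, 0, 0, 0, 0, 0, 0, 0, 0, ⟨0, 0⟩, 0⟩, 0, 0⟩ 0 0) (.cut .d (-65536) (.void 33 ⟨⟨100000, 0, 0, 0, 0, 0, 0, 0, 0, ⟨0, 0⟩, 0⟩, 0, 0⟩ 0 0) (.cut .d (-32768) (.void 33 ⟨⟨100000, 0, 0, 0, 0, 0, 0, 0, 0, ⟨0, 0⟩, 0⟩, 0, 0⟩ 0 0) (.cut .d (-16384) (.void 33 ⟨⟨0, 0, 0, 0, 0, 100000, 0, 0, 0, ⟨0, 0⟩, 0⟩, 0, 0⟩ 0 0) (.cut .s 14057472 (.cut .v 16908288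 (.cut .s 14008320 (.cut .s 13983744 (.cut .v 16842752 (.cut .d (-8192) (.cut .d (-12288) (.pos 45 .mp ⟨⟨456746072, 0, 0, 0, 0, 195324329, 0, 0, 0, ⟨0, 0⟩, 0⟩, 0, 0⟩ 0 0) (.cut .v 16809984 (.pos 49 .mp ⟨⟨0, 0, 0, 0, 0, 1135691308, 0, 0, 0, ⟨0, 0⟩, 0⟩, 0, 0⟩ 0 0) (.cut .l 184549 (.void 50 ⟨⟨100000, 0, 0, 0, 0, 0, 0, 0, 0, ⟨0, 0⟩, 0⟩, 0, 0⟩ 0 0) (.cut .s 13971456 (.pos 50 .mp ⟨⟨454567693, 0, 0, 0, 0, 183869877, 0, 0, 0, ⟨0, 0⟩, 0⟩, 0, 0⟩ 0 0) (.pos 50 .mp ⟨⟨459049525, 0, 0, 0, 0, 185835030, 0, 0, 0, ⟨0, 0⟩, 0⟩, 0, 0⟩ 0 0))))) (.cut .l 184549 (.cut .v 16809984 (.cut .s 13971456 (.cut .d (-4096) (.pos 49 .mp ⟨⟨454415892, 0, 0, 0, 0, 185122428,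 0, 0, 0, ⟨0, 0⟩, 0⟩, 0, 0⟩ 0 0) (.cut .l 92274 (.cut .v 16793600 (.cut .s 13965312 (.pos 83 .mp ⟨⟨459223887, 0, 0, 0, 0, 165500014, 0, 0, 0, ⟨0, 0⟩, 0⟩, 0, 0⟩ 0 0) (.cut .s 13968384 (.pos 83 .mp ⟨⟨466243566, 0, 0, 0, 0, 155635931, 0, 0, 0, ⟨0, 0⟩, 0⟩, 0, 0⟩ 0 0) (.pos 83 .mp ⟨⟨467254364, 0, 0, 0, 0, 156309012, 0, 0, 0, ⟨0, 0⟩, 0⟩, 0, 0⟩ 0 0))) (.pos 84 .mp ⟨⟨497565294, 0, 0, 0, 0, 98101845, 0, 0, 0, ⟨0, 0⟩, 0⟩, 0, 0⟩ 0 0)) (.pos 49 .mp ⟨⟨461918050, 0, 0, 0, 0, 155048405, 0, 0, 0, ⟨0, 0⟩, 0⟩, 0, 0⟩ 0 0))) (.cut .d (-4096) (.pos 49 .mp ⟨⟨458878639, 0, 0, 0, 0, 187034131, 0, 0, 0, ⟨0, 0⟩, 0⟩, 0, 0⟩ 0 0) (.cut .l 92274 (.cut .v 16793600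 (.cut .d (-2048) (.pos 83 .mp ⟨⟨459642076, 0, 0, 0, 0, 184121278, 0, 0, 0, ⟨0, 0⟩, 0⟩, 0, 0⟩ 0 0) (.cut .s 13977600 (.pos 83 .mp ⟨⟨465419522, 0, 0, 0, 0, 163483689, 0, 0, 0, ⟨0, 0⟩, 0⟩, 0, 0⟩ 0 0) (.pos 83 .mp ⟨⟨467755634, 0, 0, 0, 0, 164262714, 0, 0, 0, ⟨0, 0⟩, 0⟩, 0, 0⟩ 0 0))) (.pos 84 .mp ⟨⟨501852552, 0, 0, 0, 0, 100375251, 0, 0, 0, ⟨0, 0⟩, 0⟩, 0, 0⟩ 0 0)) (.pos 49 .mp ⟨⟨466488350, 0, 0, 0, 0, 156865793, 0, 0, 0, ⟨0, 0⟩, 0⟩, 0, 0⟩ 0 0)))) (.pos 50 .mp ⟨⟨519918325, 0, 0, 0, 0, 64086592, 0, 0, 0, ⟨0, 0⟩, 0⟩, 0, 0⟩ 0 0)) (.pos 45 .mp ⟨⟨468112352, 0, 0, 0, 0, 145483614, 0, 0, 0, ⟨0, 0⟩, 0⟩, 0, 0⟩ 0 0))) (.cut .s 13971456 (.pos 46 .mp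 ⟨⟨492561424, 0, 0, 0, 0, 112505632, 0, 0, 0, ⟨0, 0⟩, 0⟩, 0, 0⟩ 0 0) (.pos 46 .mp ⟨⟨496784653, 0, 0, 0, 0, 114960940, 0, 0, 0, ⟨0, 0⟩, 0⟩, 0, 0⟩ 0 0))) (.cut .v 16842752 (.cut .d (-8192) (.cut .l 184549 (.void 45 ⟨⟨0, 0, 0, 0, 0, 100000, 0, 0, 0, ⟨0, 0⟩, 0⟩, 0, 0⟩ 0 0) (.cut .s 13996032 (.pos 45 .mp ⟨⟨461881982, 0, 0, 0, 0, 191826160, 0, 0, 0, ⟨0, 0⟩, 0⟩, 0, 0⟩ 0 0) (.cut .s 14002176 (.pos 45 .mp ⟨⟨467222004, 0, 0, 0, 0, 188959306, 0, 0, 0, ⟨0, 0⟩, 0⟩, 0, 0⟩ 0 0) (.pos 45 .mp ⟨⟨469431115, 0, 0, 0, 0, 190270097, 0, 0, 0, ⟨0, 0⟩, 0⟩, 0, 0⟩ 0 0)))) (.cut .l 184549 (.cut .v 16809984 (.cut .s 13996032 (.cut .d (-4096) (.pos 49 .mp ⟨⟨463394365,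 0, 0, 0, 0, 189032520, 0, 0, 0, ⟨0, 0⟩, 0⟩, 0, 0⟩ 0 0) (.cut .l 92274 (.cut .v 16793600 (.cut .d (-2048) (.pos 83 .mp ⟨⟨464156213, 0, 0, 0, 0, 186107828, 0, 0, 0, ⟨0, 0⟩, 0⟩, 0, 0⟩ 0 0) (.cut .s 13989888 (.pos 83 .mp ⟨⟨470050484, 0, 0, 0, 0, 165177882, 0, 0, 0, ⟨0, 0⟩, 0⟩, 0, 0⟩ 0 0) (.pos 83 .mp ⟨⟨472358978, 0, 0, 0, 0, 166110360, 0, 0, 0, ⟨0, 0⟩, 0⟩, 0, 0⟩ 0 0))) (.pos 84 .mp ⟨⟨506298313, 0, 0, 0, 0, 102517232, 0, 0, 0, ⟨0, 0⟩, 0⟩, 0, 0⟩ 0 0)) (.pos 49 .mp ⟨⟨471111755, 0, 0, 0, 0, 158727309, 0, 0, 0, ⟨0, 0⟩, 0⟩, 0, 0⟩ 0 0))) (.cut .d (-4096) (.cut .s 14002176 (.pos 49 .mp ⟨⟨467963755, 0, 0, 0, 0, 187442314, 0, 0, 0, ⟨0, 0⟩, 0⟩, 0,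 0⟩ 0 0) (.pos 49 .mp ⟨⟨470268791, 0, 0, 0, 0, 188485723, 0, 0, 0, ⟨0, 0⟩, 0⟩, 0, 0⟩ 0 0)) (.cut .l 92274 (.cut .v 16793600 (.cut .d (-2048) (.pos 83 .mp ⟨⟨468723991, 0, 0, 0, 0, 188182092, 0, 0, 0, ⟨0, 0⟩, 0⟩, 0, 0⟩ 0 0) (.cut .s 14002176 (.pos 83 .mp ⟨⟨474681204, 0, 0, 0, 0, 167060138, 0, 0, 0, ⟨0, 0⟩, 0⟩, 0, 0⟩ 0 0) (.cut .s 14005248 (.pos 83 .mp ⟨⟨477782918, 0, 0, 0, 0, 165862664, 0, 0, 0, ⟨0, 0⟩, 0⟩, 0, 0⟩ 0 0) (.pos 83 .mp ⟨⟨478908754, 0, 0, 0, 0, 166436788, 0, 0, 0, ⟨0, 0⟩, 0⟩, 0, 0⟩ 0 0)))) (.pos 84 .mp ⟨⟨510910447, 0, 0, 0, 0, 104513577, 0, 0, 0, ⟨0, 0⟩, 0⟩, 0, 0⟩ 0 0)) (.pos 49 .mp ⟨⟨475788960, 0, 0, 0, 0, 160631179, 0, 0,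 0, ⟨0, 0⟩, 0⟩, 0, 0⟩ 0 0)))) (.cut .s 13996032 (.pos 50 .mp ⟨⟨504593957, 0, 0, 0, 0, 107428803, 0, 0, 0, ⟨0, 0⟩, 0⟩, 0, 0⟩ 0 0) (.pos 50 .mp ⟨⟨509184513, 0, 0, 0, 0, 109486983, 0, 0, 0, ⟨0, 0⟩, 0⟩, 0, 0⟩ 0 0))) (.pos 45 .mp ⟨⟨477531817, 0, 0, 0, 0, 148788836, 0, 0, 0, ⟨0, 0⟩, 0⟩, 0, 0⟩ 0 0))) (.cut .s 13996032 (.pos 46 .mp ⟨⟨501165893, 0, 0, 0, 0, 117286884, 0, 0, 0, ⟨0, 0⟩, 0⟩, 0, 0⟩ 0 0) (.pos 46 .mp ⟨⟨505713054, 0, 0, 0, 0, 119469187, 0, 0, 0, ⟨0, 0⟩, 0⟩, 0, 0⟩ 0 0)))) (.cut .s 14032896 (.cut .v 16842752 (.cut .d (-8192) (.cut .l 184549 (.void 45 ⟨⟨0, 0, 0, 0, 0, 100000, 0, 0, 0, ⟨0, 0⟩, 0⟩, 0, 0⟩ 0 0) (.cut .d (-12288) (.pos 45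 .mp ⟨⟨472960481, 0, 0, 0, 0, 205521497, 0, 0, 0, ⟨0, 0⟩, 0⟩, 0, 0⟩ 0 0) (.cut .s 14020608 (.pos 45 .mp ⟨⟨471081831, 0, 0, 0, 0, 195514149, 0, 0, 0, ⟨0, 0⟩, 0⟩, 0, 0⟩ 0 0) (.pos 45 .mp ⟨⟨475764082, 0, 0, 0, 0, 197799041, 0, 0, 0, ⟨0, 0⟩, 0⟩, 0, 0⟩ 0 0)))) (.cut .l 184549 (.cut .v 16809984 (.cut .s 14020608 (.cut .d (-4096) (.cut .s 14014464 (.pos 49 .mp ⟨⟨472587506, 0, 0, 0, 0, 189551424, 0, 0, 0, ⟨0, 0⟩, 0⟩, 0, 0⟩ 0 0) (.pos 49 .mp ⟨⟨474919989, 0, 0, 0, 0, 190639572, 0, 0, 0, ⟨0, 0⟩, 0⟩, 0, 0⟩ 0 0)) (.cut .l 92274 (.cut .v 16793600 (.cut .d (-2048) (.pos 83 .mp ⟨⟨473346108, 0, 0, 0, 0, 190345301, 0, 0, 0, ⟨0, 0⟩, 0⟩, 0, 0⟩ 0 0) (.cut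 .l 46137 (.cut .d (-1024) (.pos 83 .mp ⟨⟨479412658, 0, 0, 0, 0, 175539599, 0, 0, 0, ⟨0, 0⟩, 0⟩, 0, 0⟩ 0 0) (.cut .s 14014464 (.pos 83 .mp ⟨⟨478269293, 0, 0, 0, 0, 171097559, 0, 0, 0, ⟨0, 0⟩, 0⟩, 0, 0⟩ 0 0) (.pos 83 .mp ⟨⟨480655145, 0, 0, 0, 0, 172042873, 0, 0, 0, ⟨0, 0⟩, 0⟩, 0, 0⟩ 0 0))) (.pos 83 .mp ⟨⟨479424093, 0, 0, 0, 0, 164015438, 0, 0, 0, ⟨0, 0⟩, 0⟩, 0, 0⟩ 0 0))) (.pos 84 .mp ⟨⟨515696946, 0, 0, 0, 0, 106349828, 0, 0, 0, ⟨0, 0⟩, 0⟩, 0, 0⟩ 0 0)) (.pos 49 .mp ⟨⟨480520668, 0, 0, 0, 0, 162575607, 0, 0, 0, ⟨0, 0⟩, 0⟩, 0, 0⟩ 0 0))) (.cut .d (-4096) (.cut .s 14026752 (.pos 49 .mp ⟨⟨477266330, 0, 0, 0, 0, 191750327, 0, 0, 0, ⟨0, 0⟩, 0⟩,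 0, 0⟩ 0 0) (.pos 49 .mp ⟨⟨479626619, 0, 0, 0, 0, 192883847, 0, 0, 0, ⟨0, 0⟩, 0⟩, 0, 0⟩ 0 0)) (.cut .l 92274 (.cut .v 16793600 (.cut .d (-2048) (.pos 83 .mp ⟨⟨478023273, 0, 0, 0, 0, 192598706, 0, 0, 0, ⟨0, 0⟩, 0⟩, 0, 0⟩ 0 0) (.cut .l 46137 (.cut .v 16785408 (.cut .s 14026752 (.pos 85 .mp ⟨⟨481725632, 0, 0, 0, 0, 175857571, 0, 0, 0, ⟨0, 0⟩, 0⟩, 0, 0⟩ 0 0) (.pos 85 .mp ⟨⟨484027050, 0, 0, 0, 0, 177089494, 0, 0, 0, ⟨0, 0⟩, 0⟩, 0, 0⟩ 0 0)) (.pos 86 .mp ⟨⟨521550898, 0, 0, 0, 0, 105460658, 0, 0, 0, ⟨0, 0⟩, 0⟩, 0, 0⟩ 0 0)) (.pos 83 .mp ⟨⟨484190638, 0, 0, 0, 0, 166028798, 0, 0, 0, ⟨0, 0⟩, 0⟩, 0, 0⟩ 0 0))) (.pos 84 .mp ⟨⟨520665920, 0, 0, 0, 0,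 108011276, 0, 0, 0, ⟨0, 0⟩, 0⟩, 0, 0⟩ 0 0)) (.pos 49 .mp ⟨⟨485307598, 0, 0, 0, 0, 164558771, 0, 0, 0, ⟨0, 0⟩, 0⟩, 0, 0⟩ 0 0)))) (.cut .s 14020608 (.pos 50 .mp ⟨⟨513949297, 0, 0, 0, 0, 111385712, 0, 0, 0, ⟨0, 0⟩, 0⟩, 0, 0⟩ 0 0) (.pos 50 .mp ⟨⟨518896434, 0, 0, 0, 0, 113110258, 0, 0, 0, ⟨0, 0⟩, 0⟩, 0, 0⟩ 0 0))) (.pos 45 .mp ⟨⟨487167267, 0, 0, 0, 0, 152261519, 0, 0, 0, ⟨0, 0⟩, 0⟩, 0, 0⟩ 0 0))) (.cut .s 14020608 (.pos 46 .mp ⟨⟨510434169, 0, 0, 0, 0, 121493329, 0, 0, 0, ⟨0, 0⟩, 0⟩, 0, 0⟩ 0 0) (.cut .s 14026752 (.pos 46 .mp ⟨⟨505267289, 0, 0, 0, 0, 139537836, 0, 0, 0, ⟨0, 0⟩, 0⟩, 0, 0⟩ 0 0) (.pos 46 .mp ⟨⟨507739786, 0, 0, 0, 0, 140479588,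 0, 0, 0, ⟨0, 0⟩, 0⟩, 0, 0⟩ 0 0)))) (.cut .v 16842752 (.cut .d (-8192) (.cut .l 184549 (.void 45 ⟨⟨0, 0, 0, 0, 0, 100000, 0, 0, 0, ⟨0, 0⟩, 0⟩, 0, 0⟩ 0 0) (.cut .d (-12288) (.pos 45 .mp ⟨⟨482125724, 0, 0, 0, 0, 211115651, 0, 0, 0, ⟨0, 0⟩, 0⟩, 0, 0⟩ 0 0) (.cut .s 14045184 (.pos 45 .mp ⟨⟨480502177, 0, 0, 0, 0, 200155685, 0, 0, 0, ⟨0, 0⟩, 0⟩, 0, 0⟩ 0 0) (.pos 45 .mp ⟨⟨485296854, 0, 0, 0, 0, 202583999, 0, 0, 0, ⟨0, 0⟩, 0⟩, 0, 0⟩ 0 0)))) (.cut .l 184549 (.cut .v 16809984 (.cut .s 14045184 (.cut .d (-4096) (.cut .s 14039040 (.pos 49 .mp ⟨⟨482000948, 0, 0, 0, 0, 194040292, 0, 0, 0, ⟨0, 0⟩, 0⟩, 0, 0⟩ 0 0) (.pos 49 .mp ⟨⟨484389410, 0, 0, 0, 0,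 195219826, 0, 0, 0, ⟨0, 0⟩, 0⟩, 0, 0⟩ 0 0)) (.cut .l 92274 (.cut .v 16793600 (.cut .d (-2048) (.pos 83 .mp ⟨⟨482756209, 0, 0, 0, 0, 194943582, 0, 0, 0, ⟨0, 0⟩, 0⟩, 0, 0⟩ 0 0) (.cut .l 46137 (.cut .v 16785408 (.cut .s 14039040 (.pos 85 .mp ⟨⟨486359853, 0, 0, 0, 0, 178301554, 0, 0, 0, ⟨0, 0⟩, 0⟩, 0, 0⟩ 0 0) (.cut .s 14042112 (.pos 85 .mp ⟨⟨492913872, 0, 0, 0, 0, 170024625, 0, 0, 0, ⟨0, 0⟩, 0⟩, 0, 0⟩ 0 0) (.pos 85 .mp ⟨⟨494123200, 0, 0, 0, 0, 170574024, 0, 0, 0, ⟨0, 0⟩, 0⟩, 0, 0⟩ 0 0))) (.pos 86 .mp ⟨⟨526721557, 0, 0, 0, 0, 106900486, 0, 0, 0, ⟨0, 0⟩, 0⟩, 0, 0⟩ 0 0)) (.pos 83 .mp ⟨⟨489012807, 0, 0, 0, 0, 168079573, 0, 0, 0, ⟨0, 0⟩, 0⟩,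 0, 0⟩ 0 0))) (.pos 84 .mp ⟨⟨525825610, 0, 0, 0, 0, 109482956, 0, 0, 0, ⟨0, 0⟩, 0⟩, 0, 0⟩ 0 0)) (.pos 49 .mp ⟨⟨490150479, 0, 0, 0, 0, 166578826, 0, 0, 0, ⟨0, 0⟩, 0⟩, 0, 0⟩ 0 0))) (.cut .d (-4096) (.cut .s 14051328 (.pos 49 .mp ⟨⟨486792098, 0, 0, 0, 0, 196422612, 0, 0, 0, ⟨0, 0⟩, 0⟩, 0, 0⟩ 0 0) (.pos 49 .mp ⟨⟨489209106, 0, 0, 0, 0, 197648814, 0, 0, 0, ⟨0, 0⟩, 0⟩, 0, 0⟩ 0 0)) (.cut .l 92274 (.cut .v 16793600 (.cut .d (-2048) (.pos 83 .mp ⟨⟨487545653, 0, 0, 0, 0, 197381226, 0, 0, 0, ⟨0, 0⟩, 0⟩, 0, 0⟩ 0 0) (.cut .l 46137 (.cut .v 16785408 (.cut .d (-1024) (.pos 85 .mp ⟨⟨487923865, 0, 0, 0, 0, 195884510, 0, 0, 0, ⟨0, 0⟩, 0⟩, 0, 0⟩ 0 0) (.cut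 .s 14051328 (.pos 85 .mp ⟨⟨492177029, 0, 0, 0, 0, 178295133, 0, 0, 0, ⟨0, 0⟩, 0⟩, 0, 0⟩ 0 0) (.pos 85 .mp ⟨⟨494618533, 0, 0, 0, 0, 179416086, 0, 0, 0, ⟨0, 0⟩, 0⟩, 0, 0⟩ 0 0))) (.pos 86 .mp ⟨⟨532091346, 0, 0, 0, 0, 108135028, 0, 0, 0, ⟨0, 0⟩, 0⟩, 0, 0⟩ 0 0)) (.pos 83 .mp ⟨⟨493891337, 0, 0, 0, 0, 170165904, 0, 0, 0, ⟨0, 0⟩, 0⟩, 0, 0⟩ 0 0))) (.pos 84 .mp ⟨⟨531184380, 0, 0, 0, 0, 110749640, 0, 0, 0, ⟨0, 0⟩, 0⟩, 0, 0⟩ 0 0)) (.pos 49 .mp ⟨⟨495050057, 0, 0, 0, 0, 168633902, 0, 0, 0, ⟨0, 0⟩, 0⟩, 0, 0⟩ 0 0)))) (.cut .s 14045184 (.pos 50 .mp ⟨⟨524034178, 0, 0, 0, 0, 114645635, 0, 0, 0, ⟨0, 0⟩, 0⟩, 0, 0⟩ 0 0) (.pos 50 .mp ⟨⟨529370910, 0, 0, 0,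 0, 115976591, 0, 0, 0, ⟨0, 0⟩, 0⟩, 0, 0⟩ 0 0))) (.pos 45 .mp ⟨⟨497024457, 0, 0, 0, 0, 155887077, 0, 0, 0, ⟨0, 0⟩, 0⟩, 0, 0⟩ 0 0))) (.cut .d (-8192) (.cut .s 14045184 (.pos 46 .mp ⟨⟨514855920, 0, 0, 0, 0, 137202668, 0, 0, 0, ⟨0, 0⟩, 0⟩, 0, 0⟩ 0 0) (.pos 46 .mp ⟨⟨520053766, 0, 0, 0, 0, 138871637, 0, 0, 0, ⟨0, 0⟩, 0⟩, 0, 0⟩ 0 0)) (.pos 46 .mp ⟨⟨581961276, 0, 0, 0, 0, 0, 0, 0, 0, ⟨0, 0⟩, 0⟩, 0, 0⟩ 0 0))))) (.pos 36 .mp ⟨⟨582860504, 0, 0, 0, 0, 0, 0, 0, 0, ⟨0, 0⟩, 0⟩, 0, 0⟩ 0 0)) (.cut .v 16908288 (.cut .s 14106624 (.cut .s 14082048 (.cut .v 16842752 (.cut .d (-8192) (.cut .l 184549 (.void 45 ⟨⟨0, 0, 0, 0, 0, 100000, 0, 0, 0, ⟨0, 0⟩, 0⟩,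 0, 0⟩ 0 0) (.cut .d (-12288) (.pos 45 .mp ⟨⟨492070381, 0, 0, 0, 0, 215928581, 0, 0, 0, ⟨0, 0⟩, 0⟩, 0, 0⟩ 0 0) (.cut .s 14069760 (.pos 45 .mp ⟨⟨490148862, 0, 0, 0, 0, 205083885, 0, 0, 0, ⟨0, 0⟩, 0⟩, 0, 0⟩ 0 0) (.pos 45 .mp ⟨⟨495058966, 0, 0, 0, 0, 207655235, 0, 0, 0, ⟨0, 0⟩, 0⟩, 0, 0⟩ 0 0)))) (.cut .l 184549 (.cut .v 16809984 (.cut .s 14069760 (.cut .d (-4096) (.cut .s 14063616 (.pos 49 .mp ⟨⟨491640529, 0, 0, 0, 0, 198898601, 0, 0, 0, ⟨0, 0⟩, 0⟩, 0, 0⟩ 0 0) (.pos 49 .mp ⟨⟨494086463, 0, 0, 0, 0, 200172139, 0, 0, 0, ⟨0, 0⟩, 0⟩, 0, 0⟩ 0 0)) (.cut .l 92274 (.cut .v 16793600 (.cut .d (-2048) (.pos 83 .mp ⟨⟨492392353, 0, 0, 0, 0, 199912958,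 0, 0, 0, ⟨0, 0⟩, 0⟩, 0, 0⟩ 0 0) (.cut .l 46137 (.cut .v 16785408 (.cut .s 14063616 (.cut .s 14060544 (.pos 85 .mp ⟨⟨500297885, 0, 0, 0, 0, 173243155, 0, 0, 0, ⟨0, 0⟩, 0⟩, 0, 0⟩ 0 0) (.pos 85 .mp ⟨⟨501559018, 0, 0, 0, 0, 173760397, 0, 0, 0, ⟨0, 0⟩, 0⟩, 0, 0⟩ 0 0)) (.pos 85 .mp ⟨⟨498515265, 0, 0, 0, 0, 184025257, 0, 0, 0, ⟨0, 0⟩, 0⟩, 0, 0⟩ 0 0)) (.pos 86 .mp ⟨⟨537668754, 0, 0, 0, 0, 109148800, 0, 0, 0, ⟨0, 0⟩, 0⟩, 0, 0⟩ 0 0)) (.pos 83 .mp ⟨⟨498826983, 0, 0, 0, 0, 172285902, 0, 0, 0, ⟨0, 0⟩, 0⟩, 0, 0⟩ 0 0))) (.pos 84 .mp ⟨⟨536750731, 0, 0, 0, 0, 111795832, 0, 0, 0, ⟨0, 0⟩, 0⟩, 0, 0⟩ 0 0)) (.pos 49 .mp ⟨⟨500007087, 0, 0, 0, 0, 170722104,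 0, 0, 0, ⟨0, 0⟩, 0⟩, 0, 0⟩ 0 0))) (.cut .d (-4096) (.cut .s 14075904 (.pos 49 .mp ⟨⟨496547004, 0, 0, 0, 0, 201469598, 0, 0, 0, ⟨0, 0⟩, 0⟩, 0, 0⟩ 0 0) (.pos 49 .mp ⟨⟨499022250, 0, 0, 0, 0, 202791150, 0, 0, 0, ⟨0, 0⟩, 0⟩, 0, 0⟩ 0 0)) (.cut .l 92274 (.cut .v 16793600 (.cut .d (-2048) (.pos 83 .mp ⟨⟨497297073, 0, 0, 0, 0, 202540121, 0, 0, 0, ⟨0, 0⟩, 0⟩, 0, 0⟩ 0 0) (.cut .l 46137 (.cut .d (-1024) (.pos 83 .mp ⟨⟨503647280, 0, 0, 0, 0, 186996903, 0, 0, 0, ⟨0, 0⟩, 0⟩, 0, 0⟩ 0 0) (.cut .s 14075904 (.pos 83 .mp ⟨⟨502546319, 0, 0, 0, 0, 181869836, 0, 0, 0, ⟨0, 0⟩, 0⟩, 0, 0⟩ 0 0) (.pos 83 .mp ⟨⟨505036829, 0, 0, 0, 0, 183084220, 0, 0, 0, ⟨0, 0⟩,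 0⟩, 0, 0⟩ 0 0))) (.pos 83 .mp ⟨⟨503820509, 0, 0, 0, 0, 174437655, 0, 0, 0, ⟨0, 0⟩, 0⟩, 0, 0⟩ 0 0))) (.pos 84 .mp ⟨⟨542533294, 0, 0, 0, 0, 112605763, 0, 0, 0, ⟨0, 0⟩, 0⟩, 0, 0⟩ 0 0)) (.pos 49 .mp ⟨⟨505022341, 0, 0, 0, 0, 172841510, 0, 0, 0, ⟨0, 0⟩, 0⟩, 0, 0⟩ 0 0)))) (.cut .s 14069760 (.pos 50 .mp ⟨⟨534915142, 0, 0, 0, 0, 117087609, 0, 0, 0, ⟨0, 0⟩, 0⟩, 0, 0⟩ 0 0) (.pos 50 .mp ⟨⟨540675523, 0, 0, 0, 0, 117962895, 0, 0, 0, ⟨0, 0⟩, 0⟩, 0, 0⟩ 0 0))) (.pos 45 .mp ⟨⟨507109352, 0, 0, 0, 0, 159650526, 0, 0, 0, ⟨0, 0⟩, 0⟩, 0, 0⟩ 0 0))) (.cut .d (-8192) (.cut .s 14069760 (.pos 46 .mp ⟨⟨525392163, 0, 0, 0, 0, 140433511, 0, 0, 0, ⟨0, 0⟩, 0⟩, 0, 0⟩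 0 0) (.pos 46 .mp ⟨⟨530876040, 0, 0, 0, 0, 141879031, 0, 0, 0, ⟨0, 0⟩, 0⟩, 0, 0⟩ 0 0)) (.pos 46 .mp ⟨⟨594012641, 0, 0, 0, 0, 0, 0, 0, 0, ⟨0, 0⟩, 0⟩, 0, 0⟩ 0 0))) (.cut .v 16842752 (.cut .d (-8192) (.cut .l 184549 (.void 45 ⟨⟨0, 0, 0, 0, 0, 100000, 0, 0, 0, ⟨0, 0⟩, 0⟩, 0, 0⟩ 0 0) (.cut .s 14094336 (.cut .s 14088192 (.pos 45 .mp ⟨⟨500486259, 0, 0, 0, 0, 206405592, 0, 0, 0, ⟨0, 0⟩, 0⟩, 0, 0⟩ 0 0) (.pos 45 .mp ⟨⟨503069995, 0, 0, 0, 0, 207548139, 0, 0, 0, ⟨0, 0⟩, 0⟩, 0, 0⟩ 0 0)) (.pos 45 .mp ⟨⟨505056585, 0, 0, 0, 0, 213863371, 0, 0, 0, ⟨0, 0⟩, 0⟩, 0, 0⟩ 0 0))) (.cut .l 184549 (.cut .v 16809984 (.cut .s 14094336 (.cut .d (-4096) (.pos 49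 .mp ⟨⟨501512300, 0, 0, 0, 0, 208290312, 0, 0, 0, ⟨0, 0⟩, 0⟩, 0, 0⟩ 0 0) (.cut .l 92274 (.cut .v 16793600 (.cut .d (-2048) (.pos 83 .mp ⟨⟨502260588, 0, 0, 0, 0, 205264086, 0, 0, 0, ⟨0, 0⟩, 0⟩, 0, 0⟩ 0 0) (.cut .l 46137 (.cut .d (-1024) (.pos 83 .mp ⟨⟨508831550, 0, 0, 0, 0, 189108721, 0, 0, 0, ⟨0, 0⟩, 0⟩, 0, 0⟩ 0 0) (.cut .s 14088192 (.pos 83 .mp ⟨⟨507525619, 0, 0, 0, 0, 184356018, 0, 0, 0, ⟨0, 0⟩, 0⟩, 0, 0⟩ 0 0) (.pos 83 .mp ⟨⟨510023284, 0, 0, 0, 0, 185659978, 0, 0, 0, ⟨0, 0⟩, 0⟩, 0, 0⟩ 0 0))) (.pos 83 .mp ⟨⟨508872698, 0, 0, 0, 0, 176619224, 0, 0, 0, ⟨0, 0⟩, 0⟩, 0, 0⟩ 0 0))) (.pos 84 .mp ⟨⟨548540840, 0, 0, 0, 0, 113163380, 0, 0, 0, ⟨0,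 0⟩, 0⟩, 0, 0⟩ 0 0)) (.pos 49 .mp ⟨⟨510096603, 0, 0, 0, 0, 174990172, 0, 0, 0, ⟨0, 0⟩, 0⟩, 0, 0⟩ 0 0))) (.cut .d (-4096) (.pos 49 .mp ⟨⟨506537208, 0, 0, 0, 0, 211126053, 0, 0, 0, ⟨0, 0⟩, 0⟩, 0, 0⟩ 0 0) (.cut .l 92274 (.cut .v 16793600 (.cut .d (-2048) (.pos 83 .mp ⟨⟨507283690, 0, 0, 0, 0, 208086244, 0, 0, 0, ⟨0, 0⟩, 0⟩, 0, 0⟩ 0 0) (.cut .s 14100480 (.cut .s 14097408 (.pos 83 .mp ⟨⟨514685403, 0, 0, 0, 0, 182055132, 0, 0, 0, ⟨0, 0⟩, 0⟩, 0, 0⟩ 0 0) (.pos 83 .mp ⟨⟨516037852, 0, 0, 0, 0, 182540496, 0, 0, 0, ⟨0, 0⟩, 0⟩, 0, 0⟩ 0 0)) (.pos 83 .mp ⟨⟨516349802, 0, 0, 0, 0, 185840884, 0, 0, 0, ⟨0, 0⟩, 0⟩, 0, 0⟩ 0 0))) (.pos 84 .mp ⟨⟨554782281,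 0, 0, 0, 0, 113452347, 0, 0, 0, ⟨0, 0⟩, 0⟩, 0, 0⟩ 0 0)) (.pos 49 .mp ⟨⟨515230673, 0, 0, 0, 0, 177166112, 0, 0, 0, ⟨0, 0⟩, 0⟩, 0, 0⟩ 0 0)))) (.cut .s 14094336 (.pos 50 .mp ⟨⟨546660838, 0, 0, 0, 0, 118586374, 0, 0, 0, ⟨0, 0⟩, 0⟩, 0, 0⟩ 0 0) (.pos 50 .mp ⟨⟨552880014, 0, 0, 0, 0, 118941683, 0, 0, 0, ⟨0, 0⟩, 0⟩, 0, 0⟩ 0 0))) (.pos 45 .mp ⟨⟨517428130, 0, 0, 0, 0, 163536472, 0, 0, 0, ⟨0, 0⟩, 0⟩, 0, 0⟩ 0 0))) (.cut .s 14094336 (.pos 46 .mp ⟨⟨542879527, 0, 0, 0, 0, 129471047, 0, 0, 0, ⟨0, 0⟩, 0⟩, 0, 0⟩ 0 0) (.pos 46 .mp ⟨⟨549053919, 0, 0, 0, 0, 129959527, 0, 0, 0, ⟨0, 0⟩, 0⟩, 0, 0⟩ 0 0)))) (.cut .s 14131200 (.cut .v 16842752 (.cut .d (-8192)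 (.cut .d (-12288) (.pos 45 .mp ⟨⟨0, 0, 0, 0, 0, 1304743824, 0, 0, 0, ⟨0, 0⟩, 0⟩, 0, 0⟩ 0 0) (.cut .v 16809984 (.pos 49 .mp ⟨⟨0, 0, 0, 0, 0, 1294023589, 0, 0, 0, ⟨0, 0⟩, 0⟩, 0, 0⟩ 0 0) (.cut .l 184549 (.void 50 ⟨⟨100000, 0, 0, 0, 0, 0, 0, 0, 0, ⟨0, 0⟩, 0⟩, 0, 0⟩ 0 0) (.cut .s 14118912 (.pos 50 .mp ⟨⟨512019471, 0, 0, 0, 0, 212160695, 0, 0, 0, ⟨0, 0⟩, 0⟩, 0, 0⟩ 0 0) (.pos 50 .mp ⟨⟨517188138, 0, 0, 0, 0, 214979346, 0, 0, 0, ⟨0, 0⟩, 0⟩, 0, 0⟩ 0 0))))) (.cut .l 184549 (.cut .v 16809984 (.cut .s 14118912 (.cut .d (-4096) (.pos 49 .mp ⟨⟨511622535, 0, 0, 0, 0, 214061615, 0, 0, 0, ⟨0, 0⟩, 0⟩, 0, 0⟩ 0 0) (.cut .l 92274 (.cut .v 16793600 (.cut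 .d (-2048) (.pos 83 .mp ⟨⟨512367185, 0, 0, 0, 0, 211008015, 0, 0, 0, ⟨0, 0⟩, 0⟩, 0, 0⟩ 0 0) (.cut .s 14112768 (.pos 83 .mp ⟨⟨518935285, 0, 0, 0, 0, 187099615, 0, 0, 0, ⟨0, 0⟩, 0⟩, 0, 0⟩ 0 0) (.pos 83 .mp ⟨⟨521536343, 0, 0, 0, 0, 188375316, 0, 0, 0, ⟨0, 0⟩, 0⟩, 0, 0⟩ 0 0))) (.pos 84 .mp ⟨⟨561266674, 0, 0, 0, 0, 113456030, 0, 0, 0, ⟨0, 0⟩, 0⟩, 0, 0⟩ 0 0)) (.pos 49 .mp ⟨⟨520425365, 0, 0, 0, 0, 179367328, 0, 0, 0, ⟨0, 0⟩, 0⟩, 0, 0⟩ 0 0))) (.cut .d (-4096) (.pos 49 .mp ⟨⟨516769100, 0, 0, 0, 0, 217098445, 0, 0, 0, ⟨0, 0⟩, 0⟩, 0, 0⟩ 0 0) (.cut .l 92274 (.cut .d (-2048) (.pos 49 .mp ⟨⟨524657186, 0, 0, 0, 0, 197871827, 0, 0, 0, ⟨0, 0⟩, 0⟩, 0,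 0⟩ 0 0) (.cut .s 14125056 (.pos 49 .mp ⟨⟨525108225, 0, 0, 0, 0, 187811694, 0, 0, 0, ⟨0, 0⟩, 0⟩, 0, 0⟩ 0 0) (.pos 49 .mp ⟨⟨527745396, 0, 0, 0, 0, 189111788, 0, 0, 0, ⟨0, 0⟩, 0⟩, 0, 0⟩ 0 0))) (.pos 49 .mp ⟨⟨525681507, 0, 0, 0, 0, 181591786, 0, 0, 0, ⟨0, 0⟩, 0⟩, 0, 0⟩ 0 0)))) (.cut .s 14118912 (.pos 50 .mp ⟨⟨559342122, 0, 0, 0, 0, 119012165, 0, 0, 0, ⟨0, 0⟩, 0⟩, 0, 0⟩ 0 0) (.pos 50 .mp ⟨⟨566056383, 0, 0, 0, 0, 118780863, 0, 0, 0, ⟨0, 0⟩, 0⟩, 0, 0⟩ 0 0))) (.pos 45 .mp ⟨⟨527987200, 0, 0, 0, 0, 167529090, 0, 0, 0, ⟨0, 0⟩, 0⟩, 0, 0⟩ 0 0))) (.cut .s 14118912 (.pos 46 .mp ⟨⟨555471205, 0, 0, 0, 0, 130164099, 0, 0, 0, ⟨0, 0⟩, 0⟩, 0, 0⟩ 0 0) (.pos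 46 .mp ⟨⟨562140636, 0, 0, 0, 0, 130067753, 0, 0, 0, ⟨0, 0⟩, 0⟩, 0, 0⟩ 0 0))) (.cut .v 16842752 (.cut .d (-8192) (.cut .d (-12288) (.pos 45 .mp ⟨⟨0, 0, 0, 0, 0, 1334754618, 0, 0, 0, ⟨0, 0⟩, 0⟩, 0, 0⟩ 0 0) (.cut .l 184549 (.void 45 ⟨⟨0, 0, 0, 0, 0, 100000, 0, 0, 0, ⟨0, 0⟩, 0⟩, 0, 0⟩ 0 0) (.cut .s 14143488 (.pos 45 .mp ⟨⟨520508644, 0, 0, 0, 0, 221579038, 0, 0, 0, ⟨0, 0⟩, 0⟩, 0, 0⟩ 0 0) (.pos 45 .mp ⟨⟨525784165, 0, 0, 0, 0, 224576011, 0, 0, 0, ⟨0, 0⟩, 0⟩, 0, 0⟩ 0 0)))) (.cut .l 184549 (.cut .v 16809984 (.cut .s 14143488 (.cut .d (-4096) (.pos 49 .mp ⟨⟨521977742, 0, 0, 0, 0, 220238019, 0, 0, 0, ⟨0, 0⟩, 0⟩, 0, 0⟩ 0 0) (.cut .l 92274 (.cut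 .d (-2048) (.pos 49 .mp ⟨⟨530344900, 0, 0, 0, 0, 199664902, 0, 0, 0, ⟨0, 0⟩, 0⟩, 0, 0⟩ 0 0) (.cut .s 14137344 (.pos 49 .mp ⟨⟨530398490, 0, 0, 0, 0, 190428709, 0, 0, 0, ⟨0, 0⟩, 0⟩, 0, 0⟩ 0 0) (.pos 49 .mp ⟨⟨533024775, 0, 0, 0, 0, 191865506, 0, 0, 0, ⟨0, 0⟩, 0⟩, 0, 0⟩ 0 0))) (.pos 49 .mp ⟨⟨530999944, 0, 0, 0, 0, 183837425, 0, 0, 0, ⟨0, 0⟩, 0⟩, 0, 0⟩ 0 0))) (.cut .d (-4096) (.pos 49 .mp ⟨⟨527249310, 0, 0, 0, 0, 223481838, 0, 0, 0, ⟨0, 0⟩, 0⟩, 0, 0⟩ 0 0) (.cut .l 92274 (.cut .d (-2048) (.pos 49 .mp ⟨⟨536168515, 0, 0, 0, 0, 201353173, 0, 0, 0, ⟨0, 0⟩, 0⟩, 0, 0⟩ 0 0) (.cut .s 14149632 (.pos 49 .mp ⟨⟨535616738, 0, 0, 0, 0, 193440508, 0, 0,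 0, ⟨0, 0⟩, 0⟩, 0, 0⟩ 0 0) (.pos 49 .mp ⟨⟨538216754, 0, 0, 0, 0, 195051992, 0, 0, 0, ⟨0, 0⟩, 0⟩, 0, 0⟩ 0 0))) (.pos 49 .mp ⟨⟨536381537, 0, 0, 0, 0, 186102150, 0, 0, 0, ⟨0, 0⟩, 0⟩, 0, 0⟩ 0 0)))) (.pos 50 .mp ⟨⟨603916429, 0, 0, 0, 0, 67616092, 0, 0, 0, ⟨0, 0⟩, 0⟩, 0, 0⟩ 0 0)) (.pos 45 .mp ⟨⟨538793204, 0, 0, 0, 0, 171612096, 0, 0, 0, ⟨0, 0⟩, 0⟩, 0, 0⟩ 0 0))) (.cut .s 14143488 (.pos 46 .mp ⟨⟨569071615, 0, 0, 0, 0, 129653171, 0, 0, 0, ⟨0, 0⟩, 0⟩, 0, 0⟩ 0 0) (.pos 46 .mp ⟨⟨576273701, 0, 0, 0, 0, 128902720, 0, 0, 0, ⟨0, 0⟩, 0⟩, 0, 0⟩ 0 0))))) (.pos 36 .mp ⟨⟨632769382, 0, 0, 0, 0, 0, 0, 0, 0, ⟨0, 0⟩, 0⟩, 0, 0⟩ 0 0))))))) (.pos 34 .mp ⟨⟨709635912,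 0, 0, 0, 0, 0, 0, 0, 0, ⟨0, 0⟩, 0⟩, 0, 0⟩ 0 0))) (.void 32 ⟨⟨100000, 0, 0, 0, 0, 0, 0, 0, 0, ⟨0, 0⟩, 0⟩, 0, 0⟩ 0 0))) (.void 30 ⟨⟨100000, 0, 0, 0, 0, 0, 0, 0, 0, ⟨0, 0⟩, 0⟩, 0, 0⟩ 0 0))) (.void 28 ⟨⟨100000, 0, 0, 0, 0, 0, 0, 0, 0, ⟨0, 0⟩, 0⟩, 0, 0⟩ 0 0))) (.void 26 ⟨⟨100000, 0, 0, 0, 0, 0, 0, 0, 0, ⟨0, 0⟩, 0⟩, 0, 0⟩ 0 0))) (.void 24 ⟨⟨100000, 0, 0, 0, 0, 0, 0, 0, 0, ⟨0, 0⟩, 0⟩, 0, 0⟩ 0 0))) (.void 91 ⟨⟨100000, 0, 0, 0, 0, 0, 0, 0, 0, ⟨0, 0⟩, 0⟩, 0, 0⟩ 0 0)) (.void 112 ⟨⟨100036, 0, 0, 0, 0, 0, 0, 0, 0, ⟨0, 0⟩, 0⟩, 0, 0⟩ 0 0)) (.void 121 ⟨⟨92876, 0, 0, 7124, 0, 0, 0, 0, 0, ⟨0, 0⟩, 0⟩, 0, 0⟩ 0 0))) (.cut .v 16777216 (.cut .v 8388608 (.cut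 .v 4194304 (.cut .v 2097152 (.cut .v 1048576 (.pos 117 .pm ⟨⟨0, 0, 21532605, 0, 0, 0, 0, 0, 0, ⟨0, 0⟩, 0⟩, 0, 15406⟩ 0 0) (.pos 118 .pm ⟨⟨0, 0, 22368343, 0, 0, 0, 0, 0, 0, ⟨0, 0⟩, 0⟩, 0, 22656⟩ 0 0)) (.pos 114 .pm ⟨⟨0, 0, 25548719, 0, 0, 0, 0, 0, 0, ⟨0, 0⟩, 0⟩, 0, 42795⟩ 0 0)) (.pos 5 .pm ⟨⟨0, 0, 50306423, 0, 0, 0, 0, 0, 0, ⟨0, 0⟩, 0⟩, 0, 94003⟩ 0 0)) (.pos 3 .pm ⟨⟨0, 0, 0, 0, 0, 0, 0, 0, 0, ⟨0, 0⟩, 0⟩, 0, 0⟩ 0 0)) (.cut .v 268435456 (.cut .v 67108864 (.cut .d 1693476 (.cut .v 33554432 (.cut .d 846738 (.cut .v 25165824 (.cut .d 423369 (.cut .v 20971520 (.cut .d 211684 (.cut .v 18874368 (.cut .d 105842 (.cut .d 52921 (.cut .v 17825792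 (.cut .v 17301504 (.cut .s 14057472 (.pos 31 .pp ⟨⟨485360457, 0, 0, 0, 0, 0, 0, 0, 0, ⟨0, 0⟩, 0⟩, 9616761, 0⟩ 0 0) (.pos 31 .pp ⟨⟨522971183, 0, 0, 0, 0, 0, 0, 0, 0, ⟨0, 0⟩, 0⟩, 10978801, 0⟩ 0 0)) (.pos 32 .pp ⟨⟨607737636, 0, 0, 0, 0, 0, 0, 0, 0, ⟨0, 0⟩, 0⟩, 0, 0⟩ 0 0)) (.pos 30 .pp ⟨⟨688760802, 0, 0, 0, 0, 0, 0, 0, 0, ⟨0, 0⟩, 0⟩, 0, 0⟩ 0 0)) (.pos 27 .pp ⟨⟨538303290, 0, 0, 0, 0, 0, 0, 0, 0, ⟨0, 0⟩, 0⟩, 0, 211⟩ 0 0)) (.pos 27 .pp ⟨⟨0, 0, 0, 0, 0, 0, 0, 0, 0, ⟨0, 0⟩, 0⟩, 0, 248832⟩ 0 0)) (.cut .d 105842 (.pos 28 .pp ⟨⟨820701268, 0, 0, 0, 0, 0, 0, 0, 0, ⟨0, 0⟩, 0⟩, 0, 0⟩ 0 0) (.cut .v 19922944 (.pos 53 .pp ⟨⟨627606876, 0, 0, 0, 0, 0, 0,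 0, 0, ⟨0, 0⟩, 0⟩, 0, 0⟩ 0 0) (.pos 54 .pp ⟨⟨730602809, 0, 0, 0, 0, 0, 0, 0, 0, ⟨0, 0⟩, 0⟩, 0, 0⟩ 0 0)))) (.pos 25 .pp ⟨⟨0, 0, 0, 0, 0, 0, 0, 0, 0, ⟨0, 0⟩, 0⟩, 0, 261120⟩ 0 0)) (.cut .d 211684 (.cut .v 23068672 (.cut .v 22020096 (.cut .d 105842 (.void 57 ⟨⟨0, 0, 0, 0, 0, 0, 0, 0, 0, ⟨0, 0⟩, 0⟩, 100000, 0⟩ 0 0) (.pos 57 .pp ⟨⟨843625856, 0, 0, 0, 0, 0, 0, 0, 0, ⟨0, 0⟩, 0⟩, 0, 0⟩ 0 0)) (.pos 58 .pp ⟨⟨981117298, 0, 0, 0, 0, 0, 0, 0, 0, ⟨0, 0⟩, 0⟩, 0, 0⟩ 0 0)) (.void 56 ⟨⟨0, 0, 0, 0, 0, 0, 0, 0, 0, ⟨0, 0⟩, 0⟩, 100000, 0⟩ 0 0)) (.cut .v 23068672 (.pos 55 .pp ⟨⟨97040910, 0, 0, 0, 0, 0, 43415, 0, 0, ⟨0, 0⟩, 0⟩, 94693306, 0⟩ 0 0) (.pos 56 .pp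 ⟨⟨0, 0, 0, 0, 0, 0, 0, 0, 0, ⟨0, 0⟩, 0⟩, 131625266, 0⟩ 0 0)))) (.pos 23 .pp ⟨⟨0, 0, 0, 0, 0, 0, 0, 0, 0, ⟨0, 0⟩, 0⟩, 0, 282009⟩ 0 0)) (.cut .d 423369 (.cut .v 29360128 (.pos 75 .pp ⟨⟨0, 0, 0, 0, 0, 0, 0, 0, 0, ⟨0, 0⟩, 0⟩, 186041634, 0⟩ 0 0) (.void 76 ⟨⟨0, 0, 0, 0, 0, 0, 0, 0, 0, ⟨0, 0⟩, 0⟩, 100000, 0⟩ 0 0)) (.pos 24 .pp ⟨⟨0, 0, 0, 0, 0, 0, 0, 0, 0, ⟨0, 0⟩, 0⟩, 126195966, 0⟩ 0 0))) (.pos 22 .pp ⟨⟨0, 0, 0, 0, 0, 0, 939619, 0, 0, ⟨0, 0⟩, 0⟩, 0, 0⟩ 0 0)) (.cut .d 846738 (.pos 91 .pp ⟨⟨0, 0, 0, 0, 0, 0, 0, 0, 0, ⟨0, 0⟩, 0⟩, 369252392, 0⟩ 0 0) (.pos 91 .pp ⟨⟨0, 0, 0, 0, 0, 0, 0, 0, 0, ⟨0, 0⟩, 0⟩, 173814371, 0⟩ 0 0))) (.pos 90 .pp ⟨⟨0, 0,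 0, 0, 0, 0, 0, 0, 0, ⟨0, 0⟩, 0⟩, 0, 235008⟩ 0 0)) (.void 112 ⟨⟨0, 0, 0, 48757, 0, 0, 0, 0, 0, ⟨0, 0⟩, 0⟩, 51243, 0⟩ 0 0)) (.void 121 ⟨⟨0, 0, 0, 0, 0, 0, 0, 0, 0, ⟨0, 0⟩, 0⟩, 100000, 0⟩ 0 0)))),
    by decide +kernel⟩

theorem covers27 : cell.Covers Vale.Agent.P237.Petty.Cor.Grid.N10.table row27.1 :=
  ⟨(.cut .d 0 (.cut .v 16777216 (.cut .v 8388608 (.void 2 ⟨⟨0, 0, 100000, 0, 0, 0, 0, 0, 0, ⟨0, 0⟩, 0⟩, 0, 0⟩ 0 0) (.cut .d (-8388608) (.void 3 ⟨⟨100000, 0, 0, 0, 0, 0, 0, 0, 0, ⟨0, 0⟩, 0⟩, 0, 0⟩ 0 0) (.cut .d (-4194304) (.void 3 ⟨⟨100000, 0, 0, 0, 0, 0, 0, 0, 0, ⟨0, 0⟩, 0⟩, 0, 0⟩ 0 0) (.cut .d (-2097152) (.void 3 ⟨⟨100000, 0, 0, 0, 0, 0,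 0, 0, 0, ⟨0, 0⟩, 0⟩, 0, 0⟩ 0 0) (.cut .d (-1048576) (.void 3 ⟨⟨0, 0, 0, 0, 0, 100000, 0, 0, 0, ⟨0, 0⟩, 0⟩, 0, 0⟩ 0 0) (.cut .d (-524288) (.void 3 ⟨⟨0, 0, 0, 0, 0, 100000, 0, 0, 0, ⟨0, 0⟩, 0⟩, 0, 0⟩ 0 0) (.cut .s 14237696 (.pos 3 .mm ⟨⟨0, 0, 0, 0, 0, 1303522761, 0, 0, 0, ⟨0, 0⟩, 0⟩, 0, 0⟩ 0 0) (.pos 3 .mm ⟨⟨0, 0, 0, 0, 0, 1409380816, 0, 0, 0, ⟨0, 0⟩, 0⟩, 0, 0⟩ 0 0)))))))) (.cut .v 268435456 (.cut .v 67108864 (.cut .v 33554432 (.cut .d (-8388608) (.void 22 ⟨⟨100018, 0, 0, 0, 0, 0, 0, 0, 0, ⟨0, 0⟩, 0⟩, 0, 0⟩ 0 0) (.cut .v 25165824 (.cut .d (-4194304) (.void 23 ⟨⟨100000, 0, 0, 0, 0, 0, 0, 0, 0, ⟨0, 0⟩, 0⟩, 0, 0⟩ 0 0) (.cut .v 20971520 (.cut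 .d (-2097152) (.void 25 ⟨⟨100000, 0, 0, 0, 0, 0, 0, 0, 0, ⟨0, 0⟩, 0⟩, 0, 0⟩ 0 0) (.cut .v 18874368 (.cut .d (-1048576) (.void 27 ⟨⟨100000, 0, 0, 0, 0, 0, 0, 0, 0, ⟨0, 0⟩, 0⟩, 0, 0⟩ 0 0) (.cut .v 17825792 (.cut .d (-524288) (.void 29 ⟨⟨100000, 0, 0, 0, 0, 0, 0, 0, 0, ⟨0, 0⟩, 0⟩, 0, 0⟩ 0 0) (.cut .v 17301504 (.cut .d (-262144) (.void 31 ⟨⟨100000, 0, 0, 0, 0, 0, 0, 0, 0, ⟨0, 0⟩, 0⟩, 0, 0⟩ 0 0) (.cut .v 17039360 (.cut .d (-131072) (.void 33 ⟨⟨100000, 0, 0, 0, 0, 0, 0, 0, 0, ⟨0, 0⟩, 0⟩, 0, 0⟩ 0 0) (.cut .d (-65536) (.void 33 ⟨⟨100000, 0, 0, 0, 0, 0, 0, 0, 0, ⟨0, 0⟩, 0⟩, 0, 0⟩ 0 0) (.cut .d (-32768) (.void 33 ⟨⟨100000, 0, 0, 0, 0, 0, 0, 0,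 0, ⟨0, 0⟩, 0⟩, 0, 0⟩ 0 0) (.cut .d (-16384) (.void 33 ⟨⟨0, 0, 0, 0, 0, 100000, 0, 0, 0, ⟨0, 0⟩, 0⟩, 0, 0⟩ 0 0) (.cut .s 14237696 (.cut .v 16908288 (.cut .s 14196736 (.cut .v 16842752 (.cut .s 14176256 (.cut .d (-8192) (.cut .s 14166016 (.pos 45 .mp ⟨⟨531122019, 0, 0, 0, 0, 231516564, 0, 0, 0, ⟨0, 0⟩, 0⟩, 0, 0⟩ 0 0) (.pos 45 .mp ⟨⟨535633000, 0, 0, 0, 0, 233353995, 0, 0, 0, ⟨0, 0⟩, 0⟩, 0, 0⟩ 0 0)) (.cut .l 184549 (.cut .v 16809984 (.cut .s 14166016 (.cut .d (-4096) (.pos 49 .mp ⟨⟨532583291, 0, 0, 0, 0, 225328836, 0, 0, 0, ⟨0, 0⟩, 0⟩, 0, 0⟩ 0 0) (.cut .s 14160896 (.pos 49 .mp ⟨⟨543173350, 0, 0, 0, 0, 191781641, 0, 0, 0, ⟨0, 0⟩, 0⟩, 0,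 0⟩ 0 0) (.pos 49 .mp ⟨⟨545464826, 0, 0, 0, 0, 192604947, 0, 0, 0, ⟨0, 0⟩, 0⟩, 0, 0⟩ 0 0))) (.cut .d (-4096) (.pos 49 .mp ⟨⟨537085438, 0, 0, 0, 0, 227155237, 0, 0, 0, ⟨0, 0⟩, 0⟩, 0, 0⟩ 0 0) (.cut .s 14171136 (.pos 49 .mp ⟨⟨547768316, 0, 0, 0, 0, 193443333, 0, 0, 0, ⟨0, 0⟩, 0⟩, 0, 0⟩ 0 0) (.pos 49 .mp ⟨⟨550083890, 0, 0, 0, 0, 194296786, 0, 0, 0, ⟨0, 0⟩, 0⟩, 0, 0⟩ 0 0)))) (.pos 50 .mp ⟨⟨600138572, 0, 0, 0, 0, 97956389, 0, 0, 0, ⟨0, 0⟩, 0⟩, 0, 0⟩ 0 0)) (.pos 45 .mp ⟨⟨548624726, 0, 0, 0, 0, 179217744, 0, 0, 0, ⟨0, 0⟩, 0⟩, 0, 0⟩ 0 0))) (.cut .d (-8192) (.cut .s 14186496 (.pos 45 .mp ⟨⟨540191120, 0, 0, 0, 0, 235269704, 0, 0, 0, ⟨0, 0⟩, 0⟩,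 0, 0⟩ 0 0) (.pos 45 .mp ⟨⟨544796926, 0, 0, 0, 0, 237264668, 0, 0, 0, ⟨0, 0⟩, 0⟩, 0, 0⟩ 0 0)) (.cut .l 184549 (.cut .v 16809984 (.cut .s 14186496 (.cut .d (-4096) (.pos 49 .mp ⟨⟨541634613, 0, 0, 0, 0, 229059754, 0, 0, 0, ⟨0, 0⟩, 0⟩, 0, 0⟩ 0 0) (.cut .s 14181376 (.pos 49 .mp ⟨⟨552411616, 0, 0, 0, 0, 195165294, 0, 0, 0, ⟨0, 0⟩, 0⟩, 0, 0⟩ 0 0) (.pos 49 .mp ⟨⟨554751565, 0, 0, 0, 0, 196048844, 0, 0, 0, ⟨0, 0⟩, 0⟩, 0, 0⟩ 0 0))) (.cut .d (-4096) (.pos 49 .mp ⟨⟨546231363, 0, 0, 0, 0, 231043361, 0, 0, 0, ⟨0, 0⟩, 0⟩, 0, 0⟩ 0 0) (.cut .l 92274 (.cut .d (-2048) (.pos 49 .mp ⟨⟨554943312, 0, 0, 0, 0, 209204708, 0, 0, 0, ⟨0, 0⟩, 0⟩, 0, 0⟩ 0 0) (.cut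 .s 14191616 (.pos 49 .mp ⟨⟨554283431, 0, 0, 0, 0, 202381098, 0, 0, 0, ⟨0, 0⟩, 0⟩, 0, 0⟩ 0 0) (.pos 49 .mp ⟨⟨556704365, 0, 0, 0, 0, 203151279, 0, 0, 0, ⟨0, 0⟩, 0⟩, 0, 0⟩ 0 0))) (.pos 49 .mp ⟨⟨555167097, 0, 0, 0, 0, 195963067, 0, 0, 0, ⟨0, 0⟩, 0⟩, 0, 0⟩ 0 0)))) (.pos 50 .mp ⟨⟨608755336, 0, 0, 0, 0, 102924856, 0, 0, 0, ⟨0, 0⟩, 0⟩, 0, 0⟩ 0 0)) (.pos 45 .mp ⟨⟨558027320, 0, 0, 0, 0, 182900664, 0, 0, 0, ⟨0, 0⟩, 0⟩, 0, 0⟩ 0 0)))) (.cut .d (-8192) (.cut .s 14176256 (.pos 46 .mp ⟨⟨581915786, 0, 0, 0, 0, 139522747, 0, 0, 0, ⟨0, 0⟩, 0⟩, 0, 0⟩ 0 0) (.pos 46 .mp ⟨⟨590076443, 0, 0, 0, 0, 145553797, 0, 0, 0, ⟨0, 0⟩, 0⟩, 0, 0⟩ 0 0)) (.pos 46 .mp ⟨⟨652559577,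 0, 0, 0, 0, 0, 0, 0, 0, ⟨0, 0⟩, 0⟩, 0, 0⟩ 0 0))) (.cut .d (-8192) (.cut .l 184549 (.void 35 ⟨⟨0, 0, 0, 0, 0, 100000, 0, 0, 0, ⟨0, 0⟩, 0⟩, 0, 0⟩ 0 0) (.cut .v 16842752 (.cut .d (-12288) (.pos 45 .mp ⟨⟨0, 0, 0, 0, 0, 1428182688, 0, 0, 0, ⟨0, 0⟩, 0⟩, 0, 0⟩ 0 0) (.cut .v 16809984 (.pos 49 .mp ⟨⟨0, 0, 0, 0, 0, 1394556573, 0, 0, 0, ⟨0, 0⟩, 0⟩, 0, 0⟩ 0 0) (.cut .s 14217216 (.cut .s 14206976 (.pos 50 .mp ⟨⟨551463957, 0, 0, 0, 0, 231531071, 0, 0, 0, ⟨0, 0⟩, 0⟩, 0, 0⟩ 0 0) (.pos 50 .mp ⟨⟨556183447, 0, 0, 0, 0, 233724149, 0, 0, 0, ⟨0, 0⟩, 0⟩, 0, 0⟩ 0 0)) (.cut .s 14227456 (.pos 50 .mp ⟨⟨560952492, 0, 0, 0, 0, 235980108, 0, 0, 0, ⟨0, 0⟩, 0⟩, 0,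 0⟩ 0 0) (.pos 50 .mp ⟨⟨565771676, 0, 0, 0, 0, 238298838, 0, 0, 0, ⟨0, 0⟩, 0⟩, 0, 0⟩ 0 0))))) (.cut .d (-12288) (.pos 46 .mp ⟨⟨575822294, 0, 0, 0, 0, 230504351, 0, 0, 0, ⟨0, 0⟩, 0⟩, 0, 0⟩ 0 0) (.cut .s 14217216 (.pos 46 .mp ⟨⟨617143666, 0, 0, 0, 0, 110465691, 0, 0, 0, ⟨0, 0⟩, 0⟩, 0, 0⟩ 0 0) (.pos 46 .mp ⟨⟨627002136, 0, 0, 0, 0, 114284924, 0, 0, 0, ⟨0, 0⟩, 0⟩, 0, 0⟩ 0 0))))) (.cut .v 16842752 (.cut .l 184549 (.cut .s 14217216 (.cut .v 16809984 (.cut .s 14206976 (.cut .d (-4096) (.pos 49 .mp ⟨⟨550876241, 0, 0, 0, 0, 233107045, 0, 0, 0, ⟨0, 0⟩, 0⟩, 0, 0⟩ 0 0) (.cut .l 92274 (.cut .d (-2048) (.pos 49 .mp ⟨⟨559354609, 0, 0, 0, 0, 211943039,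 0, 0, 0, ⟨0, 0⟩, 0⟩, 0, 0⟩ 0 0) (.cut .s 14201856 (.pos 49 .mp ⟨⟨559133790, 0, 0, 0, 0, 203945896, 0, 0, 0, ⟨0, 0⟩, 0⟩, 0, 0⟩ 0 0) (.pos 49 .mp ⟨⟨561571644, 0, 0, 0, 0, 204765255, 0, 0, 0, ⟨0, 0⟩, 0⟩, 0, 0⟩ 0 0))) (.pos 49 .mp ⟨⟨559897143, 0, 0, 0, 0, 198025633, 0, 0, 0, ⟨0, 0⟩, 0⟩, 0, 0⟩ 0 0))) (.cut .d (-4096) (.pos 49 .mp ⟨⟨555569812, 0, 0, 0, 0, 235251811, 0, 0, 0, ⟨0, 0⟩, 0⟩, 0, 0⟩ 0 0) (.cut .l 92274 (.cut .d (-2048) (.pos 49 .mp ⟨⟨563855653, 0, 0, 0, 0, 214646259, 0, 0, 0, ⟨0, 0⟩, 0⟩, 0, 0⟩ 0 0) (.cut .s 14212096 (.pos 49 .mp ⟨⟨564017868, 0, 0, 0, 0, 205609664, 0, 0, 0, ⟨0, 0⟩, 0⟩, 0, 0⟩ 0 0) (.pos 49 .mp ⟨⟨566418957, 0, 0, 0,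 0, 206608085, 0, 0, 0, ⟨0, 0⟩, 0⟩, 0, 0⟩ 0 0))) (.pos 49 .mp ⟨⟨564676991, 0, 0, 0, 0, 200119358, 0, 0, 0, ⟨0, 0⟩, 0⟩, 0, 0⟩ 0 0)))) (.cut .s 14206976 (.pos 50 .mp ⟨⟨594389875, 0, 0, 0, 0, 145083238, 0, 0, 0, ⟨0, 0⟩, 0⟩, 0, 0⟩ 0 0) (.pos 50 .mp ⟨⟨598869824, 0, 0, 0, 0, 147688483, 0, 0, 0, ⟨0, 0⟩, 0⟩, 0, 0⟩ 0 0))) (.cut .v 16809984 (.cut .s 14227456 (.cut .d (-4096) (.pos 49 .mp ⟨⟨560312648, 0, 0, 0, 0, 237478679, 0, 0, 0, ⟨0, 0⟩, 0⟩, 0, 0⟩ 0 0) (.cut .l 92274 (.cut .d (-2048) (.pos 49 .mp ⟨⟨568449083, 0, 0, 0, 0, 217309291, 0, 0, 0, ⟨0, 0⟩, 0⟩, 0, 0⟩ 0 0) (.cut .s 14222336 (.pos 49 .mp ⟨⟨568829651, 0, 0, 0, 0, 207628916, 0, 0, 0, ⟨0,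 0⟩, 0⟩, 0, 0⟩ 0 0) (.pos 49 .mp ⟨⟨571253024, 0, 0, 0, 0, 208664916, 0, 0, 0, ⟨0, 0⟩, 0⟩, 0, 0⟩ 0 0))) (.pos 49 .mp ⟨⟨569507230, 0, 0, 0, 0, 202242790, 0, 0, 0, ⟨0, 0⟩, 0⟩, 0, 0⟩ 0 0))) (.cut .d (-4096) (.pos 49 .mp ⟨⟨565105332, 0, 0, 0, 0, 239788687, 0, 0, 0, ⟨0, 0⟩, 0⟩, 0, 0⟩ 0 0) (.cut .l 92274 (.cut .d (-2048) (.pos 49 .mp ⟨⟨573137571, 0, 0, 0, 0, 219926988, 0, 0, 0, ⟨0, 0⟩, 0⟩, 0, 0⟩ 0 0) (.cut .s 14232576 (.pos 49 .mp ⟨⟨573689152, 0, 0, 0, 0, 209716067, 0, 0, 0, ⟨0, 0⟩, 0⟩, 0, 0⟩ 0 0) (.pos 49 .mp ⟨⟨576138111, 0, 0, 0, 0, 210782352, 0, 0, 0, ⟨0, 0⟩, 0⟩, 0, 0⟩ 0 0))) (.pos 49 .mp ⟨⟨574388456, 0, 0, 0, 0, 204394455, 0, 0, 0, ⟨0,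 0⟩, 0⟩, 0, 0⟩ 0 0)))) (.cut .s 14227456 (.pos 50 .mp ⟨⟨603521596, 0, 0, 0, 0, 150118812, 0, 0, 0, ⟨0, 0⟩, 0⟩, 0, 0⟩ 0 0) (.pos 50 .mp ⟨⟨608351769, 0, 0, 0, 0, 152362165, 0, 0, 0, ⟨0, 0⟩, 0⟩, 0, 0⟩ 0 0)))) (.cut .d (-4096) (.cut .d (-6144) (.cut .s 14217216 (.pos 45 .mp ⟨⟨567629395, 0, 0, 0, 0, 187934253, 0, 0, 0, ⟨0, 0⟩, 0⟩, 0, 0⟩ 0 0) (.cut .s 14227456 (.pos 45 .mp ⟨⟨572506709, 0, 0, 0, 0, 200521525, 0, 0, 0, ⟨0, 0⟩, 0⟩, 0, 0⟩ 0 0) (.pos 45 .mp ⟨⟨577435678, 0, 0, 0, 0, 202442365, 0, 0, 0, ⟨0, 0⟩, 0⟩, 0, 0⟩ 0 0))) (.pos 45 .mp ⟨⟨567693203, 0, 0, 0, 0, 0, 0, 0, 0, ⟨0, 0⟩, 0⟩, 0, 0⟩ 0 0)) (.pos 45 .mp ⟨⟨0, 0, 0, 0, 0, 0, 0, 0, 0, ⟨0,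 0⟩, 0⟩, 0, 0⟩ 0 0))) (.pos 46 .mp ⟨⟨675045575, 0, 0, 0, 0, 0, 0, 0, 0, ⟨0, 0⟩, 0⟩, 0, 0⟩ 0 0)))) (.pos 36 .mp ⟨⟨682414564, 0, 0, 0, 0, 0, 0, 0, 0, ⟨0, 0⟩, 0⟩, 0, 0⟩ 0 0)) (.cut .v 16908288 (.cut .s 14278656 (.cut .d (-8192) (.cut .l 184549 (.void 35 ⟨⟨0, 0, 0, 0, 0, 100000, 0, 0, 0, ⟨0, 0⟩, 0⟩, 0, 0⟩ 0 0) (.cut .s 14258176 (.cut .d (-12288) (.pos 35 .mp ⟨⟨581384548, 0, 0, 0, 0, 245095665, 0, 0, 0, ⟨0, 0⟩, 0⟩, 0, 0⟩ 0 0) (.cut .v 16842752 (.cut .s 14247936 (.pos 45 .mp ⟨⟨568561011, 0, 0, 0, 0, 244737647, 0, 0, 0, ⟨0, 0⟩, 0⟩, 0, 0⟩ 0 0) (.pos 45 .mp ⟨⟨573464924, 0, 0, 0, 0, 247216913, 0, 0, 0, ⟨0, 0⟩, 0⟩, 0, 0⟩ 0 0)) (.pos 46 .mp ⟨⟨637557881,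 0, 0, 0, 0, 117386203, 0, 0, 0, ⟨0, 0⟩, 0⟩, 0, 0⟩ 0 0))) (.cut .d (-12288) (.pos 35 .mp ⟨⟨591487716, 0, 0, 0, 0, 250295156, 0, 0, 0, ⟨0, 0⟩, 0⟩, 0, 0⟩ 0 0) (.cut .v 16842752 (.cut .s 14268416 (.pos 45 .mp ⟨⟨578420608, 0, 0, 0, 0, 249758938, 0, 0, 0, ⟨0, 0⟩, 0⟩, 0, 0⟩ 0 0) (.pos 45 .mp ⟨⟨583428684, 0, 0, 0, 0, 252363575, 0, 0, 0, ⟨0, 0⟩, 0⟩, 0, 0⟩ 0 0)) (.pos 46 .mp ⟨⟨648864441, 0, 0, 0, 0, 119671266, 0, 0, 0, ⟨0, 0⟩, 0⟩, 0, 0⟩ 0 0))))) (.cut .v 16842752 (.cut .l 184549 (.cut .s 14258176 (.cut .v 16809984 (.cut .s 14247936 (.cut .d (-4096) (.pos 49 .mp ⟨⟨569948454, 0, 0, 0, 0, 242182888, 0, 0, 0, ⟨0, 0⟩, 0⟩, 0, 0⟩ 0 0) (.cut .l 92274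 (.cut .d (-2048) (.pos 49 .mp ⟨⟨577923824, 0, 0, 0, 0, 222494126, 0, 0, 0, ⟨0, 0⟩, 0⟩, 0, 0⟩ 0 0) (.cut .s 14242816 (.pos 49 .mp ⟨⟨578599975, 0, 0, 0, 0, 211863754, 0, 0, 0, ⟨0, 0⟩, 0⟩, 0, 0⟩ 0 0) (.pos 49 .mp ⟨⟨581074824, 0, 0, 0, 0, 212960251, 0, 0, 0, ⟨0, 0⟩, 0⟩, 0, 0⟩ 0 0))) (.pos 49 .mp ⟨⟨579321277, 0, 0, 0, 0, 206572865, 0, 0, 0, ⟨0, 0⟩, 0⟩, 0, 0⟩ 0 0))) (.cut .d (-4096) (.pos 49 .mp ⟨⟨574842616, 0, 0, 0, 0, 244662353, 0, 0, 0, ⟨0, 0⟩, 0⟩, 0, 0⟩ 0 0) (.cut .l 92274 (.cut .d (-2048) (.pos 49 .mp ⟨⟨576588584, 0, 0, 0, 0, 242811509, 0, 0, 0, ⟨0, 0⟩, 0⟩, 0, 0⟩ 0 0) (.cut .s 14253056 (.pos 49 .mp ⟨⟨583562733, 0, 0, 0, 0, 214071826,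 0, 0, 0, ⟨0, 0⟩, 0⟩, 0, 0⟩ 0 0) (.cut .s 14255616 (.pos 49 .mp ⟨⟨584366750, 0, 0, 0, 0, 217827553, 0, 0, 0, ⟨0, 0⟩, 0⟩, 0, 0⟩ 0 0) (.pos 49 .mp ⟨⟨585610133, 0, 0, 0, 0, 218416211, 0, 0, 0, ⟨0, 0⟩, 0⟩, 0, 0⟩ 0 0)))) (.pos 49 .mp ⟨⟨584306310, 0, 0, 0, 0, 208776510, 0, 0, 0, ⟨0, 0⟩, 0⟩, 0, 0⟩ 0 0)))) (.cut .s 14247936 (.pos 50 .mp ⟨⟨613367013, 0, 0, 0, 0, 154406290, 0, 0, 0, ⟨0, 0⟩, 0⟩, 0, 0⟩ 0 0) (.pos 50 .mp ⟨⟨618574096, 0, 0, 0, 0, 156238743, 0, 0, 0, ⟨0, 0⟩, 0⟩, 0, 0⟩ 0 0))) (.cut .v 16809984 (.cut .s 14268416 (.cut .d (-4096) (.pos 49 .mp ⟨⟨579788427, 0, 0, 0, 0, 247228168, 0, 0, 0, ⟨0, 0⟩, 0⟩, 0, 0⟩ 0 0) (.cut .l 92274 (.cut .d (-2048)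 (.pos 49 .mp ⟨⟨581538267, 0, 0, 0, 0, 245387468, 0, 0, 0, ⟨0, 0⟩, 0⟩, 0, 0⟩ 0 0) (.cut .v 16793600 (.cut .s 14263296 (.pos 83 .mp ⟨⟨587511165, 0, 0, 0, 0, 218424238, 0, 0, 0, ⟨0, 0⟩, 0⟩, 0, 0⟩ 0 0) (.pos 83 .mp ⟨⟨590034281, 0, 0, 0, 0, 219589995, 0, 0, 0, ⟨0, 0⟩, 0⟩, 0, 0⟩ 0 0)) (.pos 84 .mp ⟨⟨695833753, 0, 0, 0, 0, 0, 0, 0, 0, ⟨0, 0⟩, 0⟩, 0, 0⟩ 0 0))) (.pos 49 .mp ⟨⟨589344184, 0, 0, 0, 0, 211003861, 0, 0, 0, ⟨0, 0⟩, 0⟩, 0, 0⟩ 0 0))) (.cut .d (-4096) (.pos 49 .mp ⟨⟨584786510, 0, 0, 0, 0, 249881441, 0, 0, 0, ⟨0, 0⟩, 0⟩, 0, 0⟩ 0 0) (.cut .l 92274 (.cut .d (-2048) (.pos 49 .mp ⟨⟨586540253, 0, 0, 0, 0, 248051064, 0, 0, 0, ⟨0, 0⟩, 0⟩, 0,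 0⟩ 0 0) (.cut .v 16793600 (.cut .s 14273536 (.pos 83 .mp ⟨⟨592570751, 0, 0, 0, 0, 220770791, 0, 0, 0, ⟨0, 0⟩, 0⟩, 0, 0⟩ 0 0) (.pos 83 .mp ⟨⟨595120656, 0, 0, 0, 0, 221966602, 0, 0, 0, ⟨0, 0⟩, 0⟩, 0, 0⟩ 0 0)) (.pos 84 .mp ⟨⟨702010322, 0, 0, 0, 0, 0, 0, 0, 0, ⟨0, 0⟩, 0⟩, 0, 0⟩ 0 0))) (.pos 49 .mp ⟨⟨594435534, 0, 0, 0, 0, 213253370, 0, 0, 0, ⟨0, 0⟩, 0⟩, 0, 0⟩ 0 0)))) (.cut .s 14268416 (.pos 50 .mp ⟨⟨623979880, 0, 0, 0, 0, 157846884, 0, 0, 0, ⟨0, 0⟩, 0⟩, 0, 0⟩ 0 0) (.pos 50 .mp ⟨⟨629591327, 0, 0, 0, 0, 159217870, 0, 0, 0, ⟨0, 0⟩, 0⟩, 0, 0⟩ 0 0)))) (.cut .d (-4096) (.cut .d (-6144) (.cut .v 16809984 (.pos 49 .mp ⟨⟨0, 0, 0, 0, 0, 1234965899,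 0, 0, 0, ⟨0, 0⟩, 0⟩, 0, 0⟩ 0 0) (.cut .s 14258176 (.pos 50 .mp ⟨⟨589580749, 0, 0, 0, 0, 196933456, 0, 0, 0, ⟨0, 0⟩, 0⟩, 0, 0⟩ 0 0) (.pos 50 .mp ⟨⟨599846113, 0, 0, 0, 0, 200952721, 0, 0, 0, ⟨0, 0⟩, 0⟩, 0, 0⟩ 0 0))) (.pos 45 .mp ⟨⟨587455973, 0, 0, 0, 0, 0, 0, 0, 0, ⟨0, 0⟩, 0⟩, 0, 0⟩ 0 0)) (.pos 45 .mp ⟨⟨0, 0, 0, 0, 0, 0, 0, 0, 0, ⟨0, 0⟩, 0⟩, 0, 0⟩ 0 0))) (.pos 46 .mp ⟨⟨698932926, 0, 0, 0, 0, 0, 0, 0, 0, ⟨0, 0⟩, 0⟩, 0, 0⟩ 0 0))) (.cut .d (-8192) (.cut .l 184549 (.void 35 ⟨⟨0, 0, 0, 0, 0, 100000, 0, 0, 0, ⟨0, 0⟩, 0⟩, 0, 0⟩ 0 0) (.cut .s 14299136 (.cut .d (-12288) (.pos 35 .mp ⟨⟨601797113, 0, 0, 0, 0, 255871372, 0, 0, 0, ⟨0, 0⟩, 0⟩, 0, 0⟩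 0 0) (.cut .v 16842752 (.cut .s 14288896 (.pos 45 .mp ⟨⟨588489786, 0, 0, 0, 0, 255030666, 0, 0, 0, ⟨0, 0⟩, 0⟩, 0, 0⟩ 0 0) (.pos 45 .mp ⟨⟨593604555, 0, 0, 0, 0, 257760039, 0, 0, 0, ⟨0, 0⟩, 0⟩, 0, 0⟩ 0 0)) (.pos 46 .mp ⟨⟨660976881, 0, 0, 0, 0, 121038750, 0, 0, 0, ⟨0, 0⟩, 0⟩, 0, 0⟩ 0 0))) (.cut .d (-12288) (.pos 35 .mp ⟨⟨612317530, 0, 0, 0, 0, 261834776, 0, 0, 0, ⟨0, 0⟩, 0⟩, 0, 0⟩ 0 0) (.cut .v 16842752 (.cut .s 14309376 (.pos 45 .mp ⟨⟨598773646, 0, 0, 0, 0, 260551514, 0, 0, 0, ⟨0, 0⟩, 0⟩, 0, 0⟩ 0 0) (.pos 45 .mp ⟨⟨603997723, 0, 0, 0, 0, 263404894, 0, 0, 0, ⟨0, 0⟩, 0⟩, 0, 0⟩ 0 0)) (.pos 46 .mp ⟨⟨673951851, 0, 0, 0, 0, 121384062, 0, 0,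 0, ⟨0, 0⟩, 0⟩, 0, 0⟩ 0 0))))) (.cut .v 16842752 (.cut .l 184549 (.cut .s 14299136 (.cut .v 16809984 (.cut .s 14288896 (.cut .d (-4096) (.pos 49 .mp ⟨⟨589837494, 0, 0, 0, 0, 252623293, 0, 0, 0, ⟨0, 0⟩, 0⟩, 0, 0⟩ 0 0) (.cut .l 92274 (.cut .d (-2048) (.pos 49 .mp ⟨⟨591595173, 0, 0, 0, 0, 250803422, 0, 0, 0, ⟨0, 0⟩, 0⟩, 0, 0⟩ 0 0) (.cut .s 14283776 (.cut .s 14281216 (.pos 49 .mp ⟨⟨597070730, 0, 0, 0, 0, 223666971, 0, 0, 0, ⟨0, 0⟩, 0⟩, 0, 0⟩ 0 0) (.pos 49 .mp ⟨⟨598374945, 0, 0, 0, 0, 224243953, 0, 0, 0, ⟨0, 0⟩, 0⟩, 0, 0⟩ 0 0)) (.pos 49 .mp ⟨⟨601350448, 0, 0, 0, 0, 222273193, 0, 0, 0, ⟨0, 0⟩, 0⟩, 0, 0⟩ 0 0))) (.pos 49 .mp ⟨⟨599581010, 0,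 0, 0, 0, 215523469, 0, 0, 0, ⟨0, 0⟩, 0⟩, 0, 0⟩ 0 0))) (.cut .d (-4096) (.pos 49 .mp ⟨⟨594942021, 0, 0, 0, 0, 255454868, 0, 0, 0, ⟨0, 0⟩, 0⟩, 0, 0⟩ 0 0) (.cut .l 92274 (.cut .d (-2048) (.pos 49 .mp ⟨⟨596703668, 0, 0, 0, 0, 253645690, 0, 0, 0, ⟨0, 0⟩, 0⟩, 0, 0⟩ 0 0) (.cut .s 14294016 (.pos 49 .mp ⟨⟨603945713, 0, 0, 0, 0, 223504585, 0, 0, 0, ⟨0, 0⟩, 0⟩, 0, 0⟩ 0 0) (.pos 49 .mp ⟨⟨606554765, 0, 0, 0, 0, 224750844, 0, 0, 0, ⟨0, 0⟩, 0⟩, 0, 0⟩ 0 0))) (.pos 49 .mp ⟨⟨604781269, 0, 0, 0, 0, 217812566, 0, 0, 0, ⟨0, 0⟩, 0⟩, 0, 0⟩ 0 0)))) (.cut .s 14288896 (.pos 50 .mp ⟨⟨635415502, 0, 0, 0, 0, 160338652, 0, 0, 0, ⟨0, 0⟩, 0⟩, 0, 0⟩ 0 0) (.pos 50 .mp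 ⟨⟨641459570, 0, 0, 0, 0, 161195972, 0, 0, 0, ⟨0, 0⟩, 0⟩, 0, 0⟩ 0 0))) (.cut .v 16809984 (.cut .s 14309376 (.cut .d (-4096) (.pos 49 .mp ⟨⟨600100742, 0, 0, 0, 0, 258377327, 0, 0, 0, ⟨0, 0⟩, 0⟩, 0, 0⟩ 0 0) (.cut .l 92274 (.cut .d (-2048) (.pos 49 .mp ⟨⟨601866390, 0, 0, 0, 0, 256579030, 0, 0, 0, ⟨0, 0⟩, 0⟩, 0, 0⟩ 0 0) (.cut .s 14304256 (.pos 49 .mp ⟨⟨609177688, 0, 0, 0, 0, 226011941, 0, 0, 0, ⟨0, 0⟩, 0⟩, 0, 0⟩ 0 0) (.pos 49 .mp ⟨⟨611814569, 0, 0, 0, 0, 227287850, 0, 0, 0, ⟨0, 0⟩, 0⟩, 0, 0⟩ 0 0))) (.pos 49 .mp ⟨⟨610036983, 0, 0, 0, 0, 220119053, 0, 0, 0, ⟨0, 0⟩, 0⟩, 0, 0⟩ 0 0))) (.cut .d (-4096) (.pos 49 .mp ⟨⟨605314321, 0, 0, 0, 0, 261391848,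 0, 0, 0, ⟨0, 0⟩, 0⟩, 0, 0⟩ 0 0) (.cut .l 92274 (.cut .d (-2048) (.pos 49 .mp ⟨⟨607084004, 0, 0, 0, 0, 259604628, 0, 0, 0, ⟨0, 0⟩, 0⟩, 0, 0⟩ 0 0) (.cut .s 14314496 (.pos 49 .mp ⟨⟨614465491, 0, 0, 0, 0, 228578540, 0, 0, 0, ⟨0, 0⟩, 0⟩, 0, 0⟩ 0 0) (.pos 49 .mp ⟨⟨617130543, 0, 0, 0, 0, 229883983, 0, 0, 0, ⟨0, 0⟩, 0⟩, 0, 0⟩ 0 0))) (.pos 49 .mp ⟨⟨615348832, 0, 0, 0, 0, 222441297, 0, 0, 0, ⟨0, 0⟩, 0⟩, 0, 0⟩ 0 0)))) (.cut .s 14309376 (.pos 50 .mp ⟨⟨647730804, 0, 0, 0, 0, 161776359, 0, 0, 0, ⟨0, 0⟩, 0⟩, 0, 0⟩ 0 0) (.pos 50 .mp ⟨⟨654236584, 0, 0, 0, 0, 162066122, 0, 0, 0, ⟨0, 0⟩, 0⟩, 0, 0⟩ 0 0)))) (.cut .d (-4096) (.cut .d (-6144) (.cut .v 16809984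 (.pos 49 .mp ⟨⟨0, 0, 0, 0, 0, 1283026036, 0, 0, 0, ⟨0, 0⟩, 0⟩, 0, 0⟩ 0 0) (.cut .s 14299136 (.pos 50 .mp ⟨⟨610331581, 0, 0, 0, 0, 205230324, 0, 0, 0, ⟨0, 0⟩, 0⟩, 0, 0⟩ 0 0) (.pos 50 .mp ⟨⟨621042556, 0, 0, 0, 0, 209767711, 0, 0, 0, ⟨0, 0⟩, 0⟩, 0, 0⟩ 0 0))) (.pos 45 .mp ⟨⟨608025083, 0, 0, 0, 0, 0, 0, 0, 0, ⟨0, 0⟩, 0⟩, 0, 0⟩ 0 0)) (.pos 45 .mp ⟨⟨0, 0, 0, 0, 0, 0, 0, 0, 0, ⟨0, 0⟩, 0⟩, 0, 0⟩ 0 0))) (.pos 46 .mp ⟨⟨724287805, 0, 0, 0, 0, 0, 0, 0, 0, ⟨0, 0⟩, 0⟩, 0, 0⟩ 0 0)))) (.pos 36 .mp ⟨⟨732000866, 0, 0, 0, 0, 0, 0, 0, 0, ⟨0, 0⟩, 0⟩, 0, 0⟩ 0 0))))))) (.pos 34 .mp ⟨⟨818535478, 0, 0, 0, 0, 0, 0, 0, 0, ⟨0, 0⟩, 0⟩, 0, 0⟩ 0 0))) (.void 32 ⟨⟨100000,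 0, 0, 0, 0, 0, 0, 0, 0, ⟨0, 0⟩, 0⟩, 0, 0⟩ 0 0))) (.void 30 ⟨⟨100000, 0, 0, 0, 0, 0, 0, 0, 0, ⟨0, 0⟩, 0⟩, 0, 0⟩ 0 0))) (.void 28 ⟨⟨100000, 0, 0, 0, 0, 0, 0, 0, 0, ⟨0, 0⟩, 0⟩, 0, 0⟩ 0 0))) (.void 26 ⟨⟨100000, 0, 0, 0, 0, 0, 0, 0, 0, ⟨0, 0⟩, 0⟩, 0, 0⟩ 0 0))) (.void 24 ⟨⟨100000, 0, 0, 0, 0, 0, 0, 0, 0, ⟨0, 0⟩, 0⟩, 0, 0⟩ 0 0))) (.void 91 ⟨⟨100000, 0, 0, 0, 0, 0, 0, 0, 0, ⟨0, 0⟩, 0⟩, 0, 0⟩ 0 0)) (.void 112 ⟨⟨100000, 0, 0, 0, 0, 0, 0, 0, 0, ⟨0, 0⟩, 0⟩, 0, 0⟩ 0 0)) (.void 121 ⟨⟨92799, 0, 0, 7201, 0, 0, 0, 0, 0, ⟨0, 0⟩, 0⟩, 0, 0⟩ 0 0))) (.cut .v 16777216 (.cut .v 8388608 (.cut .v 4194304 (.cut .v 2097152 (.cut .v 1048576 (.pos 117 .pm ⟨⟨0, 0,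 24257146, 0, 0, 0, 0, 0, 0, ⟨0, 0⟩, 0⟩, 0, 8879⟩ 0 0) (.pos 118 .pm ⟨⟨0, 0, 26450586, 0, 0, 0, 0, 0, 0, ⟨0, 0⟩, 0⟩, 0, 18785⟩ 0 0)) (.pos 114 .pm ⟨⟨0, 0, 33307720, 0, 0, 0, 0, 0, 0, ⟨0, 0⟩, 0⟩, 0, 35483⟩ 0 0)) (.pos 5 .pm ⟨⟨0, 0, 76339969, 0, 0, 0, 0, 0, 0, ⟨0, 0⟩, 0⟩, 0, 77033⟩ 0 0)) (.pos 3 .pm ⟨⟨0, 0, 0, 0, 0, 0, 0, 0, 0, ⟨0, 0⟩, 0⟩, 0, 0⟩ 0 0)) (.cut .v 268435456 (.cut .v 67108864 (.cut .d 1553447 (.cut .v 33554432 (.cut .d 776723 (.cut .v 25165824 (.cut .d 388361 (.cut .v 20971520 (.cut .d 194180 (.cut .v 18874368 (.cut .d 97090 (.cut .d 48545 (.cut .v 17825792 (.cut .v 17301504 (.cut .s 14237696 (.pos 31 .pp ⟨⟨557680071, 0, 0,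 0, 0, 0, 0, 0, 0, ⟨0, 0⟩, 0⟩, 13349802, 0⟩ 0 0) (.pos 31 .pp ⟨⟨592596714, 0, 0, 0, 0, 0, 0, 0, 0, ⟨0, 0⟩, 0⟩, 15216158, 0⟩ 0 0)) (.pos 32 .pp ⟨⟨706280089, 0, 0, 0, 0, 0, 0, 0, 0, ⟨0, 0⟩, 0⟩, 0, 0⟩ 0 0)) (.pos 30 .pp ⟨⟨793940506, 0, 0, 0, 0, 0, 0, 0, 0, ⟨0, 0⟩, 0⟩, 0, 0⟩ 0 0)) (.pos 27 .pp ⟨⟨627116633, 0, 0, 0, 0, 0, 0, 0, 0, ⟨0, 0⟩, 0⟩, 0, 2255⟩ 0 0)) (.pos 27 .pp ⟨⟨0, 0, 0, 0, 0, 0, 0, 0, 0, ⟨0, 0⟩, 0⟩, 0, 203912⟩ 0 0)) (.cut .d 97090 (.pos 28 .pp ⟨⟨943067351, 0, 0, 0, 0, 0, 0, 0, 0, ⟨0, 0⟩, 0⟩, 0, 0⟩ 0 0) (.cut .v 19922944 (.pos 53 .pp ⟨⟨736005930, 0, 0, 0, 0, 0, 0, 0, 0, ⟨0, 0⟩, 0⟩, 0, 0⟩ 0 0) (.pos 54 .pp ⟨⟨850424323, 0, 0, 0, 0,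 0, 0, 0, 0, ⟨0, 0⟩, 0⟩, 0, 0⟩ 0 0)))) (.pos 25 .pp ⟨⟨0, 0, 0, 0, 0, 0, 0, 0, 0, ⟨0, 0⟩, 0⟩, 0, 213982⟩ 0 0)) (.cut .d 194180 (.cut .v 23068672 (.cut .v 22020096 (.pos 57 .pp ⟨⟨1016356834, 0, 0, 0, 0, 0, 0, 0, 0, ⟨0, 0⟩, 0⟩, 0, 0⟩ 0 0) (.pos 58 .pp ⟨⟨1124220779, 0, 0, 0, 0, 0, 0, 0, 0, ⟨0, 0⟩, 0⟩, 0, 0⟩ 0 0)) (.void 56 ⟨⟨0, 0, 0, 0, 0, 0, 0, 0, 0, ⟨0, 0⟩, 0⟩, 100000, 0⟩ 0 0)) (.cut .v 23068672 (.pos 55 .pp ⟨⟨136111215, 0, 0, 0, 0, 0, 35708, 0, 0, ⟨0, 0⟩, 0⟩, 107785656, 0⟩ 0 0) (.pos 56 .pp ⟨⟨0, 0, 0, 0, 0, 0, 0, 0, 0, ⟨0, 0⟩, 0⟩, 153369134, 0⟩ 0 0)))) (.pos 23 .pp ⟨⟨0, 0, 0, 0, 0, 0, 0, 0, 0, ⟨0, 0⟩, 0⟩, 0, 231100⟩ 0 0)) (.cut .d 388361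 (.cut .v 29360128 (.pos 75 .pp ⟨⟨0, 0, 0, 0, 0, 0, 0, 0, 0, ⟨0, 0⟩, 0⟩, 213006783, 0⟩ 0 0) (.void 76 ⟨⟨0, 0, 0, 0, 0, 0, 0, 0, 0, ⟨0, 0⟩, 0⟩, 100000, 0⟩ 0 0)) (.pos 24 .pp ⟨⟨0, 0, 0, 0, 0, 0, 0, 0, 0, ⟨0, 0⟩, 0⟩, 148071893, 0⟩ 0 0))) (.pos 22 .pp ⟨⟨0, 0, 0, 0, 0, 0, 770097, 0, 0, ⟨0, 0⟩, 0⟩, 0, 0⟩ 0 0)) (.cut .d 776723 (.pos 91 .pp ⟨⟨0, 0, 0, 0, 0, 0, 0, 0, 0, ⟨0, 0⟩, 0⟩, 419578415, 0⟩ 0 0) (.pos 91 .pp ⟨⟨0, 0, 0, 0, 0, 0, 0, 0, 0, ⟨0, 0⟩, 0⟩, 206082825, 0⟩ 0 0))) (.pos 90 .pp ⟨⟨0, 0, 0, 0, 0, 0, 0, 0, 0, ⟨0, 0⟩, 0⟩, 0, 192584⟩ 0 0)) (.void 112 ⟨⟨0, 0, 0, 48980, 0, 0, 0, 0, 0, ⟨0, 0⟩, 0⟩, 51020, 0⟩ 0 0)) (.void 121 ⟨⟨0, 0, 0, 0, 0,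 0, 0, 0, 0, ⟨0, 0⟩, 0⟩, 100000, 0⟩ 0 0)))),
    by decide +kernel⟩

theorem covers28 : cell.Covers Vale.Agent.P237.Petty.Cor.Grid.N10.table row28.1 :=
  ⟨(.cut .d 0 (.cut .v 16777216 (.cut .v 8388608 (.void 2 ⟨⟨0, 0, 100000, 0, 0, 0, 0, 0, 0, ⟨0, 0⟩, 0⟩, 0, 0⟩ 0 0) (.cut .d (-8388608) (.void 3 ⟨⟨100000, 0, 0, 0, 0, 0, 0, 0, 0, ⟨0, 0⟩, 0⟩, 0, 0⟩ 0 0) (.cut .d (-4194304) (.void 3 ⟨⟨100000, 0, 0, 0, 0, 0, 0, 0, 0, ⟨0, 0⟩, 0⟩, 0, 0⟩ 0 0) (.cut .d (-2097152) (.void 3 ⟨⟨100000, 0, 0, 0, 0, 0, 0, 0, 0, ⟨0, 0⟩, 0⟩, 0, 0⟩ 0 0) (.cut .d (-1048576) (.void 3 ⟨⟨0, 0, 0, 0, 0, 100000, 0, 0, 0, ⟨0, 0⟩, 0⟩, 0, 0⟩ 0 0) (.cut .d (-524288) (.void 3 ⟨⟨0,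 0, 0, 0, 0, 100000, 0, 0, 0, ⟨0, 0⟩, 0⟩, 0, 0⟩ 0 0) (.cut .s 14401536 (.pos 3 .mm ⟨⟨0, 0, 0, 0, 0, 1525699837, 0, 0, 0, ⟨0, 0⟩, 0⟩, 0, 0⟩ 0 0) (.pos 3 .mm ⟨⟨0, 0, 0, 0, 0, 1653585197, 0, 0, 0, ⟨0, 0⟩, 0⟩, 0, 0⟩ 0 0)))))))) (.cut .v 268435456 (.cut .v 67108864 (.cut .v 33554432 (.cut .d (-8388608) (.void 22 ⟨⟨100000, 0, 0, 0, 0, 0, 0, 0, 0, ⟨0, 0⟩, 0⟩, 0, 0⟩ 0 0) (.cut .v 25165824 (.cut .d (-4194304) (.void 23 ⟨⟨100000, 0, 0, 0, 0, 0, 0, 0, 0, ⟨0, 0⟩, 0⟩, 0, 0⟩ 0 0) (.cut .v 20971520 (.cut .d (-2097152) (.void 25 ⟨⟨100000, 0, 0, 0, 0, 0, 0, 0, 0, ⟨0, 0⟩, 0⟩, 0, 0⟩ 0 0) (.cut .v 18874368 (.cut .d (-1048576) (.void 27 ⟨⟨100000, 0, 0, 0,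 0, 0, 0, 0, 0, ⟨0, 0⟩, 0⟩, 0, 0⟩ 0 0) (.cut .v 17825792 (.cut .d (-524288) (.void 29 ⟨⟨100000, 0, 0, 0, 0, 0, 0, 0, 0, ⟨0, 0⟩, 0⟩, 0, 0⟩ 0 0) (.cut .v 17301504 (.cut .d (-262144) (.void 31 ⟨⟨100000, 0, 0, 0, 0, 0, 0, 0, 0, ⟨0, 0⟩, 0⟩, 0, 0⟩ 0 0) (.cut .v 17039360 (.cut .d (-131072) (.void 33 ⟨⟨100000, 0, 0, 0, 0, 0, 0, 0, 0, ⟨0, 0⟩, 0⟩, 0, 0⟩ 0 0) (.cut .d (-65536) (.void 33 ⟨⟨100000, 0, 0, 0, 0, 0, 0, 0, 0, ⟨0, 0⟩, 0⟩, 0, 0⟩ 0 0) (.cut .d (-32768) (.void 33 ⟨⟨100000, 0, 0, 0, 0, 0, 0, 0, 0, ⟨0, 0⟩, 0⟩, 0, 0⟩ 0 0) (.cut .d (-16384) (.void 33 ⟨⟨0, 0, 0, 0, 0, 100000, 0, 0, 0, ⟨0, 0⟩, 0⟩, 0, 0⟩ 0 0) (.cut .s 14401536 (.cut .v 16908288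 (.cut .s 14360576 (.cut .d (-8192) (.cut .l 184549 (.void 35 ⟨⟨0, 0, 0, 0, 0, 100000, 0, 0, 0, ⟨0, 0⟩, 0⟩, 0, 0⟩ 0 0) (.cut .d (-12288) (.pos 35 .mp ⟨⟨619743201, 0, 0, 0, 0, 696129676, 0, 0, 0, ⟨0, 0⟩, 0⟩, 0, 0⟩ 0 0) (.cut .v 16842752 (.cut .l 276824 (.pos 45 .mp ⟨⟨614035698, 0, 0, 0, 0, 298940174, 0, 0, 0, ⟨0, 0⟩, 0⟩, 0, 0⟩ 0 0) (.cut .s 14340096 (.pos 45 .mp ⟨⟨609278774, 0, 0, 0, 0, 269633935, 0, 0, 0, ⟨0, 0⟩, 0⟩, 0, 0⟩ 0 0) (.pos 45 .mp ⟨⟨620028165, 0, 0, 0, 0, 274958039, 0, 0, 0, ⟨0, 0⟩, 0⟩, 0, 0⟩ 0 0))) (.cut .s 14340096 (.pos 46 .mp ⟨⟨687307932, 0, 0, 0, 0, 122694976, 0, 0, 0, ⟨0, 0⟩, 0⟩, 0, 0⟩ 0 0) (.pos 46 .mp ⟨⟨698463643, 0,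 0, 0, 0, 127141749, 0, 0, 0, ⟨0, 0⟩, 0⟩, 0, 0⟩ 0 0))))) (.cut .v 16842752 (.cut .l 184549 (.cut .s 14340096 (.cut .d (-4096) (.cut .v 16809984 (.cut .s 14329856 (.pos 49 .mp ⟨⟨610584609, 0, 0, 0, 0, 264492937, 0, 0, 0, ⟨0, 0⟩, 0⟩, 0, 0⟩ 0 0) (.pos 49 .mp ⟨⟨615914738, 0, 0, 0, 0, 266885835, 0, 0, 0, ⟨0, 0⟩, 0⟩, 0, 0⟩ 0 0)) (.pos 50 .mp ⟨⟨665834675, 0, 0, 0, 0, 164632341, 0, 0, 0, ⟨0, 0⟩, 0⟩, 0, 0⟩ 0 0)) (.cut .v 16809984 (.cut .l 92274 (.cut .s 14329856 (.cut .d (-2048) (.pos 49 .mp ⟨⟨612358292, 0, 0, 0, 0, 262717315, 0, 0, 0, ⟨0, 0⟩, 0⟩, 0, 0⟩ 0 0) (.cut .s 14324736 (.pos 49 .mp ⟨⟨619810918, 0, 0, 0, 0, 231205654, 0, 0, 0, ⟨0, 0⟩, 0⟩,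 0, 0⟩ 0 0) (.pos 49 .mp ⟨⟨622504986, 0, 0, 0, 0, 232295043, 0, 0, 0, ⟨0, 0⟩, 0⟩, 0, 0⟩ 0 0))) (.cut .d (-2048) (.pos 49 .mp ⟨⟨617690379, 0, 0, 0, 0, 265126925, 0, 0, 0, ⟨0, 0⟩, 0⟩, 0, 0⟩ 0 0) (.cut .s 14334976 (.pos 49 .mp ⟨⟨625213924, 0, 0, 0, 0, 233404085, 0, 0, 0, ⟨0, 0⟩, 0⟩, 0, 0⟩ 0 0) (.pos 49 .mp ⟨⟨627937824, 0, 0, 0, 0, 234532764, 0, 0, 0, ⟨0, 0⟩, 0⟩, 0, 0⟩ 0 0)))) (.pos 49 .mp ⟨⟨626152162, 0, 0, 0, 0, 217736532, 0, 0, 0, ⟨0, 0⟩, 0⟩, 0, 0⟩ 0 0)) (.pos 50 .mp ⟨⟨739885942, 0, 0, 0, 0, 0, 0, 0, 0, ⟨0, 0⟩, 0⟩, 0, 0⟩ 0 0))) (.cut .d (-4096) (.cut .v 16809984 (.cut .s 14350336 (.pos 49 .mp ⟨⟨621303698, 0, 0, 0, 0, 269381373, 0, 0,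 0, ⟨0, 0⟩, 0⟩, 0, 0⟩ 0 0) (.pos 49 .mp ⟨⟨626752219, 0, 0, 0, 0, 271980910, 0, 0, 0, ⟨0, 0⟩, 0⟩, 0, 0⟩ 0 0)) (.pos 50 .mp ⟨⟨676430283, 0, 0, 0, 0, 170254898, 0, 0, 0, ⟨0, 0⟩, 0⟩, 0, 0⟩ 0 0)) (.cut .v 16809984 (.cut .l 92274 (.cut .s 14350336 (.cut .d (-2048) (.pos 49 .mp ⟨⟨623081294, 0, 0, 0, 0, 267639470, 0, 0, 0, ⟨0, 0⟩, 0⟩, 0, 0⟩ 0 0) (.cut .s 14345216 (.pos 49 .mp ⟨⟨630676779, 0, 0, 0, 0, 235681060, 0, 0, 0, ⟨0, 0⟩, 0⟩, 0, 0⟩ 0 0) (.cut .s 14347776 (.pos 49 .mp ⟨⟨631611954, 0, 0, 0, 0, 239613633, 0, 0, 0, ⟨0, 0⟩, 0⟩, 0, 0⟩ 0 0) (.pos 49 .mp ⟨⟨632936487, 0, 0, 0, 0, 240307296, 0, 0, 0, ⟨0, 0⟩, 0⟩, 0, 0⟩ 0 0)))) (.cut .d (-2048) (.pos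 49 .mp ⟨⟨628531770, 0, 0, 0, 0, 270256314, 0, 0, 0, ⟨0, 0⟩, 0⟩, 0, 0⟩ 0 0) (.cut .v 16793600 (.cut .s 14355456 (.pos 83 .mp ⟨⟨635049580, 0, 0, 0, 0, 240291600, 0, 0, 0, ⟨0, 0⟩, 0⟩, 0, 0⟩ 0 0) (.pos 83 .mp ⟨⟨637829368, 0, 0, 0, 0, 241508632, 0, 0, 0, ⟨0, 0⟩, 0⟩, 0, 0⟩ 0 0)) (.pos 84 .mp ⟨⟨753762434, 0, 0, 0, 0, 0, 0, 0, 0, ⟨0, 0⟩, 0⟩, 0, 0⟩ 0 0)))) (.cut .s 14350336 (.pos 49 .mp ⟨⟨631643211, 0, 0, 0, 0, 230207708, 0, 0, 0, ⟨0, 0⟩, 0⟩, 0, 0⟩ 0 0) (.pos 49 .mp ⟨⟨637195233, 0, 0, 0, 0, 232668919, 0, 0, 0, ⟨0, 0⟩, 0⟩, 0, 0⟩ 0 0))) (.pos 50 .mp ⟨⟨752916426, 0, 0, 0, 0, 0, 0, 0, 0, ⟨0, 0⟩, 0⟩, 0, 0⟩ 0 0)))) (.cut .v 16809984 (.pos 49 .mp ⟨⟨0,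 0, 0, 0, 0, 1301832546, 0, 0, 0, ⟨0, 0⟩, 0⟩, 0, 0⟩ 0 0) (.cut .d (-4096) (.cut .s 14340096 (.pos 50 .mp ⟨⟨631997650, 0, 0, 0, 0, 214593156, 0, 0, 0, ⟨0, 0⟩, 0⟩, 0, 0⟩ 0 0) (.cut .s 14350336 (.pos 50 .mp ⟨⟨637566145, 0, 0, 0, 0, 227038315, 0, 0, 0, ⟨0, 0⟩, 0⟩, 0, 0⟩ 0 0) (.pos 50 .mp ⟨⟨643196710, 0, 0, 0, 0, 229231831, 0, 0, 0, ⟨0, 0⟩, 0⟩, 0, 0⟩ 0 0))) (.pos 50 .mp ⟨⟨0, 0, 0, 0, 0, 0, 0, 0, 0, ⟨0, 0⟩, 0⟩, 0, 0⟩ 0 0)))) (.pos 46 .mp ⟨⟨751260240, 0, 0, 0, 0, 0, 0, 0, 0, ⟨0, 0⟩, 0⟩, 0, 0⟩ 0 0))) (.cut .d (-8192) (.cut .d (-12288) (.void 35 ⟨⟨0, 0, 0, 0, 0, 100000, 0, 0, 0, ⟨0, 0⟩, 0⟩, 0, 0⟩ 0 0) (.cut .l 184549 (.void 35 ⟨⟨0, 0, 0, 0, 0,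 100000, 0, 0, 0, ⟨0, 0⟩, 0⟩, 0, 0⟩ 0 0) (.cut .v 16842752 (.cut .l 276824 (.pos 45 .mp ⟨⟨635942238, 0, 0, 0, 0, 311273302, 0, 0, 0, ⟨0, 0⟩, 0⟩, 0, 0⟩ 0 0) (.cut .s 14381056 (.pos 45 .mp ⟨⟨631016669, 0, 0, 0, 0, 280561824, 0, 0, 0, ⟨0, 0⟩, 0⟩, 0, 0⟩ 0 0) (.cut .s 14391296 (.pos 45 .mp ⟨⟨642250304, 0, 0, 0, 0, 279748922, 0, 0, 0, ⟨0, 0⟩, 0⟩, 0, 0⟩ 0 0) (.pos 45 .mp ⟨⟨647960982, 0, 0, 0, 0, 282701376, 0, 0, 0, ⟨0, 0⟩, 0⟩, 0, 0⟩ 0 0)))) (.cut .s 14381056 (.pos 46 .mp ⟨⟨710492010, 0, 0, 0, 0, 130672579, 0, 0, 0, ⟨0, 0⟩, 0⟩, 0, 0⟩ 0 0) (.pos 46 .mp ⟨⟨723462960, 0, 0, 0, 0, 133158403, 0, 0, 0, ⟨0, 0⟩, 0⟩, 0, 0⟩ 0 0))))) (.cut .v 16842752 (.cut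 .s 14381056 (.cut .l 184549 (.cut .d (-4096) (.cut .v 16809984 (.cut .s 14370816 (.pos 49 .mp ⟨⟨632261044, 0, 0, 0, 0, 274685829, 0, 0, 0, ⟨0, 0⟩, 0⟩, 0, 0⟩ 0 0) (.pos 49 .mp ⟨⟨637830931, 0, 0, 0, 0, 277497535, 0, 0, 0, ⟨0, 0⟩, 0⟩, 0, 0⟩ 0 0)) (.pos 50 .mp ⟨⟨687879734, 0, 0, 0, 0, 175001605, 0, 0, 0, ⟨0, 0⟩, 0⟩, 0, 0⟩ 0 0)) (.cut .v 16809984 (.cut .l 92274 (.cut .s 14370816 (.cut .d (-2048) (.pos 49 .mp ⟨⟨634042550, 0, 0, 0, 0, 272978845, 0, 0, 0, ⟨0, 0⟩, 0⟩, 0, 0⟩ 0 0) (.cut .v 16793600 (.cut .l 46137 (.cut .d (-1024) (.pos 83 .mp ⟨⟨633783349, 0, 0, 0, 0, 271654424, 0, 0, 0, ⟨0, 0⟩, 0⟩, 0, 0⟩ 0 0) (.cut .s 14365696 (.pos 83 .mp ⟨⟨638868443,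 0, 0, 0, 0, 246145214, 0, 0, 0, ⟨0, 0⟩, 0⟩, 0, 0⟩ 0 0) (.pos 83 .mp ⟨⟨641710053, 0, 0, 0, 0, 247321897, 0, 0, 0, ⟨0, 0⟩, 0⟩, 0, 0⟩ 0 0))) (.pos 83 .mp ⟨⟨640942552, 0, 0, 0, 0, 237779645, 0, 0, 0, ⟨0, 0⟩, 0⟩, 0, 0⟩ 0 0)) (.pos 84 .mp ⟨⟨760460925, 0, 0, 0, 0, 0, 0, 0, 0, ⟨0, 0⟩, 0⟩, 0, 0⟩ 0 0))) (.cut .d (-2048) (.pos 49 .mp ⟨⟨639614388, 0, 0, 0, 0, 275808473, 0, 0, 0, ⟨0, 0⟩, 0⟩, 0, 0⟩ 0 0) (.cut .v 16793600 (.cut .l 46137 (.cut .d (-1024) (.pos 83 .mp ⟨⟨639346336, 0, 0, 0, 0, 274485348, 0, 0, 0, ⟨0, 0⟩, 0⟩, 0, 0⟩ 0 0) (.cut .s 14375936 (.pos 83 .mp ⟨⟨644561113, 0, 0, 0, 0, 248532897, 0, 0, 0, ⟨0, 0⟩, 0⟩, 0, 0⟩ 0 0) (.pos 83 .mp ⟨⟨647421523,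 0, 0, 0, 0, 249778669, 0, 0, 0, ⟨0, 0⟩, 0⟩, 0, 0⟩ 0 0))) (.pos 83 .mp ⟨⟨646588545, 0, 0, 0, 0, 240369051, 0, 0, 0, ⟨0, 0⟩, 0⟩, 0, 0⟩ 0 0)) (.pos 84 .mp ⟨⟨767269117, 0, 0, 0, 0, 0, 0, 0, 0, ⟨0, 0⟩, 0⟩, 0, 0⟩ 0 0)))) (.cut .s 14370816 (.pos 49 .mp ⟨⟨642808990, 0, 0, 0, 0, 235171627, 0, 0, 0, ⟨0, 0⟩, 0⟩, 0, 0⟩ 0 0) (.pos 49 .mp ⟨⟨648485261, 0, 0, 0, 0, 237713930, 0, 0, 0, ⟨0, 0⟩, 0⟩, 0, 0⟩ 0 0))) (.pos 50 .mp ⟨⟨766378119, 0, 0, 0, 0, 0, 0, 0, 0, ⟨0, 0⟩, 0⟩, 0, 0⟩ 0 0))) (.cut .s 14370816 (.pos 45 .mp ⟨⟨646553400, 0, 0, 0, 0, 229936942, 0, 0, 0, ⟨0, 0⟩, 0⟩, 0, 0⟩ 0 0) (.cut .s 14375936 (.pos 45 .mp ⟨⟨649413910, 0, 0, 0, 0, 236458744, 0,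 0, 0, ⟨0, 0⟩, 0⟩, 0, 0⟩ 0 0) (.pos 45 .mp ⟨⟨652290374, 0, 0, 0, 0, 237718232, 0, 0, 0, ⟨0, 0⟩, 0⟩, 0, 0⟩ 0 0)))) (.cut .l 184549 (.cut .d (-4096) (.cut .v 16809984 (.cut .s 14391296 (.pos 49 .mp ⟨⟨643462646, 0, 0, 0, 0, 280417458, 0, 0, 0, ⟨0, 0⟩, 0⟩, 0, 0⟩ 0 0) (.pos 49 .mp ⟨⟨649156972, 0, 0, 0, 0, 283447051, 0, 0, 0, ⟨0, 0⟩, 0⟩, 0, 0⟩ 0 0)) (.pos 50 .mp ⟨⟨700252804, 0, 0, 0, 0, 178743740, 0, 0, 0, ⟨0, 0⟩, 0⟩, 0, 0⟩ 0 0)) (.cut .v 16809984 (.cut .l 92274 (.cut .s 14391296 (.cut .d (-2048) (.pos 49 .mp ⟨⟨645248055, 0, 0, 0, 0, 278746633, 0, 0, 0, ⟨0, 0⟩, 0⟩, 0, 0⟩ 0 0) (.cut .v 16793600 (.cut .l 46137 (.cut .d (-1024) (.pos 83 .mp ⟨⟨644971043,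 0, 0, 0, 0, 277424779, 0, 0, 0, ⟨0, 0⟩, 0⟩, 0, 0⟩ 0 0) (.cut .s 14386176 (.pos 83 .mp ⟨⟨650291181, 0, 0, 0, 0, 251059670, 0, 0, 0, ⟨0, 0⟩, 0⟩, 0, 0⟩ 0 0) (.pos 83 .mp ⟨⟨653169982, 0, 0, 0, 0, 252376366, 0, 0, 0, ⟨0, 0⟩, 0⟩, 0, 0⟩ 0 0))) (.pos 83 .mp ⟨⟨652297384, 0, 0, 0, 0, 242996889, 0, 0, 0, ⟨0, 0⟩, 0⟩, 0, 0⟩ 0 0)) (.pos 84 .mp ⟨⟨774188366, 0, 0, 0, 0, 0, 0, 0, 0, ⟨0, 0⟩, 0⟩, 0, 0⟩ 0 0))) (.cut .d (-2048) (.pos 49 .mp ⟨⟨650944332, 0, 0, 0, 0, 281794785, 0, 0, 0, ⟨0, 0⟩, 0⟩, 0, 0⟩ 0 0) (.cut .v 16793600 (.cut .l 46137 (.cut .d (-1024) (.pos 83 .mp ⟨⟨650658249, 0, 0, 0, 0, 280474176, 0, 0, 0, ⟨0, 0⟩, 0⟩, 0, 0⟩ 0 0) (.cut .s 14396416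 (.pos 83 .mp ⟨⟨656057821, 0, 0, 0, 0, 253729227, 0, 0, 0, ⟨0, 0⟩, 0⟩, 0, 0⟩ 0 0) (.pos 83 .mp ⟨⟨658954590, 0, 0, 0, 0, 255118730, 0, 0, 0, ⟨0, 0⟩, 0⟩, 0, 0⟩ 0 0))) (.pos 83 .mp ⟨⟨658069868, 0, 0, 0, 0, 245661217, 0, 0, 0, ⟨0, 0⟩, 0⟩, 0, 0⟩ 0 0)) (.pos 84 .mp ⟨⟨781220049, 0, 0, 0, 0, 0, 0, 0, 0, ⟨0, 0⟩, 0⟩, 0, 0⟩ 0 0)))) (.cut .s 14391296 (.pos 49 .mp ⟨⟨654224835, 0, 0, 0, 0, 240293902, 0, 0, 0, ⟨0, 0⟩, 0⟩, 0, 0⟩ 0 0) (.pos 49 .mp ⟨⟨660028516, 0, 0, 0, 0, 242909590, 0, 0, 0, ⟨0, 0⟩, 0⟩, 0, 0⟩ 0 0))) (.pos 50 .mp ⟨⟨780281658, 0, 0, 0, 0, 0, 0, 0, 0, ⟨0, 0⟩, 0⟩, 0, 0⟩ 0 0))) (.cut .v 16809984 (.pos 49 .mp ⟨⟨0, 0, 0, 0, 0, 1372108178, 0,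 0, 0, ⟨0, 0⟩, 0⟩, 0, 0⟩ 0 0) (.cut .s 14391296 (.pos 50 .mp ⟨⟨660468668, 0, 0, 0, 0, 234869509, 0, 0, 0, ⟨0, 0⟩, 0⟩, 0, 0⟩ 0 0) (.pos 50 .mp ⟨⟨666355424, 0, 0, 0, 0, 237352321, 0, 0, 0, ⟨0, 0⟩, 0⟩, 0, 0⟩ 0 0))))) (.pos 46 .mp ⟨⟨778444759, 0, 0, 0, 0, 0, 0, 0, 0, ⟨0, 0⟩, 0⟩, 0, 0⟩ 0 0)))) (.pos 36 .mp ⟨⟨787065221, 0, 0, 0, 0, 0, 0, 0, 0, ⟨0, 0⟩, 0⟩, 0, 0⟩ 0 0)) (.cut .v 16908288 (.cut .s 14442496 (.cut .d (-8192) (.cut .d (-12288) (.void 35 ⟨⟨0, 0, 0, 0, 0, 100000, 0, 0, 0, ⟨0, 0⟩, 0⟩, 0, 0⟩ 0 0) (.cut .l 184549 (.void 35 ⟨⟨0, 0, 0, 0, 0, 100000, 0, 0, 0, ⟨0, 0⟩, 0⟩, 0, 0⟩ 0 0) (.cut .v 16842752 (.cut .l 276824 (.pos 45 .mp ⟨⟨658840307,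 0, 0, 0, 0, 325233198, 0, 0, 0, ⟨0, 0⟩, 0⟩, 0, 0⟩ 0 0) (.cut .s 14422016 (.pos 45 .mp ⟨⟨653735295, 0, 0, 0, 0, 292585061, 0, 0, 0, ⟨0, 0⟩, 0⟩, 0, 0⟩ 0 0) (.pos 45 .mp ⟨⟨665478085, 0, 0, 0, 0, 298991907, 0, 0, 0, ⟨0, 0⟩, 0⟩, 0, 0⟩ 0 0))) (.cut .s 14422016 (.pos 46 .mp ⟨⟨737448603, 0, 0, 0, 0, 134465722, 0, 0, 0, ⟨0, 0⟩, 0⟩, 0, 0⟩ 0 0) (.pos 46 .mp ⟨⟨752523329, 0, 0, 0, 0, 134456414, 0, 0, 0, ⟨0, 0⟩, 0⟩, 0, 0⟩ 0 0))))) (.cut .v 16842752 (.cut .s 14422016 (.cut .l 184549 (.cut .d (-4096) (.cut .v 16809984 (.cut .s 14411776 (.pos 49 .mp ⟨⟨654914706, 0, 0, 0, 0, 286587795, 0, 0, 0, ⟨0, 0⟩, 0⟩, 0, 0⟩ 0 0) (.pos 49 .mp ⟨⟨660736655, 0, 0, 0,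 0, 289841192, 0, 0, 0, ⟨0, 0⟩, 0⟩, 0, 0⟩ 0 0)) (.pos 50 .mp ⟨⟨713621428, 0, 0, 0, 0, 181348200, 0, 0, 0, ⟨0, 0⟩, 0⟩, 0, 0⟩ 0 0)) (.cut .v 16809984 (.cut .l 92274 (.cut .s 14411776 (.cut .d (-2048) (.pos 49 .mp ⟨⟨656704014, 0, 0, 0, 0, 284954414, 0, 0, 0, ⟨0, 0⟩, 0⟩, 0, 0⟩ 0 0) (.cut .v 16793600 (.cut .l 46137 (.cut .d (-1024) (.pos 83 .mp ⟨⟨656408749, 0, 0, 0, 0, 283635023, 0, 0, 0, ⟨0, 0⟩, 0⟩, 0, 0⟩ 0 0) (.cut .s 14406656 (.pos 83 .mp ⟨⟨661860178, 0, 0, 0, 0, 256545356, 0, 0, 0, ⟨0, 0⟩, 0⟩, 0, 0⟩ 0 0) (.pos 83 .mp ⟨⟨664774474, 0, 0, 0, 0, 258009592, 0, 0, 0, ⟨0, 0⟩, 0⟩, 0, 0⟩ 0 0))) (.pos 83 .mp ⟨⟨663906808, 0, 0, 0, 0, 248360068,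 0, 0, 0, ⟨0, 0⟩, 0⟩, 0, 0⟩ 0 0)) (.pos 84 .mp ⟨⟨788365566, 0, 0, 0, 0, 0, 0, 0, 0, ⟨0, 0⟩, 0⟩, 0, 0⟩ 0 0))) (.cut .d (-2048) (.pos 49 .mp ⟨⟨662527912, 0, 0, 0, 0, 288227029, 0, 0, 0, ⟨0, 0⟩, 0⟩, 0, 0⟩ 0 0) (.cut .v 16793600 (.cut .l 46137 (.cut .d (-1024) (.pos 83 .mp ⟨⟨662223351, 0, 0, 0, 0, 286908831, 0, 0, 0, ⟨0, 0⟩, 0⟩, 0, 0⟩ 0 0) (.cut .s 14416896 (.pos 83 .mp ⟨⟨667697363, 0, 0, 0, 0, 259511935, 0, 0, 0, ⟨0, 0⟩, 0⟩, 0, 0⟩ 0 0) (.pos 83 .mp ⟨⟨670628730, 0, 0, 0, 0, 261052882, 0, 0, 0, ⟨0, 0⟩, 0⟩, 0, 0⟩ 0 0))) (.pos 83 .mp ⟨⟨669809032, 0, 0, 0, 0, 251091446, 0, 0, 0, ⟨0, 0⟩, 0⟩, 0, 0⟩ 0 0)) (.pos 84 .mp ⟨⟨795626344, 0, 0, 0, 0, 0,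 0, 0, 0, ⟨0, 0⟩, 0⟩, 0, 0⟩ 0 0)))) (.cut .s 14411776 (.pos 49 .mp ⟨⟨665897123, 0, 0, 0, 0, 245559014, 0, 0, 0, ⟨0, 0⟩, 0⟩, 0, 0⟩ 0 0) (.pos 49 .mp ⟨⟨671831489, 0, 0, 0, 0, 248240168, 0, 0, 0, ⟨0, 0⟩, 0⟩, 0, 0⟩ 0 0))) (.pos 50 .mp ⟨⟨794638047, 0, 0, 0, 0, 0, 0, 0, 0, ⟨0, 0⟩, 0⟩, 0, 0⟩ 0 0))) (.cut .v 16809984 (.pos 49 .mp ⟨⟨0, 0, 0, 0, 0, 1399214372, 0, 0, 0, ⟨0, 0⟩, 0⟩, 0, 0⟩ 0 0) (.cut .s 14411776 (.pos 50 .mp ⟨⟨672308275, 0, 0, 0, 0, 239897312, 0, 0, 0, ⟨0, 0⟩, 0⟩, 0, 0⟩ 0 0) (.pos 50 .mp ⟨⟨678328067, 0, 0, 0, 0, 242503603, 0, 0, 0, ⟨0, 0⟩, 0⟩, 0, 0⟩ 0 0)))) (.cut .l 184549 (.cut .d (-4096) (.cut .v 16809984 (.cut .s 14432256 (.pos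 49 .mp ⟨⟨666623644, 0, 0, 0, 0, 293208775, 0, 0, 0, ⟨0, 0⟩, 0⟩, 0, 0⟩ 0 0) (.pos 49 .mp ⟨⟨672576509, 0, 0, 0, 0, 296692099, 0, 0, 0, ⟨0, 0⟩, 0⟩, 0, 0⟩ 0 0)) (.pos 50 .mp ⟨⟨728059793, 0, 0, 0, 0, 182677305, 0, 0, 0, ⟨0, 0⟩, 0⟩, 0, 0⟩ 0 0)) (.cut .v 16809984 (.cut .l 92274 (.cut .s 14432256 (.cut .d (-2048) (.pos 49 .mp ⟨⟨668416847, 0, 0, 0, 0, 291614168, 0, 0, 0, ⟨0, 0⟩, 0⟩, 0, 0⟩ 0 0) (.cut .v 16793600 (.cut .l 46137 (.cut .d (-1024) (.pos 83 .mp ⟨⟨668102877, 0, 0, 0, 0, 290297135, 0, 0, 0, ⟨0, 0⟩, 0⟩, 0, 0⟩ 0 0) (.cut .s 14427136 (.pos 83 .mp ⟨⟨673568455, 0, 0, 0, 0, 262632940, 0, 0, 0, ⟨0, 0⟩, 0⟩, 0, 0⟩ 0 0) (.pos 83 .mp ⟨⟨676516419,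 0, 0, 0, 0, 264252623, 0, 0, 0, ⟨0, 0⟩, 0⟩, 0, 0⟩ 0 0))) (.pos 83 .mp ⟨⟨675777379, 0, 0, 0, 0, 253853328, 0, 0, 0, ⟨0, 0⟩, 0⟩, 0, 0⟩ 0 0)) (.pos 84 .mp ⟨⟨803003833, 0, 0, 0, 0, 0, 0, 0, 0, ⟨0, 0⟩, 0⟩, 0, 0⟩ 0 0))) (.cut .d (-2048) (.pos 49 .mp ⟨⟨674371659, 0, 0, 0, 0, 295117393, 0, 0, 0, ⟨0, 0⟩, 0⟩, 0, 0⟩ 0 0) (.cut .v 16793600 (.cut .s 14437376 (.pos 83 .mp ⟨⟨681430599, 0, 0, 0, 0, 262100339, 0, 0, 0, ⟨0, 0⟩, 0⟩, 0, 0⟩ 0 0) (.pos 83 .mp ⟨⟨684468960, 0, 0, 0, 0, 263627522, 0, 0, 0, ⟨0, 0⟩, 0⟩, 0, 0⟩ 0 0)) (.pos 84 .mp ⟨⟨810499509, 0, 0, 0, 0, 0, 0, 0, 0, ⟨0, 0⟩, 0⟩, 0, 0⟩ 0 0)))) (.cut .s 14432256 (.pos 49 .mp ⟨⟨677832459, 0, 0, 0,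 0, 250951014, 0, 0, 0, ⟨0, 0⟩, 0⟩, 0, 0⟩ 0 0) (.pos 49 .mp ⟨⟨683900896, 0, 0, 0, 0, 253689489, 0, 0, 0, ⟨0, 0⟩, 0⟩, 0, 0⟩ 0 0))) (.pos 50 .mp ⟨⟨809458673, 0, 0, 0, 0, 0, 0, 0, 0, ⟨0, 0⟩, 0⟩, 0, 0⟩ 0 0))) (.cut .s 14432256 (.cut .s 14427136 (.pos 45 .mp ⟨⟨678913386, 0, 0, 0, 0, 249432417, 0, 0, 0, ⟨0, 0⟩, 0⟩, 0, 0⟩ 0 0) (.pos 45 .mp ⟨⟨681955074, 0, 0, 0, 0, 250771439, 0, 0, 0, ⟨0, 0⟩, 0⟩, 0, 0⟩ 0 0)) (.pos 45 .mp ⟨⟨688089892, 0, 0, 0, 0, 247760667, 0, 0, 0, ⟨0, 0⟩, 0⟩, 0, 0⟩ 0 0)))) (.pos 46 .mp ⟨⟨807421335, 0, 0, 0, 0, 0, 0, 0, 0, ⟨0, 0⟩, 0⟩, 0, 0⟩ 0 0))) (.cut .d (-8192) (.cut .l 184549 (.void 35 ⟨⟨0, 0, 0, 0, 0, 100000, 0, 0, 0, ⟨0,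 0⟩, 0⟩, 0, 0⟩ 0 0) (.cut .d (-12288) (.void 35 ⟨⟨0, 0, 0, 0, 0, 100000, 0, 0, 0, ⟨0, 0⟩, 0⟩, 0, 0⟩ 0 0) (.cut .v 16842752 (.cut .s 14462976 (.cut .s 14452736 (.pos 45 .mp ⟨⟨677485343, 0, 0, 0, 0, 302220431, 0, 0, 0, ⟨0, 0⟩, 0⟩, 0, 0⟩ 0 0) (.pos 45 .mp ⟨⟨683590296, 0, 0, 0, 0, 305698280, 0, 0, 0, ⟨0, 0⟩, 0⟩, 0, 0⟩ 0 0)) (.pos 45 .mp ⟨⟨689763974, 0, 0, 0, 0, 319451101, 0, 0, 0, ⟨0, 0⟩, 0⟩, 0, 0⟩ 0 0)) (.cut .s 14462976 (.pos 46 .mp ⟨⟨768763910, 0, 0, 0, 0, 132987526, 0, 0, 0, ⟨0, 0⟩, 0⟩, 0, 0⟩ 0 0) (.pos 46 .mp ⟨⟨786249607, 0, 0, 0, 0, 129911057, 0, 0, 0, ⟨0, 0⟩, 0⟩, 0, 0⟩ 0 0))))) (.cut .v 16842752 (.cut .s 14462976 (.cut .l 184549 (.cut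 .d (-4096) (.cut .s 14452736 (.cut .s 14447616 (.pos 45 .mp ⟨⟨681064899, 0, 0, 0, 0, 294253960, 0, 0, 0, ⟨0, 0⟩, 0⟩, 0, 0⟩ 0 0) (.pos 45 .mp ⟨⟨684110726, 0, 0, 0, 0, 296054704, 0, 0, 0, ⟨0, 0⟩, 0⟩, 0, 0⟩ 0 0)) (.pos 45 .mp ⟨⟨687173622, 0, 0, 0, 0, 305093967, 0, 0, 0, ⟨0, 0⟩, 0⟩, 0, 0⟩ 0 0)) (.cut .v 16809984 (.cut .l 92274 (.cut .s 14452736 (.cut .d (-2048) (.pos 49 .mp ⟨⟨680393200, 0, 0, 0, 0, 298738296, 0, 0, 0, ⟨0, 0⟩, 0⟩, 0, 0⟩ 0 0) (.cut .s 14447616 (.cut .s 14445056 (.pos 49 .mp ⟨⟨686814173, 0, 0, 0, 0, 265623074, 0, 0, 0, ⟨0, 0⟩, 0⟩, 0, 0⟩ 0 0) (.pos 49 .mp ⟨⟨688416005, 0, 0, 0, 0, 266276601, 0, 0, 0, ⟨0, 0⟩, 0⟩, 0, 0⟩ 0 0))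 (.pos 49 .mp ⟨⟨691845421, 0, 0, 0, 0, 264284023, 0, 0, 0, ⟨0, 0⟩, 0⟩, 0, 0⟩ 0 0))) (.cut .d (-2048) (.pos 49 .mp ⟨⟨686482336, 0, 0, 0, 0, 302478495, 0, 0, 0, ⟨0, 0⟩, 0⟩, 0, 0⟩ 0 0) (.cut .s 14457856 (.pos 49 .mp ⟨⟨694940722, 0, 0, 0, 0, 265857275, 0, 0, 0, ⟨0, 0⟩, 0⟩, 0, 0⟩ 0 0) (.pos 49 .mp ⟨⟨698053444, 0, 0, 0, 0, 267449448, 0, 0, 0, ⟨0, 0⟩, 0⟩, 0, 0⟩ 0 0)))) (.cut .s 14452736 (.pos 49 .mp ⟨⟨690037676, 0, 0, 0, 0, 256453500, 0, 0, 0, ⟨0, 0⟩, 0⟩, 0, 0⟩ 0 0) (.pos 49 .mp ⟨⟨696243693, 0, 0, 0, 0, 259240921, 0, 0, 0, ⟨0, 0⟩, 0⟩, 0, 0⟩ 0 0))) (.pos 50 .mp ⟨⟨824755325, 0, 0, 0, 0, 0, 0, 0, 0, ⟨0, 0⟩, 0⟩, 0, 0⟩ 0 0))) (.cut .s 14452736 (.pos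 45 .mp ⟨⟨694294043, 0, 0, 0, 0, 250419011, 0, 0, 0, ⟨0, 0⟩, 0⟩, 0, 0⟩ 0 0) (.pos 45 .mp ⟨⟨700568432, 0, 0, 0, 0, 253099065, 0, 0, 0, ⟨0, 0⟩, 0⟩, 0, 0⟩ 0 0))) (.cut .l 184549 (.cut .d (-4096) (.cut .s 14473216 (.pos 45 .mp ⟨⟨693351066, 0, 0, 0, 0, 308952881, 0, 0, 0, ⟨0, 0⟩, 0⟩, 0, 0⟩ 0 0) (.pos 45 .mp ⟨⟨699598133, 0, 0, 0, 0, 312934471, 0, 0, 0, ⟨0, 0⟩, 0⟩, 0, 0⟩ 0 0)) (.cut .v 16809984 (.cut .l 92274 (.cut .s 14473216 (.cut .d (-2048) (.pos 49 .mp ⟨⟨692639952, 0, 0, 0, 0, 306339637, 0, 0, 0, ⟨0, 0⟩, 0⟩, 0, 0⟩ 0 0) (.cut .s 14468096 (.pos 49 .mp ⟨⟨701183703, 0, 0, 0, 0, 269060496, 0, 0, 0, ⟨0, 0⟩, 0⟩, 0, 0⟩ 0 0) (.pos 49 .mp ⟨⟨704331612,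 0, 0, 0, 0, 270690377, 0, 0, 0, ⟨0, 0⟩, 0⟩, 0, 0⟩ 0 0))) (.cut .d (-2048) (.pos 49 .mp ⟨⟨698866945, 0, 0, 0, 0, 310323398, 0, 0, 0, ⟨0, 0⟩, 0⟩, 0, 0⟩ 0 0) (.cut .s 14478336 (.pos 49 .mp ⟨⟨707418424, 0, 0, 0, 0, 272528954, 0, 0, 0, ⟨0, 0⟩, 0⟩, 0, 0⟩ 0 0) (.pos 49 .mp ⟨⟨710467116, 0, 0, 0, 0, 274521125, 0, 0, 0, ⟨0, 0⟩, 0⟩, 0, 0⟩ 0 0)))) (.cut .s 14473216 (.pos 49 .mp ⟨⟨702519855, 0, 0, 0, 0, 262049599, 0, 0, 0, ⟨0, 0⟩, 0⟩, 0, 0⟩ 0 0) (.pos 49 .mp ⟨⟨708867086, 0, 0, 0, 0, 264877348, 0, 0, 0, ⟨0, 0⟩, 0⟩, 0, 0⟩ 0 0))) (.pos 50 .mp ⟨⟨840540209, 0, 0, 0, 0, 0, 0, 0, 0, ⟨0, 0⟩, 0⟩, 0, 0⟩ 0 0))) (.cut .s 14473216 (.pos 45 .mp ⟨⟨706913981, 0,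 0, 0, 0, 255798647, 0, 0, 0, ⟨0, 0⟩, 0⟩, 0, 0⟩ 0 0) (.pos 45 .mp ⟨⟨713331626, 0, 0, 0, 0, 258515546, 0, 0, 0, ⟨0, 0⟩, 0⟩, 0, 0⟩ 0 0)))) (.pos 46 .mp ⟨⟨838280826, 0, 0, 0, 0, 0, 0, 0, 0, ⟨0, 0⟩, 0⟩, 0, 0⟩ 0 0)))) (.pos 36 .mp ⟨⟨846756839, 0, 0, 0, 0, 0, 0, 0, 0, ⟨0, 0⟩, 0⟩, 0, 0⟩ 0 0))))))) (.pos 34 .mp ⟨⟨947899705, 0, 0, 0, 0, 0, 0, 0, 0, ⟨0, 0⟩, 0⟩, 0, 0⟩ 0 0))) (.void 32 ⟨⟨100000, 0, 0, 0, 0, 0, 0, 0, 0, ⟨0, 0⟩, 0⟩, 0, 0⟩ 0 0))) (.void 30 ⟨⟨100000, 0, 0, 0, 0, 0, 0, 0, 0, ⟨0, 0⟩, 0⟩, 0, 0⟩ 0 0))) (.void 28 ⟨⟨100000, 0, 0, 0, 0, 0, 0, 0, 0, ⟨0, 0⟩, 0⟩, 0, 0⟩ 0 0))) (.void 26 ⟨⟨100000, 0, 0, 0, 0, 0, 0, 0, 0, ⟨0, 0⟩, 0⟩, 0, 0⟩ 0 0)))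 (.void 24 ⟨⟨100000, 0, 0, 0, 0, 0, 0, 0, 0, ⟨0, 0⟩, 0⟩, 0, 0⟩ 0 0))) (.void 91 ⟨⟨100000, 0, 0, 0, 0, 0, 0, 0, 0, ⟨0, 0⟩, 0⟩, 0, 0⟩ 0 0)) (.void 112 ⟨⟨100117, 0, 0, 0, 0, 0, 0, 0, 0, ⟨0, 0⟩, 0⟩, 0, 0⟩ 0 0)) (.void 121 ⟨⟨92713, 0, 0, 7276, 0, 0, 0, 0, 0, ⟨0, 0⟩, 0⟩, 0, 0⟩ 0 0))) (.cut .v 16777216 (.cut .v 8388608 (.cut .v 4194304 (.cut .v 2097152 (.cut .v 1048576 (.pos 117 .pm ⟨⟨0, 0, 25769457, 0, 0, 0, 0, 0, 0, ⟨0, 0⟩, 0⟩, 0, 5308⟩ 0 0) (.pos 118 .pm ⟨⟨0, 0, 31411558, 0, 0, 0, 0, 0, 0, ⟨0, 0⟩, 0⟩, 0, 15299⟩ 0 0)) (.pos 114 .pm ⟨⟨0, 0, 42583264, 0, 0, 0, 0, 0, 0, ⟨0, 0⟩, 0⟩, 0, 28898⟩ 0 0)) (.pos 5 .pm ⟨⟨0, 0, 107031383, 0, 0, 0, 0, 0,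 0, ⟨0, 0⟩, 0⟩, 0, 63858⟩ 0 0)) (.pos 3 .pm ⟨⟨0, 0, 0, 0, 0, 0, 0, 0, 0, ⟨0, 0⟩, 0⟩, 0, 0⟩ 0 0)) (.cut .v 268435456 (.cut .v 67108864 (.cut .d 1439693 (.cut .v 33554432 (.cut .d 719846 (.cut .v 25165824 (.cut .d 359923 (.cut .v 20971520 (.cut .d 179961 (.cut .v 18874368 (.cut .d 89980 (.cut .d 44990 (.cut .v 17825792 (.cut .v 17301504 (.cut .s 14401536 (.pos 31 .pp ⟨⟨635437419, 0, 0, 0, 0, 0, 0, 0, 0, ⟨0, 0⟩, 0⟩, 16458188, 0⟩ 0 0) (.pos 31 .pp ⟨⟨678844024, 0, 0, 0, 0, 0, 0, 0, 0, ⟨0, 0⟩, 0⟩, 18375663, 0⟩ 0 0)) (.pos 32 .pp ⟨⟨812963313, 0, 0, 0, 0, 0, 0, 0, 0, ⟨0, 0⟩, 0⟩, 0, 0⟩ 0 0)) (.pos 30 .pp ⟨⟨913897968, 0, 0, 0, 0, 0, 0, 0, 0, ⟨0,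 0⟩, 0⟩, 0, 0⟩ 0 0)) (.pos 27 .pp ⟨⟨718398601, 0, 0, 0, 0, 0, 0, 0, 0, ⟨0, 0⟩, 0⟩, 0, 2282⟩ 0 0)) (.pos 27 .pp ⟨⟨0, 0, 0, 0, 0, 0, 0, 0, 0, ⟨0, 0⟩, 0⟩, 0, 169037⟩ 0 0)) (.cut .d 89980 (.pos 28 .pp ⟨⟨1084279016, 0, 0, 0, 0, 0, 0, 0, 0, ⟨0, 0⟩, 0⟩, 0, 0⟩ 0 0) (.pos 28 .pp ⟨⟨907650700, 0, 0, 0, 0, 0, 0, 0, 0, ⟨0, 0⟩, 0⟩, 0, 0⟩ 0 0))) (.pos 25 .pp ⟨⟨0, 0, 0, 0, 0, 0, 0, 0, 0, ⟨0, 0⟩, 0⟩, 0, 177385⟩ 0 0)) (.cut .d 179961 (.cut .v 23068672 (.cut .v 22020096 (.pos 57 .pp ⟨⟨1167443925, 0, 0, 0, 0, 0, 0, 0, 0, ⟨0, 0⟩, 0⟩, 0, 0⟩ 0 0) (.pos 58 .pp ⟨⟨1290104458, 0, 0, 0, 0, 0, 0, 0, 0, ⟨0, 0⟩, 0⟩, 0, 0⟩ 0 0)) (.void 56 ⟨⟨0, 0, 0, 0, 0, 0, 0, 0,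 0, ⟨0, 0⟩, 0⟩, 100000, 0⟩ 0 0)) (.cut .v 23068672 (.pos 55 .pp ⟨⟨166705684, 0, 0, 0, 0, 0, 28932, 0, 0, ⟨0, 0⟩, 0⟩, 122311859, 0⟩ 0 0) (.pos 56 .pp ⟨⟨0, 0, 0, 0, 0, 0, 0, 0, 0, ⟨0, 0⟩, 0⟩, 176057335, 0⟩ 0 0)))) (.pos 23 .pp ⟨⟨0, 0, 0, 0, 0, 0, 0, 0, 0, ⟨0, 0⟩, 0⟩, 0, 191575⟩ 0 0)) (.cut .d 359923 (.cut .v 29360128 (.pos 75 .pp ⟨⟨0, 0, 0, 0, 0, 0, 0, 0, 0, ⟨0, 0⟩, 0⟩, 244148373, 0⟩ 0 0) (.void 76 ⟨⟨0, 0, 0, 0, 0, 0, 0, 0, 0, ⟨0, 0⟩, 0⟩, 100000, 0⟩ 0 0)) (.pos 24 .pp ⟨⟨0, 0, 0, 0, 0, 0, 0, 0, 0, ⟨0, 0⟩, 0⟩, 170861962, 0⟩ 0 0))) (.pos 22 .pp ⟨⟨0, 0, 0, 0, 0, 0, 638440, 0, 0, ⟨0, 0⟩, 0⟩, 0, 0⟩ 0 0)) (.cut .d 719846 (.pos 91 .pp ⟨⟨0, 0,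 0, 0, 0, 0, 0, 0, 0, ⟨0, 0⟩, 0⟩, 478502718, 0⟩ 0 0) (.pos 91 .pp ⟨⟨0, 0, 0, 0, 0, 0, 0, 0, 0, ⟨0, 0⟩, 0⟩, 240325513, 0⟩ 0 0))) (.pos 90 .pp ⟨⟨0, 0, 0, 0, 0, 0, 0, 0, 0, ⟨0, 0⟩, 0⟩, 0, 159646⟩ 0 0)) (.void 112 ⟨⟨0, 0, 0, 49202, 0, 0, 0, 0, 0, ⟨0, 0⟩, 0⟩, 50798, 0⟩ 0 0)) (.void 121 ⟨⟨0, 0, 0, 0, 0, 0, 0, 0, 0, ⟨0, 0⟩, 0⟩, 100000, 0⟩ 0 0)))),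
    by decide +kernel⟩

theorem covers29 : cell.Covers Vale.Agent.P237.Petty.Cor.Grid.N10.table row29.1 :=
  ⟨(.cut .d 0 (.cut .v 16777216 (.cut .v 8388608 (.void 2 ⟨⟨0, 0, 100000, 0, 0, 0, 0, 0, 0, ⟨0, 0⟩, 0⟩, 0, 0⟩ 0 0) (.cut .d (-8388608) (.void 3 ⟨⟨100000, 0, 0, 0, 0, 0, 0, 0, 0, ⟨0, 0⟩, 0⟩, 0, 0⟩ 0 0) (.cut .d (-4194304) (.void 3 ⟨⟨100000, 0, 0, 0, 0, 0, 0, 0, 0, ⟨0, 0⟩, 0⟩, 0, 0⟩ 0 0) (.cut .d (-2097152) (.void 3 ⟨⟨100000, 0, 0, 0, 0, 0, 0, 0, 0, ⟨0, 0⟩, 0⟩, 0, 0⟩ 0 0) (.cut .d (-1048576) (.void 3 ⟨⟨0, 0, 0, 0, 0, 100000, 0, 0, 0, ⟨0, 0⟩, 0⟩, 0, 0⟩ 0 0) (.cut .d (-524288) (.void 3 ⟨⟨0, 0, 0, 0, 0, 100000, 0, 0, 0, ⟨0, 0⟩, 0⟩,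 0, 0⟩ 0 0) (.cut .s 14565376 (.pos 3 .mm ⟨⟨0, 0, 0, 0, 0, 1794779459, 0, 0, 0, ⟨0, 0⟩, 0⟩, 0, 0⟩ 0 0) (.pos 3 .mm ⟨⟨0, 0, 0, 0, 0, 1950735459, 0, 0, 0, ⟨0, 0⟩, 0⟩, 0, 0⟩ 0 0)))))))) (.cut .v 268435456 (.cut .v 67108864 (.cut .v 33554432 (.cut .d (-8388608) (.void 22 ⟨⟨100058, 0, 0, 0, 0, 0, 0, 0, 0, ⟨0, 0⟩, 0⟩, 0, 0⟩ 0 0) (.cut .v 25165824 (.cut .d (-4194304) (.void 23 ⟨⟨100000, 0, 0, 0, 0, 0, 0, 0, 0, ⟨0, 0⟩, 0⟩, 0, 0⟩ 0 0) (.cut .v 20971520 (.cut .d (-2097152) (.void 25 ⟨⟨100000, 0, 0, 0, 0, 0, 0, 0, 0, ⟨0, 0⟩, 0⟩, 0, 0⟩ 0 0) (.cut .d (-1048576) (.void 25 ⟨⟨100000, 0, 0, 0, 0, 0, 0, 0, 0, ⟨0, 0⟩, 0⟩, 0, 0⟩ 0 0) (.cut .v 18874368 (.cut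 .d (-524288) (.void 27 ⟨⟨100000, 0, 0, 0, 0, 0, 0, 0, 0, ⟨0, 0⟩, 0⟩, 0, 0⟩ 0 0) (.cut .v 17825792 (.cut .v 17301504 (.cut .d (-262144) (.void 31 ⟨⟨100000, 0, 0, 0, 0, 0, 0, 0, 0, ⟨0, 0⟩, 0⟩, 0, 0⟩ 0 0) (.cut .v 17039360 (.cut .d (-131072) (.void 33 ⟨⟨100000, 0, 0, 0, 0, 0, 0, 0, 0, ⟨0, 0⟩, 0⟩, 0, 0⟩ 0 0) (.cut .d (-65536) (.void 33 ⟨⟨100000, 0, 0, 0, 0, 0, 0, 0, 0, ⟨0, 0⟩, 0⟩, 0, 0⟩ 0 0) (.cut .d (-32768) (.void 33 ⟨⟨100000, 0, 0, 0, 0, 0, 0, 0, 0, ⟨0, 0⟩, 0⟩, 0, 0⟩ 0 0) (.cut .d (-16384) (.void 33 ⟨⟨0, 0, 0, 0, 0, 100000, 0, 0, 0, ⟨0, 0⟩, 0⟩, 0, 0⟩ 0 0) (.cut .s 14565376 (.cut .v 16908288 (.cut .d (-8192) (.cut .l 184549 (.void 35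 ⟨⟨0, 0, 0, 0, 0, 100000, 0, 0, 0, ⟨0, 0⟩, 0⟩, 0, 0⟩ 0 0) (.cut .d (-12288) (.void 35 ⟨⟨0, 0, 0, 0, 0, 100000, 0, 0, 0, ⟨0, 0⟩, 0⟩, 0, 0⟩ 0 0) (.cut .s 14524416 (.cut .v 16842752 (.cut .s 14503936 (.pos 45 .mp ⟨⟨702323038, 0, 0, 0, 0, 328879119, 0, 0, 0, ⟨0, 0⟩, 0⟩, 0, 0⟩ 0 0) (.cut .s 14514176 (.pos 45 .mp ⟨⟨715201631, 0, 0, 0, 0, 324212096, 0, 0, 0, ⟨0, 0⟩, 0⟩, 0, 0⟩ 0 0) (.pos 45 .mp ⟨⟨721754722, 0, 0, 0, 0, 327094950, 0, 0, 0, ⟨0, 0⟩, 0⟩, 0, 0⟩ 0 0))) (.cut .s 14503936 (.pos 46 .mp ⟨⟨777610129, 0, 0, 0, 0, 180878447, 0, 0, 0, ⟨0, 0⟩, 0⟩, 0, 0⟩ 0 0) (.pos 46 .mp ⟨⟨789623568, 0, 0, 0, 0, 188804404, 0, 0, 0, ⟨0, 0⟩, 0⟩, 0, 0⟩ 0 0)))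 (.cut .v 16842752 (.cut .l 276824 (.pos 45 .mp ⟨⟨734083423, 0, 0, 0, 0, 481249560, 0, 0, 0, ⟨0, 0⟩, 0⟩, 0, 0⟩ 0 0) (.cut .s 14544896 (.pos 45 .mp ⟨⟨728385032, 0, 0, 0, 0, 336643683, 0, 0, 0, ⟨0, 0⟩, 0⟩, 0, 0⟩ 0 0) (.pos 45 .mp ⟨⟨741881492, 0, 0, 0, 0, 343740489, 0, 0, 0, ⟨0, 0⟩, 0⟩, 0, 0⟩ 0 0))) (.cut .s 14544896 (.pos 46 .mp ⟨⟨802759983, 0, 0, 0, 0, 195538296, 0, 0, 0, ⟨0, 0⟩, 0⟩, 0, 0⟩ 0 0) (.pos 46 .mp ⟨⟨817114989, 0, 0, 0, 0, 200902527, 0, 0, 0, ⟨0, 0⟩, 0⟩, 0, 0⟩ 0 0)))))) (.cut .s 14524416 (.cut .v 16842752 (.cut .s 14503936 (.cut .l 184549 (.cut .d (-4096) (.cut .s 14493696 (.pos 45 .mp ⟨⟨705917447, 0, 0, 0, 0, 317029482, 0, 0,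 0, ⟨0, 0⟩, 0⟩, 0, 0⟩ 0 0) (.pos 45 .mp ⟨⟨712315053, 0, 0, 0, 0, 319750065, 0, 0, 0, ⟨0, 0⟩, 0⟩, 0, 0⟩ 0 0)) (.cut .v 16809984 (.cut .s 14493696 (.cut .l 92274 (.cut .d (-2048) (.pos 49 .mp ⟨⟨705165831, 0, 0, 0, 0, 314420760, 0, 0, 0, ⟨0, 0⟩, 0⟩, 0, 0⟩ 0 0) (.cut .s 14488576 (.pos 49 .mp ⟨⟨713544319, 0, 0, 0, 0, 276513020, 0, 0, 0, ⟨0, 0⟩, 0⟩, 0, 0⟩ 0 0) (.pos 49 .mp ⟨⟨716927478, 0, 0, 0, 0, 277385861, 0, 0, 0, ⟨0, 0⟩, 0⟩, 0, 0⟩ 0 0))) (.pos 49 .mp ⟨⟨715292588, 0, 0, 0, 0, 268801361, 0, 0, 0, ⟨0, 0⟩, 0⟩, 0, 0⟩ 0 0)) (.cut .l 92274 (.cut .d (-2048) (.pos 49 .mp ⟨⟨711538917, 0, 0, 0, 0, 317154726, 0, 0, 0, ⟨0, 0⟩, 0⟩, 0, 0⟩ 0 0) (.cut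 .s 14498816 (.pos 49 .mp ⟨⟨720323580, 0, 0, 0, 0, 278298259, 0, 0, 0, ⟨0, 0⟩, 0⟩, 0, 0⟩ 0 0) (.pos 49 .mp ⟨⟨723601776, 0, 0, 0, 0, 279565548, 0, 0, 0, ⟨0, 0⟩, 0⟩, 0, 0⟩ 0 0))) (.pos 49 .mp ⟨⟨721792053, 0, 0, 0, 0, 271690736, 0, 0, 0, ⟨0, 0⟩, 0⟩, 0, 0⟩ 0 0))) (.pos 50 .mp ⟨⟨856843608, 0, 0, 0, 0, 0, 0, 0, 0, ⟨0, 0⟩, 0⟩, 0, 0⟩ 0 0))) (.cut .s 14493696 (.pos 45 .mp ⟨⟨719832720, 0, 0, 0, 0, 262319832, 0, 0, 0, ⟨0, 0⟩, 0⟩, 0, 0⟩ 0 0) (.pos 45 .mp ⟨⟨726408832, 0, 0, 0, 0, 265087679, 0, 0, 0, ⟨0, 0⟩, 0⟩, 0, 0⟩ 0 0))) (.cut .l 184549 (.cut .d (-4096) (.cut .s 14514176 (.pos 45 .mp ⟨⟨718787719, 0, 0, 0, 0, 322603598, 0, 0, 0, ⟨0, 0⟩, 0⟩, 0,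 0⟩ 0 0) (.pos 45 .mp ⟨⟨725336447, 0, 0, 0, 0, 325591964, 0, 0, 0, ⟨0, 0⟩, 0⟩, 0, 0⟩ 0 0)) (.cut .v 16809984 (.cut .s 14514176 (.cut .l 92274 (.cut .d (-2048) (.pos 49 .mp ⟨⟨717986735, 0, 0, 0, 0, 320021726, 0, 0, 0, ⟨0, 0⟩, 0⟩, 0, 0⟩ 0 0) (.cut .s 14509056 (.pos 49 .mp ⟨⟨726879158, 0, 0, 0, 0, 280906047, 0, 0, 0, ⟨0, 0⟩, 0⟩, 0, 0⟩ 0 0) (.pos 49 .mp ⟨⟨730175810, 0, 0, 0, 0, 282271668, 0, 0, 0, ⟨0, 0⟩, 0⟩, 0, 0⟩ 0 0))) (.pos 49 .mp ⟨⟨728368154, 0, 0, 0, 0, 274638815, 0, 0, 0, ⟨0, 0⟩, 0⟩, 0, 0⟩ 0 0)) (.cut .l 92274 (.cut .d (-2048) (.pos 49 .mp ⟨⟨724510282, 0, 0, 0, 0, 323023647, 0, 0, 0, ⟨0, 0⟩, 0⟩, 0, 0⟩ 0 0) (.cut .v 16793600 (.cut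 .s 14519296 (.pos 83 .mp ⟨⟨732170232, 0, 0, 0, 0, 286267215, 0, 0, 0, ⟨0, 0⟩, 0⟩, 0, 0⟩ 0 0) (.pos 83 .mp ⟨⟨735499954, 0, 0, 0, 0, 287694960, 0, 0, 0, ⟨0, 0⟩, 0⟩, 0, 0⟩ 0 0)) (.pos 84 .mp ⟨⟨872835172, 0, 0, 0, 0, 0, 0, 0, 0, ⟨0, 0⟩, 0⟩, 0, 0⟩ 0 0))) (.pos 49 .mp ⟨⟨735021920, 0, 0, 0, 0, 277643100, 0, 0, 0, ⟨0, 0⟩, 0⟩, 0, 0⟩ 0 0))) (.pos 50 .mp ⟨⟨872294184, 0, 0, 0, 0, 0, 0, 0, 0, ⟨0, 0⟩, 0⟩, 0, 0⟩ 0 0))) (.cut .d (-4096) (.cut .s 14514176 (.pos 45 .mp ⟨⟨733062825, 0, 0, 0, 0, 269787303, 0, 0, 0, ⟨0, 0⟩, 0⟩, 0, 0⟩ 0 0) (.pos 45 .mp ⟨⟨739795743, 0, 0, 0, 0, 272326948, 0, 0, 0, ⟨0, 0⟩, 0⟩, 0, 0⟩ 0 0)) (.pos 45 .mp ⟨⟨0, 0, 0, 0, 0, 0, 0,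 0, 0, ⟨0, 0⟩, 0⟩, 0, 0⟩ 0 0)))) (.pos 46 .mp ⟨⟨871234273, 0, 0, 0, 0, 0, 0, 0, 0, ⟨0, 0⟩, 0⟩, 0, 0⟩ 0 0)) (.cut .v 16842752 (.cut .s 14544896 (.cut .l 184549 (.cut .d (-4096) (.cut .s 14534656 (.pos 45 .mp ⟨⟨731962257, 0, 0, 0, 0, 328717081, 0, 0, 0, ⟨0, 0⟩, 0⟩, 0, 0⟩ 0 0) (.pos 45 .mp ⟨⟨738666189, 0, 0, 0, 0, 331980905, 0, 0, 0, ⟨0, 0⟩, 0⟩, 0, 0⟩ 0 0)) (.cut .v 16809984 (.cut .s 14534656 (.cut .l 92274 (.cut .d (-2048) (.pos 49 .mp ⟨⟨731110573, 0, 0, 0, 0, 326162407, 0, 0, 0, ⟨0, 0⟩, 0⟩, 0, 0⟩ 0 0) (.cut .v 16793600 (.cut .l 46137 (.cut .d (-1024) (.pos 83 .mp ⟨⟨730687693, 0, 0, 0, 0, 324878672, 0, 0, 0, ⟨0, 0⟩, 0⟩, 0, 0⟩ 0 0) (.cut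 .s 14529536 (.pos 83 .mp ⟨⟨736677642, 0, 0, 0, 0, 293366134, 0, 0, 0, ⟨0, 0⟩, 0⟩, 0, 0⟩ 0 0) (.pos 83 .mp ⟨⟨740132675, 0, 0, 0, 0, 294630624, 0, 0, 0, ⟨0, 0⟩, 0⟩, 0, 0⟩ 0 0))) (.pos 83 .mp ⟨⟨739334373, 0, 0, 0, 0, 284179655, 0, 0, 0, ⟨0, 0⟩, 0⟩, 0, 0⟩ 0 0)) (.pos 84 .mp ⟨⟨880788157, 0, 0, 0, 0, 0, 0, 0, 0, ⟨0, 0⟩, 0⟩, 0, 0⟩ 0 0))) (.pos 49 .mp ⟨⟨741754396, 0, 0, 0, 0, 280701060, 0, 0, 0, ⟨0, 0⟩, 0⟩, 0, 0⟩ 0 0)) (.cut .l 92274 (.cut .d (-2048) (.pos 49 .mp ⟨⟨737788642, 0, 0, 0, 0, 329439962, 0, 0, 0, ⟨0, 0⟩, 0⟩, 0, 0⟩ 0 0) (.cut .v 16793600 (.cut .l 46137 (.cut .d (-1024) (.pos 83 .mp ⟨⟨737352865, 0, 0, 0, 0, 328163029, 0, 0, 0, ⟨0,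 0⟩, 0⟩, 0, 0⟩ 0 0) (.cut .s 14539776 (.pos 83 .mp ⟨⟨743599313, 0, 0, 0, 0, 295940028, 0, 0, 0, ⟨0, 0⟩, 0⟩, 0, 0⟩ 0 0) (.pos 83 .mp ⟨⟨747006037, 0, 0, 0, 0, 297466821, 0, 0, 0, ⟨0, 0⟩, 0⟩, 0, 0⟩ 0 0))) (.pos 83 .mp ⟨⟨746105859, 0, 0, 0, 0, 287353610, 0, 0, 0, ⟨0, 0⟩, 0⟩, 0, 0⟩ 0 0)) (.pos 84 .mp ⟨⟨888881591, 0, 0, 0, 0, 0, 0, 0, 0, ⟨0, 0⟩, 0⟩, 0, 0⟩ 0 0))) (.pos 49 .mp ⟨⟨748566648, 0, 0, 0, 0, 283810124, 0, 0, 0, ⟨0, 0⟩, 0⟩, 0, 0⟩ 0 0))) (.pos 50 .mp ⟨⟨888296311, 0, 0, 0, 0, 0, 0, 0, 0, ⟨0, 0⟩, 0⟩, 0, 0⟩ 0 0))) (.cut .d (-4096) (.cut .d (-6144) (.cut .s 14534656 (.pos 45 .mp ⟨⟨724476639, 0, 0, 0, 0, 333245532, 0, 0, 0, ⟨0, 0⟩, 0⟩, 0,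 0⟩ 0 0) (.pos 45 .mp ⟨⟨731130834, 0, 0, 0, 0, 336551091, 0, 0, 0, ⟨0, 0⟩, 0⟩, 0, 0⟩ 0 0)) (.pos 45 .mp ⟨⟨747717379, 0, 0, 0, 0, 269275112, 0, 0, 0, ⟨0, 0⟩, 0⟩, 0, 0⟩ 0 0)) (.pos 45 .mp ⟨⟨0, 0, 0, 0, 0, 0, 0, 0, 0, ⟨0, 0⟩, 0⟩, 0, 0⟩ 0 0))) (.cut .l 184549 (.cut .d (-4096) (.cut .s 14555136 (.pos 45 .mp ⟨⟨745449298, 0, 0, 0, 0, 335385423, 0, 0, 0, ⟨0, 0⟩, 0⟩, 0, 0⟩ 0 0) (.pos 45 .mp ⟨⟨752312664, 0, 0, 0, 0, 338932662, 0, 0, 0, ⟨0, 0⟩, 0⟩, 0, 0⟩ 0 0)) (.cut .v 16809984 (.cut .s 14555136 (.cut .l 92274 (.cut .d (-2048) (.pos 49 .mp ⟨⟨744545544, 0, 0, 0, 0, 332858302, 0, 0, 0, ⟨0, 0⟩, 0⟩, 0, 0⟩ 0 0) (.cut .v 16793600 (.cut .l 46137 (.cut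 .d (-1024) (.pos 83 .mp ⟨⟨744096697, 0, 0, 0, 0, 331588215, 0, 0, 0, ⟨0, 0⟩, 0⟩, 0, 0⟩ 0 0) (.cut .s 14550016 (.pos 83 .mp ⟨⟨750421208, 0, 0, 0, 0, 299046680, 0, 0, 0, ⟨0, 0⟩, 0⟩, 0, 0⟩ 0 0) (.pos 83 .mp ⟨⟨753856560, 0, 0, 0, 0, 300651643, 0, 0, 0, ⟨0, 0⟩, 0⟩, 0, 0⟩ 0 0))) (.pos 83 .mp ⟨⟨752957553, 0, 0, 0, 0, 290577173, 0, 0, 0, ⟨0, 0⟩, 0⟩, 0, 0⟩ 0 0)) (.pos 84 .mp ⟨⟨897117339, 0, 0, 0, 0, 0, 0, 0, 0, ⟨0, 0⟩, 0⟩, 0, 0⟩ 0 0))) (.pos 49 .mp ⟨⟨755459762, 0, 0, 0, 0, 286967683, 0, 0, 0, ⟨0, 0⟩, 0⟩, 0, 0⟩ 0 0)) (.cut .l 92274 (.cut .d (-2048) (.pos 49 .mp ⟨⟨751382349, 0, 0, 0, 0, 336419455, 0, 0, 0, ⟨0, 0⟩, 0⟩, 0, 0⟩ 0 0) (.cut .v 16793600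 (.cut .l 46137 (.cut .d (-1024) (.pos 83 .mp ⟨⟨750920257, 0, 0, 0, 0, 335156257, 0, 0, 0, ⟨0, 0⟩, 0⟩, 0, 0⟩ 0 0) (.cut .s 14560256 (.pos 83 .mp ⟨⟨757312227, 0, 0, 0, 0, 302281665, 0, 0, 0, ⟨0, 0⟩, 0⟩, 0, 0⟩ 0 0) (.cut .s 14562816 (.pos 83 .mp ⟨⟨760607257, 0, 0, 0, 0, 303128262, 0, 0, 0, ⟨0, 0⟩, 0⟩, 0, 0⟩ 0 0) (.pos 83 .mp ⟨⟨762324121, 0, 0, 0, 0, 304012633, 0, 0, 0, ⟨0, 0⟩, 0⟩, 0, 0⟩ 0 0)))) (.pos 83 .mp ⟨⟨759890549, 0, 0, 0, 0, 293847715, 0, 0, 0, ⟨0, 0⟩, 0⟩, 0, 0⟩ 0 0)) (.pos 84 .mp ⟨⟨905497302, 0, 0, 0, 0, 0, 0, 0, 0, ⟨0, 0⟩, 0⟩, 0, 0⟩ 0 0))) (.pos 49 .mp ⟨⟨762434841, 0, 0, 0, 0, 290171091, 0, 0, 0, ⟨0, 0⟩, 0⟩, 0, 0⟩ 0 0))) (.pos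 50 .mp ⟨⟨904864629, 0, 0, 0, 0, 0, 0, 0, 0, ⟨0, 0⟩, 0⟩, 0, 0⟩ 0 0))) (.cut .d (-4096) (.cut .d (-6144) (.cut .s 14555136 (.pos 45 .mp ⟨⟨737863405, 0, 0, 0, 0, 339973972, 0, 0, 0, ⟨0, 0⟩, 0⟩, 0, 0⟩ 0 0) (.pos 45 .mp ⟨⟨744675417, 0, 0, 0, 0, 343514650, 0, 0, 0, ⟨0, 0⟩, 0⟩, 0, 0⟩ 0 0)) (.pos 45 .mp ⟨⟨761623120, 0, 0, 0, 0, 275071983, 0, 0, 0, ⟨0, 0⟩, 0⟩, 0, 0⟩ 0 0)) (.pos 45 .mp ⟨⟨0, 0, 0, 0, 0, 0, 0, 0, 0, ⟨0, 0⟩, 0⟩, 0, 0⟩ 0 0)))) (.pos 46 .mp ⟨⟨903625898, 0, 0, 0, 0, 0, 0, 0, 0, ⟨0, 0⟩, 0⟩, 0, 0⟩ 0 0)))) (.pos 36 .mp ⟨⟨913386327, 0, 0, 0, 0, 0, 0, 0, 0, ⟨0, 0⟩, 0⟩, 0, 0⟩ 0 0)) (.cut .v 16908288 (.cut .d (-8192) (.cut .d (-12288) (.void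 35 ⟨⟨0, 0, 0, 0, 0, 100000, 0, 0, 0, ⟨0, 0⟩, 0⟩, 0, 0⟩ 0 0) (.cut .l 184549 (.void 35 ⟨⟨0, 0, 0, 0, 0, 100000, 0, 0, 0, ⟨0, 0⟩, 0⟩, 0, 0⟩ 0 0) (.cut .l 276824 (.void 35 ⟨⟨0, 0, 0, 0, 0, 100000, 0, 0, 0, ⟨0, 0⟩, 0⟩, 0, 0⟩ 0 0) (.cut .s 14606336 (.cut .v 16842752 (.cut .s 14585856 (.cut .s 14575616 (.pos 45 .mp ⟨⟨755699565, 0, 0, 0, 0, 340629654, 0, 0, 0, ⟨0, 0⟩, 0⟩, 0, 0⟩ 0 0) (.pos 45 .mp ⟨⟨762731968, 0, 0, 0, 0, 344338163, 0, 0, 0, ⟨0, 0⟩, 0⟩, 0, 0⟩ 0 0)) (.pos 45 .mp ⟨⟨769848128, 0, 0, 0, 0, 358945119, 0, 0, 0, ⟨0, 0⟩, 0⟩, 0, 0⟩ 0 0)) (.cut .s 14585856 (.cut .s 14575616 (.pos 46 .mp ⟨⟨799754619, 0, 0, 0, 0, 256900640, 0, 0, 0, ⟨0,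 0⟩, 0⟩, 0, 0⟩ 0 0) (.pos 46 .mp ⟨⟨807385233, 0, 0, 0, 0, 259442048, 0, 0, 0, ⟨0, 0⟩, 0⟩, 0, 0⟩ 0 0)) (.pos 46 .mp ⟨⟨849879562, 0, 0, 0, 0, 206778513, 0, 0, 0, ⟨0, 0⟩, 0⟩, 0, 0⟩ 0 0))) (.cut .v 16842752 (.cut .s 14626816 (.pos 45 .mp ⟨⟨784336390, 0, 0, 0, 0, 367033473, 0, 0, 0, ⟨0, 0⟩, 0⟩, 0, 0⟩ 0 0) (.pos 45 .mp ⟨⟨799173915, 0, 0, 0, 0, 375431853, 0, 0, 0, ⟨0, 0⟩, 0⟩, 0, 0⟩ 0 0)) (.cut .s 14626816 (.pos 46 .mp ⟨⟨868497169, 0, 0, 0, 0, 206901023, 0, 0, 0, ⟨0, 0⟩, 0⟩, 0, 0⟩ 0 0) (.pos 46 .mp ⟨⟨888749782, 0, 0, 0, 0, 204874708, 0, 0, 0, ⟨0, 0⟩, 0⟩, 0, 0⟩ 0 0))))))) (.cut .s 14606336 (.cut .v 16842752 (.cut .s 14585856 (.cut .l 184549 (.cut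 .d (-4096) (.cut .s 14575616 (.pos 45 .mp ⟨⟨759257382, 0, 0, 0, 0, 342624686, 0, 0, 0, ⟨0, 0⟩, 0⟩, 0, 0⟩ 0 0) (.pos 45 .mp ⟨⟨766284571, 0, 0, 0, 0, 346463595, 0, 0, 0, ⟨0, 0⟩, 0⟩, 0, 0⟩ 0 0)) (.cut .v 16809984 (.cut .s 14575616 (.cut .l 92274 (.cut .d (-2048) (.pos 49 .mp ⟨⟨758300151, 0, 0, 0, 0, 340125484, 0, 0, 0, ⟨0, 0⟩, 0⟩, 0, 0⟩ 0 0) (.cut .v 16793600 (.cut .l 46137 (.cut .d (-1024) (.pos 83 .mp ⟨⟨757824636, 0, 0, 0, 0, 338869222, 0, 0, 0, ⟨0, 0⟩, 0⟩, 0, 0⟩ 0 0) (.cut .v 16785408 (.cut .s 14570496 (.pos 85 .mp ⟨⟨763595577, 0, 0, 0, 0, 306977940, 0, 0, 0, ⟨0, 0⟩, 0⟩, 0, 0⟩ 0 0) (.pos 85 .mp ⟨⟨767109936, 0, 0, 0, 0, 308689195, 0,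 0, 0, ⟨0, 0⟩, 0⟩, 0, 0⟩ 0 0)) (.pos 86 .mp ⟨⟨913474772, 0, 0, 0, 0, 0, 0, 0, 0, ⟨0, 0⟩, 0⟩, 0, 0⟩ 0 0))) (.pos 83 .mp ⟨⟨766905967, 0, 0, 0, 0, 297162567, 0, 0, 0, ⟨0, 0⟩, 0⟩, 0, 0⟩ 0 0)) (.pos 84 .mp ⟨⟨914023414, 0, 0, 0, 0, 0, 0, 0, 0, ⟨0, 0⟩, 0⟩, 0, 0⟩ 0 0))) (.pos 49 .mp ⟨⟨769493013, 0, 0, 0, 0, 293417661, 0, 0, 0, ⟨0, 0⟩, 0⟩, 0, 0⟩ 0 0)) (.cut .l 92274 (.cut .d (-2048) (.pos 49 .mp ⟨⟨765300062, 0, 0, 0, 0, 343978493, 0, 0, 0, ⟨0, 0⟩, 0⟩, 0, 0⟩ 0 0) (.cut .v 16793600 (.cut .l 46137 (.cut .d (-1024) (.pos 83 .mp ⟨⟨764810944, 0, 0, 0, 0, 342729213, 0, 0, 0, ⟨0, 0⟩, 0⟩, 0, 0⟩ 0 0) (.cut .v 16785408 (.cut .s 14580736 (.pos 85 .mp ⟨⟨770645156,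 0, 0, 0, 0, 310425348, 0, 0, 0, ⟨0, 0⟩, 0⟩, 0, 0⟩ 0 0) (.pos 85 .mp ⟨⟨774201382, 0, 0, 0, 0, 312186349, 0, 0, 0, ⟨0, 0⟩, 0⟩, 0, 0⟩ 0 0)) (.pos 86 .mp ⟨⟨922143777, 0, 0, 0, 0, 0, 0, 0, 0, ⟨0, 0⟩, 0⟩, 0, 0⟩ 0 0))) (.pos 83 .mp ⟨⟨774004942, 0, 0, 0, 0, 300519018, 0, 0, 0, ⟨0, 0⟩, 0⟩, 0, 0⟩ 0 0)) (.pos 84 .mp ⟨⟨922697649, 0, 0, 0, 0, 0, 0, 0, 0, ⟨0, 0⟩, 0⟩, 0, 0⟩ 0 0))) (.pos 49 .mp ⟨⟨776635425, 0, 0, 0, 0, 296704663, 0, 0, 0, ⟨0, 0⟩, 0⟩, 0, 0⟩ 0 0))) (.pos 50 .mp ⟨⟨922014325, 0, 0, 0, 0, 0, 0, 0, 0, ⟨0, 0⟩, 0⟩, 0, 0⟩ 0 0))) (.cut .d (-4096) (.cut .d (-6144) (.cut .s 14575616 (.pos 45 .mp ⟨⟨751567957, 0, 0, 0, 0, 347173593, 0, 0, 0, ⟨0,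 0⟩, 0⟩, 0, 0⟩ 0 0) (.pos 45 .mp ⟨⟨758542132, 0, 0, 0, 0, 350951259, 0, 0, 0, ⟨0, 0⟩, 0⟩, 0, 0⟩ 0 0)) (.pos 45 .mp ⟨⟨775854567, 0, 0, 0, 0, 280626488, 0, 0, 0, ⟨0, 0⟩, 0⟩, 0, 0⟩ 0 0)) (.pos 45 .mp ⟨⟨0, 0, 0, 0, 0, 0, 0, 0, 0, ⟨0, 0⟩, 0⟩, 0, 0⟩ 0 0))) (.cut .s 14596096 (.cut .l 184549 (.cut .d (-4096) (.pos 45 .mp ⟨⟨773395370, 0, 0, 0, 0, 350451531, 0, 0, 0, ⟨0, 0⟩, 0⟩, 0, 0⟩ 0 0) (.cut .v 16809984 (.cut .l 92274 (.cut .d (-2048) (.pos 49 .mp ⟨⟨772383216, 0, 0, 0, 0, 347980624, 0, 0, 0, ⟨0, 0⟩, 0⟩, 0, 0⟩ 0 0) (.cut .v 16793600 (.cut .l 46137 (.cut .d (-1024) (.pos 83 .mp ⟨⟨771880313, 0, 0, 0, 0, 346738372, 0, 0, 0, ⟨0, 0⟩, 0⟩, 0, 0⟩ 0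 0) (.cut .v 16785408 (.cut .s 14590976 (.pos 85 .mp ⟨⟨777778759, 0, 0, 0, 0, 313972140, 0, 0, 0, ⟨0, 0⟩, 0⟩, 0, 0⟩ 0 0) (.pos 85 .mp ⟨⟨781377434, 0, 0, 0, 0, 315782667, 0, 0, 0, ⟨0, 0⟩, 0⟩, 0, 0⟩ 0 0)) (.pos 86 .mp ⟨⟨930962822, 0, 0, 0, 0, 0, 0, 0, 0, ⟨0, 0⟩, 0⟩, 0, 0⟩ 0 0))) (.pos 83 .mp ⟨⟨781188634, 0, 0, 0, 0, 303914318, 0, 0, 0, ⟨0, 0⟩, 0⟩, 0, 0⟩ 0 0)) (.pos 84 .mp ⟨⟨931522014, 0, 0, 0, 0, 0, 0, 0, 0, ⟨0, 0⟩, 0⟩, 0, 0⟩ 0 0))) (.pos 49 .mp ⟨⟨783863244, 0, 0, 0, 0, 300029329, 0, 0, 0, ⟨0, 0⟩, 0⟩, 0, 0⟩ 0 0)) (.pos 50 .mp ⟨⟨932638010, 0, 0, 0, 0, 0, 0, 0, 0, ⟨0, 0⟩, 0⟩, 0, 0⟩ 0 0))) (.cut .s 14590976 (.pos 45 .mp ⟨⟨785558805, 0, 0,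 0, 0, 296842606, 0, 0, 0, ⟨0, 0⟩, 0⟩, 0, 0⟩ 0 0) (.pos 45 .mp ⟨⟨789227870, 0, 0, 0, 0, 298475963, 0, 0, 0, ⟨0, 0⟩, 0⟩, 0, 0⟩ 0 0))) (.cut .l 184549 (.cut .d (-4096) (.pos 45 .mp ⟨⟨780590937, 0, 0, 0, 0, 354590674, 0, 0, 0, ⟨0, 0⟩, 0⟩, 0, 0⟩ 0 0) (.cut .v 16809984 (.cut .l 92274 (.cut .d (-2048) (.pos 49 .mp ⟨⟨779550768, 0, 0, 0, 0, 352134059, 0, 0, 0, ⟨0, 0⟩, 0⟩, 0, 0⟩ 0 0) (.cut .v 16793600 (.cut .l 46137 (.cut .d (-1024) (.pos 83 .mp ⟨⟨779033894, 0, 0, 0, 0, 350898882, 0, 0, 0, ⟨0, 0⟩, 0⟩, 0, 0⟩ 0 0) (.cut .s 14601216 (.cut .s 14598656 (.pos 83 .mp ⟨⟨785548598, 0, 0, 0, 0, 315290056, 0, 0, 0, ⟨0, 0⟩, 0⟩, 0, 0⟩ 0 0) (.pos 83 .mp ⟨⟨787407659,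 0, 0, 0, 0, 316136119, 0, 0, 0, ⟨0, 0⟩, 0⟩, 0, 0⟩ 0 0)) (.pos 83 .mp ⟨⟨789350845, 0, 0, 0, 0, 318071232, 0, 0, 0, ⟨0, 0⟩, 0⟩, 0, 0⟩ 0 0))) (.pos 83 .mp ⟨⟨788458225, 0, 0, 0, 0, 307345673, 0, 0, 0, ⟨0, 0⟩, 0⟩, 0, 0⟩ 0 0)) (.pos 84 .mp ⟨⟨940498555, 0, 0, 0, 0, 0, 0, 0, 0, ⟨0, 0⟩, 0⟩, 0, 0⟩ 0 0))) (.pos 49 .mp ⟨⟨791177661, 0, 0, 0, 0, 303388844, 0, 0, 0, ⟨0, 0⟩, 0⟩, 0, 0⟩ 0 0)) (.pos 50 .mp ⟨⟨941625337, 0, 0, 0, 0, 0, 0, 0, 0, ⟨0, 0⟩, 0⟩, 0, 0⟩ 0 0))) (.cut .s 14601216 (.pos 45 .mp ⟨⟨792918934, 0, 0, 0, 0, 300117491, 0, 0, 0, ⟨0, 0⟩, 0⟩, 0, 0⟩ 0 0) (.pos 45 .mp ⟨⟨796632152, 0, 0, 0, 0, 301766827, 0, 0, 0, ⟨0, 0⟩, 0⟩, 0, 0⟩ 0 0))))) (.pos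 46 .mp ⟨⟨938318037, 0, 0, 0, 0, 0, 0, 0, 0, ⟨0, 0⟩, 0⟩, 0, 0⟩ 0 0)) (.cut .v 16842752 (.cut .s 14626816 (.cut .s 14616576 (.cut .l 184549 (.cut .d (-4096) (.pos 45 .mp ⟨⟨787872455, 0, 0, 0, 0, 358883248, 0, 0, 0, ⟨0, 0⟩, 0⟩, 0, 0⟩ 0 0) (.cut .v 16809984 (.cut .l 92274 (.cut .d (-2048) (.pos 49 .mp ⟨⟨786803895, 0, 0, 0, 0, 356441021, 0, 0, 0, ⟨0, 0⟩, 0⟩, 0, 0⟩ 0 0) (.cut .v 16793600 (.cut .l 46137 (.cut .d (-1024) (.pos 83 .mp ⟨⟨786272862, 0, 0, 0, 0, 355212967, 0, 0, 0, ⟨0, 0⟩, 0⟩, 0, 0⟩ 0 0) (.cut .s 14611456 (.pos 83 .mp ⟨⟨793017539, 0, 0, 0, 0, 319948994, 0, 0, 0, ⟨0, 0⟩, 0⟩, 0, 0⟩ 0 0) (.pos 83 .mp ⟨⟨796706150, 0, 0, 0, 0, 321851209,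 0, 0, 0, ⟨0, 0⟩, 0⟩, 0, 0⟩ 0 0))) (.pos 83 .mp ⟨⟨795814918, 0, 0, 0, 0, 310810244, 0, 0, 0, ⟨0, 0⟩, 0⟩, 0, 0⟩ 0 0)) (.pos 84 .mp ⟨⟨949629359, 0, 0, 0, 0, 0, 0, 0, 0, ⟨0, 0⟩, 0⟩, 0, 0⟩ 0 0))) (.pos 49 .mp ⟨⟨798579890, 0, 0, 0, 0, 306780352, 0, 0, 0, ⟨0, 0⟩, 0⟩, 0, 0⟩ 0 0)) (.pos 50 .mp ⟨⟨950767110, 0, 0, 0, 0, 0, 0, 0, 0, ⟨0, 0⟩, 0⟩, 0, 0⟩ 0 0))) (.cut .s 14611456 (.pos 45 .mp ⟨⟨800367678, 0, 0, 0, 0, 303423609, 0, 0, 0, ⟨0, 0⟩, 0⟩, 0, 0⟩ 0 0) (.pos 45 .mp ⟨⟨804125669, 0, 0, 0, 0, 305087470, 0, 0, 0, ⟨0, 0⟩, 0⟩, 0, 0⟩ 0 0))) (.cut .l 184549 (.cut .d (-4096) (.pos 45 .mp ⟨⟨795241129, 0, 0, 0, 0, 363331515, 0, 0, 0, ⟨0, 0⟩, 0⟩, 0, 0⟩ 0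 0) (.cut .v 16809984 (.cut .l 92274 (.cut .d (-2048) (.pos 49 .mp ⟨⟨794143795, 0, 0, 0, 0, 360903777, 0, 0, 0, ⟨0, 0⟩, 0⟩, 0, 0⟩ 0 0) (.cut .v 16793600 (.cut .l 46137 (.cut .d (-1024) (.pos 83 .mp ⟨⟨793598414, 0, 0, 0, 0, 359682894, 0, 0, 0, ⟨0, 0⟩, 0⟩, 0, 0⟩ 0 0) (.cut .s 14621696 (.pos 83 .mp ⟨⟨800416834, 0, 0, 0, 0, 323777811, 0, 0, 0, ⟨0, 0⟩, 0⟩, 0, 0⟩ 0 0) (.pos 83 .mp ⟨⟨804147206, 0, 0, 0, 0, 325734843, 0, 0, 0, ⟨0, 0⟩, 0⟩, 0, 0⟩ 0 0))) (.pos 83 .mp ⟨⟨803259939, 0, 0, 0, 0, 314305151, 0, 0, 0, ⟨0, 0⟩, 0⟩, 0, 0⟩ 0 0)) (.pos 84 .mp ⟨⟨958916548, 0, 0, 0, 0, 0, 0, 0, 0, ⟨0, 0⟩, 0⟩, 0, 0⟩ 0 0))) (.pos 49 .mp ⟨⟨806071166, 0, 0, 0, 0,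 310200951, 0, 0, 0, ⟨0, 0⟩, 0⟩, 0, 0⟩ 0 0)) (.pos 50 .mp ⟨⟨960065457, 0, 0, 0, 0, 0, 0, 0, 0, ⟨0, 0⟩, 0⟩, 0, 0⟩ 0 0))) (.cut .s 14621696 (.pos 45 .mp ⟨⟨807906282, 0, 0, 0, 0, 306758040, 0, 0, 0, ⟨0, 0⟩, 0⟩, 0, 0⟩ 0 0) (.pos 45 .mp ⟨⟨811709676, 0, 0, 0, 0, 308434949, 0, 0, 0, ⟨0, 0⟩, 0⟩, 0, 0⟩ 0 0)))) (.cut .s 14637056 (.cut .l 184549 (.cut .d (-4096) (.pos 45 .mp ⟨⟨802698185, 0, 0, 0, 0, 367937783, 0, 0, 0, ⟨0, 0⟩, 0⟩, 0, 0⟩ 0 0) (.cut .v 16809984 (.cut .l 92274 (.cut .d (-2048) (.pos 49 .mp ⟨⟨801571691, 0, 0, 0, 0, 365524634, 0, 0, 0, ⟨0, 0⟩, 0⟩, 0, 0⟩ 0 0) (.cut .v 16793600 (.cut .l 46137 (.cut .d (-1024) (.pos 83 .mp ⟨⟨801011768,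 0, 0, 0, 0, 364310971, 0, 0, 0, ⟨0, 0⟩, 0⟩, 0, 0⟩ 0 0) (.cut .s 14631936 (.pos 83 .mp ⟨⟨807793470, 0, 0, 0, 0, 327972394, 0, 0, 0, ⟨0, 0⟩, 0⟩, 0, 0⟩ 0 0) (.pos 83 .mp ⟨⟨811447869, 0, 0, 0, 0, 330268771, 0, 0, 0, ⟨0, 0⟩, 0⟩, 0, 0⟩ 0 0))) (.pos 83 .mp ⟨⟨810794538, 0, 0, 0, 0, 317827464, 0, 0, 0, ⟨0, 0⟩, 0⟩, 0, 0⟩ 0 0)) (.pos 84 .mp ⟨⟨968362289, 0, 0, 0, 0, 0, 0, 0, 0, ⟨0, 0⟩, 0⟩, 0, 0⟩ 0 0))) (.pos 49 .mp ⟨⟨813652751, 0, 0, 0, 0, 313647693, 0, 0, 0, ⟨0, 0⟩, 0⟩, 0, 0⟩ 0 0)) (.pos 50 .mp ⟨⟨969522546, 0, 0, 0, 0, 0, 0, 0, 0, ⟨0, 0⟩, 0⟩, 0, 0⟩ 0 0))) (.cut .s 14631936 (.pos 45 .mp ⟨⟨815536012, 0, 0, 0, 0, 310117819, 0, 0, 0, ⟨0, 0⟩, 0⟩, 0,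 0⟩ 0 0) (.pos 45 .mp ⟨⟨819385453, 0, 0, 0, 0, 311806274, 0, 0, 0, ⟨0, 0⟩, 0⟩, 0, 0⟩ 0 0))) (.cut .l 184549 (.cut .d (-4096) (.pos 45 .mp ⟨⟨810244874, 0, 0, 0, 0, 372704403, 0, 0, 0, ⟨0, 0⟩, 0⟩, 0, 0⟩ 0 0) (.cut .v 16809984 (.cut .l 92274 (.cut .d (-2048) (.pos 49 .mp ⟨⟨809088827, 0, 0, 0, 0, 370305945, 0, 0, 0, ⟨0, 0⟩, 0⟩, 0, 0⟩ 0 0) (.cut .v 16793600 (.cut .s 14642176 (.pos 83 .mp ⟨⟨817781502, 0, 0, 0, 0, 327359042, 0, 0, 0, ⟨0, 0⟩, 0⟩, 0, 0⟩ 0 0) (.pos 83 .mp ⟨⟨821621357, 0, 0, 0, 0, 329374640, 0, 0, 0, ⟨0, 0⟩, 0⟩, 0, 0⟩ 0 0)) (.pos 84 .mp ⟨⟨977968788, 0, 0, 0, 0, 0, 0, 0, 0, ⟨0, 0⟩, 0⟩, 0, 0⟩ 0 0))) (.pos 49 .mp ⟨⟨821325927, 0, 0,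 0, 0, 317117581, 0, 0, 0, ⟨0, 0⟩, 0⟩, 0, 0⟩ 0 0)) (.pos 50 .mp ⟨⟨979140585, 0, 0, 0, 0, 0, 0, 0, 0, ⟨0, 0⟩, 0⟩, 0, 0⟩ 0 0))) (.cut .s 14642176 (.pos 45 .mp ⟨⟨823258162, 0, 0, 0, 0, 313499932, 0, 0, 0, ⟨0, 0⟩, 0⟩, 0, 0⟩ 0 0) (.pos 45 .mp ⟨⟨827154305, 0, 0, 0, 0, 315198409, 0, 0, 0, ⟨0, 0⟩, 0⟩, 0, 0⟩ 0 0))))) (.pos 46 .mp ⟨⟨975436460, 0, 0, 0, 0, 0, 0, 0, 0, ⟨0, 0⟩, 0⟩, 0, 0⟩ 0 0)))) (.pos 36 .mp ⟨⟨985193461, 0, 0, 0, 0, 0, 0, 0, 0, ⟨0, 0⟩, 0⟩, 0, 0⟩ 0 0))))))) (.pos 34 .mp ⟨⟨1104063027, 0, 0, 0, 0, 0, 0, 0, 0, ⟨0, 0⟩, 0⟩, 0, 0⟩ 0 0))) (.void 32 ⟨⟨100000, 0, 0, 0, 0, 0, 0, 0, 0, ⟨0, 0⟩, 0⟩, 0, 0⟩ 0 0)) (.void 30 ⟨⟨100000, 0, 0, 0, 0,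 0, 0, 0, 0, ⟨0, 0⟩, 0⟩, 0, 0⟩ 0 0))) (.void 28 ⟨⟨100000, 0, 0, 0, 0, 0, 0, 0, 0, ⟨0, 0⟩, 0⟩, 0, 0⟩ 0 0)))) (.void 26 ⟨⟨100000, 0, 0, 0, 0, 0, 0, 0, 0, ⟨0, 0⟩, 0⟩, 0, 0⟩ 0 0))) (.void 24 ⟨⟨100000, 0, 0, 0, 0, 0, 0, 0, 0, ⟨0, 0⟩, 0⟩, 0, 0⟩ 0 0))) (.void 91 ⟨⟨100000, 0, 0, 0, 0, 0, 0, 0, 0, ⟨0, 0⟩, 0⟩, 0, 0⟩ 0 0)) (.void 112 ⟨⟨100016, 0, 0, 0, 0, 0, 0, 0, 0, ⟨0, 0⟩, 0⟩, 0, 0⟩ 0 0)) (.void 121 ⟨⟨92106, 0, 0, 7283, 0, 0, 39, 0, 0, ⟨0, 0⟩, 0⟩, 0, 0⟩ 0 0))) (.cut .v 16777216 (.cut .v 8388608 (.cut .v 4194304 (.cut .v 2097152 (.cut .v 1048576 (.pos 117 .pm ⟨⟨0, 0, 27883533, 0, 0, 0, 0, 0, 0, ⟨0, 0⟩, 0⟩, 0, 4220⟩ 0 0) (.pos 118 .pm ⟨⟨0, 0, 37751289,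 0, 0, 0, 0, 0, 0, ⟨0, 0⟩, 0⟩, 0, 12163⟩ 0 0)) (.pos 114 .pm ⟨⟨0, 0, 55300921, 0, 0, 0, 0, 0, 0, ⟨0, 0⟩, 0⟩, 0, 22974⟩ 0 0)) (.pos 5 .pm ⟨⟨0, 0, 148941443, 0, 0, 0, 0, 0, 0, ⟨0, 0⟩, 0⟩, 0, 52004⟩ 0 0)) (.pos 3 .pm ⟨⟨0, 0, 0, 0, 0, 0, 0, 0, 0, ⟨0, 0⟩, 0⟩, 0, 0⟩ 0 0)) (.cut .v 268435456 (.cut .v 67108864 (.cut .d 1328514 (.cut .v 33554432 (.cut .d 664257 (.cut .v 25165824 (.cut .d 332128 (.cut .v 20971520 (.cut .d 166064 (.cut .v 18874368 (.cut .d 83032 (.cut .d 41516 (.cut .v 17825792 (.cut .v 17301504 (.cut .s 14565376 (.pos 31 .pp ⟨⟨732740499, 0, 0, 0, 0, 0, 0, 0, 0, ⟨0, 0⟩, 0⟩, 19413963, 0⟩ 0 0) (.pos 31 .pp ⟨⟨782489471, 0, 0, 0, 0,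 0, 0, 0, 0, ⟨0, 0⟩, 0⟩, 22133385, 0⟩ 0 0)) (.pos 32 .pp ⟨⟨941011906, 0, 0, 0, 0, 0, 0, 0, 0, ⟨0, 0⟩, 0⟩, 0, 0⟩ 0 0)) (.pos 30 .pp ⟨⟨1058098585, 0, 0, 0, 0, 0, 0, 0, 0, ⟨0, 0⟩, 0⟩, 0, 0⟩ 0 0)) (.pos 27 .pp ⟨⟨827063021, 0, 0, 0, 0, 0, 0, 0, 0, ⟨0, 0⟩, 0⟩, 0, 2437⟩ 0 0)) (.pos 27 .pp ⟨⟨0, 0, 0, 0, 0, 0, 0, 0, 0, ⟨0, 0⟩, 0⟩, 0, 137656⟩ 0 0)) (.cut .d 83032 (.pos 28 .pp ⟨⟨1253826972, 0, 0, 0, 0, 0, 0, 0, 0, ⟨0, 0⟩, 0⟩, 0, 0⟩ 0 0) (.pos 28 .pp ⟨⟨1047488172, 0, 0, 0, 0, 0, 0, 0, 0, ⟨0, 0⟩, 0⟩, 0, 0⟩ 0 0))) (.pos 25 .pp ⟨⟨0, 0, 0, 0, 0, 0, 0, 0, 0, ⟨0, 0⟩, 0⟩, 0, 144454⟩ 0 0)) (.cut .d 166064 (.cut .v 23068672 (.cut .v 22020096 (.pos 57 .pp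 ⟨⟨1348633752, 0, 0, 0, 0, 0, 0, 0, 0, ⟨0, 0⟩, 0⟩, 0, 0⟩ 0 0) (.pos 58 .pp ⟨⟨1488956995, 0, 0, 0, 0, 0, 0, 0, 0, ⟨0, 0⟩, 0⟩, 0, 0⟩ 0 0)) (.void 56 ⟨⟨0, 0, 0, 0, 0, 0, 0, 0, 0, ⟨0, 0⟩, 0⟩, 100000, 0⟩ 0 0)) (.cut .v 23068672 (.pos 55 .pp ⟨⟨0, 0, 0, 0, 0, 0, 40629, 0, 0, ⟨0, 0⟩, 0⟩, 164286485, 0⟩ 0 0) (.pos 56 .pp ⟨⟨0, 0, 0, 0, 0, 0, 0, 0, 0, ⟨0, 0⟩, 0⟩, 203204834, 0⟩ 0 0)))) (.pos 23 .pp ⟨⟨0, 0, 0, 0, 0, 0, 0, 0, 0, ⟨0, 0⟩, 0⟩, 0, 156011⟩ 0 0)) (.cut .d 332128 (.cut .v 29360128 (.pos 75 .pp ⟨⟨0, 0, 0, 0, 0, 0, 0, 0, 0, ⟨0, 0⟩, 0⟩, 281467677, 0⟩ 0 0) (.void 76 ⟨⟨0, 0, 0, 0, 0, 0, 0, 0, 0, ⟨0, 0⟩, 0⟩, 100000, 0⟩ 0 0)) (.pos 24 .pp ⟨⟨0, 0,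 0, 0, 0, 0, 0, 0, 0, ⟨0, 0⟩, 0⟩, 198375649, 0⟩ 0 0))) (.pos 22 .pp ⟨⟨0, 0, 0, 0, 0, 0, 519950, 0, 0, ⟨0, 0⟩, 0⟩, 0, 0⟩ 0 0)) (.cut .d 664257 (.pos 91 .pp ⟨⟨0, 0, 0, 0, 0, 0, 0, 0, 0, ⟨0, 0⟩, 0⟩, 549050731, 0⟩ 0 0) (.pos 91 .pp ⟨⟨0, 0, 0, 0, 0, 0, 0, 0, 0, ⟨0, 0⟩, 0⟩, 282248734, 0⟩ 0 0))) (.pos 90 .pp ⟨⟨0, 0, 0, 0, 0, 0, 0, 0, 0, ⟨0, 0⟩, 0⟩, 0, 130009⟩ 0 0)) (.void 112 ⟨⟨0, 0, 0, 49423, 0, 0, 0, 0, 0, ⟨0, 0⟩, 0⟩, 50577, 0⟩ 0 0)) (.void 121 ⟨⟨0, 0, 0, 0, 0, 0, 0, 0, 0, ⟨0, 0⟩, 0⟩, 100000, 0⟩ 0 0)))),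
    by decide +kernel⟩

theorem covers30 : cell.Covers Vale.Agent.P237.Petty.Cor.Grid.N10.table row30.1 :=
  ⟨(.cut .d 0 (.cut .v 16777216 (.cut .v 8388608 (.void 2 ⟨⟨0, 0, 100000, 0, 0, 0, 0, 0, 0, ⟨0, 0⟩, 0⟩, 0, 0⟩ 0 0) (.cut .d (-8388608) (.void 3 ⟨⟨100000, 0, 0, 0, 0, 0, 0, 0, 0, ⟨0, 0⟩, 0⟩, 0, 0⟩ 0 0) (.cut .d (-4194304) (.void 3 ⟨⟨100000, 0, 0, 0, 0, 0, 0, 0, 0, ⟨0, 0⟩, 0⟩, 0, 0⟩ 0 0) (.cut .d (-2097152) (.void 3 ⟨⟨100000, 0, 0, 0, 0, 0, 0, 0, 0, ⟨0, 0⟩, 0⟩, 0, 0⟩ 0 0) (.cut .d (-1048576) (.void 3 ⟨⟨0, 0, 0, 0, 0, 100000, 0, 0, 0, ⟨0, 0⟩, 0⟩, 0, 0⟩ 0 0) (.cut .d (-524288) (.void 3 ⟨⟨0, 0, 0, 0, 0, 100000, 0, 0, 0, ⟨0, 0⟩, 0⟩,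 0, 0⟩ 0 0) (.cut .d (-262144) (.void 3 ⟨⟨0, 0, 0, 0, 0, 100000, 0, 0, 0, ⟨0, 0⟩, 0⟩, 0, 0⟩ 0 0) (.cut .s 14729216 (.pos 3 .mm ⟨⟨0, 0, 0, 0, 0, 2023785262, 0, 0, 0, ⟨0, 0⟩, 0⟩, 0, 0⟩ 0 0) (.pos 3 .mm ⟨⟨0, 0, 0, 0, 0, 2205078190, 0, 0, 0, ⟨0, 0⟩, 0⟩, 0, 0⟩ 0 0))))))))) (.cut .v 268435456 (.cut .v 67108864 (.cut .v 33554432 (.cut .d (-8388608) (.void 22 ⟨⟨100000, 0, 0, 0, 0, 0, 0, 0, 0, ⟨0, 0⟩, 0⟩, 0, 0⟩ 0 0) (.cut .v 25165824 (.cut .d (-4194304) (.void 23 ⟨⟨100000, 0, 0, 0, 0, 0, 0, 0, 0, ⟨0, 0⟩, 0⟩, 0, 0⟩ 0 0) (.cut .v 20971520 (.cut .d (-2097152) (.void 25 ⟨⟨100000, 0, 0, 0, 0, 0, 0, 0, 0, ⟨0, 0⟩, 0⟩, 0, 0⟩ 0 0) (.cut .d (-1048576)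 (.void 25 ⟨⟨100000, 0, 0, 0, 0, 0, 0, 0, 0, ⟨0, 0⟩, 0⟩, 0, 0⟩ 0 0) (.cut .v 18874368 (.cut .d (-524288) (.void 27 ⟨⟨100000, 0, 0, 0, 0, 0, 0, 0, 0, ⟨0, 0⟩, 0⟩, 0, 0⟩ 0 0) (.cut .v 17825792 (.cut .v 17301504 (.cut .d (-262144) (.void 31 ⟨⟨100000, 0, 0, 0, 0, 0, 0, 0, 0, ⟨0, 0⟩, 0⟩, 0, 0⟩ 0 0) (.cut .d (-131072) (.void 31 ⟨⟨100000, 0, 0, 0, 0, 0, 0, 0, 0, ⟨0, 0⟩, 0⟩, 0, 0⟩ 0 0) (.cut .v 17039360 (.cut .d (-65536) (.void 33 ⟨⟨100000, 0, 0, 0, 0, 0, 0, 0, 0, ⟨0, 0⟩, 0⟩, 0, 0⟩ 0 0) (.cut .d (-32768) (.void 33 ⟨⟨100000, 0, 0, 0, 0, 0, 0, 0, 0, ⟨0, 0⟩, 0⟩, 0, 0⟩ 0 0) (.cut .d (-16384) (.void 33 ⟨⟨100000, 0, 0, 0, 0, 0, 0, 0, 0, ⟨0, 0⟩, 0⟩,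 0, 0⟩ 0 0) (.cut .s 14729216 (.cut .v 16908288 (.cut .d (-8192) (.cut .d (-12288) (.void 35 ⟨⟨0, 0, 0, 0, 0, 100000, 0, 0, 0, ⟨0, 0⟩, 0⟩, 0, 0⟩ 0 0) (.cut .l 184549 (.void 35 ⟨⟨100000, 0, 0, 0, 0, 0, 0, 0, 0, ⟨0, 0⟩, 0⟩, 0, 0⟩ 0 0) (.cut .l 276824 (.void 35 ⟨⟨0, 0, 0, 0, 0, 100000, 0, 0, 0, ⟨0, 0⟩, 0⟩, 0, 0⟩ 0 0) (.cut .s 14688256 (.cut .v 16842752 (.cut .s 14667776 (.pos 45 .mp ⟨⟨781205787, 0, 0, 0, 0, 451154207, 0, 0, 0, ⟨0, 0⟩, 0⟩, 0, 0⟩ 0 0) (.pos 45 .mp ⟨⟨792067980, 0, 0, 0, 0, 468371938, 0, 0, 0, ⟨0, 0⟩, 0⟩, 0, 0⟩ 0 0)) (.cut .s 14667776 (.pos 46 .mp ⟨⟨858177463, 0, 0, 0, 0, 304491370, 0, 0, 0, ⟨0, 0⟩, 0⟩, 0, 0⟩ 0 0) (.pos 46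 .mp ⟨⟨874809951, 0, 0, 0, 0, 310603234, 0, 0, 0, ⟨0, 0⟩, 0⟩, 0, 0⟩ 0 0))) (.cut .d (-10240) (.void 35 ⟨⟨0, 0, 0, 0, 0, 100000, 0, 0, 0, ⟨0, 0⟩, 0⟩, 0, 0⟩ 0 0) (.cut .v 16842752 (.cut .s 14708736 (.pos 45 .mp ⟨⟨845978409, 0, 0, 0, 0, 401438852, 0, 0, 0, ⟨0, 0⟩, 0⟩, 0, 0⟩ 0 0) (.pos 45 .mp ⟨⟨862386130, 0, 0, 0, 0, 410282756, 0, 0, 0, ⟨0, 0⟩, 0⟩, 0, 0⟩ 0 0)) (.cut .s 14708736 (.pos 46 .mp ⟨⟨956158846, 0, 0, 0, 0, 183661734, 0, 0, 0, ⟨0, 0⟩, 0⟩, 0, 0⟩ 0 0) (.pos 46 .mp ⟨⟨975647105, 0, 0, 0, 0, 186271549, 0, 0, 0, ⟨0, 0⟩, 0⟩, 0, 0⟩ 0 0)))))))) (.cut .s 14688256 (.cut .v 16842752 (.cut .s 14667776 (.cut .s 14657536 (.cut .l 184549 (.cut .d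 (-4096) (.pos 45 .mp ⟨⟨817885067, 0, 0, 0, 0, 377616266, 0, 0, 0, ⟨0, 0⟩, 0⟩, 0, 0⟩ 0 0) (.cut .v 16809984 (.cut .l 92274 (.cut .d (-2048) (.pos 49 .mp ⟨⟨816698903, 0, 0, 0, 0, 375232974, 0, 0, 0, ⟨0, 0⟩, 0⟩, 0, 0⟩ 0 0) (.cut .s 14652416 (.pos 49 .mp ⟨⟨826972470, 0, 0, 0, 0, 328478172, 0, 0, 0, ⟨0, 0⟩, 0⟩, 0, 0⟩ 0 0) (.cut .s 14654976 (.pos 49 .mp ⟨⟨828718058, 0, 0, 0, 0, 332986982, 0, 0, 0, ⟨0, 0⟩, 0⟩, 0, 0⟩ 0 0) (.pos 49 .mp ⟨⟨830523676, 0, 0, 0, 0, 334071819, 0, 0, 0, ⟨0, 0⟩, 0⟩, 0, 0⟩ 0 0)))) (.pos 49 .mp ⟨⟨829099485, 0, 0, 0, 0, 321664198, 0, 0, 0, ⟨0, 0⟩, 0⟩, 0, 0⟩ 0 0)) (.pos 50 .mp ⟨⟨988916062, 0, 0, 0, 0, 0, 0, 0, 0, ⟨0, 0⟩,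 0⟩, 0, 0⟩ 0 0))) (.cut .s 14652416 (.pos 45 .mp ⟨⟨831080911, 0, 0, 0, 0, 317445308, 0, 0, 0, ⟨0, 0⟩, 0⟩, 0, 0⟩ 0 0) (.pos 45 .mp ⟨⟨835029459, 0, 0, 0, 0, 319152199, 0, 0, 0, ⟨0, 0⟩, 0⟩, 0, 0⟩ 0 0))) (.cut .l 184549 (.cut .d (-4096) (.pos 45 .mp ⟨⟨825623912, 0, 0, 0, 0, 381137491, 0, 0, 0, ⟨0, 0⟩, 0⟩, 0, 0⟩ 0 0) (.cut .v 16809984 (.cut .l 92274 (.cut .d (-2048) (.pos 49 .mp ⟨⟨824403275, 0, 0, 0, 0, 378780984, 0, 0, 0, ⟨0, 0⟩, 0⟩, 0, 0⟩ 0 0) (.cut .v 16793600 (.cut .s 14662656 (.pos 83 .mp ⟨⟨833285535, 0, 0, 0, 0, 334688903, 0, 0, 0, ⟨0, 0⟩, 0⟩, 0, 0⟩ 0 0) (.cut .s 14665216 (.pos 83 .mp ⟨⟨838919062, 0, 0, 0, 0, 331361360, 0, 0, 0, ⟨0,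 0⟩, 0⟩, 0, 0⟩ 0 0) (.pos 83 .mp ⟨⟨840709182, 0, 0, 0, 0, 332564665, 0, 0, 0, ⟨0, 0⟩, 0⟩, 0, 0⟩ 0 0))) (.pos 84 .mp ⟨⟨996950773, 0, 0, 0, 0, 0, 0, 0, 0, ⟨0, 0⟩, 0⟩, 0, 0⟩ 0 0))) (.pos 49 .mp ⟨⟨836968445, 0, 0, 0, 0, 325215227, 0, 0, 0, ⟨0, 0⟩, 0⟩, 0, 0⟩ 0 0)) (.pos 50 .mp ⟨⟨998145395, 0, 0, 0, 0, 0, 0, 0, 0, ⟨0, 0⟩, 0⟩, 0, 0⟩ 0 0))) (.cut .s 14662656 (.pos 45 .mp ⟨⟨839002936, 0, 0, 0, 0, 320878701, 0, 0, 0, ⟨0, 0⟩, 0⟩, 0, 0⟩ 0 0) (.pos 45 .mp ⟨⟨843001519, 0, 0, 0, 0, 322624384, 0, 0, 0, ⟨0, 0⟩, 0⟩, 0, 0⟩ 0 0)))) (.cut .s 14678016 (.cut .l 184549 (.cut .d (-4096) (.pos 45 .mp ⟨⟨833459948, 0, 0, 0, 0, 384837599, 0, 0, 0, ⟨0, 0⟩, 0⟩, 0,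 0⟩ 0 0) (.cut .v 16809984 (.cut .l 92274 (.cut .d (-2048) (.pos 49 .mp ⟨⟨832204324, 0, 0, 0, 0, 382508176, 0, 0, 0, ⟨0, 0⟩, 0⟩, 0, 0⟩ 0 0) (.cut .v 16793600 (.cut .l 46137 (.cut .d (-1024) (.pos 83 .mp ⟨⟨831579998, 0, 0, 0, 0, 381336074, 0, 0, 0, ⟨0, 0⟩, 0⟩, 0, 0⟩ 0 0) (.cut .s 14672896 (.pos 83 .mp ⟨⟨838769565, 0, 0, 0, 0, 342688883, 0, 0, 0, ⟨0, 0⟩, 0⟩, 0, 0⟩ 0 0) (.pos 83 .mp ⟨⟨842752069, 0, 0, 0, 0, 344439960, 0, 0, 0, ⟨0, 0⟩, 0⟩, 0, 0⟩ 0 0))) (.pos 83 .mp ⟨⟨841876370, 0, 0, 0, 0, 333350739, 0, 0, 0, ⟨0, 0⟩, 0⟩, 0, 0⟩ 0 0)) (.pos 84 .mp ⟨⟨1006346267, 0, 0, 0, 0, 0, 0, 0, 0, ⟨0, 0⟩, 0⟩, 0, 0⟩ 0 0))) (.pos 49 .mp ⟨⟨844936754, 0, 0,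 0, 0, 328844001, 0, 0, 0, ⟨0, 0⟩, 0⟩, 0, 0⟩ 0 0)) (.pos 50 .mp ⟨⟨1007552194, 0, 0, 0, 0, 0, 0, 0, 0, ⟨0, 0⟩, 0⟩, 0, 0⟩ 0 0))) (.cut .s 14672896 (.pos 45 .mp ⟨⟨847025390, 0, 0, 0, 0, 324388816, 0, 0, 0, ⟨0, 0⟩, 0⟩, 0, 0⟩ 0 0) (.pos 45 .mp ⟨⟨851074730, 0, 0, 0, 0, 326171562, 0, 0, 0, ⟨0, 0⟩, 0⟩, 0, 0⟩ 0 0))) (.cut .l 184549 (.cut .d (-4096) (.pos 45 .mp ⟨⟨841394576, 0, 0, 0, 0, 388719314, 0, 0, 0, ⟨0, 0⟩, 0⟩, 0, 0⟩ 0 0) (.cut .v 16809984 (.cut .l 92274 (.cut .d (-2048) (.pos 49 .mp ⟨⟨840103445, 0, 0, 0, 0, 386417279, 0, 0, 0, ⟨0, 0⟩, 0⟩, 0, 0⟩ 0 0) (.cut .v 16793600 (.cut .l 46137 (.cut .d (-1024) (.pos 83 .mp ⟨⟨839461407, 0, 0, 0, 0,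 385258794, 0, 0, 0, ⟨0, 0⟩, 0⟩, 0, 0⟩ 0 0) (.cut .s 14683136 (.pos 83 .mp ⟨⟨846745501, 0, 0, 0, 0, 346258141, 0, 0, 0, ⟨0, 0⟩, 0⟩, 0, 0⟩ 0 0) (.cut .s 14685696 (.pos 83 .mp ⟨⟨850762247, 0, 0, 0, 0, 346680770, 0, 0, 0, ⟨0, 0⟩, 0⟩, 0, 0⟩ 0 0) (.pos 83 .mp ⟨⟨852695438, 0, 0, 0, 0, 347768914, 0, 0, 0, ⟨0, 0⟩, 0⟩, 0, 0⟩ 0 0)))) (.pos 83 .mp ⟨⟨849892224, 0, 0, 0, 0, 337140205, 0, 0, 0, ⟨0, 0⟩, 0⟩, 0, 0⟩ 0 0)) (.pos 84 .mp ⟨⟨1015921523, 0, 0, 0, 0, 0, 0, 0, 0, ⟨0, 0⟩, 0⟩, 0, 0⟩ 0 0))) (.pos 49 .mp ⟨⟨853005851, 0, 0, 0, 0, 332547072, 0, 0, 0, ⟨0, 0⟩, 0⟩, 0, 0⟩ 0 0)) (.pos 50 .mp ⟨⟨1017138971, 0, 0, 0, 0, 0, 0, 0, 0, ⟨0, 0⟩, 0⟩, 0, 0⟩ 0 0)))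 (.cut .s 14683136 (.pos 45 .mp ⟨⟨855149724, 0, 0, 0, 0, 327972181, 0, 0, 0, ⟨0, 0⟩, 0⟩, 0, 0⟩ 0 0) (.cut .s 14685696 (.pos 45 .mp ⟨⟨857196899, 0, 0, 0, 0, 332116392, 0, 0, 0, ⟨0, 0⟩, 0⟩, 0, 0⟩ 0 0) (.pos 45 .mp ⟨⟨859250557, 0, 0, 0, 0, 333038707, 0, 0, 0, ⟨0, 0⟩, 0⟩, 0, 0⟩ 0 0)))))) (.pos 46 .mp ⟨⟨1015283647, 0, 0, 0, 0, 0, 0, 0, 0, ⟨0, 0⟩, 0⟩, 0, 0⟩ 0 0)) (.cut .v 16842752 (.cut .s 14708736 (.cut .s 14698496 (.cut .l 184549 (.cut .d (-4096) (.pos 45 .mp ⟨⟨849429224, 0, 0, 0, 0, 392785412, 0, 0, 0, ⟨0, 0⟩, 0⟩, 0, 0⟩ 0 0) (.cut .v 16809984 (.cut .s 14693376 (.cut .s 14690816 (.pos 49 .mp ⟨⟨861709122, 0, 0, 0, 0, 334860441, 0, 0, 0, ⟨0,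 0⟩, 0⟩, 0, 0⟩ 0 0) (.cut .s 14692096 (.pos 49 .mp ⟨⟨862736094, 0, 0, 0, 0, 336777203, 0, 0, 0, ⟨0, 0⟩, 0⟩, 0, 0⟩ 0 0) (.pos 49 .mp ⟨⟨863764690, 0, 0, 0, 0, 337230987, 0, 0, 0, ⟨0, 0⟩, 0⟩, 0, 0⟩ 0 0))) (.cut .d (-2048) (.pos 49 .mp ⟨⟨856263037, 0, 0, 0, 0, 363634995, 0, 0, 0, ⟨0, 0⟩, 0⟩, 0, 0⟩ 0 0) (.cut .s 14695936 (.pos 49 .mp ⟨⟨859990671, 0, 0, 0, 0, 348593229, 0, 0, 0, ⟨0, 0⟩, 0⟩, 0, 0⟩ 0 0) (.pos 49 .mp ⟨⟨862084702, 0, 0, 0, 0, 349430590, 0, 0, 0, ⟨0, 0⟩, 0⟩, 0, 0⟩ 0 0)))) (.pos 50 .mp ⟨⟨1026908284, 0, 0, 0, 0, 0, 0, 0, 0, ⟨0, 0⟩, 0⟩, 0, 0⟩ 0 0))) (.cut .d (-4096) (.cut .s 14693376 (.pos 45 .mp ⟨⟨839372008, 0, 0, 0, 0, 391072525,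 0, 0, 0, ⟨0, 0⟩, 0⟩, 0, 0⟩ 0 0) (.pos 45 .mp ⟨⟨843211304, 0, 0, 0, 0, 393576473, 0, 0, 0, ⟨0, 0⟩, 0⟩, 0, 0⟩ 0 0)) (.pos 45 .mp ⟨⟨851721978, 0, 0, 0, 0, 0, 0, 0, 0, ⟨0, 0⟩, 0⟩, 0, 0⟩ 0 0))) (.cut .l 184549 (.cut .d (-4096) (.pos 45 .mp ⟨⟨857565348, 0, 0, 0, 0, 397038723, 0, 0, 0, ⟨0, 0⟩, 0⟩, 0, 0⟩ 0 0) (.cut .v 16809984 (.cut .s 14703616 (.cut .d (-2048) (.pos 49 .mp ⟨⟨860156146, 0, 0, 0, 0, 366072555, 0, 0, 0, ⟨0, 0⟩, 0⟩, 0, 0⟩ 0 0) (.cut .s 14701056 (.pos 49 .mp ⟨⟨864181503, 0, 0, 0, 0, 350285865, 0, 0, 0, ⟨0, 0⟩, 0⟩, 0, 0⟩ 0 0) (.pos 49 .mp ⟨⟨866281028, 0, 0, 0, 0, 351159223, 0, 0, 0, ⟨0, 0⟩, 0⟩, 0, 0⟩ 0 0))) (.cut .l 92274 (.cut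 .d (-2048) (.pos 49 .mp ⟨⟨860289702, 0, 0, 0, 0, 386189841, 0, 0, 0, ⟨0, 0⟩, 0⟩, 0, 0⟩ 0 0) (.cut .s 14706176 (.pos 49 .mp ⟨⟨868669336, 0, 0, 0, 0, 351012303, 0, 0, 0, ⟨0, 0⟩, 0⟩, 0, 0⟩ 0 0) (.pos 49 .mp ⟨⟨870770364, 0, 0, 0, 0, 351936785, 0, 0, 0, ⟨0, 0⟩, 0⟩, 0, 0⟩ 0 0))) (.pos 49 .mp ⟨⟨869452306, 0, 0, 0, 0, 346794045, 0, 0, 0, ⟨0, 0⟩, 0⟩, 0, 0⟩ 0 0))) (.pos 50 .mp ⟨⟨1036862745, 0, 0, 0, 0, 0, 0, 0, 0, ⟨0, 0⟩, 0⟩, 0, 0⟩ 0 0))) (.cut .d (-4096) (.cut .s 14703616 (.pos 45 .mp ⟨⟨847099621, 0, 0, 0, 0, 396057528, 0, 0, 0, ⟨0, 0⟩, 0⟩, 0, 0⟩ 0 0) (.pos 45 .mp ⟨⟨851037802, 0, 0, 0, 0, 398514052, 0, 0, 0, ⟨0, 0⟩, 0⟩, 0, 0⟩ 0 0)) (.pos 45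 .mp ⟨⟨859853175, 0, 0, 0, 0, 0, 0, 0, 0, ⟨0, 0⟩, 0⟩, 0, 0⟩ 0 0)))) (.cut .s 14718976 (.cut .l 184549 (.cut .d (-4096) (.pos 45 .mp ⟨⟨865804434, 0, 0, 0, 0, 401482133, 0, 0, 0, ⟨0, 0⟩, 0⟩, 0, 0⟩ 0 0) (.cut .v 16809984 (.cut .s 14713856 (.cut .l 92274 (.cut .d (-2048) (.pos 49 .mp ⟨⟨864403583, 0, 0, 0, 0, 388353244, 0, 0, 0, ⟨0, 0⟩, 0⟩, 0, 0⟩ 0 0) (.cut .s 14711296 (.pos 49 .mp ⟨⟨872874661, 0, 0, 0, 0, 352877377, 0, 0, 0, ⟨0, 0⟩, 0⟩, 0, 0⟩ 0 0) (.pos 49 .mp ⟨⟨874982194, 0, 0, 0, 0, 353834204, 0, 0, 0, ⟨0, 0⟩, 0⟩, 0, 0⟩ 0 0))) (.pos 49 .mp ⟨⟨873629240, 0, 0, 0, 0, 348783497, 0, 0, 0, ⟨0, 0⟩, 0⟩, 0, 0⟩ 0 0)) (.cut .l 92274 (.cut .d (-2048)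 (.pos 49 .mp ⟨⟨868543446, 0, 0, 0, 0, 390564484, 0, 0, 0, ⟨0, 0⟩, 0⟩, 0, 0⟩ 0 0) (.cut .s 14716416 (.pos 49 .mp ⟨⟨877092930, 0, 0, 0, 0, 354807392, 0, 0, 0, ⟨0, 0⟩, 0⟩, 0, 0⟩ 0 0) (.pos 49 .mp ⟨⟨879206838, 0, 0, 0, 0, 355797068, 0, 0, 0, ⟨0, 0⟩, 0⟩, 0, 0⟩ 0 0))) (.pos 49 .mp ⟨⟨877832687, 0, 0, 0, 0, 350788478, 0, 0, 0, ⟨0, 0⟩, 0⟩, 0, 0⟩ 0 0))) (.pos 50 .mp ⟨⟨1047005015, 0, 0, 0, 0, 0, 0, 0, 0, ⟨0, 0⟩, 0⟩, 0, 0⟩ 0 0))) (.cut .d (-4096) (.cut .s 14713856 (.pos 45 .mp ⟨⟨855026696, 0, 0, 0, 0, 400944392, 0, 0, 0, ⟨0, 0⟩, 0⟩, 0, 0⟩ 0 0) (.pos 45 .mp ⟨⟨859067163, 0, 0, 0, 0, 403346882, 0, 0, 0, ⟨0, 0⟩, 0⟩, 0, 0⟩ 0 0)) (.pos 45 .mp ⟨⟨868086048,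 0, 0, 0, 0, 0, 0, 0, 0, ⟨0, 0⟩, 0⟩, 0, 0⟩ 0 0))) (.cut .l 184549 (.cut .d (-4096) (.pos 45 .mp ⟨⟨874147996, 0, 0, 0, 0, 406118587, 0, 0, 0, ⟨0, 0⟩, 0⟩, 0, 0⟩ 0 0) (.cut .v 16809984 (.cut .s 14724096 (.cut .l 92274 (.cut .d (-2048) (.pos 49 .mp ⟨⟨872709481, 0, 0, 0, 0, 392823931, 0, 0, 0, ⟨0, 0⟩, 0⟩, 0, 0⟩ 0 0) (.cut .s 14721536 (.pos 49 .mp ⟨⟨881323883, 0, 0, 0, 0, 356803360, 0, 0, 0, ⟨0, 0⟩, 0⟩, 0, 0⟩ 0 0) (.pos 49 .mp ⟨⟨883444032, 0, 0, 0, 0, 357826397, 0, 0, 0, ⟨0, 0⟩, 0⟩, 0, 0⟩ 0 0))) (.pos 49 .mp ⟨⟨882062842, 0, 0, 0, 0, 352808526, 0, 0, 0, ⟨0, 0⟩, 0⟩, 0, 0⟩ 0 0)) (.cut .l 92274 (.cut .d (-2048) (.pos 49 .mp ⟨⟨876901880, 0, 0,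 0, 0, 395131959, 0, 0, 0, ⟨0, 0⟩, 0⟩, 0, 0⟩ 0 0) (.cut .s 14726656 (.pos 49 .mp ⟨⟨885567251, 0, 0, 0, 0, 358866310, 0, 0, 0, ⟨0, 0⟩, 0⟩, 0, 0⟩ 0 0) (.pos 49 .mp ⟨⟨887693506, 0, 0, 0, 0, 359923228, 0, 0, 0, ⟨0, 0⟩, 0⟩, 0, 0⟩ 0 0))) (.pos 49 .mp ⟨⟨886319903, 0, 0, 0, 0, 354843176, 0, 0, 0, ⟨0, 0⟩, 0⟩, 0, 0⟩ 0 0))) (.pos 50 .mp ⟨⟨1057337811, 0, 0, 0, 0, 0, 0, 0, 0, ⟨0, 0⟩, 0⟩, 0, 0⟩ 0 0))) (.cut .d (-4096) (.cut .s 14724096 (.pos 45 .mp ⟨⟨863160068, 0, 0, 0, 0, 405719840, 0, 0, 0, ⟨0, 0⟩, 0⟩, 0, 0⟩ 0 0) (.pos 45 .mp ⟨⟨867306282, 0, 0, 0, 0, 408061569, 0, 0, 0, ⟨0, 0⟩, 0⟩, 0, 0⟩ 0 0)) (.pos 45 .mp ⟨⟨876422076, 0, 0, 0, 0, 0, 0, 0, 0, ⟨0,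 0⟩, 0⟩, 0, 0⟩ 0 0))))) (.pos 46 .mp ⟨⟨1055183955, 0, 0, 0, 0, 0, 0, 0, 0, ⟨0, 0⟩, 0⟩, 0, 0⟩ 0 0)))) (.pos 36 .mp ⟨⟨1065917071, 0, 0, 0, 0, 0, 0, 0, 0, ⟨0, 0⟩, 0⟩, 0, 0⟩ 0 0)) (.cut .v 16908288 (.cut .d (-8192) (.cut .l 184549 (.void 35 ⟨⟨100000, 0, 0, 0, 0, 0, 0, 0, 0, ⟨0, 0⟩, 0⟩, 0, 0⟩ 0 0) (.cut .d (-12288) (.void 35 ⟨⟨0, 0, 0, 0, 0, 100000, 0, 0, 0, ⟨0, 0⟩, 0⟩, 0, 0⟩ 0 0) (.cut .l 276824 (.void 35 ⟨⟨0, 0, 0, 0, 0, 100000, 0, 0, 0, ⟨0, 0⟩, 0⟩, 0, 0⟩ 0 0) (.cut .d (-10240) (.void 35 ⟨⟨0, 0, 0, 0, 0, 100000, 0, 0, 0, ⟨0, 0⟩, 0⟩, 0, 0⟩ 0 0) (.cut .s 14770176 (.cut .v 16842752 (.cut .s 14749696 (.pos 45 .mp ⟨⟨879213280, 0, 0, 0, 0, 419643406,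 0, 0, 0, ⟨0, 0⟩, 0⟩, 0, 0⟩ 0 0) (.pos 45 .mp ⟨⟨896472388, 0, 0, 0, 0, 429515206, 0, 0, 0, ⟨0, 0⟩, 0⟩, 0, 0⟩ 0 0)) (.cut .s 14749696 (.pos 46 .mp ⟨⟨996991397, 0, 0, 0, 0, 186548287, 0, 0, 0, ⟨0, 0⟩, 0⟩, 0, 0⟩ 0 0) (.pos 46 .mp ⟨⟨1020337294, 0, 0, 0, 0, 184217572, 0, 0, 0, ⟨0, 0⟩, 0⟩, 0, 0⟩ 0 0))) (.cut .v 16842752 (.cut .s 14790656 (.pos 45 .mp ⟨⟨914176496, 0, 0, 0, 0, 439891889, 0, 0, 0, ⟨0, 0⟩, 0⟩, 0, 0⟩ 0 0) (.pos 45 .mp ⟨⟨890987521, 0, 0, 0, 0, 532758678, 0, 0, 0, ⟨0, 0⟩, 0⟩, 0, 0⟩ 0 0)) (.cut .s 14790656 (.pos 46 .mp ⟨⟨1045835972, 0, 0, 0, 0, 178993691, 0, 0, 0, ⟨0, 0⟩, 0⟩, 0, 0⟩ 0 0) (.pos 46 .mp ⟨⟨978152675, 0, 0, 0, 0, 359921124,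 0, 0, 0, ⟨0, 0⟩, 0⟩, 0, 0⟩ 0 0)))))))) (.cut .s 14770176 (.cut .v 16842752 (.cut .s 14749696 (.cut .s 14739456 (.cut .l 184549 (.cut .d (-4096) (.pos 45 .mp ⟨⟨882597579, 0, 0, 0, 0, 410951087, 0, 0, 0, ⟨0, 0⟩, 0⟩, 0, 0⟩ 0 0) (.cut .v 16809984 (.cut .s 14734336 (.cut .l 92274 (.cut .d (-2048) (.pos 49 .mp ⟨⟨881120840, 0, 0, 0, 0, 397488946, 0, 0, 0, ⟨0, 0⟩, 0⟩, 0, 0⟩ 0 0) (.cut .s 14731776 (.pos 49 .mp ⟨⟨889822763, 0, 0, 0, 0, 360997283, 0, 0, 0, ⟨0, 0⟩, 0⟩, 0, 0⟩ 0 0) (.pos 49 .mp ⟨⟨891954986, 0, 0, 0, 0, 362088608, 0, 0, 0, ⟨0, 0⟩, 0⟩, 0, 0⟩ 0 0))) (.pos 49 .mp ⟨⟨890604069, 0, 0, 0, 0, 356891958, 0, 0, 0, ⟨0, 0⟩, 0⟩, 0, 0⟩ 0 0)) (.cut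 .l 92274 (.cut .d (-2048) (.pos 49 .mp ⟨⟨885366556, 0, 0, 0, 0, 399895273, 0, 0, 0, ⟨0, 0⟩, 0⟩, 0, 0⟩ 0 0) (.cut .s 14736896 (.pos 49 .mp ⟨⟨894090140, 0, 0, 0, 0, 363197337, 0, 0, 0, ⟨0, 0⟩, 0⟩, 0, 0⟩ 0 0) (.pos 49 .mp ⟨⟨896228191, 0, 0, 0, 0, 364323604, 0, 0, 0, ⟨0, 0⟩, 0⟩, 0, 0⟩ 0 0))) (.pos 49 .mp ⟨⟨894915541, 0, 0, 0, 0, 358954399, 0, 0, 0, ⟨0, 0⟩, 0⟩, 0, 0⟩ 0 0))) (.pos 50 .mp ⟨⟨1067863901, 0, 0, 0, 0, 0, 0, 0, 0, ⟨0, 0⟩, 0⟩, 0, 0⟩ 0 0))) (.cut .d (-4096) (.cut .s 14734336 (.pos 45 .mp ⟨⟨871506688, 0, 0, 0, 0, 410370356, 0, 0, 0, ⟨0, 0⟩, 0⟩, 0, 0⟩ 0 0) (.pos 45 .mp ⟨⟨875762173, 0, 0, 0, 0, 412644471, 0, 0, 0, ⟨0, 0⟩, 0⟩, 0, 0⟩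 0 0)) (.pos 45 .mp ⟨⟨884862765, 0, 0, 0, 0, 0, 0, 0, 0, ⟨0, 0⟩, 0⟩, 0, 0⟩ 0 0))) (.cut .l 184549 (.cut .d (-4096) (.pos 45 .mp ⟨⟨891154760, 0, 0, 0, 0, 415982696, 0, 0, 0, ⟨0, 0⟩, 0⟩, 0, 0⟩ 0 0) (.cut .v 16809984 (.cut .s 14744576 (.cut .d (-2048) (.pos 49 .mp ⟨⟨893630842, 0, 0, 0, 0, 383733102, 0, 0, 0, ⟨0, 0⟩, 0⟩, 0, 0⟩ 0 0) (.cut .s 14742016 (.pos 49 .mp ⟨⟨898068708, 0, 0, 0, 0, 366548753, 0, 0, 0, ⟨0, 0⟩, 0⟩, 0, 0⟩ 0 0) (.pos 49 .mp ⟨⟨900205291, 0, 0, 0, 0, 367735568, 0, 0, 0, ⟨0, 0⟩, 0⟩, 0, 0⟩ 0 0))) (.cut .d (-2048) (.pos 49 .mp ⟨⟨898124643, 0, 0, 0, 0, 385675791, 0, 0, 0, ⟨0, 0⟩, 0⟩, 0, 0⟩ 0 0) (.cut .s 14747136 (.pos 49 .mp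 ⟨⟨902343755, 0, 0, 0, 0, 368943557, 0, 0, 0, ⟨0, 0⟩, 0⟩, 0, 0⟩ 0 0) (.pos 49 .mp ⟨⟨904484046, 0, 0, 0, 0, 370172914, 0, 0, 0, ⟨0, 0⟩, 0⟩, 0, 0⟩ 0 0)))) (.pos 50 .mp ⟨⟨1078586112, 0, 0, 0, 0, 0, 0, 0, 0, ⟨0, 0⟩, 0⟩, 0, 0⟩ 0 0))) (.cut .d (-4096) (.cut .s 14744576 (.pos 45 .mp ⟨⟨880073633, 0, 0, 0, 0, 414882171, 0, 0, 0, ⟨0, 0⟩, 0⟩, 0, 0⟩ 0 0) (.pos 45 .mp ⟨⟨884441973, 0, 0, 0, 0, 417081695, 0, 0, 0, ⟨0, 0⟩, 0⟩, 0, 0⟩ 0 0)) (.pos 45 .mp ⟨⟨893409654, 0, 0, 0, 0, 0, 0, 0, 0, ⟨0, 0⟩, 0⟩, 0, 0⟩ 0 0)))) (.cut .s 14759936 (.cut .l 184549 (.cut .d (-4096) (.pos 45 .mp ⟨⟨899821147, 0, 0, 0, 0, 421216540, 0, 0, 0, ⟨0, 0⟩, 0⟩, 0, 0⟩ 0 0) (.cut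 .v 16809984 (.cut .s 14754816 (.cut .d (-2048) (.pos 49 .mp ⟨⟨902691365, 0, 0, 0, 0, 387551665, 0, 0, 0, ⟨0, 0⟩, 0⟩, 0, 0⟩ 0 0) (.cut .s 14752256 (.pos 49 .mp ⟨⟨906626108, 0, 0, 0, 0, 371423836, 0, 0, 0, ⟨0, 0⟩, 0⟩, 0, 0⟩ 0 0) (.pos 49 .mp ⟨⟨908769885, 0, 0, 0, 0, 372696522, 0, 0, 0, ⟨0, 0⟩, 0⟩, 0, 0⟩ 0 0))) (.cut .s 14757376 (.cut .s 14756096 (.pos 49 .mp ⟨⟨916218957, 0, 0, 0, 0, 361915918, 0, 0, 0, ⟨0, 0⟩, 0⟩, 0, 0⟩ 0 0) (.pos 49 .mp ⟨⟨917332686, 0, 0, 0, 0, 362469098, 0, 0, 0, ⟨0, 0⟩, 0⟩, 0, 0⟩ 0 0)) (.pos 49 .mp ⟨⟨919565501, 0, 0, 0, 0, 361944137, 0, 0, 0, ⟨0, 0⟩, 0⟩, 0, 0⟩ 0 0))) (.pos 50 .mp ⟨⟨1089507326, 0, 0, 0, 0, 0, 0, 0,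 0, ⟨0, 0⟩, 0⟩, 0, 0⟩ 0 0))) (.cut .d (-4096) (.cut .s 14754816 (.pos 45 .mp ⟨⟨888868105, 0, 0, 0, 0, 419241267, 0, 0, 0, ⟨0, 0⟩, 0⟩, 0, 0⟩ 0 0) (.pos 45 .mp ⟨⟨893352950, 0, 0, 0, 0, 421359091, 0, 0, 0, ⟨0, 0⟩, 0⟩, 0, 0⟩ 0 0)) (.pos 45 .mp ⟨⟨902064309, 0, 0, 0, 0, 0, 0, 0, 0, ⟨0, 0⟩, 0⟩, 0, 0⟩ 0 0))) (.cut .l 184549 (.cut .d (-4096) (.pos 45 .mp ⟨⟨908598380, 0, 0, 0, 0, 426655805, 0, 0, 0, ⟨0, 0⟩, 0⟩, 0, 0⟩ 0 0) (.cut .v 16809984 (.cut .s 14765056 (.cut .s 14762496 (.pos 49 .mp ⟨⟨921805482, 0, 0, 0, 0, 363057532, 0, 0, 0, ⟨0, 0⟩, 0⟩, 0, 0⟩ 0 0) (.pos 49 .mp ⟨⟨924052654, 0, 0, 0, 0, 364178686, 0, 0, 0, ⟨0, 0⟩, 0⟩, 0, 0⟩ 0 0)) (.cut .s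 14767616 (.pos 49 .mp ⟨⟨926307045, 0, 0, 0, 0, 365307584, 0, 0, 0, ⟨0, 0⟩, 0⟩, 0, 0⟩ 0 0) (.pos 49 .mp ⟨⟨928568682, 0, 0, 0, 0, 366444214, 0, 0, 0, ⟨0, 0⟩, 0⟩, 0, 0⟩ 0 0))) (.pos 50 .mp ⟨⟨1100630484, 0, 0, 0, 0, 0, 0, 0, 0, ⟨0, 0⟩, 0⟩, 0, 0⟩ 0 0))) (.cut .d (-4096) (.cut .s 14765056 (.pos 45 .mp ⟨⟨897897437, 0, 0, 0, 0, 423433360, 0, 0, 0, ⟨0, 0⟩, 0⟩, 0, 0⟩ 0 0) (.pos 45 .mp ⟨⟨902502502, 0, 0, 0, 0, 425462244, 0, 0, 0, ⟨0, 0⟩, 0⟩, 0, 0⟩ 0 0)) (.pos 45 .mp ⟨⟨910828331, 0, 0, 0, 0, 0, 0, 0, 0, ⟨0, 0⟩, 0⟩, 0, 0⟩ 0 0))))) (.pos 46 .mp ⟨⟨1098122805, 0, 0, 0, 0, 0, 0, 0, 0, ⟨0, 0⟩, 0⟩, 0, 0⟩ 0 0)) (.cut .v 16842752 (.cut .s 14790656 (.cut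 .s 14780416 (.cut .l 184549 (.cut .d (-4096) (.pos 45 .mp ⟨⟨917488134, 0, 0, 0, 0, 432303745, 0, 0, 0, ⟨0, 0⟩, 0⟩, 0, 0⟩ 0 0) (.cut .v 16809984 (.cut .l 92274 (.cut .d (-2048) (.pos 49 .mp ⟨⟨915852737, 0, 0, 0, 0, 430262641, 0, 0, 0, ⟨0, 0⟩, 0⟩, 0, 0⟩ 0 0) (.cut .v 16793600 (.cut .l 46137 (.cut .d (-1024) (.pos 83 .mp ⟨⟨915038977, 0, 0, 0, 0, 429233863, 0, 0, 0, ⟨0, 0⟩, 0⟩, 0, 0⟩ 0 0) (.cut .s 14775296 (.pos 83 .mp ⟨⟨923108140, 0, 0, 0, 0, 384613695, 0, 0, 0, ⟨0, 0⟩, 0⟩, 0, 0⟩ 0 0) (.pos 83 .mp ⟨⟨927612033, 0, 0, 0, 0, 387051974, 0, 0, 0, ⟨0, 0⟩, 0⟩, 0, 0⟩ 0 0))) (.pos 83 .mp ⟨⟨926779131, 0, 0, 0, 0, 374066330, 0, 0, 0, ⟨0, 0⟩, 0⟩,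 0, 0⟩ 0 0)) (.pos 84 .mp ⟨⟨1110627228, 0, 0, 0, 0, 0, 0, 0, 0, ⟨0, 0⟩, 0⟩, 0, 0⟩ 0 0))) (.pos 49 .mp ⟨⟨930415217, 0, 0, 0, 0, 368620679, 0, 0, 0, ⟨0, 0⟩, 0⟩, 0, 0⟩ 0 0)) (.pos 50 .mp ⟨⟨1111958587, 0, 0, 0, 0, 0, 0, 0, 0, ⟨0, 0⟩, 0⟩, 0, 0⟩ 0 0))) (.cut .s 14775296 (.pos 45 .mp ⟨⟨933107342, 0, 0, 0, 0, 362916891, 0, 0, 0, ⟨0, 0⟩, 0⟩, 0, 0⟩ 0 0) (.pos 45 .mp ⟨⟨937707245, 0, 0, 0, 0, 364968679, 0, 0, 0, ⟨0, 0⟩, 0⟩, 0, 0⟩ 0 0))) (.cut .l 184549 (.cut .d (-4096) (.pos 45 .mp ⟨⟨926492117, 0, 0, 0, 0, 438163679, 0, 0, 0, ⟨0, 0⟩, 0⟩, 0, 0⟩ 0 0) (.cut .v 16809984 (.cut .l 92274 (.cut .d (-2048) (.pos 49 .mp ⟨⟨924815572, 0, 0, 0, 0, 436153262,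 0, 0, 0, ⟨0, 0⟩, 0⟩, 0, 0⟩ 0 0) (.cut .v 16793600 (.cut .l 46137 (.cut .d (-1024) (.pos 83 .mp ⟨⟨923981288, 0, 0, 0, 0, 435139736, 0, 0, 0, ⟨0, 0⟩, 0⟩, 0, 0⟩ 0 0) (.cut .s 14785536 (.pos 83 .mp ⟨⟨932079573, 0, 0, 0, 0, 389678797, 0, 0, 0, ⟨0, 0⟩, 0⟩, 0, 0⟩ 0 0) (.pos 83 .mp ⟨⟨936444555, 0, 0, 0, 0, 392653598, 0, 0, 0, ⟨0, 0⟩, 0⟩, 0, 0⟩ 0 0))) (.pos 83 .mp ⟨⟨935878729, 0, 0, 0, 0, 378413442, 0, 0, 0, ⟨0, 0⟩, 0⟩, 0, 0⟩ 0 0)) (.pos 84 .mp ⟨⟨1122149486, 0, 0, 0, 0, 0, 0, 0, 0, ⟨0, 0⟩, 0⟩, 0, 0⟩ 0 0))) (.pos 49 .mp ⟨⟨939577940, 0, 0, 0, 0, 372864202, 0, 0, 0, ⟨0, 0⟩, 0⟩, 0, 0⟩ 0 0)) (.pos 50 .mp ⟨⟨1123494700, 0, 0, 0, 0, 0, 0, 0, 0, ⟨0,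 0⟩, 0⟩, 0, 0⟩ 0 0))) (.cut .s 14785536 (.pos 45 .mp ⟨⟨942336891, 0, 0, 0, 0, 367028753, 0, 0, 0, ⟨0, 0⟩, 0⟩, 0, 0⟩ 0 0) (.pos 45 .mp ⟨⟨946996507, 0, 0, 0, 0, 369096589, 0, 0, 0, ⟨0, 0⟩, 0⟩, 0, 0⟩ 0 0)))) (.cut .s 14800896 (.cut .l 184549 (.cut .d (-4096) (.pos 45 .mp ⟨⟨935612074, 0, 0, 0, 0, 444238996, 0, 0, 0, ⟨0, 0⟩, 0⟩, 0, 0⟩ 0 0) (.cut .v 16809984 (.cut .l 92274 (.cut .d (-2048) (.pos 49 .mp ⟨⟨933893769, 0, 0, 0, 0, 442259624, 0, 0, 0, ⟨0, 0⟩, 0⟩, 0, 0⟩ 0 0) (.cut .s 14795776 (.cut .s 14793216 (.pos 49 .mp ⟨⟨943386601, 0, 0, 0, 0, 388868558, 0, 0, 0, ⟨0, 0⟩, 0⟩, 0, 0⟩ 0 0) (.pos 49 .mp ⟨⟨945897942, 0, 0, 0, 0, 389759980, 0, 0, 0,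 ⟨0, 0⟩, 0⟩, 0, 0⟩ 0 0)) (.pos 49 .mp ⟨⟨950506367, 0, 0, 0, 0, 388229236, 0, 0, 0, ⟨0, 0⟩, 0⟩, 0, 0⟩ 0 0))) (.pos 49 .mp ⟨⟨948859317, 0, 0, 0, 0, 377140119, 0, 0, 0, ⟨0, 0⟩, 0⟩, 0, 0⟩ 0 0)) (.pos 50 .mp ⟨⟨1135241948, 0, 0, 0, 0, 0, 0, 0, 0, ⟨0, 0⟩, 0⟩, 0, 0⟩ 0 0))) (.cut .s 14795776 (.pos 45 .mp ⟨⟨951686323, 0, 0, 0, 0, 371171659, 0, 0, 0, ⟨0, 0⟩, 0⟩, 0, 0⟩ 0 0) (.pos 45 .mp ⟨⟨956406571, 0, 0, 0, 0, 373253430, 0, 0, 0, ⟨0, 0⟩, 0⟩, 0, 0⟩ 0 0))) (.cut .l 184549 (.cut .d (-4096) (.pos 45 .mp ⟨⟨944849783, 0, 0, 0, 0, 450533152, 0, 0, 0, ⟨0, 0⟩, 0⟩, 0, 0⟩ 0 0) (.cut .v 16809984 (.cut .l 92274 (.cut .d (-2048) (.pos 49 .mp ⟨⟨943089099, 0,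 0, 0, 0, 448585189, 0, 0, 0, ⟨0, 0⟩, 0⟩, 0, 0⟩ 0 0) (.cut .s 14806016 (.pos 49 .mp ⟨⟨955187124, 0, 0, 0, 0, 390765718, 0, 0, 0, ⟨0, 0⟩, 0⟩, 0, 0⟩ 0 0) (.pos 49 .mp ⟨⟨959898180, 0, 0, 0, 0, 393332830, 0, 0, 0, ⟨0, 0⟩, 0⟩, 0, 0⟩ 0 0))) (.pos 49 .mp ⟨⟨958261178, 0, 0, 0, 0, 381444214, 0, 0, 0, ⟨0, 0⟩, 0⟩, 0, 0⟩ 0 0)) (.pos 50 .mp ⟨⟨1147203523, 0, 0, 0, 0, 0, 0, 0, 0, ⟨0, 0⟩, 0⟩, 0, 0⟩ 0 0))) (.cut .s 14806016 (.pos 45 .mp ⟨⟨961157484, 0, 0, 0, 0, 375341365, 0, 0, 0, ⟨0, 0⟩, 0⟩, 0, 0⟩ 0 0) (.pos 45 .mp ⟨⟨965939300, 0, 0, 0, 0, 377434922, 0, 0, 0, ⟨0, 0⟩, 0⟩, 0, 0⟩ 0 0))))) (.pos 46 .mp ⟨⟨1143902013, 0, 0, 0, 0, 0, 0, 0, 0, ⟨0, 0⟩, 0⟩, 0,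 0⟩ 0 0)))) (.pos 36 .mp ⟨⟨1154166947, 0, 0, 0, 0, 0, 0, 0, 0, ⟨0, 0⟩, 0⟩, 0, 0⟩ 0 0)))))) (.pos 34 .mp ⟨⟨1246554364, 0, 0, 0, 0, 0, 0, 0, 0, ⟨0, 0⟩, 0⟩, 0, 0⟩ 0 0)))) (.void 32 ⟨⟨100000, 0, 0, 0, 0, 0, 0, 0, 0, ⟨0, 0⟩, 0⟩, 0, 0⟩ 0 0)) (.void 30 ⟨⟨100000, 0, 0, 0, 0, 0, 0, 0, 0, ⟨0, 0⟩, 0⟩, 0, 0⟩ 0 0))) (.void 28 ⟨⟨100000, 0, 0, 0, 0, 0, 0, 0, 0, ⟨0, 0⟩, 0⟩, 0, 0⟩ 0 0)))) (.void 26 ⟨⟨100000, 0, 0, 0, 0, 0, 0, 0, 0, ⟨0, 0⟩, 0⟩, 0, 0⟩ 0 0))) (.void 24 ⟨⟨100000, 0, 0, 0, 0, 0, 0, 0, 0, ⟨0, 0⟩, 0⟩, 0, 0⟩ 0 0))) (.void 91 ⟨⟨100000, 0, 0, 0, 0, 0, 0, 0, 0, ⟨0, 0⟩, 0⟩, 0, 0⟩ 0 0)) (.void 112 ⟨⟨100000, 0, 0, 0, 0, 0, 0, 0, 0, ⟨0, 0⟩, 0⟩, 0,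 0⟩ 0 0)) (.void 121 ⟨⟨92440, 0, 0, 7443, 0, 0, 9, 0, 0, ⟨0, 0⟩, 0⟩, 0, 0⟩ 0 0))) (.cut .v 16777216 (.cut .v 8388608 (.cut .v 4194304 (.cut .v 2097152 (.cut .v 1048576 (.pos 117 .pm ⟨⟨0, 0, 30891184, 0, 0, 0, 0, 0, 0, ⟨0, 0⟩, 0⟩, 0, 3274⟩ 0 0) (.pos 118 .pm ⟨⟨0, 0, 46473834, 0, 0, 0, 0, 0, 0, ⟨0, 0⟩, 0⟩, 0, 9436⟩ 0 0)) (.pos 114 .pm ⟨⟨0, 0, 72719039, 0, 0, 0, 0, 0, 0, ⟨0, 0⟩, 0⟩, 0, 17824⟩ 0 0)) (.pos 5 .pm ⟨⟨0, 0, 206017720, 0, 0, 0, 0, 0, 0, ⟨0, 0⟩, 0⟩, 0, 41339⟩ 0 0)) (.pos 3 .pm ⟨⟨0, 0, 0, 0, 0, 0, 0, 0, 0, ⟨0, 0⟩, 0⟩, 0, 0⟩ 0 0)) (.cut .v 268435456 (.cut .v 67108864 (.cut .d 1219821 (.cut .v 33554432 (.cut .d 609910 (.cut .v 25165824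 (.cut .d 304955 (.cut .v 20971520 (.cut .d 152477 (.cut .v 18874368 (.cut .d 76238 (.cut .d 38119 (.cut .v 17825792 (.cut .v 17301504 (.cut .s 14729216 (.pos 31 .pp ⟨⟨846423707, 0, 0, 0, 0, 0, 0, 0, 0, ⟨0, 0⟩, 0⟩, 23567613, 0⟩ 0 0) (.pos 31 .pp ⟨⟨908252972, 0, 0, 0, 0, 0, 0, 0, 0, ⟨0, 0⟩, 0⟩, 26686533, 0⟩ 0 0)) (.pos 32 .pp ⟨⟨1095750658, 0, 0, 0, 0, 0, 0, 0, 0, ⟨0, 0⟩, 0⟩, 0, 0⟩ 0 0)) (.pos 30 .pp ⟨⟨1232917418, 0, 0, 0, 0, 0, 0, 0, 0, ⟨0, 0⟩, 0⟩, 0, 0⟩ 0 0)) (.pos 27 .pp ⟨⟨957816832, 0, 0, 0, 0, 0, 0, 0, 0, ⟨0, 0⟩, 0⟩, 0, 2219⟩ 0 0)) (.pos 27 .pp ⟨⟨0, 0, 0, 0, 0, 0, 0, 0, 0, ⟨0, 0⟩, 0⟩, 0, 109428⟩ 0 0)) (.cut .d 76238 (.pos 28 .pp ⟨⟨1459507506,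 0, 0, 0, 0, 0, 0, 0, 0, ⟨0, 0⟩, 0⟩, 0, 0⟩ 0 0) (.pos 28 .pp ⟨⟨1216074842, 0, 0, 0, 0, 0, 0, 0, 0, ⟨0, 0⟩, 0⟩, 0, 0⟩ 0 0))) (.pos 25 .pp ⟨⟨0, 0, 0, 0, 0, 0, 0, 0, 0, ⟨0, 0⟩, 0⟩, 0, 114832⟩ 0 0)) (.cut .d 152477 (.cut .v 23068672 (.cut .v 22020096 (.cut .d 76238 (.void 57 ⟨⟨0, 0, 0, 0, 0, 0, 0, 0, 0, ⟨0, 0⟩, 0⟩, 100000, 0⟩ 0 0) (.pos 57 .pp ⟨⟨1501161453, 0, 0, 0, 0, 0, 0, 0, 0, ⟨0, 0⟩, 0⟩, 0, 0⟩ 0 0)) (.pos 58 .pp ⟨⟨1729878105, 0, 0, 0, 0, 0, 0, 0, 0, ⟨0, 0⟩, 0⟩, 0, 0⟩ 0 0)) (.void 56 ⟨⟨0, 0, 0, 0, 0, 0, 0, 0, 0, ⟨0, 0⟩, 0⟩, 100000, 0⟩ 0 0)) (.cut .v 23068672 (.pos 55 .pp ⟨⟨0, 0, 0, 0, 0, 0, 32572, 0, 0, ⟨0, 0⟩, 0⟩, 190558293, 0⟩ 0 0)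 (.pos 56 .pp ⟨⟨0, 0, 0, 0, 0, 0, 0, 0, 0, ⟨0, 0⟩, 0⟩, 235999591, 0⟩ 0 0)))) (.pos 23 .pp ⟨⟨0, 0, 0, 0, 0, 0, 0, 0, 0, ⟨0, 0⟩, 0⟩, 0, 124018⟩ 0 0)) (.cut .d 304955 (.cut .v 29360128 (.pos 75 .pp ⟨⟨0, 0, 0, 0, 0, 0, 0, 0, 0, ⟨0, 0⟩, 0⟩, 326686124, 0⟩ 0 0) (.void 76 ⟨⟨0, 0, 0, 0, 0, 0, 0, 0, 0, ⟨0, 0⟩, 0⟩, 100000, 0⟩ 0 0)) (.pos 24 .pp ⟨⟨0, 0, 0, 0, 0, 0, 0, 0, 0, ⟨0, 0⟩, 0⟩, 231924471, 0⟩ 0 0))) (.pos 22 .pp ⟨⟨0, 0, 0, 0, 0, 0, 413346, 0, 0, ⟨0, 0⟩, 0⟩, 0, 0⟩ 0 0)) (.cut .d 609910 (.cut .v 50331648 (.pos 104 .pp ⟨⟨0, 0, 0, 0, 0, 0, 0, 0, 0, ⟨0, 0⟩, 0⟩, 520390097, 0⟩ 0 0) (.void 105 ⟨⟨0, 0, 0, 0, 0, 0, 0, 0, 0, ⟨0, 0⟩, 0⟩, 100000, 0⟩ 0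 0)) (.pos 91 .pp ⟨⟨0, 0, 0, 0, 0, 0, 0, 0, 0, ⟨0, 0⟩, 0⟩, 334139532, 0⟩ 0 0))) (.pos 90 .pp ⟨⟨0, 0, 0, 0, 0, 0, 0, 0, 0, ⟨0, 0⟩, 0⟩, 0, 103349⟩ 0 0)) (.void 112 ⟨⟨0, 0, 0, 49642, 0, 0, 0, 0, 0, ⟨0, 0⟩, 0⟩, 50358, 0⟩ 0 0)) (.void 121 ⟨⟨0, 0, 0, 0, 0, 0, 0, 0, 0, ⟨0, 0⟩, 0⟩, 100000, 0⟩ 0 0)))),
    by decide +kernel⟩

theorem covers31 : cell.Covers Vale.Agent.P237.Petty.Cor.Grid.N10.table row31.1 :=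
  ⟨(.cut .d 0 (.cut .v 16777216 (.cut .v 8388608 (.void 2 ⟨⟨0, 0, 100000, 0, 0, 0, 0, 0, 0, ⟨0, 0⟩, 0⟩, 0, 0⟩ 0 0) (.cut .d (-8388608) (.void 3 ⟨⟨100000, 0, 0, 0, 0, 0, 0, 0, 0, ⟨0, 0⟩, 0⟩, 0, 0⟩ 0 0) (.cut .d (-4194304) (.void 3 ⟨⟨100000, 0, 0, 0, 0, 0, 0, 0, 0, ⟨0, 0⟩, 0⟩, 0, 0⟩ 0 0) (.cut .d (-2097152) (.void 3 ⟨⟨100000, 0, 0, 0, 0, 0, 0, 0, 0, ⟨0, 0⟩, 0⟩, 0, 0⟩ 0 0) (.cut .d (-1048576) (.void 3 ⟨⟨75093, 0, 24907, 0, 0, 0, 0, 0, 0, ⟨0, 0⟩, 0⟩, 0, 0⟩ 0 0) (.cut .d (-524288) (.void 3 ⟨⟨0, 0, 0, 0, 0, 100000, 0, 0, 0, ⟨0, 0⟩, 0⟩, 0, 0⟩ 0 0) (.cut .s 14876672 (.pos 3 .mm ⟨⟨0, 0, 0, 0, 0, 2487314805, 0, 0, 0, ⟨0, 0⟩, 0⟩, 0, 0⟩ 0 0) (.pos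 3 .mm ⟨⟨0, 0, 0, 0, 0, 2673513304, 0, 0, 0, ⟨0, 0⟩, 0⟩, 0, 0⟩ 0 0)))))))) (.cut .v 268435456 (.cut .v 67108864 (.cut .v 33554432 (.cut .d (-8388608) (.void 22 ⟨⟨100012, 0, 0, 0, 0, 0, 0, 0, 0, ⟨0, 0⟩, 0⟩, 0, 0⟩ 0 0) (.cut .v 25165824 (.cut .d (-4194304) (.void 23 ⟨⟨100000, 0, 0, 0, 0, 0, 0, 0, 0, ⟨0, 0⟩, 0⟩, 0, 0⟩ 0 0) (.cut .d (-2097152) (.void 23 ⟨⟨100000, 0, 0, 0, 0, 0, 0, 0, 0, ⟨0, 0⟩, 0⟩, 0, 0⟩ 0 0) (.cut .v 20971520 (.cut .d (-1048576) (.void 25 ⟨⟨100000, 0, 0, 0, 0, 0, 0, 0, 0, ⟨0, 0⟩, 0⟩, 0, 0⟩ 0 0) (.cut .v 18874368 (.cut .d (-524288) (.void 27 ⟨⟨100000, 0, 0, 0, 0, 0, 0, 0, 0, ⟨0, 0⟩, 0⟩, 0, 0⟩ 0 0) (.cut .v 17825792 (.cut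 .d (-262144) (.void 29 ⟨⟨100000, 0, 0, 0, 0, 0, 0, 0, 0, ⟨0, 0⟩, 0⟩, 0, 0⟩ 0 0) (.cut .v 17301504 (.cut .d (-131072) (.void 31 ⟨⟨100000, 0, 0, 0, 0, 0, 0, 0, 0, ⟨0, 0⟩, 0⟩, 0, 0⟩ 0 0) (.cut .v 17039360 (.cut .d (-65536) (.void 33 ⟨⟨100000, 0, 0, 0, 0, 0, 0, 0, 0, ⟨0, 0⟩, 0⟩, 0, 0⟩ 0 0) (.cut .d (-32768) (.void 33 ⟨⟨100000, 0, 0, 0, 0, 0, 0, 0, 0, ⟨0, 0⟩, 0⟩, 0, 0⟩ 0 0) (.cut .d (-16384) (.void 33 ⟨⟨100000, 0, 0, 0, 0, 0, 0, 0, 0, ⟨0, 0⟩, 0⟩, 0, 0⟩ 0 0) (.cut .d (-8192) (.cut .v 16908288 (.cut .d (-12288) (.void 35 ⟨⟨0, 0, 0, 0, 0, 100000, 0, 0, 0, ⟨0, 0⟩, 0⟩, 0, 0⟩ 0 0) (.cut .d (-10240) (.void 35 ⟨⟨0, 0, 0, 0, 0, 100000, 0, 0, 0, ⟨0,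 0⟩, 0⟩, 0, 0⟩ 0 0) (.cut .l 184549 (.void 35 ⟨⟨100000, 0, 0, 0, 0, 0, 0, 0, 0, ⟨0, 0⟩, 0⟩, 0, 0⟩ 0 0) (.cut .l 276824 (.void 35 ⟨⟨0, 0, 0, 0, 0, 100000, 0, 0, 0, ⟨0, 0⟩, 0⟩, 0, 0⟩ 0 0) (.cut .l 322961 (.pos 35 .mp ⟨⟨961586643, 0, 0, 0, 0, 1478438792, 0, 0, 0, ⟨0, 0⟩, 0⟩, 0, 0⟩ 0 0) (.cut .v 16842752 (.cut .s 14876672 (.pos 45 .mp ⟨⟨727635027, 0, 0, 0, 0, 967019695, 0, 0, 0, ⟨0, 0⟩, 0⟩, 0, 0⟩ 0 0) (.pos 45 .mp ⟨⟨735755887, 0, 0, 0, 0, 1112956203, 0, 0, 0, ⟨0, 0⟩, 0⟩, 0, 0⟩ 0 0)) (.cut .d (-9216) (.pos 46 .mp ⟨⟨1082486602, 0, 0, 0, 0, 508120699, 0, 0, 0, ⟨0, 0⟩, 0⟩, 0, 0⟩ 0 0) (.cut .v 16875520 (.cut .v 16859136 (.cut .s 14876672 (.cut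 .s 14843904 (.pos 106 .mp ⟨⟨997736075, 0, 0, 0, 0, 388015970, 0, 0, 0, ⟨0, 0⟩, 0⟩, 0, 0⟩ 0 0) (.pos 106 .mp ⟨⟨1030619956, 0, 0, 0, 0, 399832317, 0, 0, 0, ⟨0, 0⟩, 0⟩, 0, 0⟩ 0 0)) (.cut .s 14909440 (.pos 106 .mp ⟨⟨1064970267, 0, 0, 0, 0, 412914469, 0, 0, 0, ⟨0, 0⟩, 0⟩, 0, 0⟩ 0 0) (.pos 106 .mp ⟨⟨1100864581, 0, 0, 0, 0, 427201781, 0, 0, 0, ⟨0, 0⟩, 0⟩, 0, 0⟩ 0 0))) (.pos 107 .mp ⟨⟨1295728758, 0, 0, 0, 0, 0, 0, 0, 0, ⟨0, 0⟩, 0⟩, 0, 0⟩ 0 0)) (.pos 97 .mp ⟨⟨1326637607, 0, 0, 0, 0, 0, 0, 0, 0, ⟨0, 0⟩, 0⟩, 0, 0⟩ 0 0))))))))) (.void 36 ⟨⟨100000, 0, 0, 0, 0, 0, 0, 0, 0, ⟨0, 0⟩, 0⟩, 0, 0⟩ 0 0)) (.cut .s 14876672 (.cut .v 16908288 (.cut .s 14843904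 (.cut .v 16842752 (.cut .s 14827520 (.cut .s 14819328 (.cut .d (-4096) (.cut .s 14815232 (.pos 45 .mp ⟨⟨959005835, 0, 0, 0, 0, 418234089, 0, 0, 0, ⟨0, 0⟩, 0⟩, 0, 0⟩ 0 0) (.pos 45 .mp ⟨⟨962137395, 0, 0, 0, 0, 421338247, 0, 0, 0, ⟨0, 0⟩, 0⟩, 0, 0⟩ 0 0)) (.cut .v 16809984 (.cut .s 14815232 (.pos 49 .mp ⟨⟨969586776, 0, 0, 0, 0, 385723422, 0, 0, 0, ⟨0, 0⟩, 0⟩, 0, 0⟩ 0 0) (.pos 49 .mp ⟨⟨973434714, 0, 0, 0, 0, 387110419, 0, 0, 0, ⟨0, 0⟩, 0⟩, 0, 0⟩ 0 0)) (.pos 50 .mp ⟨⟨1153230042, 0, 0, 0, 0, 0, 0, 0, 0, ⟨0, 0⟩, 0⟩, 0, 0⟩ 0 0))) (.cut .d (-4096) (.cut .s 14823424 (.pos 45 .mp ⟨⟨965313507, 0, 0, 0, 0, 424417226, 0, 0, 0, ⟨0, 0⟩, 0⟩, 0, 0⟩ 0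 0) (.pos 45 .mp ⟨⟨968534956, 0, 0, 0, 0, 427469525, 0, 0, 0, ⟨0, 0⟩, 0⟩, 0, 0⟩ 0 0)) (.cut .v 16809984 (.cut .l 184549 (.cut .d (-2048) (.pos 49 .mp ⟨⟨966875017, 0, 0, 0, 0, 422033501, 0, 0, 0, ⟨0, 0⟩, 0⟩, 0, 0⟩ 0 0) (.cut .s 14823424 (.pos 49 .mp ⟨⟨970221089, 0, 0, 0, 0, 403086161, 0, 0, 0, ⟨0, 0⟩, 0⟩, 0, 0⟩ 0 0) (.pos 49 .mp ⟨⟨974363425, 0, 0, 0, 0, 403934662, 0, 0, 0, ⟨0, 0⟩, 0⟩, 0, 0⟩ 0 0))) (.pos 49 .mp ⟨⟨0, 0, 0, 0, 0, 0, 0, 0, 0, ⟨0, 0⟩, 0⟩, 0, 0⟩ 0 0)) (.pos 50 .mp ⟨⟨1162086412, 0, 0, 0, 0, 0, 0, 0, 0, ⟨0, 0⟩, 0⟩, 0, 0⟩ 0 0)))) (.cut .s 14835712 (.cut .d (-4096) (.cut .l 184549 (.pos 45 .mp ⟨⟨971161368, 0, 0, 0, 0, 453441069,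 0, 0, 0, ⟨0, 0⟩, 0⟩, 0, 0⟩ 0 0) (.pos 45 .mp ⟨⟨955331181, 0, 0, 0, 0, 468467573, 0, 0, 0, ⟨0, 0⟩, 0⟩, 0, 0⟩ 0 0)) (.cut .v 16809984 (.cut .l 184549 (.cut .l 92274 (.cut .d (-2048) (.pos 49 .mp ⟨⟨969260366, 0, 0, 0, 0, 451667663, 0, 0, 0, ⟨0, 0⟩, 0⟩, 0, 0⟩ 0 0) (.cut .s 14831616 (.pos 49 .mp ⟨⟨978829664, 0, 0, 0, 0, 403732817, 0, 0, 0, ⟨0, 0⟩, 0⟩, 0, 0⟩ 0 0) (.pos 49 .mp ⟨⟨982945477, 0, 0, 0, 0, 404857411, 0, 0, 0, ⟨0, 0⟩, 0⟩, 0, 0⟩ 0 0))) (.pos 49 .mp ⟨⟨981357799, 0, 0, 0, 0, 396338983, 0, 0, 0, ⟨0, 0⟩, 0⟩, 0, 0⟩ 0 0)) (.pos 49 .mp ⟨⟨0, 0, 0, 0, 0, 0, 0, 0, 0, ⟨0, 0⟩, 0⟩, 0, 0⟩ 0 0)) (.pos 50 .mp ⟨⟨1171090660, 0, 0, 0, 0, 0, 0, 0, 0,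 ⟨0, 0⟩, 0⟩, 0, 0⟩ 0 0))) (.cut .d (-4096) (.cut .l 184549 (.pos 45 .mp ⟨⟨978904922, 0, 0, 0, 0, 456958594, 0, 0, 0, ⟨0, 0⟩, 0⟩, 0, 0⟩ 0 0) (.pos 45 .mp ⟨⟨962151948, 0, 0, 0, 0, 474295872, 0, 0, 0, ⟨0, 0⟩, 0⟩, 0, 0⟩ 0 0)) (.cut .v 16809984 (.cut .l 184549 (.cut .l 92274 (.cut .d (-2048) (.pos 49 .mp ⟨⟨976962245, 0, 0, 0, 0, 455228811, 0, 0, 0, ⟨0, 0⟩, 0⟩, 0, 0⟩ 0 0) (.cut .s 14839808 (.pos 49 .mp ⟨⟨986869328, 0, 0, 0, 0, 406520314, 0, 0, 0, ⟨0, 0⟩, 0⟩, 0, 0⟩ 0 0) (.pos 49 .mp ⟨⟨990806483, 0, 0, 0, 0, 408228981, 0, 0, 0, ⟨0, 0⟩, 0⟩, 0, 0⟩ 0 0))) (.pos 49 .mp ⟨⟨989225301, 0, 0, 0, 0, 400028091, 0, 0, 0, ⟨0, 0⟩, 0⟩, 0, 0⟩ 0 0)) (.pos 49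 .mp ⟨⟨0, 0, 0, 0, 0, 0, 0, 0, 0, ⟨0, 0⟩, 0⟩, 0, 0⟩ 0 0)) (.pos 50 .mp ⟨⟨1180244601, 0, 0, 0, 0, 0, 0, 0, 0, ⟨0, 0⟩, 0⟩, 0, 0⟩ 0 0))))) (.pos 46 .mp ⟨⟨1185521984, 0, 0, 0, 0, 0, 0, 0, 0, ⟨0, 0⟩, 0⟩, 0, 0⟩ 0 0)) (.cut .v 16842752 (.cut .s 14860288 (.cut .s 14852096 (.cut .d (-4096) (.cut .l 184549 (.pos 45 .mp ⟨⟨986730317, 0, 0, 0, 0, 460635201, 0, 0, 0, ⟨0, 0⟩, 0⟩, 0, 0⟩ 0 0) (.pos 45 .mp ⟨⟨969636425, 0, 0, 0, 0, 478842257, 0, 0, 0, ⟨0, 0⟩, 0⟩, 0, 0⟩ 0 0)) (.cut .v 16809984 (.cut .l 184549 (.cut .l 92274 (.cut .d (-2048) (.pos 49 .mp ⟨⟨984745433, 0, 0, 0, 0, 458949517, 0, 0, 0, ⟨0, 0⟩, 0⟩, 0, 0⟩ 0 0) (.cut .s 14848000 (.pos 49 .mp ⟨⟨994764940,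 0, 0, 0, 0, 409964473, 0, 0, 0, ⟨0, 0⟩, 0⟩, 0, 0⟩ 0 0) (.pos 49 .mp ⟨⟨998744832, 0, 0, 0, 0, 411726729, 0, 0, 0, ⟨0, 0⟩, 0⟩, 0, 0⟩ 0 0))) (.pos 49 .mp ⟨⟨997178252, 0, 0, 0, 0, 403773903, 0, 0, 0, ⟨0, 0⟩, 0⟩, 0, 0⟩ 0 0)) (.pos 49 .mp ⟨⟨0, 0, 0, 0, 0, 0, 0, 0, 0, ⟨0, 0⟩, 0⟩, 0, 0⟩ 0 0)) (.pos 50 .mp ⟨⟨1189550081, 0, 0, 0, 0, 0, 0, 0, 0, ⟨0, 0⟩, 0⟩, 0, 0⟩ 0 0))) (.cut .d (-4096) (.cut .l 184549 (.pos 45 .mp ⟨⟨994638561, 0, 0, 0, 0, 464473063, 0, 0, 0, ⟨0, 0⟩, 0⟩, 0, 0⟩ 0 0) (.pos 45 .mp ⟨⟨977433517, 0, 0, 0, 0, 482951518, 0, 0, 0, ⟨0, 0⟩, 0⟩, 0, 0⟩ 0 0)) (.cut .v 16809984 (.cut .l 184549 (.cut .l 92274 (.cut .d (-2048) (.pos 49 .mp ⟨⟨992610932,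 0, 0, 0, 0, 462831960, 0, 0, 0, ⟨0, 0⟩, 0⟩, 0, 0⟩ 0 0) (.cut .s 14856192 (.pos 49 .mp ⟨⟨1002746296, 0, 0, 0, 0, 413515689, 0, 0, 0, ⟨0, 0⟩, 0⟩, 0, 0⟩ 0 0) (.cut .s 14858240 (.pos 49 .mp ⟨⟨1003826952, 0, 0, 0, 0, 419606661, 0, 0, 0, ⟨0, 0⟩, 0⟩, 0, 0⟩ 0 0) (.pos 49 .mp ⟨⟨1005724639, 0, 0, 0, 0, 420745460, 0, 0, 0, ⟨0, 0⟩, 0⟩, 0, 0⟩ 0 0)))) (.pos 49 .mp ⟨⟨1005217733, 0, 0, 0, 0, 407573884, 0, 0, 0, ⟨0, 0⟩, 0⟩, 0, 0⟩ 0 0)) (.pos 49 .mp ⟨⟨0, 0, 0, 0, 0, 0, 0, 0, 0, ⟨0, 0⟩, 0⟩, 0, 0⟩ 0 0)) (.pos 50 .mp ⟨⟨1199008976, 0, 0, 0, 0, 0, 0, 0, 0, ⟨0, 0⟩, 0⟩, 0, 0⟩ 0 0)))) (.cut .d (-4096) (.cut .l 184549 (.pos 45 .mp ⟨⟨1004109004, 0, 0, 0, 0, 487089343,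 0, 0, 0, ⟨0, 0⟩, 0⟩, 0, 0⟩ 0 0) (.cut .s 14868480 (.pos 45 .mp ⟨⟨985314576, 0, 0, 0, 0, 487174359, 0, 0, 0, ⟨0, 0⟩, 0⟩, 0, 0⟩ 0 0) (.cut .s 14872576 (.pos 45 .mp ⟨⟨998396343, 0, 0, 0, 0, 474434490, 0, 0, 0, ⟨0, 0⟩, 0⟩, 0, 0⟩ 0 0) (.pos 45 .mp ⟨⟨1002246993, 0, 0, 0, 0, 477011025, 0, 0, 0, ⟨0, 0⟩, 0⟩, 0, 0⟩ 0 0)))) (.cut .l 184549 (.cut .v 16809984 (.cut .s 14868480 (.cut .s 14864384 (.cut .s 14862336 (.pos 49 .mp ⟨⟨1015119408, 0, 0, 0, 0, 406935155, 0, 0, 0, ⟨0, 0⟩, 0⟩, 0, 0⟩ 0 0) (.pos 49 .mp ⟨⟨1017164236, 0, 0, 0, 0, 407831474, 0, 0, 0, ⟨0, 0⟩, 0⟩, 0, 0⟩ 0 0)) (.cut .s 14866432 (.pos 49 .mp ⟨⟨1019214637, 0, 0, 0, 0, 408734290, 0, 0,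 0, ⟨0, 0⟩, 0⟩, 0, 0⟩ 0 0) (.pos 49 .mp ⟨⟨1021270629, 0, 0, 0, 0, 409643596, 0, 0, 0, ⟨0, 0⟩, 0⟩, 0, 0⟩ 0 0))) (.cut .s 14872576 (.cut .s 14870528 (.pos 49 .mp ⟨⟨1023332228, 0, 0, 0, 0, 410559381, 0, 0, 0, ⟨0, 0⟩, 0⟩, 0, 0⟩ 0 0) (.pos 49 .mp ⟨⟨1025399453, 0, 0, 0, 0, 411481637, 0, 0, 0, ⟨0, 0⟩, 0⟩, 0, 0⟩ 0 0)) (.cut .s 14874624 (.pos 49 .mp ⟨⟨1027472323, 0, 0, 0, 0, 412410355, 0, 0, 0, ⟨0, 0⟩, 0⟩, 0, 0⟩ 0 0) (.pos 49 .mp ⟨⟨1029550854, 0, 0, 0, 0, 413345526, 0, 0, 0, ⟨0, 0⟩, 0⟩, 0, 0⟩ 0 0)))) (.pos 50 .mp ⟨⟨1222305962, 0, 0, 0, 0, 0, 0, 0, 0, ⟨0, 0⟩, 0⟩, 0, 0⟩ 0 0)) (.pos 45 .mp ⟨⟨1010219145, 0, 0, 0, 0, 0, 0, 0, 0, ⟨0, 0⟩, 0⟩, 0, 0⟩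 0 0)))) (.pos 46 .mp ⟨⟨1223832162, 0, 0, 0, 0, 0, 0, 0, 0, ⟨0, 0⟩, 0⟩, 0, 0⟩ 0 0))) (.pos 36 .mp ⟨⟨1221083705, 0, 0, 0, 0, 0, 0, 0, 0, ⟨0, 0⟩, 0⟩, 0, 0⟩ 0 0)) (.cut .v 16908288 (.cut .s 14909440 (.cut .v 16842752 (.cut .s 14893056 (.cut .d (-4096) (.cut .l 184549 (.pos 45 .mp ⟨⟨1020305254, 0, 0, 0, 0, 496418017, 0, 0, 0, ⟨0, 0⟩, 0⟩, 0, 0⟩ 0 0) (.cut .v 16809984 (.pos 49 .mp ⟨⟨0, 0, 0, 0, 0, 2284528538, 0, 0, 0, ⟨0, 0⟩, 0⟩, 0, 0⟩ 0 0) (.cut .l 276824 (.cut .s 14884864 (.pos 50 .mp ⟨⟨1042316188, 0, 0, 0, 0, 410168081, 0, 0, 0, ⟨0, 0⟩, 0⟩, 0, 0⟩ 0 0) (.pos 50 .mp ⟨⟨1050870217, 0, 0, 0, 0, 413901946, 0, 0, 0, ⟨0, 0⟩, 0⟩, 0, 0⟩ 0 0)) (.pos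 50 .mp ⟨⟨1042746335, 0, 0, 0, 0, 404688553, 0, 0, 0, ⟨0, 0⟩, 0⟩, 0, 0⟩ 0 0)))) (.cut .l 184549 (.cut .v 16809984 (.cut .s 14884864 (.cut .s 14880768 (.cut .s 14878720 (.pos 49 .mp ⟨⟨1031635065, 0, 0, 0, 0, 414287139, 0, 0, 0, ⟨0, 0⟩, 0⟩, 0, 0⟩ 0 0) (.pos 49 .mp ⟨⟨1033724974, 0, 0, 0, 0, 415235186, 0, 0, 0, ⟨0, 0⟩, 0⟩, 0, 0⟩ 0 0)) (.cut .s 14882816 (.pos 49 .mp ⟨⟨1035820600, 0, 0, 0, 0, 416189656, 0, 0, 0, ⟨0, 0⟩, 0⟩, 0, 0⟩ 0 0) (.pos 49 .mp ⟨⟨1037921961, 0, 0, 0, 0, 417150541, 0, 0, 0, ⟨0, 0⟩, 0⟩, 0, 0⟩ 0 0))) (.cut .s 14888960 (.cut .d (-2048) (.pos 49 .mp ⟨⟨1028995569, 0, 0, 0, 0, 449158896, 0, 0, 0, ⟨0, 0⟩, 0⟩, 0, 0⟩ 0 0) (.cut .s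 14886912 (.pos 49 .mp ⟨⟨1032182001, 0, 0, 0, 0, 434302943, 0, 0, 0, ⟨0, 0⟩, 0⟩, 0, 0⟩ 0 0) (.pos 49 .mp ⟨⟨1034237091, 0, 0, 0, 0, 435384059, 0, 0, 0, ⟨0, 0⟩, 0⟩, 0, 0⟩ 0 0))) (.cut .d (-2048) (.pos 49 .mp ⟨⟨1033074106, 0, 0, 0, 0, 451492813, 0, 0, 0, ⟨0, 0⟩, 0⟩, 0, 0⟩ 0 0) (.cut .s 14891008 (.pos 49 .mp ⟨⟨1036355416, 0, 0, 0, 0, 436352165, 0, 0, 0, ⟨0, 0⟩, 0⟩, 0, 0⟩ 0 0) (.pos 49 .mp ⟨⟨1038475092, 0, 0, 0, 0, 437338201, 0, 0, 0, ⟨0, 0⟩, 0⟩, 0, 0⟩ 0 0))))) (.pos 50 .mp ⟨⟨1242429944, 0, 0, 0, 0, 0, 0, 0, 0, ⟨0, 0⟩, 0⟩, 0, 0⟩ 0 0)) (.pos 45 .mp ⟨⟨1026577096, 0, 0, 0, 0, 0, 0, 0, 0, ⟨0, 0⟩, 0⟩, 0, 0⟩ 0 0))) (.cut .d (-4096) (.cut .l 184549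 (.pos 45 .mp ⟨⟨1036840635, 0, 0, 0, 0, 506468064, 0, 0, 0, ⟨0, 0⟩, 0⟩, 0, 0⟩ 0 0) (.cut .v 16809984 (.pos 49 .mp ⟨⟨0, 0, 0, 0, 0, 2325287911, 0, 0, 0, ⟨0, 0⟩, 0⟩, 0, 0⟩ 0 0) (.cut .l 276824 (.cut .s 14901248 (.pos 50 .mp ⟨⟨1059518658, 0, 0, 0, 0, 417714675, 0, 0, 0, ⟨0, 0⟩, 0⟩, 0, 0⟩ 0 0) (.pos 50 .mp ⟨⟨1068262738, 0, 0, 0, 0, 421604760, 0, 0, 0, ⟨0, 0⟩, 0⟩, 0, 0⟩ 0 0)) (.pos 50 .mp ⟨⟨1060002878, 0, 0, 0, 0, 411970689, 0, 0, 0, ⟨0, 0⟩, 0⟩, 0, 0⟩ 0 0)))) (.cut .l 184549 (.cut .v 16809984 (.cut .s 14901248 (.cut .s 14897152 (.cut .d (-2048) (.pos 49 .mp ⟨⟨1037212320, 0, 0, 0, 0, 453772323, 0, 0, 0, ⟨0, 0⟩, 0⟩, 0, 0⟩ 0 0) (.cut .s 14895104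 (.pos 49 .mp ⟨⟨1040596075, 0, 0, 0, 0, 438342313, 0, 0, 0, ⟨0, 0⟩, 0⟩, 0, 0⟩ 0 0) (.pos 49 .mp ⟨⟨1042718323, 0, 0, 0, 0, 439364651, 0, 0, 0, ⟨0, 0⟩, 0⟩, 0, 0⟩ 0 0))) (.cut .d (-2048) (.pos 49 .mp ⟨⟨1041411111, 0, 0, 0, 0, 455995695, 0, 0, 0, ⟨0, 0⟩, 0⟩, 0, 0⟩ 0 0) (.cut .s 14899200 (.pos 49 .mp ⟨⟨1044841792, 0, 0, 0, 0, 440405362, 0, 0, 0, ⟨0, 0⟩, 0⟩, 0, 0⟩ 0 0) (.pos 49 .mp ⟨⟨1046966438, 0, 0, 0, 0, 441464597, 0, 0, 0, ⟨0, 0⟩, 0⟩, 0, 0⟩ 0 0)))) (.cut .s 14905344 (.cut .d (-2048) (.pos 49 .mp ⟨⟨1045671385, 0, 0, 0, 0, 458161186, 0, 0, 0, ⟨0, 0⟩, 0⟩, 0, 0⟩ 0 0) (.cut .s 14903296 (.pos 49 .mp ⟨⟨1049092218, 0, 0, 0, 0, 442542507, 0, 0,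 0, ⟨0, 0⟩, 0⟩, 0, 0⟩ 0 0) (.pos 49 .mp ⟨⟨1051219085, 0, 0, 0, 0, 443639244, 0, 0, 0, ⟨0, 0⟩, 0⟩, 0, 0⟩ 0 0))) (.cut .d (-2048) (.pos 49 .mp ⟨⟨1049994054, 0, 0, 0, 0, 460267040, 0, 0, 0, ⟨0, 0⟩, 0⟩, 0, 0⟩ 0 0) (.cut .s 14907392 (.pos 49 .mp ⟨⟨1053346996, 0, 0, 0, 0, 444754961, 0, 0, 0, ⟨0, 0⟩, 0⟩, 0, 0⟩ 0 0) (.pos 49 .mp ⟨⟨1055475905, 0, 0, 0, 0, 445889813, 0, 0, 0, ⟨0, 0⟩, 0⟩, 0, 0⟩ 0 0))))) (.pos 50 .mp ⟨⟨1263205882, 0, 0, 0, 0, 0, 0, 0, 0, ⟨0, 0⟩, 0⟩, 0, 0⟩ 0 0)) (.pos 45 .mp ⟨⟨1043285821, 0, 0, 0, 0, 0, 0, 0, 0, ⟨0, 0⟩, 0⟩, 0, 0⟩ 0 0)))) (.pos 46 .mp ⟨⟨1264665291, 0, 0, 0, 0, 0, 0, 0, 0, ⟨0, 0⟩, 0⟩, 0, 0⟩ 0 0)) (.cut .v 16842752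 (.cut .s 14925824 (.cut .d (-4096) (.cut .l 184549 (.pos 45 .mp ⟨⟨1053723541, 0, 0, 0, 0, 517260401, 0, 0, 0, ⟨0, 0⟩, 0⟩, 0, 0⟩ 0 0) (.cut .v 16809984 (.pos 49 .mp ⟨⟨0, 0, 0, 0, 0, 2366925739, 0, 0, 0, ⟨0, 0⟩, 0⟩, 0, 0⟩ 0 0) (.cut .l 276824 (.cut .s 14917632 (.pos 50 .mp ⟨⟨1077103706, 0, 0, 0, 0, 425570653, 0, 0, 0, ⟨0, 0⟩, 0⟩, 0, 0⟩ 0 0) (.pos 50 .mp ⟨⟨1054993246, 0, 0, 0, 0, 497725192, 0, 0, 0, ⟨0, 0⟩, 0⟩, 0, 0⟩ 0 0)) (.pos 50 .mp ⟨⟨1038171036, 0, 0, 0, 0, 506063232, 0, 0, 0, ⟨0, 0⟩, 0⟩, 0, 0⟩ 0 0)))) (.cut .l 184549 (.cut .v 16809984 (.cut .s 14917632 (.cut .s 14913536 (.cut .d (-2048) (.pos 49 .mp ⟨⟨1054380037, 0, 0, 0, 0, 462311482,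 0, 0, 0, ⟨0, 0⟩, 0⟩, 0, 0⟩ 0 0) (.cut .s 14911488 (.pos 49 .mp ⟨⟨1057605766, 0, 0, 0, 0, 447043954, 0, 0, 0, ⟨0, 0⟩, 0⟩, 0, 0⟩ 0 0) (.pos 49 .mp ⟨⟨1059794557, 0, 0, 0, 0, 448094701, 0, 0, 0, ⟨0, 0⟩, 0⟩, 0, 0⟩ 0 0))) (.cut .s 14915584 (.cut .s 14914560 (.pos 49 .mp ⟨⟨1069047675, 0, 0, 0, 0, 433327240, 0, 0, 0, ⟨0, 0⟩, 0⟩, 0, 0⟩ 0 0) (.pos 49 .mp ⟨⟨1070143246, 0, 0, 0, 0, 433858592, 0, 0, 0, ⟨0, 0⟩, 0⟩, 0, 0⟩ 0 0)) (.pos 49 .mp ⟨⟨1072338921, 0, 0, 0, 0, 433388625, 0, 0, 0, ⟨0, 0⟩, 0⟩, 0, 0⟩ 0 0))) (.cut .s 14921728 (.cut .s 14919680 (.pos 49 .mp ⟨⟨1060864904, 0, 0, 0, 0, 464491400, 0, 0, 0, ⟨0, 0⟩, 0⟩, 0, 0⟩ 0 0) (.pos 49 .mp ⟨⟨1063131095,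 0, 0, 0, 0, 465437855, 0, 0, 0, ⟨0, 0⟩, 0⟩, 0, 0⟩ 0 0)) (.cut .s 14923776 (.pos 49 .mp ⟨⟨1065413833, 0, 0, 0, 0, 466367566, 0, 0, 0, ⟨0, 0⟩, 0⟩, 0, 0⟩ 0 0) (.pos 49 .mp ⟨⟨1067713236, 0, 0, 0, 0, 467280304, 0, 0, 0, ⟨0, 0⟩, 0⟩, 0, 0⟩ 0 0)))) (.pos 50 .mp ⟨⟨1284650458, 0, 0, 0, 0, 0, 0, 0, 0, ⟨0, 0⟩, 0⟩, 0, 0⟩ 0 0)) (.pos 45 .mp ⟨⟨1060354249, 0, 0, 0, 0, 0, 0, 0, 0, ⟨0, 0⟩, 0⟩, 0, 0⟩ 0 0))) (.cut .d (-4096) (.cut .l 184549 (.pos 45 .mp ⟨⟨1070962651, 0, 0, 0, 0, 528816736, 0, 0, 0, ⟨0, 0⟩, 0⟩, 0, 0⟩ 0 0) (.cut .s 14934016 (.pos 45 .mp ⟨⟨1051517949, 0, 0, 0, 0, 524987595, 0, 0, 0, ⟨0, 0⟩, 0⟩, 0, 0⟩ 0 0) (.pos 45 .mp ⟨⟨1060205052, 0, 0,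 0, 0, 530209680, 0, 0, 0, ⟨0, 0⟩, 0⟩, 0, 0⟩ 0 0))) (.cut .l 184549 (.cut .v 16809984 (.cut .s 14934016 (.cut .s 14929920 (.cut .s 14927872 (.pos 49 .mp ⟨⟨1070029424, 0, 0, 0, 0, 468175840, 0, 0, 0, ⟨0, 0⟩, 0⟩, 0, 0⟩ 0 0) (.pos 49 .mp ⟨⟨1072362516, 0, 0, 0, 0, 469053942, 0, 0, 0, ⟨0, 0⟩, 0⟩, 0, 0⟩ 0 0)) (.cut .s 14931968 (.pos 49 .mp ⟨⟨1074712632, 0, 0, 0, 0, 469914379, 0, 0, 0, ⟨0, 0⟩, 0⟩, 0, 0⟩ 0 0) (.pos 49 .mp ⟨⟨1077079893, 0, 0, 0, 0, 470756920, 0, 0, 0, ⟨0, 0⟩, 0⟩, 0, 0⟩ 0 0))) (.cut .s 14938112 (.cut .s 14936064 (.pos 49 .mp ⟨⟨1079464419, 0, 0, 0, 0, 471581329, 0, 0, 0, ⟨0, 0⟩, 0⟩, 0, 0⟩ 0 0) (.pos 49 .mp ⟨⟨1082046885, 0, 0, 0,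 0, 471990831, 0, 0, 0, ⟨0, 0⟩, 0⟩, 0, 0⟩ 0 0)) (.cut .s 14940160 (.pos 49 .mp ⟨⟨1084855134, 0, 0, 0, 0, 471924308, 0, 0, 0, ⟨0, 0⟩, 0⟩, 0, 0⟩ 0 0) (.pos 49 .mp ⟨⟨1087702141, 0, 0, 0, 0, 471792543, 0, 0, 0, ⟨0, 0⟩, 0⟩, 0, 0⟩ 0 0)))) (.pos 50 .mp ⟨⟨1205784209, 0, 0, 0, 0, 221641044, 0, 0, 0, ⟨0, 0⟩, 0⟩, 0, 0⟩ 0 0)) (.pos 45 .mp ⟨⟨1077791617, 0, 0, 0, 0, 0, 0, 0, 0, ⟨0, 0⟩, 0⟩, 0, 0⟩ 0 0)))) (.pos 46 .mp ⟨⟨1308150310, 0, 0, 0, 0, 0, 0, 0, 0, ⟨0, 0⟩, 0⟩, 0, 0⟩ 0 0))) (.pos 36 .mp ⟨⟨1303819447, 0, 0, 0, 0, 0, 0, 0, 0, ⟨0, 0⟩, 0⟩, 0, 0⟩ 0 0))))))) (.pos 34 .mp ⟨⟨1425083636, 0, 0, 0, 0, 0, 0, 0, 0, ⟨0, 0⟩, 0⟩, 0, 0⟩ 0 0))) (.void 32 ⟨⟨100000,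 0, 0, 0, 0, 0, 0, 0, 0, ⟨0, 0⟩, 0⟩, 0, 0⟩ 0 0))) (.void 30 ⟨⟨100000, 0, 0, 0, 0, 0, 0, 0, 0, ⟨0, 0⟩, 0⟩, 0, 0⟩ 0 0))) (.void 28 ⟨⟨100000, 0, 0, 0, 0, 0, 0, 0, 0, ⟨0, 0⟩, 0⟩, 0, 0⟩ 0 0))) (.void 26 ⟨⟨100000, 0, 0, 0, 0, 0, 0, 0, 0, ⟨0, 0⟩, 0⟩, 0, 0⟩ 0 0)))) (.void 24 ⟨⟨100000, 0, 0, 0, 0, 0, 0, 0, 0, ⟨0, 0⟩, 0⟩, 0, 0⟩ 0 0))) (.void 91 ⟨⟨100000, 0, 0, 0, 0, 0, 0, 0, 0, ⟨0, 0⟩, 0⟩, 0, 0⟩ 0 0)) (.void 112 ⟨⟨100108, 0, 0, 0, 0, 0, 0, 0, 0, ⟨0, 0⟩, 0⟩, 0, 0⟩ 0 0)) (.void 121 ⟨⟨92510, 0, 0, 7490, 0, 0, 0, 0, 0, ⟨0, 0⟩, 0⟩, 0, 0⟩ 0 0))) (.cut .v 16777216 (.cut .v 8388608 (.cut .v 4194304 (.cut .v 2097152 (.cut .v 1048576 (.pos 117 .pm ⟨⟨0,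 0, 34608616, 0, 0, 0, 0, 0, 0, ⟨0, 0⟩, 0⟩, 0, 2610⟩ 0 0) (.pos 118 .pm ⟨⟨0, 0, 57649152, 0, 0, 0, 0, 0, 0, ⟨0, 0⟩, 0⟩, 0, 7523⟩ 0 0)) (.pos 114 .pm ⟨⟨0, 0, 95739266, 0, 0, 0, 0, 0, 0, ⟨0, 0⟩, 0⟩, 0, 14210⟩ 0 0)) (.pos 5 .pm ⟨⟨0, 0, 283915972, 0, 0, 0, 0, 0, 0, ⟨0, 0⟩, 0⟩, 0, 32086⟩ 0 0)) (.pos 3 .pm ⟨⟨0, 0, 0, 0, 0, 0, 0, 0, 0, ⟨0, 0⟩, 0⟩, 0, 0⟩ 0 0)) (.cut .v 268435456 (.cut .v 67108864 (.cut .d 1113533 (.cut .v 33554432 (.cut .d 556766 (.cut .v 25165824 (.cut .d 278383 (.cut .v 20971520 (.cut .d 139191 (.cut .v 18874368 (.cut .d 69595 (.cut .v 17825792 (.cut .s 14876672 (.pos 29 .pp ⟨⟨1060434587, 0, 0, 0, 0, 0, 0, 0, 0, ⟨0, 0⟩, 0⟩,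 16181448, 0⟩ 0 0) (.pos 29 .pp ⟨⟨1126494288, 0, 0, 0, 0, 0, 0, 0, 0, ⟨0, 0⟩, 0⟩, 18179683, 0⟩ 0 0)) (.pos 30 .pp ⟨⟨1357546935, 0, 0, 0, 0, 0, 0, 0, 0, ⟨0, 0⟩, 0⟩, 0, 0⟩ 0 0)) (.pos 27 .pp ⟨⟨0, 0, 0, 0, 0, 0, 0, 0, 0, ⟨0, 0⟩, 0⟩, 0, 84933⟩ 0 0)) (.cut .d 69595 (.pos 28 .pp ⟨⟨1666623452, 0, 0, 0, 0, 0, 0, 0, 0, ⟨0, 0⟩, 0⟩, 0, 0⟩ 0 0) (.pos 28 .pp ⟨⟨1413506945, 0, 0, 0, 0, 0, 0, 0, 0, ⟨0, 0⟩, 0⟩, 0, 0⟩ 0 0))) (.pos 25 .pp ⟨⟨0, 0, 0, 0, 0, 0, 0, 0, 0, ⟨0, 0⟩, 0⟩, 0, 89127⟩ 0 0)) (.cut .d 139191 (.cut .v 23068672 (.cut .v 22020096 (.pos 57 .pp ⟨⟨1791922729, 0, 0, 0, 0, 0, 0, 0, 0, ⟨0, 0⟩, 0⟩, 0, 0⟩ 0 0) (.pos 58 .pp ⟨⟨1932655713, 0, 0, 0,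 0, 0, 0, 0, 0, ⟨0, 0⟩, 0⟩, 5899831, 0⟩ 0 0)) (.void 56 ⟨⟨0, 0, 0, 0, 0, 0, 0, 0, 0, ⟨0, 0⟩, 0⟩, 100000, 0⟩ 0 0)) (.cut .v 23068672 (.pos 55 .pp ⟨⟨0, 0, 0, 0, 0, 0, 26029, 0, 0, ⟨0, 0⟩, 0⟩, 222224046, 0⟩ 0 0) (.pos 56 .pp ⟨⟨0, 0, 0, 0, 0, 0, 0, 0, 0, ⟨0, 0⟩, 0⟩, 274017780, 0⟩ 0 0)))) (.pos 23 .pp ⟨⟨0, 0, 0, 0, 0, 0, 0, 0, 0, ⟨0, 0⟩, 0⟩, 0, 96257⟩ 0 0)) (.cut .d 278383 (.cut .v 29360128 (.pos 75 .pp ⟨⟨0, 0, 0, 0, 0, 0, 0, 0, 0, ⟨0, 0⟩, 0⟩, 371968135, 0⟩ 0 0) (.void 76 ⟨⟨0, 0, 0, 0, 0, 0, 0, 0, 0, ⟨0, 0⟩, 0⟩, 100000, 0⟩ 0 0)) (.pos 24 .pp ⟨⟨0, 0, 0, 0, 0, 0, 0, 0, 0, ⟨0, 0⟩, 0⟩, 271292917, 0⟩ 0 0))) (.pos 22 .pp ⟨⟨0, 0, 0, 0, 0, 0, 320831,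 0, 0, ⟨0, 0⟩, 0⟩, 0, 0⟩ 0 0)) (.cut .d 556766 (.cut .v 50331648 (.pos 104 .pp ⟨⟨0, 0, 0, 0, 0, 0, 0, 0, 0, ⟨0, 0⟩, 0⟩, 589474817, 0⟩ 0 0) (.void 105 ⟨⟨0, 0, 0, 0, 0, 0, 0, 0, 0, ⟨0, 0⟩, 0⟩, 100000, 0⟩ 0 0)) (.pos 91 .pp ⟨⟨0, 0, 0, 0, 0, 0, 0, 0, 0, ⟨0, 0⟩, 0⟩, 394480800, 0⟩ 0 0))) (.pos 90 .pp ⟨⟨0, 279404807, 0, 0, 0, 0, 0, 0, 0, ⟨0, 0⟩, 0⟩, 0, 80214⟩ 0 0)) (.void 112 ⟨⟨0, 0, 0, 49817, 0, 0, 0, 0, 0, ⟨0, 0⟩, 0⟩, 50183, 0⟩ 0 0)) (.void 121 ⟨⟨0, 0, 0, 0, 0, 0, 0, 0, 0, ⟨0, 0⟩, 0⟩, 100000, 0⟩ 0 0)))),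
    by decide +kernel⟩

theorem covers32 : cell.Covers Vale.Agent.P237.Petty.Cor.Grid.N10.table row32.1 :=
  ⟨(.cut .d 0 (.cut .v 16777216 (.cut .v 8388608 (.void 2 ⟨⟨0, 0, 100000, 0, 0, 0, 0, 0, 0, ⟨0, 0⟩, 0⟩, 0, 0⟩ 0 0) (.cut .d (-8388608) (.void 3 ⟨⟨100000, 0, 0, 0, 0, 0, 0, 0, 0, ⟨0, 0⟩, 0⟩, 0, 0⟩ 0 0) (.cut .d (-4194304) (.void 3 ⟨⟨100000, 0, 0, 0, 0, 0, 0, 0, 0, ⟨0, 0⟩, 0⟩, 0, 0⟩ 0 0) (.cut .d (-2097152) (.void 3 ⟨⟨100000, 0, 0, 0, 0, 0, 0, 0, 0, ⟨0, 0⟩, 0⟩, 0, 0⟩ 0 0) (.cut .d (-1048576) (.void 3 ⟨⟨74957, 0, 25043, 0, 0, 0, 0, 0, 0, ⟨0, 0⟩, 0⟩, 0, 0⟩ 0 0) (.cut .d (-524288) (.void 3 ⟨⟨0, 0, 0, 0, 0, 100000, 0, 0, 0, ⟨0, 0⟩, 0⟩,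 0, 0⟩ 0 0) (.cut .d (-262144) (.void 3 ⟨⟨0, 0, 0, 0, 0, 100000, 0, 0, 0, ⟨0, 0⟩, 0⟩, 0, 0⟩ 0 0) (.cut .s 15007744 (.pos 3 .mm ⟨⟨0, 0, 0, 0, 0, 2734668625, 0, 0, 0, ⟨0, 0⟩, 0⟩, 0, 0⟩ 0 0) (.pos 3 .mm ⟨⟨0, 0, 0, 0, 0, 2946585164, 0, 0, 0, ⟨0, 0⟩, 0⟩, 0, 0⟩ 0 0))))))))) (.cut .v 268435456 (.cut .v 67108864 (.cut .v 33554432 (.cut .d (-8388608) (.void 22 ⟨⟨100028, 0, 0, 0, 0, 0, 0, 0, 0, ⟨0, 0⟩, 0⟩, 0, 0⟩ 0 0) (.cut .v 25165824 (.cut .d (-4194304) (.void 23 ⟨⟨100000, 0, 0, 0, 0, 0, 0, 0, 0, ⟨0, 0⟩, 0⟩, 0, 0⟩ 0 0) (.cut .d (-2097152) (.void 23 ⟨⟨100000, 0, 0, 0, 0, 0, 0, 0, 0, ⟨0, 0⟩, 0⟩, 0, 0⟩ 0 0) (.cut .v 20971520 (.cut .d (-1048576)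 (.void 25 ⟨⟨100000, 0, 0, 0, 0, 0, 0, 0, 0, ⟨0, 0⟩, 0⟩, 0, 0⟩ 0 0) (.cut .v 18874368 (.cut .d (-524288) (.void 27 ⟨⟨100000, 0, 0, 0, 0, 0, 0, 0, 0, ⟨0, 0⟩, 0⟩, 0, 0⟩ 0 0) (.cut .v 17825792 (.cut .d (-262144) (.void 29 ⟨⟨100000, 0, 0, 0, 0, 0, 0, 0, 0, ⟨0, 0⟩, 0⟩, 0, 0⟩ 0 0) (.cut .v 17301504 (.cut .d (-131072) (.void 31 ⟨⟨100000, 0, 0, 0, 0, 0, 0, 0, 0, ⟨0, 0⟩, 0⟩, 0, 0⟩ 0 0) (.cut .v 17039360 (.cut .d (-65536) (.void 33 ⟨⟨100000, 0, 0, 0, 0, 0, 0, 0, 0, ⟨0, 0⟩, 0⟩, 0, 0⟩ 0 0) (.cut .d (-32768) (.void 33 ⟨⟨100000, 0, 0, 0, 0, 0, 0, 0, 0, ⟨0, 0⟩, 0⟩, 0, 0⟩ 0 0) (.cut .d (-16384) (.void 33 ⟨⟨100000, 0, 0, 0, 0, 0, 0, 0, 0, ⟨0, 0⟩, 0⟩,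 0, 0⟩ 0 0) (.cut .d (-8192) (.cut .v 16908288 (.cut .d (-12288) (.void 35 ⟨⟨0, 0, 0, 0, 0, 100000, 0, 0, 0, ⟨0, 0⟩, 0⟩, 0, 0⟩ 0 0) (.cut .d (-10240) (.void 35 ⟨⟨0, 0, 0, 0, 0, 100000, 0, 0, 0, ⟨0, 0⟩, 0⟩, 0, 0⟩ 0 0) (.cut .d (-9216) (.void 35 ⟨⟨0, 0, 0, 0, 0, 100000, 0, 0, 0, ⟨0, 0⟩, 0⟩, 0, 0⟩ 0 0) (.cut .d (-8704) (.void 35 ⟨⟨0, 0, 0, 0, 0, 100000, 0, 0, 0, ⟨0, 0⟩, 0⟩, 0, 0⟩ 0 0) (.cut .l 184549 (.void 35 ⟨⟨100000, 0, 0, 0, 0, 0, 0, 0, 0, ⟨0, 0⟩, 0⟩, 0, 0⟩ 0 0) (.cut .l 276824 (.void 35 ⟨⟨0, 0, 0, 0, 0, 100000, 0, 0, 0, ⟨0, 0⟩, 0⟩, 0, 0⟩ 0 0) (.cut .v 16842752 (.pos 45 .mp ⟨⟨0, 0, 0, 0, 0, 3113927468, 0, 0, 0, ⟨0, 0⟩, 0⟩, 0, 0⟩ 0 0)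 (.cut .s 15007744 (.cut .s 14974976 (.pos 46 .mp ⟨⟨1147090719, 0, 0, 0, 0, 448294908, 0, 0, 0, ⟨0, 0⟩, 0⟩, 0, 0⟩ 0 0) (.pos 46 .mp ⟨⟨1186735718, 0, 0, 0, 0, 464363960, 0, 0, 0, ⟨0, 0⟩, 0⟩, 0, 0⟩ 0 0)) (.pos 46 .mp ⟨⟨1221418470, 0, 0, 0, 0, 648345030, 0, 0, 0, ⟨0, 0⟩, 0⟩, 0, 0⟩ 0 0))))))))) (.void 36 ⟨⟨100000, 0, 0, 0, 0, 0, 0, 0, 0, ⟨0, 0⟩, 0⟩, 0, 0⟩ 0 0)) (.cut .s 15007744 (.cut .v 16908288 (.cut .s 14974976 (.cut .v 16842752 (.cut .s 14958592 (.cut .d (-4096) (.cut .l 184549 (.pos 45 .mp ⟨⟨1092627918, 0, 0, 0, 0, 529172505, 0, 0, 0, ⟨0, 0⟩, 0⟩, 0, 0⟩ 0 0) (.cut .s 14950400 (.pos 45 .mp ⟨⟨1068990099, 0, 0, 0, 0, 536341680, 0, 0, 0,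 ⟨0, 0⟩, 0⟩, 0, 0⟩ 0 0) (.pos 45 .mp ⟨⟨1077885660, 0, 0, 0, 0, 541023392, 0, 0, 0, ⟨0, 0⟩, 0⟩, 0, 0⟩ 0 0))) (.cut .l 184549 (.cut .v 16809984 (.cut .s 14950400 (.cut .s 14946304 (.cut .s 14944256 (.pos 49 .mp ⟨⟨1090356255, 0, 0, 0, 0, 472116650, 0, 0, 0, ⟨0, 0⟩, 0⟩, 0, 0⟩ 0 0) (.pos 49 .mp ⟨⟨1091878602, 0, 0, 0, 0, 474737827, 0, 0, 0, ⟨0, 0⟩, 0⟩, 0, 0⟩ 0 0)) (.cut .s 14948352 (.pos 49 .mp ⟨⟨1093432582, 0, 0, 0, 0, 477312586, 0, 0, 0, ⟨0, 0⟩, 0⟩, 0, 0⟩ 0 0) (.pos 49 .mp ⟨⟨1095135271, 0, 0, 0, 0, 479583834, 0, 0, 0, ⟨0, 0⟩, 0⟩, 0, 0⟩ 0 0))) (.cut .s 14954496 (.cut .s 14952448 (.pos 49 .mp ⟨⟨1097176003, 0, 0, 0, 0, 481135771, 0, 0, 0, ⟨0,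 0⟩, 0⟩, 0, 0⟩ 0 0) (.pos 49 .mp ⟨⟨1099231510, 0, 0, 0, 0, 482678423, 0, 0, 0, ⟨0, 0⟩, 0⟩, 0, 0⟩ 0 0)) (.cut .s 14956544 (.pos 49 .mp ⟨⟨1101301929, 0, 0, 0, 0, 484211530, 0, 0, 0, ⟨0, 0⟩, 0⟩, 0, 0⟩ 0 0) (.pos 49 .mp ⟨⟨1103387394, 0, 0, 0, 0, 485734831, 0, 0, 0, ⟨0, 0⟩, 0⟩, 0, 0⟩ 0 0)))) (.pos 50 .mp ⟨⟨1230158134, 0, 0, 0, 0, 218528194, 0, 0, 0, ⟨0, 0⟩, 0⟩, 0, 0⟩ 0 0)) (.pos 45 .mp ⟨⟨1099513164, 0, 0, 0, 0, 0, 0, 0, 0, ⟨0, 0⟩, 0⟩, 0, 0⟩ 0 0))) (.cut .d (-4096) (.cut .l 184549 (.pos 45 .mp ⟨⟨1110876790, 0, 0, 0, 0, 538770656, 0, 0, 0, ⟨0, 0⟩, 0⟩, 0, 0⟩ 0 0) (.cut .v 16809984 (.pos 49 .mp ⟨⟨0, 0, 0, 0, 0, 2500957962, 0, 0, 0, ⟨0, 0⟩, 0⟩,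 0, 0⟩ 0 0) (.cut .s 14966784 (.cut .s 14962688 (.pos 50 .mp ⟨⟨1096967659, 0, 0, 0, 0, 518599665, 0, 0, 0, ⟨0, 0⟩, 0⟩, 0, 0⟩ 0 0) (.pos 50 .mp ⟨⟨1101172640, 0, 0, 0, 0, 521759077, 0, 0, 0, ⟨0, 0⟩, 0⟩, 0, 0⟩ 0 0)) (.cut .s 14970880 (.pos 50 .mp ⟨⟨1105439987, 0, 0, 0, 0, 524875409, 0, 0, 0, ⟨0, 0⟩, 0⟩, 0, 0⟩ 0 0) (.pos 50 .mp ⟨⟨1109770810, 0, 0, 0, 0, 527946525, 0, 0, 0, ⟨0, 0⟩, 0⟩, 0, 0⟩ 0 0))))) (.cut .l 184549 (.cut .v 16809984 (.cut .s 14966784 (.cut .s 14962688 (.cut .s 14960640 (.pos 49 .mp ⟨⟨1105488042, 0, 0, 0, 0, 487248066, 0, 0, 0, ⟨0, 0⟩, 0⟩, 0, 0⟩ 0 0) (.pos 49 .mp ⟨⟨1107604009, 0, 0, 0, 0, 488750973, 0, 0, 0, ⟨0, 0⟩, 0⟩, 0,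 0⟩ 0 0)) (.cut .d (-2048) (.pos 49 .mp ⟨⟨1112591761, 0, 0, 0, 0, 491679607, 0, 0, 0, ⟨0, 0⟩, 0⟩, 0, 0⟩ 0 0) (.cut .s 14964736 (.pos 49 .mp ⟨⟨1115785758, 0, 0, 0, 0, 475771928, 0, 0, 0, ⟨0, 0⟩, 0⟩, 0, 0⟩ 0 0) (.pos 49 .mp ⟨⟨1118099163, 0, 0, 0, 0, 476845636, 0, 0, 0, ⟨0, 0⟩, 0⟩, 0, 0⟩ 0 0)))) (.cut .s 14970880 (.cut .d (-2048) (.pos 49 .mp ⟨⟨1116938286, 0, 0, 0, 0, 494605690, 0, 0, 0, ⟨0, 0⟩, 0⟩, 0, 0⟩ 0 0) (.cut .s 14968832 (.pos 49 .mp ⟨⟨1120503321, 0, 0, 0, 0, 477751873, 0, 0, 0, ⟨0, 0⟩, 0⟩, 0, 0⟩ 0 0) (.pos 49 .mp ⟨⟨1122909709, 0, 0, 0, 0, 478678483, 0, 0, 0, ⟨0, 0⟩, 0⟩, 0, 0⟩ 0 0))) (.cut .d (-2048) (.pos 49 .mp ⟨⟨1121348796, 0,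 0, 0, 0, 497485290, 0, 0, 0, ⟨0, 0⟩, 0⟩, 0, 0⟩ 0 0) (.cut .s 14972928 (.pos 49 .mp ⟨⟨1125318272, 0, 0, 0, 0, 479625651, 0, 0, 0, ⟨0, 0⟩, 0⟩, 0, 0⟩ 0 0) (.pos 49 .mp ⟨⟨1127728955, 0, 0, 0, 0, 480593560, 0, 0, 0, ⟨0, 0⟩, 0⟩, 0, 0⟩ 0 0))))) (.pos 50 .mp ⟨⟨1249530777, 0, 0, 0, 0, 225163306, 0, 0, 0, ⟨0, 0⟩, 0⟩, 0, 0⟩ 0 0)) (.pos 45 .mp ⟨⟨1117940004, 0, 0, 0, 0, 0, 0, 0, 0, ⟨0, 0⟩, 0⟩, 0, 0⟩ 0 0)))) (.pos 46 .mp ⟨⟨1342065677, 0, 0, 0, 0, 27543734, 0, 0, 0, ⟨0, 0⟩, 0⟩, 0, 0⟩ 0 0)) (.cut .v 16842752 (.cut .s 14991360 (.cut .d (-4096) (.cut .l 184549 (.pos 45 .mp ⟨⟨1129527816, 0, 0, 0, 0, 549249535, 0, 0, 0, ⟨0, 0⟩, 0⟩, 0, 0⟩ 0 0) (.cut .v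 16809984 (.pos 49 .mp ⟨⟨0, 0, 0, 0, 0, 2546853141, 0, 0, 0, ⟨0, 0⟩, 0⟩, 0, 0⟩ 0 0) (.cut .s 14983168 (.cut .s 14979072 (.pos 50 .mp ⟨⟨1114166232, 0, 0, 0, 0, 530970271, 0, 0, 0, ⟨0, 0⟩, 0⟩, 0, 0⟩ 0 0) (.pos 50 .mp ⟨⟨1118627382, 0, 0, 0, 0, 533944477, 0, 0, 0, ⟨0, 0⟩, 0⟩, 0, 0⟩ 0 0)) (.cut .s 14987264 (.pos 50 .mp ⟨⟨1123155400, 0, 0, 0, 0, 536866950, 0, 0, 0, ⟨0, 0⟩, 0⟩, 0, 0⟩ 0 0) (.pos 50 .mp ⟨⟨1127751435, 0, 0, 0, 0, 539735482, 0, 0, 0, ⟨0, 0⟩, 0⟩, 0, 0⟩ 0 0))))) (.cut .l 184549 (.cut .v 16809984 (.cut .s 14983168 (.cut .s 14979072 (.cut .d (-2048) (.pos 49 .mp ⟨⟨1125824414, 0, 0, 0, 0, 500316253, 0, 0, 0, ⟨0, 0⟩, 0⟩, 0, 0⟩ 0 0) (.cut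 .s 14977024 (.pos 49 .mp ⟨⟨1130141706, 0, 0, 0, 0, 481582400, 0, 0, 0, ⟨0, 0⟩, 0⟩, 0, 0⟩ 0 0) (.pos 49 .mp ⟨⟨1132556467, 0, 0, 0, 0, 482592358, 0, 0, 0, ⟨0, 0⟩, 0⟩, 0, 0⟩ 0 0))) (.cut .d (-2048) (.pos 49 .mp ⟨⟨1115885008, 0, 0, 0, 0, 540645000, 0, 0, 0, ⟨0, 0⟩, 0⟩, 0, 0⟩ 0 0) (.cut .s 14981120 (.pos 49 .mp ⟨⟨1134973183, 0, 0, 0, 0, 483623623, 0, 0, 0, ⟨0, 0⟩, 0⟩, 0, 0⟩ 0 0) (.pos 49 .mp ⟨⟨1137391798, 0, 0, 0, 0, 484676388, 0, 0, 0, ⟨0, 0⟩, 0⟩, 0, 0⟩ 0 0)))) (.cut .s 14987264 (.cut .d (-2048) (.pos 49 .mp ⟨⟨1120562563, 0, 0, 0, 0, 543203347, 0, 0, 0, ⟨0, 0⟩, 0⟩, 0, 0⟩ 0 0) (.cut .s 14985216 (.pos 49 .mp ⟨⟨1139812255, 0, 0, 0, 0, 485750845,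 0, 0, 0, ⟨0, 0⟩, 0⟩, 0, 0⟩ 0 0) (.pos 49 .mp ⟨⟨1142234497, 0, 0, 0, 0, 486847188, 0, 0, 0, ⟨0, 0⟩, 0⟩, 0, 0⟩ 0 0))) (.cut .d (-2048) (.pos 49 .mp ⟨⟨1125267037, 0, 0, 0, 0, 545814334, 0, 0, 0, ⟨0, 0⟩, 0⟩, 0, 0⟩ 0 0) (.cut .s 14989312 (.pos 49 .mp ⟨⟨1144658464, 0, 0, 0, 0, 487965612, 0, 0, 0, ⟨0, 0⟩, 0⟩, 0, 0⟩ 0 0) (.pos 49 .mp ⟨⟨1147084100, 0, 0, 0, 0, 489106315, 0, 0, 0, ⟨0, 0⟩, 0⟩, 0, 0⟩ 0 0))))) (.pos 50 .mp ⟨⟨1270491297, 0, 0, 0, 0, 230042155, 0, 0, 0, ⟨0, 0⟩, 0⟩, 0, 0⟩ 0 0)) (.pos 45 .mp ⟨⟨1136783494, 0, 0, 0, 0, 0, 0, 0, 0, ⟨0, 0⟩, 0⟩, 0, 0⟩ 0 0))) (.cut .d (-4096) (.cut .l 184549 (.pos 45 .mp ⟨⟨1148591374, 0, 0, 0, 0, 560635913,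 0, 0, 0, ⟨0, 0⟩, 0⟩, 0, 0⟩ 0 0) (.cut .v 16809984 (.pos 49 .mp ⟨⟨0, 0, 0, 0, 0, 2593885397, 0, 0, 0, ⟨0, 0⟩, 0⟩, 0, 0⟩ 0 0) (.cut .s 14999552 (.cut .s 14995456 (.pos 50 .mp ⟨⟨1132416645, 0, 0, 0, 0, 542547844, 0, 0, 0, ⟨0, 0⟩, 0⟩, 0, 0⟩ 0 0) (.pos 50 .mp ⟨⟨1137152199, 0, 0, 0, 0, 545301788, 0, 0, 0, ⟨0, 0⟩, 0⟩, 0, 0⟩ 0 0)) (.cut .s 15003648 (.pos 50 .mp ⟨⟨1141959274, 0, 0, 0, 0, 547995047, 0, 0, 0, ⟨0, 0⟩, 0⟩, 0, 0⟩ 0 0) (.pos 50 .mp ⟨⟨1146839057, 0, 0, 0, 0, 550625333, 0, 0, 0, ⟨0, 0⟩, 0⟩, 0, 0⟩ 0 0))))) (.cut .l 184549 (.cut .v 16809984 (.cut .s 14999552 (.cut .s 14995456 (.cut .d (-2048) (.pos 49 .mp ⟨⟨1129998614, 0, 0, 0, 0, 548478334,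 0, 0, 0, ⟨0, 0⟩, 0⟩, 0, 0⟩ 0 0) (.cut .s 14993408 (.pos 49 .mp ⟨⟨1149511345, 0, 0, 0, 0, 490269495, 0, 0, 0, ⟨0, 0⟩, 0⟩, 0, 0⟩ 0 0) (.pos 49 .mp ⟨⟨1151940138, 0, 0, 0, 0, 491455352, 0, 0, 0, ⟨0, 0⟩, 0⟩, 0, 0⟩ 0 0))) (.cut .d (-2048) (.pos 49 .mp ⟨⟨1134757478, 0, 0, 0, 0, 551195724, 0, 0, 0, ⟨0, 0⟩, 0⟩, 0, 0⟩ 0 0) (.cut .s 14997504 (.pos 49 .mp ⟨⟨1154370421, 0, 0, 0, 0, 492664087, 0, 0, 0, ⟨0, 0⟩, 0⟩, 0, 0⟩ 0 0) (.pos 49 .mp ⟨⟨1156802132, 0, 0, 0, 0, 493895903, 0, 0, 0, ⟨0, 0⟩, 0⟩, 0, 0⟩ 0 0)))) (.cut .s 15003648 (.cut .d (-2048) (.pos 49 .mp ⟨⟨1139543815, 0, 0, 0, 0, 553966885, 0, 0, 0, ⟨0, 0⟩, 0⟩, 0, 0⟩ 0 0) (.cut .s 15001600 (.pos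 49 .mp ⟨⟨1159235209, 0, 0, 0, 0, 495151006, 0, 0, 0, ⟨0, 0⟩, 0⟩, 0, 0⟩ 0 0) (.pos 49 .mp ⟨⟨1161669592, 0, 0, 0, 0, 496429600, 0, 0, 0, ⟨0, 0⟩, 0⟩, 0, 0⟩ 0 0))) (.cut .d (-2048) (.pos 49 .mp ⟨⟨1144357815, 0, 0, 0, 0, 556792201, 0, 0, 0, ⟨0, 0⟩, 0⟩, 0, 0⟩ 0 0) (.cut .s 15005696 (.pos 49 .mp ⟨⟨1164105217, 0, 0, 0, 0, 497731893, 0, 0, 0, ⟨0, 0⟩, 0⟩, 0, 0⟩ 0 0) (.pos 49 .mp ⟨⟨1166542022, 0, 0, 0, 0, 499058095, 0, 0, 0, ⟨0, 0⟩, 0⟩, 0, 0⟩ 0 0))))) (.pos 50 .mp ⟨⟨1293171129, 0, 0, 0, 0, 232916797, 0, 0, 0, ⟨0, 0⟩, 0⟩, 0, 0⟩ 0 0)) (.pos 45 .mp ⟨⟨1156054717, 0, 0, 0, 0, 0, 0, 0, 0, ⟨0, 0⟩, 0⟩, 0, 0⟩ 0 0)))) (.pos 46 .mp ⟨⟨1390429049, 0, 0, 0,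 0, 24582280, 0, 0, 0, ⟨0, 0⟩, 0⟩, 0, 0⟩ 0 0))) (.pos 36 .mp ⟨⟨1396456868, 0, 0, 0, 0, 0, 0, 0, 0, ⟨0, 0⟩, 0⟩, 0, 0⟩ 0 0)) (.cut .v 16908288 (.cut .s 15040512 (.cut .v 16842752 (.cut .s 15024128 (.cut .d (-4096) (.cut .l 184549 (.pos 45 .mp ⟨⟨1168078207, 0, 0, 0, 0, 572957615, 0, 0, 0, ⟨0, 0⟩, 0⟩, 0, 0⟩ 0 0) (.cut .v 16809984 (.pos 49 .mp ⟨⟨0, 0, 0, 0, 0, 2642051076, 0, 0, 0, ⟨0, 0⟩, 0⟩, 0, 0⟩ 0 0) (.cut .s 15015936 (.cut .s 15011840 (.pos 50 .mp ⟨⟨1151792747, 0, 0, 0, 0, 553190339, 0, 0, 0, ⟨0, 0⟩, 0⟩, 0, 0⟩ 0 0) (.pos 50 .mp ⟨⟨1156821549, 0, 0, 0, 0, 555687738, 0, 0, 0, ⟨0, 0⟩, 0⟩, 0, 0⟩ 0 0)) (.cut .s 15020032 (.pos 50 .mp ⟨⟨1161926683,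 0, 0, 0, 0, 558115182, 0, 0, 0, ⟨0, 0⟩, 0⟩, 0, 0⟩ 0 0) (.pos 50 .mp ⟨⟨1167109375, 0, 0, 0, 0, 560470302, 0, 0, 0, ⟨0, 0⟩, 0⟩, 0, 0⟩ 0 0))))) (.cut .l 184549 (.cut .v 16809984 (.cut .s 15015936 (.cut .s 15011840 (.cut .d (-2048) (.pos 49 .mp ⟨⟨1149199666, 0, 0, 0, 0, 559672059, 0, 0, 0, ⟨0, 0⟩, 0⟩, 0, 0⟩ 0 0) (.cut .s 15009792 (.pos 49 .mp ⟨⟨1168979942, 0, 0, 0, 0, 500408416, 0, 0, 0, ⟨0, 0⟩, 0⟩, 0, 0⟩ 0 0) (.pos 49 .mp ⟨⟨1171418914, 0, 0, 0, 0, 501783069, 0, 0, 0, ⟨0, 0⟩, 0⟩, 0, 0⟩ 0 0))) (.cut .d (-2048) (.pos 49 .mp ⟨⟨1154069561, 0, 0, 0, 0, 562606850, 0, 0, 0, ⟨0, 0⟩, 0⟩, 0, 0⟩ 0 0) (.cut .s 15013888 (.pos 49 .mp ⟨⟨1173858872, 0,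 0, 0, 0, 503182266, 0, 0, 0, ⟨0, 0⟩, 0⟩, 0, 0⟩ 0 0) (.pos 49 .mp ⟨⟨1176299752, 0, 0, 0, 0, 504606224, 0, 0, 0, ⟨0, 0⟩, 0⟩, 0, 0⟩ 0 0)))) (.cut .s 15020032 (.cut .d (-2048) (.pos 49 .mp ⟨⟨1158967694, 0, 0, 0, 0, 565596970, 0, 0, 0, ⟨0, 0⟩, 0⟩, 0, 0⟩ 0 0) (.cut .s 15017984 (.pos 49 .mp ⟨⟨1178741486, 0, 0, 0, 0, 506055160, 0, 0, 0, ⟨0, 0⟩, 0⟩, 0, 0⟩ 0 0) (.pos 49 .mp ⟨⟨1181184009, 0, 0, 0, 0, 507529291, 0, 0, 0, ⟨0, 0⟩, 0⟩, 0, 0⟩ 0 0))) (.cut .d (-2048) (.pos 49 .mp ⟨⟨1163894258, 0, 0, 0, 0, 568642816, 0, 0, 0, ⟨0, 0⟩, 0⟩, 0, 0⟩ 0 0) (.cut .s 15022080 (.pos 49 .mp ⟨⟨1183627253, 0, 0, 0, 0, 509028840, 0, 0, 0, ⟨0, 0⟩, 0⟩, 0, 0⟩ 0 0) (.pos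 49 .mp ⟨⟨1186071150, 0, 0, 0, 0, 510554026, 0, 0, 0, ⟨0, 0⟩, 0⟩, 0, 0⟩ 0 0))))) (.pos 50 .mp ⟨⟨1317706195, 0, 0, 0, 0, 233530250, 0, 0, 0, ⟨0, 0⟩, 0⟩, 0, 0⟩ 0 0)) (.pos 45 .mp ⟨⟨1175765158, 0, 0, 0, 0, 0, 0, 0, 0, ⟨0, 0⟩, 0⟩, 0, 0⟩ 0 0))) (.cut .d (-4096) (.cut .l 184549 (.pos 45 .mp ⟨⟨1181197479, 0, 0, 0, 0, 1089266598, 0, 0, 0, ⟨0, 0⟩, 0⟩, 0, 0⟩ 0 0) (.cut .s 15032320 (.pos 45 .mp ⟨⟨1162688432, 0, 0, 0, 0, 589755690, 0, 0, 0, ⟨0, 0⟩, 0⟩, 0, 0⟩ 0 0) (.pos 45 .mp ⟨⟨1172664829, 0, 0, 0, 0, 595890491, 0, 0, 0, ⟨0, 0⟩, 0⟩, 0, 0⟩ 0 0))) (.cut .l 184549 (.cut .v 16809984 (.cut .s 15032320 (.cut .s 15028224 (.cut .d (-2048) (.pos 49 .mp ⟨⟨1168849452,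 0, 0, 0, 0, 571744790, 0, 0, 0, ⟨0, 0⟩, 0⟩, 0, 0⟩ 0 0) (.cut .s 15026176 (.pos 49 .mp ⟨⟨1188515632, 0, 0, 0, 0, 512105075, 0, 0, 0, ⟨0, 0⟩, 0⟩, 0, 0⟩ 0 0) (.pos 49 .mp ⟨⟨1190960629, 0, 0, 0, 0, 513682211, 0, 0, 0, ⟨0, 0⟩, 0⟩, 0, 0⟩ 0 0))) (.cut .s 15030272 (.pos 49 .mp ⟨⟨1186952950, 0, 0, 0, 0, 530768583, 0, 0, 0, ⟨0, 0⟩, 0⟩, 0, 0⟩ 0 0) (.pos 49 .mp ⟨⟨1189675194, 0, 0, 0, 0, 531755987, 0, 0, 0, ⟨0, 0⟩, 0⟩, 0, 0⟩ 0 0))) (.cut .s 15036416 (.cut .s 15034368 (.pos 49 .mp ⟨⟨1192417911, 0, 0, 0, 0, 532723137, 0, 0, 0, ⟨0, 0⟩, 0⟩, 0, 0⟩ 0 0) (.pos 49 .mp ⟨⟨1195181258, 0, 0, 0, 0, 533669728, 0, 0, 0, ⟨0, 0⟩, 0⟩, 0, 0⟩ 0 0)) (.cut .s 15038464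 (.pos 49 .mp ⟨⟨1197965395, 0, 0, 0, 0, 534595450, 0, 0, 0, ⟨0, 0⟩, 0⟩, 0, 0⟩ 0 0) (.pos 49 .mp ⟨⟨1200770483, 0, 0, 0, 0, 535499996, 0, 0, 0, ⟨0, 0⟩, 0⟩, 0, 0⟩ 0 0)))) (.pos 50 .mp ⟨⟨1344237115, 0, 0, 0, 0, 231616071, 0, 0, 0, ⟨0, 0⟩, 0⟩, 0, 0⟩ 0 0)) (.pos 45 .mp ⟨⟨1189125110, 0, 0, 0, 0, 502997213, 0, 0, 0, ⟨0, 0⟩, 0⟩, 0, 0⟩ 0 0)))) (.pos 46 .mp ⟨⟨1446012805, 0, 0, 0, 0, 12942230, 0, 0, 0, ⟨0, 0⟩, 0⟩, 0, 0⟩ 0 0)) (.cut .v 16842752 (.cut .s 15056896 (.cut .d (-4096) (.cut .l 184549 (.void 45 ⟨⟨0, 0, 0, 0, 0, 100000, 0, 0, 0, ⟨0, 0⟩, 0⟩, 0, 0⟩ 0 0) (.cut .s 15048704 (.pos 45 .mp ⟨⟨1182757684, 0, 0, 0, 0, 602166317, 0, 0, 0, ⟨0, 0⟩, 0⟩,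 0, 0⟩ 0 0) (.pos 45 .mp ⟨⟨1192968635, 0, 0, 0, 0, 608582229, 0, 0, 0, ⟨0, 0⟩, 0⟩, 0, 0⟩ 0 0))) (.cut .l 184549 (.cut .v 16809984 (.cut .s 15048704 (.cut .s 15044608 (.cut .s 15042560 (.pos 49 .mp ⟨⟨1203678379, 0, 0, 0, 0, 536203626, 0, 0, 0, ⟨0, 0⟩, 0⟩, 0, 0⟩ 0 0) (.pos 49 .mp ⟨⟨1207018908, 0, 0, 0, 0, 535982031, 0, 0, 0, ⟨0, 0⟩, 0⟩, 0, 0⟩ 0 0)) (.cut .s 15046656 (.pos 49 .mp ⟨⟨1210404006, 0, 0, 0, 0, 535687521, 0, 0, 0, ⟨0, 0⟩, 0⟩, 0, 0⟩ 0 0) (.pos 49 .mp ⟨⟨1213833956, 0, 0, 0, 0, 535319520, 0, 0, 0, ⟨0, 0⟩, 0⟩, 0, 0⟩ 0 0))) (.cut .s 15052800 (.cut .s 15050752 (.pos 49 .mp ⟨⟨1217309042, 0, 0, 0, 0, 534877451, 0, 0, 0, ⟨0, 0⟩, 0⟩, 0,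 0⟩ 0 0) (.pos 49 .mp ⟨⟨1220829546, 0, 0, 0, 0, 534360733, 0, 0, 0, ⟨0, 0⟩, 0⟩, 0, 0⟩ 0 0)) (.cut .s 15054848 (.pos 49 .mp ⟨⟨1224395753, 0, 0, 0, 0, 533768788, 0, 0, 0, ⟨0, 0⟩, 0⟩, 0, 0⟩ 0 0) (.pos 49 .mp ⟨⟨1228007949, 0, 0, 0, 0, 533101033, 0, 0, 0, ⟨0, 0⟩, 0⟩, 0, 0⟩ 0 0)))) (.pos 50 .mp ⟨⟨1372909440, 0, 0, 0, 0, 226897900, 0, 0, 0, ⟨0, 0⟩, 0⟩, 0, 0⟩ 0 0)) (.pos 45 .mp ⟨⟨1209556132, 0, 0, 0, 0, 513250234, 0, 0, 0, ⟨0, 0⟩, 0⟩, 0, 0⟩ 0 0))) (.cut .s 15065088 (.cut .d (-4096) (.cut .s 15060992 (.pos 45 .mp ⟨⟨1203299352, 0, 0, 0, 0, 619981760, 0, 0, 0, ⟨0, 0⟩, 0⟩, 0, 0⟩ 0 0) (.pos 45 .mp ⟨⟨1208510153, 0, 0, 0, 0, 623671578, 0, 0, 0, ⟨0,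 0⟩, 0⟩, 0, 0⟩ 0 0)) (.cut .v 16809984 (.cut .l 184549 (.cut .l 92274 (.cut .d (-2048) (.void 49 ⟨⟨0, 0, 0, 0, 0, 100000, 0, 0, 0, ⟨0, 0⟩, 0⟩, 0, 0⟩ 0 0) (.cut .s 15060992 (.pos 49 .mp ⟨⟨1234080359, 0, 0, 0, 0, 528277012, 0, 0, 0, ⟨0, 0⟩, 0⟩, 0, 0⟩ 0 0) (.pos 49 .mp ⟨⟨1239421196, 0, 0, 0, 0, 531214233, 0, 0, 0, ⟨0, 0⟩, 0⟩, 0, 0⟩ 0 0))) (.pos 49 .mp ⟨⟨1210577595, 0, 0, 0, 0, 579656361, 0, 0, 0, ⟨0, 0⟩, 0⟩, 0, 0⟩ 0 0)) (.pos 49 .mp ⟨⟨0, 0, 0, 0, 0, 2738625332, 0, 0, 0, ⟨0, 0⟩, 0⟩, 0, 0⟩ 0 0)) (.pos 50 .mp ⟨⟨1298329600, 0, 0, 0, 0, 408509604, 0, 0, 0, ⟨0, 0⟩, 0⟩, 0, 0⟩ 0 0))) (.cut .d (-4096) (.cut .s 15069184 (.pos 45 .mp ⟨⟨1213751536,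 0, 0, 0, 0, 627422337, 0, 0, 0, ⟨0, 0⟩, 0⟩, 0, 0⟩ 0 0) (.pos 45 .mp ⟨⟨1219023719, 0, 0, 0, 0, 631234487, 0, 0, 0, ⟨0, 0⟩, 0⟩, 0, 0⟩ 0 0)) (.cut .v 16809984 (.cut .l 184549 (.cut .d (-2048) (.pos 49 .mp ⟨⟨1220020732, 0, 0, 0, 0, 614350432, 0, 0, 0, ⟨0, 0⟩, 0⟩, 0, 0⟩ 0 0) (.cut .s 15069184 (.pos 49 .mp ⟨⟨1244793667, 0, 0, 0, 0, 534495055, 0, 0, 0, ⟨0, 0⟩, 0⟩, 0, 0⟩ 0 0) (.pos 49 .mp ⟨⟨1249885078, 0, 0, 0, 0, 538345849, 0, 0, 0, ⟨0, 0⟩, 0⟩, 0, 0⟩ 0 0))) (.pos 49 .mp ⟨⟨0, 0, 0, 0, 0, 2764271866, 0, 0, 0, ⟨0, 0⟩, 0⟩, 0, 0⟩ 0 0)) (.pos 50 .mp ⟨⟨1313023021, 0, 0, 0, 0, 406503722, 0, 0, 0, ⟨0, 0⟩, 0⟩, 0, 0⟩ 0 0))))) (.pos 46 .mp ⟨⟨1505185465,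 0, 0, 0, 0, 0, 0, 0, 0, ⟨0, 0⟩, 0⟩, 0, 0⟩ 0 0))) (.pos 36 .mp ⟨⟨1497111244, 0, 0, 0, 0, 0, 0, 0, 0, ⟨0, 0⟩, 0⟩, 0, 0⟩ 0 0))))))) (.pos 34 .mp ⟨⟨1637220102, 0, 0, 0, 0, 0, 0, 0, 0, ⟨0, 0⟩, 0⟩, 0, 0⟩ 0 0))) (.void 32 ⟨⟨100000, 0, 0, 0, 0, 0, 0, 0, 0, ⟨0, 0⟩, 0⟩, 0, 0⟩ 0 0))) (.void 30 ⟨⟨100000, 0, 0, 0, 0, 0, 0, 0, 0, ⟨0, 0⟩, 0⟩, 0, 0⟩ 0 0))) (.void 28 ⟨⟨100000, 0, 0, 0, 0, 0, 0, 0, 0, ⟨0, 0⟩, 0⟩, 0, 0⟩ 0 0))) (.void 26 ⟨⟨100000, 0, 0, 0, 0, 0, 0, 0, 0, ⟨0, 0⟩, 0⟩, 0, 0⟩ 0 0)))) (.void 24 ⟨⟨100000, 0, 0, 0, 0, 0, 0, 0, 0, ⟨0, 0⟩, 0⟩, 0, 0⟩ 0 0))) (.void 91 ⟨⟨100000, 0, 0, 0, 0, 0, 0, 0, 0, ⟨0, 0⟩, 0⟩, 0, 0⟩ 0 0)) (.void 112 ⟨⟨99403, 0,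 0, 0, 0, 0, 0, 0, 0, ⟨0, 0⟩, 0⟩, 0, 0⟩ 0 0)) (.void 121 ⟨⟨92449, 0, 0, 7551, 0, 0, 0, 0, 0, ⟨0, 0⟩, 0⟩, 0, 0⟩ 0 0))) (.cut .v 16777216 (.cut .v 8388608 (.cut .v 4194304 (.cut .v 2097152 (.cut .v 1048576 (.pos 117 .pm ⟨⟨0, 0, 39029295, 0, 0, 0, 0, 0, 0, ⟨0, 0⟩, 0⟩, 0, 2041⟩ 0 0) (.pos 118 .pm ⟨⟨0, 0, 70282271, 0, 0, 0, 0, 0, 0, ⟨0, 0⟩, 0⟩, 0, 5883⟩ 0 0)) (.pos 114 .pm ⟨⟨0, 0, 120881101, 0, 0, 0, 0, 0, 0, ⟨0, 0⟩, 0⟩, 0, 11113⟩ 0 0)) (.pos 5 .pm ⟨⟨0, 0, 366351421, 0, 0, 0, 0, 0, 0, ⟨0, 0⟩, 0⟩, 0, 25571⟩ 0 0)) (.pos 3 .pm ⟨⟨0, 0, 0, 0, 0, 0, 0, 0, 0, ⟨0, 0⟩, 0⟩, 0, 0⟩ 0 0)) (.cut .v 268435456 (.cut .v 67108864 (.cut .d 1030181 (.cut .v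 33554432 (.cut .d 515090 (.cut .v 25165824 (.cut .d 257545 (.cut .v 20971520 (.cut .d 128772 (.cut .v 18874368 (.cut .d 64386 (.cut .v 17825792 (.cut .s 15007744 (.pos 29 .pp ⟨⟨1199507697, 0, 0, 0, 0, 0, 0, 0, 0, ⟨0, 0⟩, 0⟩, 20394379, 0⟩ 0 0) (.pos 29 .pp ⟨⟨1281980159, 0, 0, 0, 0, 0, 0, 0, 0, ⟨0, 0⟩, 0⟩, 22200699, 0⟩ 0 0)) (.pos 30 .pp ⟨⟨1551196928, 0, 0, 0, 0, 0, 0, 0, 0, ⟨0, 0⟩, 0⟩, 0, 0⟩ 0 0)) (.pos 27 .pp ⟨⟨0, 0, 0, 0, 0, 0, 0, 0, 0, ⟨0, 0⟩, 0⟩, 0, 67689⟩ 0 0)) (.cut .d 64386 (.pos 28 .pp ⟨⟨1904856030, 0, 0, 0, 0, 0, 0, 0, 0, ⟨0, 0⟩, 0⟩, 0, 0⟩ 0 0) (.pos 28 .pp ⟨⟨1611845862, 0, 0, 0, 0, 0, 0, 0, 0, ⟨0, 0⟩, 0⟩, 0, 0⟩ 0 0))) (.pos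 25 .pp ⟨⟨0, 0, 0, 0, 0, 0, 0, 0, 0, ⟨0, 0⟩, 0⟩, 0, 71032⟩ 0 0)) (.cut .d 128772 (.cut .v 23068672 (.cut .v 22020096 (.pos 57 .pp ⟨⟨2046293634, 0, 0, 0, 0, 0, 0, 0, 0, ⟨0, 0⟩, 0⟩, 0, 0⟩ 0 0) (.pos 58 .pp ⟨⟨205780252, 0, 0, 0, 0, 0, 0, 0, 0, ⟨0, 0⟩, 0⟩, 320114420, 0⟩ 0 0)) (.void 56 ⟨⟨0, 0, 0, 0, 0, 0, 0, 0, 0, ⟨0, 0⟩, 0⟩, 100000, 0⟩ 0 0)) (.cut .v 23068672 (.pos 55 .pp ⟨⟨0, 0, 0, 0, 0, 0, 20593, 0, 0, ⟨0, 0⟩, 0⟩, 253323315, 0⟩ 0 0) (.pos 56 .pp ⟨⟨0, 0, 0, 0, 0, 0, 0, 0, 0, ⟨0, 0⟩, 0⟩, 312656981, 0⟩ 0 0)))) (.pos 23 .pp ⟨⟨0, 0, 0, 0, 0, 0, 0, 0, 0, ⟨0, 0⟩, 0⟩, 0, 76714⟩ 0 0)) (.cut .d 257545 (.cut .v 29360128 (.pos 75 .pp ⟨⟨0, 0, 0, 0,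 0, 0, 0, 0, 0, ⟨0, 0⟩, 0⟩, 424210349, 0⟩ 0 0) (.void 76 ⟨⟨0, 0, 0, 0, 0, 0, 0, 0, 0, ⟨0, 0⟩, 0⟩, 100000, 0⟩ 0 0)) (.pos 24 .pp ⟨⟨0, 0, 0, 0, 0, 0, 0, 0, 0, ⟨0, 0⟩, 0⟩, 311477629, 0⟩ 0 0))) (.pos 22 .pp ⟨⟨0, 0, 0, 0, 0, 0, 255697, 0, 0, ⟨0, 0⟩, 0⟩, 0, 0⟩ 0 0)) (.cut .d 515090 (.cut .v 50331648 (.pos 104 .pp ⟨⟨0, 0, 0, 0, 0, 0, 0, 0, 0, ⟨0, 0⟩, 0⟩, 670225618, 0⟩ 0 0) (.void 105 ⟨⟨0, 0, 0, 0, 0, 0, 0, 0, 0, ⟨0, 0⟩, 0⟩, 100000, 0⟩ 0 0)) (.pos 91 .pp ⟨⟨0, 0, 0, 0, 0, 0, 0, 0, 0, ⟨0, 0⟩, 0⟩, 457803365, 0⟩ 0 0))) (.pos 90 .pp ⟨⟨0, 615278651, 0, 0, 0, 0, 0, 0, 0, ⟨0, 0⟩, 0⟩, 0, 63928⟩ 0 0)) (.void 112 ⟨⟨0, 0, 0, 49991, 0, 0, 0, 0, 0, ⟨0, 0⟩,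 0⟩, 50009, 0⟩ 0 0)) (.void 121 ⟨⟨0, 0, 0, 0, 0, 0, 0, 0, 0, ⟨0, 0⟩, 0⟩, 100000, 0⟩ 0 0)))),
    by decide +kernel⟩

theorem covers33 : cell.Covers Vale.Agent.P237.Petty.Cor.Grid.N10.table row33.1 :=
  ⟨(.cut .d 0 (.cut .v 16777216 (.cut .v 8388608 (.void 2 ⟨⟨0, 0, 100000, 0, 0, 0, 0, 0, 0, ⟨0, 0⟩, 0⟩, 0, 0⟩ 0 0) (.cut .d (-8388608) (.void 3 ⟨⟨100000, 0, 0, 0, 0, 0, 0, 0, 0, ⟨0, 0⟩, 0⟩, 0, 0⟩ 0 0) (.cut .d (-4194304) (.void 3 ⟨⟨100000, 0, 0, 0, 0, 0, 0, 0, 0, ⟨0, 0⟩, 0⟩, 0, 0⟩ 0 0) (.cut .d (-2097152) (.void 3 ⟨⟨100000, 0, 0, 0, 0, 0, 0, 0, 0, ⟨0, 0⟩, 0⟩, 0, 0⟩ 0 0) (.cut .d (-1048576) (.void 3 ⟨⟨100000, 0, 0, 0, 0, 0, 0, 0, 0, ⟨0, 0⟩,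 0⟩, 0, 0⟩ 0 0) (.cut .d (-524288) (.void 3 ⟨⟨0, 0, 0, 0, 0, 100000, 0, 0, 0, ⟨0, 0⟩, 0⟩, 0, 0⟩ 0 0) (.cut .s 15122432 (.pos 3 .mm ⟨⟨0, 0, 0, 0, 0, 3288483170, 0, 0, 0, ⟨0, 0⟩, 0⟩, 0, 0⟩ 0 0) (.pos 3 .mm ⟨⟨0, 0, 0, 0, 0, 3503997874, 0, 0, 0, ⟨0, 0⟩, 0⟩, 0, 0⟩ 0 0)))))))) (.cut .v 268435456 (.cut .v 67108864 (.cut .v 33554432 (.cut .d (-8388608) (.void 22 ⟨⟨100010, 0, 0, 0, 0, 0, 0, 0, 0, ⟨0, 0⟩, 0⟩, 0, 0⟩ 0 0) (.cut .v 25165824 (.cut .d (-4194304) (.void 23 ⟨⟨100000, 0, 0, 0, 0, 0, 0, 0, 0, ⟨0, 0⟩, 0⟩, 0, 0⟩ 0 0) (.cut .d (-2097152) (.void 23 ⟨⟨100000, 0, 0, 0, 0, 0, 0, 0, 0, ⟨0, 0⟩, 0⟩, 0, 0⟩ 0 0) (.cut .v 20971520 (.cut .d (-1048576)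 (.void 25 ⟨⟨100000, 0, 0, 0, 0, 0, 0, 0, 0, ⟨0, 0⟩, 0⟩, 0, 0⟩ 0 0) (.cut .v 18874368 (.cut .d (-524288) (.void 27 ⟨⟨100000, 0, 0, 0, 0, 0, 0, 0, 0, ⟨0, 0⟩, 0⟩, 0, 0⟩ 0 0) (.cut .v 17825792 (.cut .s 15122432 (.cut .d (-262144) (.void 29 ⟨⟨100000, 0, 0, 0, 0, 0, 0, 0, 0, ⟨0, 0⟩, 0⟩, 0, 0⟩ 0 0) (.cut .v 17301504 (.cut .d (-131072) (.void 31 ⟨⟨100000, 0, 0, 0, 0, 0, 0, 0, 0, ⟨0, 0⟩, 0⟩, 0, 0⟩ 0 0) (.cut .s 15097856 (.cut .v 17039360 (.cut .d (-65536) (.void 33 ⟨⟨100000, 0, 0, 0, 0, 0, 0, 0, 0, ⟨0, 0⟩, 0⟩, 0, 0⟩ 0 0) (.cut .s 15085568 (.cut .v 16908288 (.cut .s 15079424 (.cut .d (-32768) (.void 35 ⟨⟨100000, 0, 0, 0, 0, 0, 0, 0, 0, ⟨0, 0⟩,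 0⟩, 0, 0⟩ 0 0) (.cut .s 15076352 (.cut .d (-16384) (.void 35 ⟨⟨100000, 0, 0, 0, 0, 0, 0, 0, 0, ⟨0, 0⟩, 0⟩, 0, 0⟩ 0 0) (.cut .d (-8192) (.void 35 ⟨⟨0, 0, 0, 0, 0, 100000, 0, 0, 0, ⟨0, 0⟩, 0⟩, 0, 0⟩ 0 0) (.cut .s 15074816 (.cut .d (-4096) (.cut .v 16842752 (.pos 45 .mp ⟨⟨1224321462, 0, 0, 0, 0, 629845401, 0, 0, 0, ⟨0, 0⟩, 0⟩, 0, 0⟩ 0 0) (.pos 46 .mp ⟨⟨1298136822, 0, 0, 0, 0, 470173245, 0, 0, 0, ⟨0, 0⟩, 0⟩, 0, 0⟩ 0 0)) (.pos 35 .mp ⟨⟨1274544799, 0, 0, 0, 0, 499418050, 0, 0, 0, ⟨0, 0⟩, 0⟩, 0, 0⟩ 0 0)) (.pos 35 .mp ⟨⟨1290451491, 0, 0, 0, 0, 493714083, 0, 0, 0, ⟨0, 0⟩, 0⟩, 0, 0⟩ 0 0)))) (.pos 35 .mp ⟨⟨1303658491, 0, 0, 0, 0, 502523213, 0,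 0, 0, ⟨0, 0⟩, 0⟩, 0, 0⟩ 0 0))) (.pos 35 .mp ⟨⟨1365840613, 0, 0, 0, 0, 431866642, 0, 0, 0, ⟨0, 0⟩, 0⟩, 0, 0⟩ 0 0)) (.pos 36 .mp ⟨⟨1598296660, 0, 0, 0, 0, 0, 0, 0, 0, ⟨0, 0⟩, 0⟩, 0, 0⟩ 0 0)) (.pos 33 .mp ⟨⟨1464588093, 0, 0, 0, 0, 309261321, 0, 0, 0, ⟨0, 0⟩, 0⟩, 0, 0⟩ 0 0))) (.pos 34 .mp ⟨⟨1680784950, 0, 0, 0, 0, 0, 0, 0, 0, ⟨0, 0⟩, 0⟩, 0, 0⟩ 0 0)) (.pos 31 .mp ⟨⟨1529105615, 0, 0, 0, 0, 385282197, 0, 0, 0, ⟨0, 0⟩, 0⟩, 0, 0⟩ 0 0))) (.void 32 ⟨⟨100000, 0, 0, 0, 0, 0, 0, 0, 0, ⟨0, 0⟩, 0⟩, 0, 0⟩ 0 0))) (.pos 29 .mp ⟨⟨1575084693, 0, 0, 0, 0, 946538152, 0, 0, 0, ⟨0, 0⟩, 0⟩, 0, 0⟩ 0 0)) (.void 30 ⟨⟨100000, 0, 0, 0, 0, 0, 0, 0, 0, ⟨0, 0⟩, 0⟩,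 0, 0⟩ 0 0))) (.void 28 ⟨⟨100000, 0, 0, 0, 0, 0, 0, 0, 0, ⟨0, 0⟩, 0⟩, 0, 0⟩ 0 0))) (.void 26 ⟨⟨100000, 0, 0, 0, 0, 0, 0, 0, 0, ⟨0, 0⟩, 0⟩, 0, 0⟩ 0 0)))) (.void 24 ⟨⟨100000, 0, 0, 0, 0, 0, 0, 0, 0, ⟨0, 0⟩, 0⟩, 0, 0⟩ 0 0))) (.void 91 ⟨⟨100000, 0, 0, 0, 0, 0, 0, 0, 0, ⟨0, 0⟩, 0⟩, 0, 0⟩ 0 0)) (.void 112 ⟨⟨100000, 0, 0, 0, 0, 0, 0, 0, 0, ⟨0, 0⟩, 0⟩, 0, 0⟩ 0 0)) (.void 121 ⟨⟨92404, 0, 0, 7596, 0, 0, 0, 0, 0, ⟨0, 0⟩, 0⟩, 0, 0⟩ 0 0))) (.cut .v 16777216 (.cut .v 8388608 (.cut .v 4194304 (.cut .v 2097152 (.cut .v 1048576 (.pos 117 .pm ⟨⟨0, 0, 43836466, 0, 0, 0, 0, 0, 0, ⟨0, 0⟩, 0⟩, 0, 2736⟩ 0 0) (.pos 118 .pm ⟨⟨0, 0, 85302698, 0, 0, 0, 0, 0, 0,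 ⟨0, 0⟩, 0⟩, 0, 5884⟩ 0 0)) (.pos 114 .pm ⟨⟨0, 0, 151760861, 0, 0, 0, 0, 0, 0, ⟨0, 0⟩, 0⟩, 0, 11114⟩ 0 0)) (.pos 5 .pm ⟨⟨0, 0, 472949788, 0, 0, 0, 0, 0, 0, ⟨0, 0⟩, 0⟩, 0, 20005⟩ 0 0)) (.pos 3 .pm ⟨⟨0, 0, 0, 0, 0, 0, 0, 0, 0, ⟨0, 0⟩, 0⟩, 0, 0⟩ 0 0)) (.cut .v 268435456 (.cut .v 67108864 (.cut .d 948278 (.cut .v 33554432 (.cut .d 474139 (.cut .v 25165824 (.cut .d 237069 (.cut .v 20971520 (.cut .d 118534 (.cut .v 18874368 (.cut .d 59267 (.cut .v 17825792 (.cut .s 15122432 (.pos 29 .pp ⟨⟨1302945968, 0, 0, 0, 0, 0, 0, 0, 0, ⟨0, 0⟩, 0⟩, 35205288, 0⟩ 0 0) (.pos 29 .pp ⟨⟨1587205421, 0, 0, 0, 0, 0, 0, 0, 0, ⟨0, 0⟩, 0⟩, 0, 10930⟩ 0 0)) (.pos 30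 .pp ⟨⟨1751346314, 0, 0, 0, 0, 0, 0, 0, 0, ⟨0, 0⟩, 0⟩, 0, 0⟩ 0 0)) (.pos 27 .pp ⟨⟨0, 0, 0, 0, 0, 0, 0, 0, 0, ⟨0, 0⟩, 0⟩, 0, 52956⟩ 0 0)) (.cut .d 59267 (.pos 28 .pp ⟨⟨2128619537, 0, 0, 0, 0, 0, 0, 0, 0, ⟨0, 0⟩, 0⟩, 0, 0⟩ 0 0) (.pos 28 .pp ⟨⟨1837590931, 0, 0, 0, 0, 0, 0, 0, 0, ⟨0, 0⟩, 0⟩, 0, 0⟩ 0 0))) (.pos 25 .pp ⟨⟨0, 0, 0, 0, 0, 0, 0, 0, 0, ⟨0, 0⟩, 0⟩, 0, 55571⟩ 0 0)) (.cut .d 118534 (.cut .v 23068672 (.cut .v 22020096 (.pos 57 .pp ⟨⟨2289133953, 0, 0, 0, 0, 0, 0, 0, 0, ⟨0, 0⟩, 0⟩, 0, 0⟩ 0 0) (.pos 58 .pp ⟨⟨2309217383, 0, 0, 0, 0, 0, 0, 0, 0, ⟨0, 0⟩, 0⟩, 30762892, 0⟩ 0 0)) (.void 56 ⟨⟨0, 0, 0, 0, 0, 0, 0, 0, 0, ⟨0, 0⟩, 0⟩, 100000, 0⟩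 0 0)) (.cut .v 23068672 (.pos 55 .pp ⟨⟨0, 0, 0, 0, 0, 0, 16475, 0, 0, ⟨0, 0⟩, 0⟩, 290176845, 0⟩ 0 0) (.pos 56 .pp ⟨⟨0, 0, 0, 0, 0, 0, 0, 0, 0, ⟨0, 0⟩, 0⟩, 355956117, 0⟩ 0 0)))) (.pos 23 .pp ⟨⟨0, 0, 0, 0, 0, 0, 0, 0, 0, ⟨0, 0⟩, 0⟩, 0, 60016⟩ 0 0)) (.cut .d 237069 (.cut .v 29360128 (.pos 75 .pp ⟨⟨0, 0, 0, 0, 0, 0, 0, 0, 0, ⟨0, 0⟩, 0⟩, 469483610, 0⟩ 0 0) (.void 76 ⟨⟨0, 0, 0, 0, 0, 0, 0, 0, 0, ⟨0, 0⟩, 0⟩, 100000, 0⟩ 0 0)) (.pos 24 .pp ⟨⟨0, 0, 0, 0, 0, 0, 0, 0, 0, ⟨0, 0⟩, 0⟩, 356562970, 0⟩ 0 0))) (.pos 22 .pp ⟨⟨0, 0, 0, 0, 0, 0, 200045, 0, 0, ⟨0, 0⟩, 0⟩, 0, 0⟩ 0 0)) (.cut .d 474139 (.pos 91 .pp ⟨⟨0, 0, 0, 0, 0, 0, 0, 0, 0, ⟨0, 0⟩, 0⟩, 904064092,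 0⟩ 0 0) (.pos 91 .pp ⟨⟨0, 0, 0, 0, 0, 0, 0, 0, 0, ⟨0, 0⟩, 0⟩, 525024237, 0⟩ 0 0))) (.pos 90 .pp ⟨⟨0, 1057404647, 0, 0, 0, 0, 0, 0, 0, ⟨0, 0⟩, 0⟩, 0, 50014⟩ 0 0)) (.void 112 ⟨⟨0, 0, 0, 50120, 0, 0, 0, 0, 0, ⟨0, 0⟩, 0⟩, 49880, 0⟩ 0 0)) (.void 121 ⟨⟨0, 0, 0, 0, 0, 0, 0, 0, 0, ⟨0, 0⟩, 0⟩, 100000, 0⟩ 0 0)))),
    by decide +kernel⟩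

theorem covers34 : cell.Covers Vale.Agent.P237.Petty.Cor.Grid.N10.table row34.1 :=
  ⟨(.cut .d 0 (.cut .v 16777216 (.cut .v 8388608 (.void 2 ⟨⟨0, 0, 100000, 0, 0, 0, 0, 0, 0, ⟨0, 0⟩, 0⟩, 0, 0⟩ 0 0) (.cut .d (-8388608) (.void 3 ⟨⟨100000, 0, 0, 0, 0, 0, 0, 0, 0, ⟨0, 0⟩, 0⟩, 0, 0⟩ 0 0) (.cut .d (-4194304) (.void 3 ⟨⟨100000, 0, 0, 0, 0, 0, 0, 0, 0, ⟨0, 0⟩, 0⟩, 0, 0⟩ 0 0) (.cut .d (-2097152) (.void 3 ⟨⟨100000, 0, 0, 0, 0, 0, 0, 0, 0, ⟨0, 0⟩, 0⟩, 0, 0⟩ 0 0) (.pos 3 .mm ⟨⟨0, 0, 0, 0, 0, 5201285021, 0, 0, 0, ⟨0, 0⟩, 0⟩, 0, 0⟩ 0 0))))) (.cut .v 268435456 (.cut .v 67108864 (.cut .v 33554432 (.cut .d (-8388608) (.void 22 ⟨⟨100000, 0, 0, 0, 0,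 0, 0, 0, 0, ⟨0, 0⟩, 0⟩, 0, 0⟩ 0 0) (.cut .v 25165824 (.cut .d (-4194304) (.void 23 ⟨⟨100000, 0, 0, 0, 0, 0, 0, 0, 0, ⟨0, 0⟩, 0⟩, 0, 0⟩ 0 0) (.cut .d (-2097152) (.void 23 ⟨⟨100000, 0, 0, 0, 0, 0, 0, 0, 0, ⟨0, 0⟩, 0⟩, 0, 0⟩ 0 0) (.cut .v 20971520 (.cut .d (-1048576) (.void 25 ⟨⟨100000, 0, 0, 0, 0, 0, 0, 0, 0, ⟨0, 0⟩, 0⟩, 0, 0⟩ 0 0) (.cut .v 18874368 (.pos 27 .mp ⟨⟨1928230457, 0, 0, 0, 0, 1602775119, 0, 0, 0, ⟨0, 0⟩, 0⟩, 0, 0⟩ 0 0) (.void 28 ⟨⟨100000, 0, 0, 0, 0, 0, 0, 0, 0, ⟨0, 0⟩, 0⟩, 0, 0⟩ 0 0))) (.void 26 ⟨⟨100000, 0, 0, 0, 0, 0, 0, 0, 0, ⟨0, 0⟩, 0⟩, 0, 0⟩ 0 0)))) (.void 24 ⟨⟨100000, 0, 0, 0, 0, 0, 0, 0, 0, ⟨0, 0⟩, 0⟩, 0, 0⟩ 0 0)))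 (.void 91 ⟨⟨100000, 0, 0, 0, 0, 0, 0, 0, 0, ⟨0, 0⟩, 0⟩, 0, 0⟩ 0 0)) (.void 112 ⟨⟨100093, 0, 0, 0, 0, 0, 0, 0, 0, ⟨0, 0⟩, 0⟩, 0, 0⟩ 0 0)) (.void 121 ⟨⟨92358, 0, 0, 7642, 0, 0, 0, 0, 0, ⟨0, 0⟩, 0⟩, 0, 0⟩ 0 0))) (.cut .v 16777216 (.cut .v 8388608 (.cut .v 4194304 (.cut .v 2097152 (.cut .v 1048576 (.pos 117 .pm ⟨⟨0, 0, 49160850, 0, 0, 0, 0, 0, 0, ⟨0, 0⟩, 0⟩, 0, 2244⟩ 0 0) (.pos 118 .pm ⟨⟨0, 0, 100609451, 0, 0, 0, 0, 0, 0, ⟨0, 0⟩, 0⟩, 0, 6467⟩ 0 0)) (.pos 114 .pm ⟨⟨0, 0, 182857319, 0, 0, 0, 0, 0, 0, ⟨0, 0⟩, 0⟩, 0, 14379⟩ 0 0)) (.pos 5 .pm ⟨⟨0, 0, 573374583, 0, 0, 0, 0, 0, 0, ⟨0, 0⟩, 0⟩, 0, 26807⟩ 0 0)) (.pos 3 .pm ⟨⟨0, 0, 0, 0, 0, 0, 0,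 0, 0, ⟨0, 0⟩, 0⟩, 0, 0⟩ 0 0)) (.cut .v 268435456 (.cut .v 67108864 (.cut .d 887780 (.cut .v 33554432 (.cut .d 443890 (.cut .v 25165824 (.cut .d 221945 (.cut .v 20971520 (.cut .d 110972 (.cut .v 18874368 (.cut .d 55486 (.cut .v 17825792 (.cut .s 15220736 (.pos 29 .pp ⟨⟨1676939018, 0, 0, 0, 0, 0, 0, 0, 0, ⟨0, 0⟩, 0⟩, 0, 22576⟩ 0 0) (.pos 29 .pp ⟨⟨1773820758, 0, 0, 0, 0, 0, 0, 0, 0, ⟨0, 0⟩, 0⟩, 0, 20834⟩ 0 0)) (.pos 30 .pp ⟨⟨1972833295, 0, 0, 0, 0, 0, 0, 0, 0, ⟨0, 0⟩, 0⟩, 0, 22898⟩ 0 0)) (.pos 27 .pp ⟨⟨0, 0, 0, 0, 0, 0, 0, 0, 0, ⟨0, 0⟩, 0⟩, 0, 70960⟩ 0 0)) (.cut .d 55486 (.pos 28 .pp ⟨⟨2419043541, 0, 0, 0, 0, 0, 0, 0, 0, ⟨0, 0⟩, 0⟩, 0,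 16729⟩ 0 0) (.pos 28 .pp ⟨⟨2059482352, 0, 0, 0, 0, 0, 0, 0, 0, ⟨0, 0⟩, 0⟩, 0, 24790⟩ 0 0))) (.pos 25 .pp ⟨⟨0, 0, 0, 0, 0, 0, 0, 0, 0, ⟨0, 0⟩, 0⟩, 0, 74464⟩ 0 0)) (.cut .d 110972 (.cut .v 23068672 (.pos 55 .pp ⟨⟨2763273159, 0, 0, 0, 0, 0, 38949, 0, 0, ⟨0, 0⟩, 0⟩, 0, 0⟩ 0 0) (.void 56 ⟨⟨0, 0, 0, 0, 0, 0, 0, 0, 0, ⟨0, 0⟩, 0⟩, 100000, 0⟩ 0 0)) (.cut .v 23068672 (.pos 55 .pp ⟨⟨0, 0, 0, 0, 0, 0, 78814, 0, 0, ⟨0, 0⟩, 0⟩, 323341844, 0⟩ 0 0) (.pos 56 .pp ⟨⟨0, 0, 0, 0, 0, 0, 64026, 0, 0, ⟨0, 0⟩, 0⟩, 398448449, 0⟩ 0 0)))) (.pos 23 .pp ⟨⟨0, 0, 0, 0, 0, 0, 0, 0, 0, ⟨0, 0⟩, 0⟩, 0, 80421⟩ 0 0)) (.cut .d 221945 (.cut .v 29360128 (.pos 75 .pp ⟨⟨0, 0,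 0, 0, 0, 0, 27163, 0, 0, ⟨0, 0⟩, 0⟩, 528079311, 0⟩ 0 0) (.void 76 ⟨⟨0, 0, 0, 0, 0, 0, 0, 0, 0, ⟨0, 0⟩, 0⟩, 100000, 0⟩ 0 0)) (.pos 24 .pp ⟨⟨0, 0, 0, 0, 0, 0, 69020, 0, 0, ⟨0, 0⟩, 0⟩, 400958885, 0⟩ 0 0))) (.pos 22 .pp ⟨⟨0, 0, 0, 0, 0, 0, 268059, 0, 0, ⟨0, 0⟩, 0⟩, 0, 0⟩ 0 0)) (.cut .d 443890 (.cut .v 50331648 (.pos 104 .pp ⟨⟨0, 0, 0, 0, 0, 0, 0, 0, 0, ⟨0, 0⟩, 0⟩, 825120368, 0⟩ 0 0) (.void 105 ⟨⟨0, 0, 0, 0, 0, 0, 0, 0, 0, ⟨0, 0⟩, 0⟩, 100000, 0⟩ 0 0)) (.pos 91 .pp ⟨⟨0, 0, 0, 0, 0, 0, 6760, 0, 0, ⟨0, 0⟩, 0⟩, 595177034, 0⟩ 0 0))) (.pos 90 .pp ⟨⟨0, 1480255476, 0, 0, 0, 0, 0, 0, 0, ⟨0, 0⟩, 0⟩, 0, 67018⟩ 0 0)) (.void 112 ⟨⟨0, 0, 0, 50250, 0,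 0, 0, 0, 0, ⟨0, 0⟩, 0⟩, 49750, 0⟩ 0 0)) (.void 121 ⟨⟨0, 0, 0, 0, 0, 0, 0, 0, 0, ⟨0, 0⟩, 0⟩, 100000, 0⟩ 0 0)))),
    by decide +kernel⟩

theorem covers35 : cell.Covers Vale.Agent.P237.Petty.Cor.Grid.N10.table row35.1 :=
  ⟨(.cut .d 0 (.cut .v 16777216 (.cut .v 8388608 (.void 2 ⟨⟨0, 0, 100000, 0, 0, 0, 0, 0, 0, ⟨0, 0⟩, 0⟩, 0, 0⟩ 0 0) (.cut .d (-8388608) (.void 3 ⟨⟨100000, 0, 0, 0, 0, 0, 0, 0, 0, ⟨0, 0⟩, 0⟩, 0, 0⟩ 0 0) (.cut .d (-4194304) (.void 3 ⟨⟨100000, 0, 0, 0, 0, 0, 0, 0, 0, ⟨0, 0⟩, 0⟩, 0, 0⟩ 0 0) (.cut .d (-2097152) (.void 3 ⟨⟨100000, 0, 0, 0, 0, 0, 0, 0, 0, ⟨0, 0⟩, 0⟩, 0, 0⟩ 0 0) (.pos 3 .mm ⟨⟨0, 0, 0, 0, 0, 6185578642, 0, 0, 0,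 ⟨0, 0⟩, 0⟩, 0, 0⟩ 0 0))))) (.cut .v 268435456 (.cut .v 67108864 (.cut .v 33554432 (.cut .d (-8388608) (.void 22 ⟨⟨100000, 0, 0, 0, 0, 0, 0, 0, 0, ⟨0, 0⟩, 0⟩, 0, 0⟩ 0 0) (.cut .v 25165824 (.cut .d (-4194304) (.void 23 ⟨⟨100000, 0, 0, 0, 0, 0, 0, 0, 0, ⟨0, 0⟩, 0⟩, 0, 0⟩ 0 0) (.cut .d (-2097152) (.void 23 ⟨⟨100000, 0, 0, 0, 0, 0, 0, 0, 0, ⟨0, 0⟩, 0⟩, 0, 0⟩ 0 0) (.cut .v 20971520 (.cut .d (-1048576) (.void 25 ⟨⟨100000, 0, 0, 0, 0, 0, 0, 0, 0, ⟨0, 0⟩, 0⟩, 0, 0⟩ 0 0) (.cut .v 18874368 (.pos 27 .mp ⟨⟨2236260746, 0, 0, 0, 0, 1948060036, 0, 0, 0, ⟨0, 0⟩, 0⟩, 0, 0⟩ 0 0) (.void 28 ⟨⟨100000, 0, 0, 0, 0, 0, 0, 0, 0, ⟨0, 0⟩, 0⟩, 0, 0⟩ 0 0))) (.void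 26 ⟨⟨100000, 0, 0, 0, 0, 0, 0, 0, 0, ⟨0, 0⟩, 0⟩, 0, 0⟩ 0 0)))) (.void 24 ⟨⟨100000, 0, 0, 0, 0, 0, 0, 0, 0, ⟨0, 0⟩, 0⟩, 0, 0⟩ 0 0))) (.void 91 ⟨⟨100000, 0, 0, 0, 0, 0, 0, 0, 0, ⟨0, 0⟩, 0⟩, 0, 0⟩ 0 0)) (.void 112 ⟨⟨99807, 0, 0, 0, 0, 0, 0, 0, 0, ⟨0, 0⟩, 0⟩, 0, 0⟩ 0 0)) (.void 121 ⟨⟨92298, 0, 0, 7702, 0, 0, 0, 0, 0, ⟨0, 0⟩, 0⟩, 0, 0⟩ 0 0))) (.cut .v 16777216 (.cut .v 8388608 (.cut .v 4194304 (.cut .v 2097152 (.cut .v 1048576 (.pos 117 .pm ⟨⟨0, 0, 57462132, 0, 0, 0, 0, 0, 0, ⟨0, 0⟩, 0⟩, 0, 1677⟩ 0 0) (.pos 118 .pm ⟨⟨0, 0, 121820556, 0, 0, 0, 0, 0, 0, ⟨0, 0⟩, 0⟩, 0, 4833⟩ 0 0)) (.pos 114 .pm ⟨⟨0, 0, 223926770, 0, 0, 0, 0, 0, 0, ⟨0, 0⟩, 0⟩,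 0, 11391⟩ 0 0)) (.pos 5 .pm ⟨⟨0, 0, 696113456, 0, 0, 0, 0, 0, 0, ⟨0, 0⟩, 0⟩, 0, 21969⟩ 0 0)) (.pos 3 .pm ⟨⟨0, 0, 0, 0, 0, 0, 0, 0, 0, ⟨0, 0⟩, 0⟩, 0, 0⟩ 0 0)) (.cut .v 268435456 (.cut .v 67108864 (.cut .d 828061 (.cut .v 33554432 (.cut .d 414030 (.cut .v 25165824 (.cut .d 207015 (.cut .v 20971520 (.cut .d 103507 (.cut .v 18874368 (.cut .d 51753 (.cut .v 17825792 (.cut .s 15335424 (.pos 29 .pp ⟨⟨1889620110, 0, 0, 0, 0, 0, 0, 0, 0, ⟨0, 0⟩, 0⟩, 0, 20073⟩ 0 0) (.pos 29 .pp ⟨⟨2044690105, 0, 0, 0, 0, 0, 0, 0, 0, ⟨0, 0⟩, 0⟩, 0, 17710⟩ 0 0)) (.pos 30 .pp ⟨⟨2265973713, 0, 0, 0, 0, 0, 0, 0, 0, ⟨0, 0⟩, 0⟩, 0, 18530⟩ 0 0)) (.pos 27 .pp ⟨⟨0, 0, 0,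 0, 0, 0, 0, 0, 0, ⟨0, 0⟩, 0⟩, 0, 58153⟩ 0 0)) (.cut .d 51753 (.pos 28 .pp ⟨⟨2814838611, 0, 0, 0, 0, 0, 0, 0, 0, ⟨0, 0⟩, 0⟩, 0, 12848⟩ 0 0) (.pos 28 .pp ⟨⟨2325400709, 0, 0, 0, 0, 0, 0, 0, 0, ⟨0, 0⟩, 0⟩, 0, 20725⟩ 0 0))) (.pos 25 .pp ⟨⟨0, 0, 0, 0, 0, 0, 0, 0, 0, ⟨0, 0⟩, 0⟩, 0, 61025⟩ 0 0)) (.cut .d 103507 (.cut .v 23068672 (.cut .v 22020096 (.pos 57 .pp ⟨⟨2988322960, 0, 0, 0, 0, 0, 37463, 0, 0, ⟨0, 0⟩, 0⟩, 0, 0⟩ 0 0) (.pos 58 .pp ⟨⟨0, 0, 0, 0, 0, 0, 41988, 0, 0, ⟨0, 0⟩, 0⟩, 512478470, 0⟩ 0 0)) (.void 56 ⟨⟨0, 0, 0, 0, 0, 0, 0, 0, 0, ⟨0, 0⟩, 0⟩, 100000, 0⟩ 0 0)) (.cut .v 23068672 (.pos 55 .pp ⟨⟨0, 0, 0, 0, 0, 0, 65813, 0, 0, ⟨0, 0⟩, 0⟩,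 362885944, 0⟩ 0 0) (.pos 56 .pp ⟨⟨0, 0, 0, 0, 0, 0, 53257, 0, 0, ⟨0, 0⟩, 0⟩, 451197778, 0⟩ 0 0)))) (.pos 23 .pp ⟨⟨0, 0, 0, 0, 0, 0, 0, 0, 0, ⟨0, 0⟩, 0⟩, 0, 65907⟩ 0 0)) (.cut .d 207015 (.cut .v 29360128 (.pos 75 .pp ⟨⟨0, 0, 0, 0, 0, 0, 19941, 0, 0, ⟨0, 0⟩, 0⟩, 612609629, 0⟩ 0 0) (.void 76 ⟨⟨0, 0, 0, 0, 0, 0, 0, 0, 0, ⟨0, 0⟩, 0⟩, 100000, 0⟩ 0 0)) (.pos 24 .pp ⟨⟨0, 0, 0, 0, 0, 0, 56785, 0, 0, ⟨0, 0⟩, 0⟩, 456752859, 0⟩ 0 0))) (.pos 22 .pp ⟨⟨0, 0, 0, 0, 0, 0, 219681, 0, 0, ⟨0, 0⟩, 0⟩, 0, 0⟩ 0 0)) (.cut .v 50331648 (.cut .d 414030 (.pos 104 .pp ⟨⟨0, 0, 0, 0, 0, 0, 0, 0, 0, ⟨0, 0⟩, 0⟩, 955403291, 0⟩ 0 0) (.pos 104 .pp ⟨⟨0, 0, 0, 0, 0, 0,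 58349, 0, 0, ⟨0, 0⟩, 0⟩, 511842111, 0⟩ 0 0)) (.void 105 ⟨⟨0, 0, 0, 50421, 0, 0, 0, 0, 0, ⟨0, 0⟩, 0⟩, 49579, 0⟩ 0 0))) (.pos 90 .pp ⟨⟨0, 0, 0, 0, 0, 0, 0, 0, 0, ⟨0, 0⟩, 0⟩, 112569275, 46052⟩ 0 0)) (.void 112 ⟨⟨0, 0, 0, 50421, 0, 0, 0, 0, 0, ⟨0, 0⟩, 0⟩, 49579, 0⟩ 0 0)) (.void 121 ⟨⟨0, 0, 0, 0, 0, 0, 0, 0, 0, ⟨0, 0⟩, 0⟩, 100000, 0⟩ 0 0)))),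
    by decide +kernel⟩

theorem covers36 : cell.Covers Vale.Agent.P237.Petty.Cor.Grid.N10.table row36.1 :=
  ⟨(.cut .d 0 (.cut .v 16777216 (.cut .v 8388608 (.void 2 ⟨⟨0, 0, 100000, 0, 0, 0, 0, 0, 0, ⟨0, 0⟩, 0⟩, 0, 0⟩ 0 0) (.cut .d (-8388608) (.void 3 ⟨⟨100000, 0, 0, 0, 0, 0, 0, 0, 0, ⟨0, 0⟩, 0⟩, 0, 0⟩ 0 0) (.cut .d (-4194304) (.void 3 ⟨⟨100000, 0, 0, 0, 0, 0, 0, 0, 0, ⟨0, 0⟩, 0⟩, 0, 0⟩ 0 0) (.cut .d (-2097152) (.void 3 ⟨⟨100000, 0, 0, 0, 0, 0, 0, 0, 0, ⟨0, 0⟩, 0⟩, 0, 0⟩ 0 0) (.pos 3 .mm ⟨⟨0, 0, 0, 0, 0, 7436193582, 0, 0, 0, ⟨0, 0⟩, 0⟩, 0, 0⟩ 0 0))))) (.cut .v 268435456 (.cut .v 67108864 (.cut .v 33554432 (.cut .d (-8388608) (.void 22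 ⟨⟨100000, 0, 0, 0, 0, 0, 0, 0, 0, ⟨0, 0⟩, 0⟩, 0, 0⟩ 0 0) (.cut .d (-4194304) (.void 22 ⟨⟨100000, 0, 0, 0, 0, 0, 0, 0, 0, ⟨0, 0⟩, 0⟩, 0, 0⟩ 0 0) (.cut .v 25165824 (.cut .d (-2097152) (.void 23 ⟨⟨100000, 0, 0, 0, 0, 0, 0, 0, 0, ⟨0, 0⟩, 0⟩, 0, 0⟩ 0 0) (.cut .v 20971520 (.cut .d (-1048576) (.void 25 ⟨⟨100000, 0, 0, 0, 0, 0, 0, 0, 0, ⟨0, 0⟩, 0⟩, 0, 0⟩ 0 0) (.cut .v 18874368 (.pos 27 .mp ⟨⟨2657007571, 0, 0, 0, 0, 2330649497, 0, 0, 0, ⟨0, 0⟩, 0⟩, 0, 0⟩ 0 0) (.void 28 ⟨⟨100000, 0, 0, 0, 0, 0, 0, 0, 0, ⟨0, 0⟩, 0⟩, 0, 0⟩ 0 0))) (.void 26 ⟨⟨100000, 0, 0, 0, 0, 0, 0, 0, 0, ⟨0, 0⟩, 0⟩, 0, 0⟩ 0 0))) (.void 24 ⟨⟨100000, 0, 0, 0, 0, 0, 0, 0, 0, ⟨0,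 0⟩, 0⟩, 0, 0⟩ 0 0)))) (.void 91 ⟨⟨100000, 0, 0, 0, 0, 0, 0, 0, 0, ⟨0, 0⟩, 0⟩, 0, 0⟩ 0 0)) (.void 112 ⟨⟨99857, 0, 0, 0, 0, 0, 0, 0, 0, ⟨0, 0⟩, 0⟩, 0, 0⟩ 0 0)) (.void 121 ⟨⟨92237, 0, 0, 7763, 0, 0, 0, 0, 0, ⟨0, 0⟩, 0⟩, 0, 0⟩ 0 0))) (.cut .v 16777216 (.cut .v 8388608 (.cut .v 4194304 (.cut .v 2097152 (.pos 113 .pm ⟨⟨0, 0, 115539973, 0, 0, 0, 0, 0, 0, ⟨0, 0⟩, 0⟩, 0, 2371⟩ 0 0) (.pos 114 .pm ⟨⟨0, 0, 294023752, 0, 0, 0, 0, 0, 0, ⟨0, 0⟩, 0⟩, 0, 9123⟩ 0 0)) (.pos 5 .pm ⟨⟨0, 0, 905694944, 0, 0, 0, 0, 0, 0, ⟨0, 0⟩, 0⟩, 0, 16421⟩ 0 0)) (.pos 3 .pm ⟨⟨0, 0, 0, 0, 0, 0, 0, 0, 0, ⟨0, 0⟩, 0⟩, 0, 0⟩ 0 0)) (.cut .v 268435456 (.cut .v 67108864 (.cut .d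 749621 (.cut .v 33554432 (.cut .d 374810 (.cut .v 25165824 (.cut .d 187405 (.cut .v 20971520 (.cut .d 93702 (.cut .v 18874368 (.cut .d 46851 (.cut .v 17825792 (.cut .s 15466496 (.pos 29 .pp ⟨⟨2219450974, 0, 0, 0, 0, 0, 0, 0, 0, ⟨0, 0⟩, 0⟩, 0, 15465⟩ 0 0) (.pos 29 .pp ⟨⟨2415778556, 0, 0, 0, 0, 0, 0, 0, 0, ⟨0, 0⟩, 0⟩, 0, 13417⟩ 0 0)) (.pos 30 .pp ⟨⟨2671981437, 0, 0, 0, 0, 0, 0, 0, 0, ⟨0, 0⟩, 0⟩, 0, 14481⟩ 0 0)) (.pos 27 .pp ⟨⟨0, 0, 0, 0, 0, 0, 0, 0, 0, ⟨0, 0⟩, 0⟩, 0, 43467⟩ 0 0)) (.cut .d 46851 (.pos 28 .pp ⟨⟨3326371256, 0, 0, 0, 0, 0, 0, 0, 0, ⟨0, 0⟩, 0⟩, 0, 10282⟩ 0 0) (.pos 28 .pp ⟨⟨2730106786, 0, 0, 0, 0, 0, 0, 0, 0, ⟨0, 0⟩, 0⟩, 0,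 16231⟩ 0 0))) (.pos 25 .pp ⟨⟨0, 0, 0, 0, 0, 0, 0, 0, 0, ⟨0, 0⟩, 0⟩, 0, 45613⟩ 0 0)) (.cut .d 93702 (.cut .v 23068672 (.cut .v 22020096 (.pos 57 .pp ⟨⟨3525903894, 0, 0, 0, 0, 0, 29612, 0, 0, ⟨0, 0⟩, 0⟩, 0, 0⟩ 0 0) (.pos 58 .pp ⟨⟨0, 0, 0, 0, 0, 0, 32718, 0, 0, ⟨0, 0⟩, 0⟩, 605500820, 0⟩ 0 0)) (.pos 56 .pp ⟨⟨0, 0, 0, 0, 0, 0, 0, 0, 0, ⟨0, 0⟩, 0⟩, 1028463959, 0⟩ 0 0)) (.cut .v 23068672 (.pos 55 .pp ⟨⟨0, 0, 0, 0, 0, 0, 50605, 0, 0, ⟨0, 0⟩, 0⟩, 426033495, 0⟩ 0 0) (.pos 56 .pp ⟨⟨0, 0, 0, 0, 0, 0, 41646, 0, 0, ⟨0, 0⟩, 0⟩, 530416929, 0⟩ 0 0)))) (.pos 23 .pp ⟨⟨0, 0, 0, 0, 0, 0, 0, 0, 0, ⟨0, 0⟩, 0⟩, 0, 49262⟩ 0 0)) (.cut .d 187405 (.cut .v 29360128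 (.pos 75 .pp ⟨⟨0, 0, 0, 0, 0, 0, 17306, 0, 0, ⟨0, 0⟩, 0⟩, 722361749, 0⟩ 0 0) (.void 76 ⟨⟨0, 0, 0, 0, 0, 0, 0, 0, 0, ⟨0, 0⟩, 0⟩, 100000, 0⟩ 0 0)) (.pos 24 .pp ⟨⟨0, 0, 0, 0, 0, 0, 44164, 0, 0, ⟨0, 0⟩, 0⟩, 539066783, 0⟩ 0 0))) (.pos 22 .pp ⟨⟨0, 0, 0, 0, 0, 0, 164202, 0, 0, ⟨0, 0⟩, 0⟩, 0, 0⟩ 0 0)) (.cut .v 50331648 (.cut .d 374810 (.pos 104 .pp ⟨⟨0, 0, 0, 0, 0, 0, 0, 0, 0, ⟨0, 0⟩, 0⟩, 1123269615, 0⟩ 0 0) (.pos 104 .pp ⟨⟨0, 0, 0, 0, 0, 0, 43362, 0, 0, ⟨0, 0⟩, 0⟩, 618521756, 0⟩ 0 0)) (.void 105 ⟨⟨0, 0, 0, 50592, 0, 0, 0, 0, 0, ⟨0, 0⟩, 0⟩, 49408, 0⟩ 0 0))) (.pos 90 .pp ⟨⟨0, 0, 0, 0, 0, 0, 0, 0, 0, ⟨0, 0⟩, 0⟩, 161998933, 33139⟩ 0 0)) (.void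 112 ⟨⟨0, 0, 0, 50592, 0, 0, 0, 0, 0, ⟨0, 0⟩, 0⟩, 49408, 0⟩ 0 0)) (.void 121 ⟨⟨0, 0, 0, 0, 0, 0, 0, 0, 0, ⟨0, 0⟩, 0⟩, 100000, 0⟩ 0 0)))),
    by decide +kernel⟩

theorem covers37 : cell.Covers Vale.Agent.P237.Petty.Cor.Grid.N10.table row37.1 :=
  ⟨(.cut .d 0 (.cut .v 16777216 (.cut .v 8388608 (.void 2 ⟨⟨0, 0, 100000, 0, 0, 0, 0, 0, 0, ⟨0, 0⟩, 0⟩, 0, 0⟩ 0 0) (.cut .d (-8388608) (.void 3 ⟨⟨100000, 0, 0, 0, 0, 0, 0, 0, 0, ⟨0, 0⟩, 0⟩, 0, 0⟩ 0 0) (.cut .d (-4194304) (.void 3 ⟨⟨100000, 0, 0, 0, 0, 0, 0, 0, 0, ⟨0, 0⟩, 0⟩, 0, 0⟩ 0 0) (.cut .d (-2097152) (.void 3 ⟨⟨100000, 0, 0, 0, 0, 0, 0, 0, 0, ⟨0, 0⟩, 0⟩, 0, 0⟩ 0 0) (.cut .s 15654912 (.pos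 3 .mm ⟨⟨0, 0, 0, 0, 0, 8955400323, 0, 0, 0, ⟨0, 0⟩, 0⟩, 0, 0⟩ 0 0) (.pos 3 .mm ⟨⟨0, 0, 0, 0, 0, 10927787422, 0, 0, 0, ⟨0, 0⟩, 0⟩, 0, 0⟩ 0 0)))))) (.cut .v 268435456 (.cut .v 67108864 (.cut .v 33554432 (.cut .d (-8388608) (.void 22 ⟨⟨100000, 0, 0, 0, 0, 0, 0, 0, 0, ⟨0, 0⟩, 0⟩, 0, 0⟩ 0 0) (.cut .d (-4194304) (.void 22 ⟨⟨100000, 0, 0, 0, 0, 0, 0, 0, 0, ⟨0, 0⟩, 0⟩, 0, 0⟩ 0 0) (.cut .v 25165824 (.cut .d (-2097152) (.void 23 ⟨⟨100000, 0, 0, 0, 0, 0, 0, 0, 0, ⟨0, 0⟩, 0⟩, 0, 0⟩ 0 0) (.cut .v 20971520 (.cut .d (-1048576) (.void 25 ⟨⟨100000, 0, 0, 0, 0, 0, 0, 0, 0, ⟨0, 0⟩, 0⟩, 0, 0⟩ 0 0) (.cut .v 18874368 (.cut .s 15654912 (.pos 27 .mp ⟨⟨3177909764,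 0, 0, 0, 0, 2775543699, 0, 0, 0, ⟨0, 0⟩, 0⟩, 0, 0⟩ 0 0) (.pos 27 .mp ⟨⟨3853112971, 0, 0, 0, 0, 3353514523, 0, 0, 0, ⟨0, 0⟩, 0⟩, 0, 0⟩ 0 0)) (.void 28 ⟨⟨100000, 0, 0, 0, 0, 0, 0, 0, 0, ⟨0, 0⟩, 0⟩, 0, 0⟩ 0 0))) (.void 26 ⟨⟨100000, 0, 0, 0, 0, 0, 0, 0, 0, ⟨0, 0⟩, 0⟩, 0, 0⟩ 0 0))) (.void 24 ⟨⟨100000, 0, 0, 0, 0, 0, 0, 0, 0, ⟨0, 0⟩, 0⟩, 0, 0⟩ 0 0)))) (.void 91 ⟨⟨100000, 0, 0, 0, 0, 0, 0, 0, 0, ⟨0, 0⟩, 0⟩, 0, 0⟩ 0 0)) (.void 112 ⟨⟨100088, 0, 0, 0, 0, 0, 0, 0, 0, ⟨0, 0⟩, 0⟩, 0, 0⟩ 0 0)) (.void 121 ⟨⟨92124, 0, 0, 7876, 0, 0, 0, 0, 0, ⟨0, 0⟩, 0⟩, 0, 0⟩ 0 0))) (.cut .v 16777216 (.cut .v 8388608 (.cut .v 4194304 (.cut .v 2097152 (.cut .v 1048576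 (.pos 117 .pm ⟨⟨0, 0, 87840513, 0, 0, 0, 0, 0, 0, ⟨0, 0⟩, 0⟩, 0, 0⟩ 0 0) (.pos 118 .pm ⟨⟨0, 0, 218844840, 0, 0, 0, 0, 0, 0, ⟨0, 0⟩, 0⟩, 0, 1656⟩ 0 0)) (.pos 114 .pm ⟨⟨0, 0, 405226385, 0, 0, 0, 0, 0, 0, ⟨0, 0⟩, 0⟩, 0, 3830⟩ 0 0)) (.pos 5 .pm ⟨⟨0, 0, 1181906689, 0, 0, 0, 0, 0, 0, ⟨0, 0⟩, 0⟩, 0, 11625⟩ 0 0)) (.pos 3 .pm ⟨⟨0, 0, 0, 0, 0, 0, 0, 0, 0, ⟨0, 0⟩, 0⟩, 0, 0⟩ 0 0)) (.cut .v 268435456 (.cut .v 67108864 (.cut .d 672505 (.cut .v 33554432 (.cut .d 336252 (.cut .v 25165824 (.cut .d 168126 (.cut .d 84063 (.cut .v 20971520 (.cut .d 42031 (.cut .v 18874368 (.cut .d 21015 (.cut .v 17825792 (.cut .d 10507 (.cut .v 17301504 (.cut .s 15654912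 (.pos 31 .pp ⟨⟨2672291521, 0, 0, 0, 0, 0, 0, 0, 0, ⟨0, 0⟩, 0⟩, 0, 10939⟩ 0 0) (.cut .s 15716352 (.pos 31 .pp ⟨⟨3065143134, 0, 0, 0, 0, 0, 0, 0, 0, ⟨0, 0⟩, 0⟩, 0, 8459⟩ 0 0) (.pos 31 .pp ⟨⟨3376390150, 0, 0, 0, 0, 0, 0, 0, 0, ⟨0, 0⟩, 0⟩, 0, 7123⟩ 0 0))) (.pos 32 .pp ⟨⟨3706351163, 0, 0, 0, 0, 0, 0, 0, 0, ⟨0, 0⟩, 0⟩, 0, 6991⟩ 0 0)) (.pos 29 .pp ⟨⟨2394963094, 0, 0, 0, 0, 0, 0, 0, 0, ⟨0, 0⟩, 0⟩, 0, 10171⟩ 0 0)) (.pos 30 .pp ⟨⟨3967455911, 0, 0, 0, 0, 0, 0, 0, 0, ⟨0, 0⟩, 0⟩, 0, 6849⟩ 0 0)) (.pos 27 .pp ⟨⟨2546388702, 0, 0, 0, 0, 0, 0, 0, 0, ⟨0, 0⟩, 0⟩, 0, 10773⟩ 0 0)) (.pos 28 .pp ⟨⟨4612211583, 0, 0, 0, 0, 0, 0, 0, 0, ⟨0, 0⟩, 0⟩, 0, 6893⟩ 0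 0)) (.cut .v 18874368 (.pos 27 .pp ⟨⟨0, 0, 0, 0, 0, 0, 0, 0, 0, ⟨0, 0⟩, 0⟩, 0, 30549⟩ 0 0) (.pos 28 .pp ⟨⟨3289444752, 0, 0, 0, 0, 0, 23439, 0, 0, ⟨0, 0⟩, 0⟩, 0, 0⟩ 0 0))) (.cut .v 23068672 (.cut .d 42031 (.void 55 ⟨⟨0, 0, 0, 0, 0, 0, 0, 0, 0, ⟨0, 0⟩, 0⟩, 100000, 0⟩ 0 0) (.cut .d 63047 (.pos 55 .pp ⟨⟨5734532621, 0, 0, 0, 0, 0, 13322, 0, 0, ⟨0, 0⟩, 0⟩, 0, 0⟩ 0 0) (.cut .v 22020096 (.pos 57 .pp ⟨⟨4058716282, 0, 0, 0, 0, 0, 24009, 0, 0, ⟨0, 0⟩, 0⟩, 0, 0⟩ 0 0) (.pos 58 .pp ⟨⟨0, 0, 0, 0, 0, 0, 21977, 0, 0, ⟨0, 0⟩, 0⟩, 683408325, 0⟩ 0 0)))) (.pos 56 .pp ⟨⟨0, 0, 0, 0, 0, 0, 15136, 0, 0, ⟨0, 0⟩, 0⟩, 962745843, 0⟩ 0 0))) (.cut .v 20971520 (.pos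 25 .pp ⟨⟨0, 0, 0, 0, 0, 0, 0, 0, 0, ⟨0, 0⟩, 0⟩, 0, 32291⟩ 0 0) (.cut .v 23068672 (.pos 55 .pp ⟨⟨0, 0, 0, 0, 0, 0, 35802, 0, 0, ⟨0, 0⟩, 0⟩, 521448541, 0⟩ 0 0) (.pos 56 .pp ⟨⟨0, 0, 0, 0, 0, 0, 25487, 0, 0, ⟨0, 0⟩, 0⟩, 641737537, 0⟩ 0 0)))) (.pos 23 .pp ⟨⟨0, 0, 0, 0, 0, 0, 0, 0, 0, ⟨0, 0⟩, 0⟩, 0, 34875⟩ 0 0)) (.cut .d 168126 (.cut .v 29360128 (.cut .d 84063 (.void 75 ⟨⟨0, 0, 0, 0, 0, 0, 0, 0, 0, ⟨0, 0⟩, 0⟩, 100000, 0⟩ 0 0) (.pos 75 .pp ⟨⟨0, 0, 0, 0, 0, 0, 15065, 0, 0, ⟨0, 0⟩, 0⟩, 866706584, 0⟩ 0 0)) (.void 76 ⟨⟨0, 0, 0, 0, 0, 0, 0, 0, 0, ⟨0, 0⟩, 0⟩, 100000, 0⟩ 0 0)) (.pos 24 .pp ⟨⟨0, 0, 0, 0, 0, 0, 31682, 0, 0, ⟨0, 0⟩, 0⟩, 654461863, 0⟩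 0 0))) (.pos 22 .pp ⟨⟨0, 0, 0, 0, 0, 0, 116245, 0, 0, ⟨0, 0⟩, 0⟩, 0, 0⟩ 0 0)) (.cut .v 50331648 (.cut .d 336252 (.pos 104 .pp ⟨⟨0, 0, 0, 0, 0, 0, 0, 0, 0, ⟨0, 0⟩, 0⟩, 1554535049, 0⟩ 0 0) (.pos 104 .pp ⟨⟨0, 0, 0, 0, 0, 0, 27394, 0, 0, ⟨0, 0⟩, 0⟩, 785784748, 0⟩ 0 0)) (.void 105 ⟨⟨0, 0, 0, 50911, 0, 0, 0, 0, 0, ⟨0, 0⟩, 0⟩, 49089, 0⟩ 0 0))) (.pos 90 .pp ⟨⟨0, 0, 0, 0, 0, 0, 0, 0, 0, ⟨0, 0⟩, 0⟩, 229945425, 22562⟩ 0 0)) (.void 112 ⟨⟨0, 0, 0, 50911, 0, 0, 0, 0, 0, ⟨0, 0⟩, 0⟩, 49089, 0⟩ 0 0)) (.void 121 ⟨⟨0, 0, 0, 0, 0, 0, 0, 0, 0, ⟨0, 0⟩, 0⟩, 100000, 0⟩ 0 0)))),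
    by decide +kernel⟩

theorem covers38 : cell.Covers Vale.Agent.P237.Petty.Cor.Grid.N10.table row38.1 :=
  ⟨(.cut .d 0 (.cut .v 16777216 (.cut .v 8388608 (.void 2 ⟨⟨0, 0, 100000, 0, 0, 0, 0, 0, 0, ⟨0, 0⟩, 0⟩, 0, 0⟩ 0 0) (.cut .d (-8388608) (.void 3 ⟨⟨100000, 0, 0, 0, 0, 0, 0, 0, 0, ⟨0, 0⟩, 0⟩, 0, 0⟩ 0 0) (.cut .d (-4194304) (.void 3 ⟨⟨100000, 0, 0, 0, 0, 0, 0, 0, 0, ⟨0, 0⟩, 0⟩, 0, 0⟩ 0 0) (.cut .d (-2097152) (.void 3 ⟨⟨100000, 0, 0, 0, 0, 0, 0, 0, 0, ⟨0, 0⟩, 0⟩, 0, 0⟩ 0 0) (.pos 3 .mm ⟨⟨0, 0, 0, 0, 0, 15663381966, 0, 0, 0, ⟨0, 0⟩, 0⟩, 0, 0⟩ 0 0))))) (.cut .v 268435456 (.cut .v 67108864 (.cut .v 33554432 (.cut .d (-8388608) (.void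 22 ⟨⟨100001, 0, 0, 0, 0, 0, 0, 0, 0, ⟨0, 0⟩, 0⟩, 0, 0⟩ 0 0) (.cut .d (-4194304) (.void 22 ⟨⟨100000, 0, 0, 0, 0, 0, 0, 0, 0, ⟨0, 0⟩, 0⟩, 0, 0⟩ 0 0) (.cut .v 25165824 (.cut .d (-2097152) (.void 23 ⟨⟨100000, 0, 0, 0, 0, 0, 0, 0, 0, ⟨0, 0⟩, 0⟩, 0, 0⟩ 0 0) (.cut .v 20971520 (.cut .d (-1048576) (.void 25 ⟨⟨100000, 0, 0, 0, 0, 0, 0, 0, 0, ⟨0, 0⟩, 0⟩, 0, 0⟩ 0 0) (.cut .s 15876096 (.cut .v 18874368 (.pos 27 .mp ⟨⟨4626230454, 0, 0, 0, 0, 3835652621, 0, 0, 0, ⟨0, 0⟩, 0⟩, 0, 0⟩ 0 0) (.void 28 ⟨⟨100000, 0, 0, 0, 0, 0, 0, 0, 0, ⟨0, 0⟩, 0⟩, 0, 0⟩ 0 0)) (.pos 25 .mp ⟨⟨6519812144, 0, 0, 0, 0, 4633381111, 0, 0, 0, ⟨0, 0⟩, 0⟩, 0, 0⟩ 0 0))) (.void 26 ⟨⟨100000,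 0, 0, 0, 0, 0, 0, 0, 0, ⟨0, 0⟩, 0⟩, 0, 0⟩ 0 0))) (.void 24 ⟨⟨100000, 0, 0, 0, 0, 0, 0, 0, 0, ⟨0, 0⟩, 0⟩, 0, 0⟩ 0 0)))) (.void 91 ⟨⟨100000, 0, 0, 0, 0, 0, 0, 0, 0, ⟨0, 0⟩, 0⟩, 0, 0⟩ 0 0)) (.void 112 ⟨⟨98941, 0, 0, 0, 0, 0, 0, 0, 0, ⟨0, 0⟩, 0⟩, 0, 0⟩ 0 0)) (.void 121 ⟨⟨92034, 0, 0, 7966, 0, 0, 0, 0, 0, ⟨0, 0⟩, 0⟩, 0, 0⟩ 0 0))) (.cut .v 16777216 (.cut .v 8388608 (.cut .v 4194304 (.cut .d 531367 (.pos 4 .pm ⟨⟨0, 0, 6777693460, 0, 0, 0, 0, 0, 0, ⟨0, 0⟩, 0⟩, 0, 1884⟩ 0 0) (.cut .d 797050 (.pos 4 .pm ⟨⟨0, 0, 973333285, 0, 0, 0, 0, 0, 0, ⟨0, 0⟩, 0⟩, 0, 904⟩ 0 0) (.pos 4 .pm ⟨⟨0, 0, 63914007, 0, 0, 0, 0, 0, 0, ⟨0, 0⟩, 0⟩, 0, 0⟩ 0 0))) (.pos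 5 .pm ⟨⟨0, 0, 2026449244, 0, 0, 0, 0, 0, 0, ⟨0, 0⟩, 0⟩, 0, 5561⟩ 0 0)) (.pos 3 .pm ⟨⟨0, 0, 0, 0, 0, 0, 0, 0, 0, ⟨0, 0⟩, 0⟩, 0, 0⟩ 0 0)) (.cut .v 268435456 (.cut .v 67108864 (.cut .d 531367 (.cut .v 33554432 (.cut .d 265683 (.cut .v 25165824 (.cut .d 132841 (.cut .d 66420 (.cut .v 20971520 (.cut .v 18874368 (.cut .d 33210 (.cut .d 16605 (.cut .v 17825792 (.cut .d 8302 (.cut .v 17301504 (.cut .s 15876096 (.pos 31 .pp ⟨⟨3823692972, 0, 0, 0, 0, 0, 0, 0, 0, ⟨0, 0⟩, 0⟩, 0, 5433⟩ 0 0) (.pos 31 .pp ⟨⟨4558251096, 0, 0, 0, 0, 0, 0, 0, 0, ⟨0, 0⟩, 0⟩, 0, 3793⟩ 0 0)) (.pos 32 .pp ⟨⟨5281104789, 0, 0, 0, 0, 0, 0, 0, 0, ⟨0, 0⟩, 0⟩, 0, 3523⟩ 0 0)) (.pos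 29 .pp ⟨⟨3422085637, 0, 0, 0, 0, 0, 0, 0, 0, ⟨0, 0⟩, 0⟩, 0, 4873⟩ 0 0)) (.pos 30 .pp ⟨⟨5633267163, 0, 0, 0, 0, 0, 0, 0, 0, ⟨0, 0⟩, 0⟩, 0, 3809⟩ 0 0)) (.pos 27 .pp ⟨⟨3641046942, 0, 0, 0, 0, 0, 0, 0, 0, ⟨0, 0⟩, 0⟩, 0, 5142⟩ 0 0)) (.pos 27 .pp ⟨⟨0, 0, 0, 0, 0, 0, 0, 0, 0, ⟨0, 0⟩, 0⟩, 0, 13704⟩ 0 0)) (.cut .d 33210 (.pos 28 .pp ⟨⟨6541057381, 0, 0, 0, 0, 0, 0, 0, 0, ⟨0, 0⟩, 0⟩, 0, 3927⟩ 0 0) (.pos 28 .pp ⟨⟨4723441456, 0, 0, 0, 0, 0, 11196, 0, 0, ⟨0, 0⟩, 0⟩, 0, 0⟩ 0 0))) (.cut .v 23068672 (.cut .d 33210 (.void 55 ⟨⟨0, 0, 0, 0, 0, 0, 0, 0, 0, ⟨0, 0⟩, 0⟩, 100000, 0⟩ 0 0) (.cut .v 22020096 (.cut .d 49815 (.pos 57 .pp ⟨⟨7046856712, 0, 0, 0, 0,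 0, 9158, 0, 0, ⟨0, 0⟩, 0⟩, 0, 0⟩ 0 0) (.pos 57 .pp ⟨⟨5798039609, 0, 0, 0, 0, 0, 12781, 0, 0, ⟨0, 0⟩, 0⟩, 0, 0⟩ 0 0)) (.pos 58 .pp ⟨⟨0, 0, 0, 0, 0, 0, 9739, 0, 0, ⟨0, 0⟩, 0⟩, 1106846225, 0⟩ 0 0))) (.pos 56 .pp ⟨⟨0, 0, 0, 0, 0, 0, 7782, 0, 0, ⟨0, 0⟩, 0⟩, 1364698316, 0⟩ 0 0))) (.cut .v 20971520 (.pos 25 .pp ⟨⟨0, 0, 0, 0, 0, 0, 0, 0, 0, ⟨0, 0⟩, 0⟩, 0, 15446⟩ 0 0) (.cut .v 23068672 (.pos 55 .pp ⟨⟨0, 0, 0, 0, 0, 0, 18254, 0, 0, ⟨0, 0⟩, 0⟩, 750471846, 0⟩ 0 0) (.pos 56 .pp ⟨⟨0, 0, 0, 0, 0, 0, 12147, 0, 0, ⟨0, 0⟩, 0⟩, 922898209, 0⟩ 0 0)))) (.pos 23 .pp ⟨⟨0, 0, 0, 0, 0, 0, 0, 0, 0, ⟨0, 0⟩, 0⟩, 0, 16682⟩ 0 0)) (.cut .d 132841 (.cut .v 29360128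 (.cut .d 66420 (.void 75 ⟨⟨0, 0, 0, 0, 0, 0, 0, 0, 0, ⟨0, 0⟩, 0⟩, 100000, 0⟩ 0 0) (.pos 75 .pp ⟨⟨0, 0, 0, 0, 0, 0, 9031, 0, 0, ⟨0, 0⟩, 0⟩, 1238451514, 0⟩ 0 0)) (.void 76 ⟨⟨0, 0, 0, 0, 0, 0, 0, 0, 0, ⟨0, 0⟩, 0⟩, 100000, 0⟩ 0 0)) (.pos 24 .pp ⟨⟨0, 0, 0, 0, 0, 0, 16593, 0, 0, ⟨0, 0⟩, 0⟩, 951801986, 0⟩ 0 0))) (.pos 22 .pp ⟨⟨0, 0, 0, 0, 0, 0, 55605, 0, 0, ⟨0, 0⟩, 0⟩, 0, 0⟩ 0 0)) (.cut .v 50331648 (.cut .d 265683 (.pos 104 .pp ⟨⟨0, 0, 0, 0, 0, 0, 0, 0, 0, ⟨0, 0⟩, 0⟩, 2191204767, 0⟩ 0 0) (.pos 104 .pp ⟨⟨0, 0, 0, 0, 0, 0, 13838, 0, 0, ⟨0, 0⟩, 0⟩, 1187364198, 0⟩ 0 0)) (.void 105 ⟨⟨0, 0, 0, 51163, 0, 0, 0, 0, 0, ⟨0, 0⟩, 0⟩, 48837, 0⟩ 0 0))) (.pos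 90 .pp ⟨⟨0, 241746791, 0, 0, 0, 0, 0, 0, 0, ⟨0, 0⟩, 0⟩, 415942245, 10244⟩ 0 0)) (.void 112 ⟨⟨0, 0, 0, 51163, 0, 0, 0, 0, 0, ⟨0, 0⟩, 0⟩, 48837, 0⟩ 0 0)) (.void 121 ⟨⟨0, 0, 0, 0, 0, 0, 0, 0, 0, ⟨0, 0⟩, 0⟩, 100000, 0⟩ 0 0)))),
    by decide +kernel⟩

theorem covers39 : cell.Covers Vale.Agent.P237.Petty.Cor.Grid.N10.table row39.1 :=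
  ⟨(.cut .d 0 (.cut .v 16777216 (.cut .v 8388608 (.void 2 ⟨⟨0, 0, 100000, 0, 0, 0, 0, 0, 0, ⟨0, 0⟩, 0⟩, 0, 0⟩ 0 0) (.cut .d (-8388608) (.void 3 ⟨⟨100000, 0, 0, 0, 0, 0, 0, 0, 0, ⟨0, 0⟩, 0⟩, 0, 0⟩ 0 0) (.cut .d (-4194304) (.void 3 ⟨⟨100000, 0, 0, 0, 0, 0, 0, 0, 0, ⟨0, 0⟩, 0⟩, 0, 0⟩ 0 0) (.cut .d (-2097152) (.void 3 ⟨⟨100000, 0, 0, 0, 0, 0, 0, 0, 0, ⟨0, 0⟩, 0⟩, 0, 0⟩ 0 0) (.pos 3 .mm ⟨⟨0, 0, 0, 0, 0, 22416893601, 0, 0, 0, ⟨0, 0⟩, 0⟩, 0, 0⟩ 0 0))))) (.cut .v 268435456 (.cut .v 67108864 (.cut .v 33554432 (.cut .d (-8388608) (.void 22 ⟨⟨100000, 0, 0, 0, 0, 0, 0, 0, 0, ⟨0, 0⟩, 0⟩, 0, 0⟩ 0 0) (.cut .d (-4194304) (.void 22 ⟨⟨100000, 0, 0, 0,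 0, 0, 0, 0, 0, ⟨0, 0⟩, 0⟩, 0, 0⟩ 0 0) (.cut .v 25165824 (.cut .d (-2097152) (.void 23 ⟨⟨100000, 0, 0, 0, 0, 0, 0, 0, 0, ⟨0, 0⟩, 0⟩, 0, 0⟩ 0 0) (.cut .v 20971520 (.cut .d (-1048576) (.void 25 ⟨⟨100000, 0, 0, 0, 0, 0, 0, 0, 0, ⟨0, 0⟩, 0⟩, 0, 0⟩ 0 0) (.cut .s 16056320 (.pos 25 .mp ⟨⟨7768170788, 0, 0, 0, 0, 5349530493, 0, 0, 0, ⟨0, 0⟩, 0⟩, 0, 0⟩ 0 0) (.pos 25 .mp ⟨⟨9382032108, 0, 0, 0, 0, 6335231401, 0, 0, 0, ⟨0, 0⟩, 0⟩, 0, 0⟩ 0 0))) (.void 26 ⟨⟨100000, 0, 0, 0, 0, 0, 0, 0, 0, ⟨0, 0⟩, 0⟩, 0, 0⟩ 0 0))) (.void 24 ⟨⟨100000, 0, 0, 0, 0, 0, 0, 0, 0, ⟨0, 0⟩, 0⟩, 0, 0⟩ 0 0)))) (.void 91 ⟨⟨100000, 0, 0, 0, 0, 0, 0, 0, 0, ⟨0, 0⟩, 0⟩, 0, 0⟩ 0 0))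 (.void 112 ⟨⟨99835, 0, 0, 0, 0, 0, 0, 0, 0, ⟨0, 0⟩, 0⟩, 0, 0⟩ 0 0)) (.void 121 ⟨⟨92569, 0, 0, 7890, 0, 0, 0, 0, 0, ⟨0, 0⟩, 0⟩, 0, 0⟩ 0 0))) (.cut .v 16777216 (.cut .v 8388608 (.cut .d 421582 (.pos 2 .pm ⟨⟨0, 0, 3734706467, 0, 0, 0, 0, 0, 0, ⟨0, 0⟩, 0⟩, 0, 837⟩ 0 0) (.cut .d 632373 (.pos 2 .pm ⟨⟨0, 0, 1154055448, 0, 0, 0, 0, 0, 0, ⟨0, 0⟩, 0⟩, 0, 724⟩ 0 0) (.pos 2 .pm ⟨⟨0, 0, 21583078, 0, 1588, 0, 0, 0, 0, ⟨0, 0⟩, 0⟩, 0, 0⟩ 0 0))) (.pos 3 .pm ⟨⟨0, 0, 0, 0, 0, 0, 0, 0, 0, ⟨0, 0⟩, 0⟩, 0, 0⟩ 0 0)) (.cut .v 268435456 (.cut .v 67108864 (.cut .d 421582 (.cut .v 33554432 (.cut .d 210791 (.cut .v 25165824 (.cut .d 105395 (.cut .d 52697 (.cut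 .v 20971520 (.cut .v 18874368 (.cut .d 26348 (.cut .d 13174 (.cut .v 17825792 (.cut .d 6587 (.cut .v 17301504 (.cut .s 16056320 (.pos 31 .pp ⟨⟨5429132869, 0, 0, 0, 0, 0, 0, 0, 0, ⟨0, 0⟩, 0⟩, 0, 2603⟩ 0 0) (.cut .s 16097280 (.pos 31 .pp ⟨⟨6229454722, 0, 0, 0, 0, 0, 0, 0, 0, ⟨0, 0⟩, 0⟩, 0, 2001⟩ 0 0) (.pos 31 .pp ⟨⟨6854697693, 0, 0, 0, 0, 0, 0, 0, 0, ⟨0, 0⟩, 0⟩, 0, 1647⟩ 0 0))) (.pos 32 .pp ⟨⟨7526844927, 0, 0, 0, 0, 0, 0, 0, 0, ⟨0, 0⟩, 0⟩, 0, 1652⟩ 0 0)) (.pos 29 .pp ⟨⟨4849505936, 0, 0, 0, 0, 0, 0, 0, 0, ⟨0, 0⟩, 0⟩, 0, 2231⟩ 0 0)) (.pos 30 .pp ⟨⟨8024517532, 0, 0, 0, 0, 0, 0, 0, 0, ⟨0, 0⟩, 0⟩, 0, 1780⟩ 0 0)) (.pos 27 .pp ⟨⟨5163167582,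 0, 0, 0, 0, 0, 0, 0, 0, ⟨0, 0⟩, 0⟩, 0, 2358⟩ 0 0)) (.pos 27 .pp ⟨⟨0, 0, 0, 0, 0, 0, 0, 0, 0, ⟨0, 0⟩, 0⟩, 0, 5998⟩ 0 0)) (.cut .d 26348 (.pos 28 .pp ⟨⟨9306997400, 0, 0, 0, 0, 0, 0, 0, 0, ⟨0, 0⟩, 0⟩, 0, 1840⟩ 0 0) (.pos 28 .pp ⟨⟨6718990072, 0, 0, 0, 0, 0, 5195, 0, 0, ⟨0, 0⟩, 0⟩, 0, 0⟩ 0 0))) (.cut .v 23068672 (.cut .d 26348 (.void 55 ⟨⟨0, 0, 0, 0, 0, 0, 0, 0, 0, ⟨0, 0⟩, 0⟩, 100000, 0⟩ 0 0) (.cut .d 39522 (.pos 55 .pp ⟨⟨11652503143, 0, 0, 0, 0, 0, 3803, 0, 0, ⟨0, 0⟩, 0⟩, 0, 0⟩ 0 0) (.cut .v 22020096 (.pos 57 .pp ⟨⟨8249334500, 0, 0, 0, 0, 0, 5937, 0, 0, ⟨0, 0⟩, 0⟩, 0, 0⟩ 0 0) (.pos 58 .pp ⟨⟨0, 0, 0, 0, 0, 0, 4979, 0, 0, ⟨0, 0⟩, 0⟩, 1387487643,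 0⟩ 0 0)))) (.pos 56 .pp ⟨⟨0, 0, 0, 0, 0, 0, 3684, 0, 0, ⟨0, 0⟩, 0⟩, 1970785168, 0⟩ 0 0))) (.cut .v 20971520 (.pos 25 .pp ⟨⟨0, 0, 0, 0, 0, 0, 0, 0, 0, ⟨0, 0⟩, 0⟩, 0, 7212⟩ 0 0) (.cut .v 23068672 (.pos 55 .pp ⟨⟨0, 0, 0, 0, 0, 0, 8950, 0, 0, ⟨0, 0⟩, 0⟩, 1071783737, 0⟩ 0 0) (.pos 56 .pp ⟨⟨0, 0, 0, 0, 0, 0, 5718, 0, 0, ⟨0, 0⟩, 0⟩, 1314722431, 0⟩ 0 0)))) (.pos 23 .pp ⟨⟨0, 0, 0, 0, 0, 0, 0, 0, 0, ⟨0, 0⟩, 0⟩, 0, 7789⟩ 0 0)) (.cut .d 105395 (.cut .v 29360128 (.cut .d 52697 (.void 75 ⟨⟨0, 0, 0, 0, 0, 0, 0, 0, 0, ⟨0, 0⟩, 0⟩, 100000, 0⟩ 0 0) (.pos 75 .pp ⟨⟨0, 0, 0, 0, 0, 0, 5213, 0, 0, ⟨0, 0⟩, 0⟩, 1765100631, 0⟩ 0 0)) (.pos 76 .pp ⟨⟨0, 0, 0, 0,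 0, 0, 0, 0, 0, ⟨0, 0⟩, 0⟩, 3629788757, 0⟩ 0 0)) (.pos 24 .pp ⟨⟨0, 0, 0, 0, 0, 0, 8325, 0, 0, ⟨0, 0⟩, 0⟩, 1368286124, 0⟩ 0 0))) (.pos 22 .pp ⟨⟨0, 0, 0, 0, 0, 0, 25963, 0, 0, ⟨0, 0⟩, 0⟩, 0, 0⟩ 0 0)) (.cut .v 50331648 (.cut .d 210791 (.pos 104 .pp ⟨⟨0, 0, 0, 0, 0, 0, 0, 0, 0, ⟨0, 0⟩, 0⟩, 3106668727, 0⟩ 0 0) (.pos 104 .pp ⟨⟨0, 0, 0, 0, 0, 0, 7048, 0, 0, ⟨0, 0⟩, 0⟩, 1741320881, 0⟩ 0 0)) (.void 105 ⟨⟨0, 0, 0, 51372, 0, 0, 0, 0, 0, ⟨0, 0⟩, 0⟩, 48628, 0⟩ 0 0))) (.pos 90 .pp ⟨⟨0, 608482833, 0, 0, 0, 0, 0, 0, 0, ⟨0, 0⟩, 0⟩, 689028814, 4620⟩ 0 0)) (.void 112 ⟨⟨0, 0, 0, 51372, 0, 0, 0, 0, 0, ⟨0, 0⟩, 0⟩, 48628, 0⟩ 0 0)) (.void 121 ⟨⟨0, 0, 0, 0,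 0, 0, 0, 0, 0, ⟨0, 0⟩, 0⟩, 100000, 0⟩ 0 0)))),
    by decide +kernel⟩

theorem covers40 : cell.Covers Vale.Agent.P237.Petty.Cor.Grid.N10.table row40.1 :=
  ⟨(.cut .d 0 (.cut .v 16777216 (.cut .v 8388608 (.pos 2 .mm ⟨⟨0, 0, 1677721600000000, 0, 0, 0, 0, 0, 0, ⟨0, 0⟩, 0⟩, 0, 0⟩ 0 0) (.cut .d (-8388608) (.void 3 ⟨⟨99991, 0, 0, 0, 0, 0, 0, 0, 0, ⟨0, 0⟩, 0⟩, 0, 0⟩ 0 0) (.cut .d (-4194304) (.void 3 ⟨⟨100000, 0, 0, 0, 0, 0, 0, 0, 0, ⟨0, 0⟩, 0⟩, 0, 0⟩ 0 0) (.cut .d (-2097152) (.void 3 ⟨⟨100000, 0, 0, 0, 0, 0, 0, 0, 0, ⟨0, 0⟩, 0⟩, 0, 0⟩ 0 0) (.pos 3 .mm ⟨⟨0, 0, 0, 0, 0, 31733696531, 0, 0, 0, ⟨0, 0⟩, 0⟩, 0, 0⟩ 0 0))))) (.cut .v 268435456 (.cut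 .v 67108864 (.cut .v 33554432 (.cut .d (-8388608) (.void 22 ⟨⟨99998, 0, 0, 0, 0, 0, 0, 0, 0, ⟨0, 0⟩, 0⟩, 0, 0⟩ 0 0) (.cut .d (-4194304) (.void 22 ⟨⟨100000, 0, 0, 0, 0, 0, 0, 0, 0, ⟨0, 0⟩, 0⟩, 0, 0⟩ 0 0) (.cut .v 25165824 (.cut .d (-2097152) (.void 23 ⟨⟨100000, 0, 0, 0, 0, 0, 0, 0, 0, ⟨0, 0⟩, 0⟩, 0, 0⟩ 0 0) (.cut .v 20971520 (.cut .d (-1048576) (.void 25 ⟨⟨100000, 0, 0, 0, 0, 0, 0, 0, 0, ⟨0, 0⟩, 0⟩, 0, 0⟩ 0 0) (.cut .s 16203776 (.pos 25 .mp ⟨⟨11172619997, 0, 0, 0, 0, 7215517748, 0, 0, 0, ⟨0, 0⟩, 0⟩, 0, 0⟩ 0 0) (.pos 25 .mp ⟨⟨13475591003, 0, 0, 0, 0, 8472029124, 0, 0, 0, ⟨0, 0⟩, 0⟩, 0, 0⟩ 0 0))) (.void 26 ⟨⟨100000, 0, 0, 0, 0, 0, 0, 0,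 0, ⟨0, 0⟩, 0⟩, 0, 0⟩ 0 0))) (.void 24 ⟨⟨100000, 0, 0, 0, 0, 0, 0, 0, 0, ⟨0, 0⟩, 0⟩, 0, 0⟩ 0 0)))) (.void 91 ⟨⟨100000, 0, 0, 0, 0, 0, 0, 0, 0, ⟨0, 0⟩, 0⟩, 0, 0⟩ 0 0)) (.void 112 ⟨⟨100000, 0, 0, 0, 0, 0, 0, 0, 0, ⟨0, 0⟩, 0⟩, 0, 0⟩ 0 0)) (.void 121 ⟨⟨91901, 0, 0, 8107, 0, 0, 0, 0, 0, ⟨0, 0⟩, 0⟩, 0, 0⟩ 0 0))) (.cut .v 16777216 (.cut .v 8388608 (.cut .d 332139 (.pos 2 .pm ⟨⟨0, 0, 5683842109, 0, 0, 0, 0, 0, 0, ⟨0, 0⟩, 0⟩, 0, 364⟩ 0 0) (.cut .d 498208 (.pos 2 .pm ⟨⟨0, 0, 2979160204, 0, 0, 0, 0, 0, 0, ⟨0, 0⟩, 0⟩, 0, 0⟩ 0 0) (.pos 2 .pm ⟨⟨0, 0, 21334604, 0, 1456, 0, 0, 0, 0, ⟨0, 0⟩, 0⟩, 0, 0⟩ 0 0))) (.pos 3 .pm ⟨⟨0, 0, 0, 0, 0, 0, 0, 0, 0, ⟨0,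 0⟩, 0⟩, 0, 0⟩ 0 0)) (.cut .v 268435456 (.cut .v 67108864 (.cut .d 332139 (.cut .v 33554432 (.cut .d 166069 (.cut .v 25165824 (.cut .d 83034 (.cut .d 41517 (.cut .v 20971520 (.cut .v 18874368 (.cut .d 20758 (.cut .d 10379 (.cut .v 17825792 (.cut .d 5189 (.cut .v 17301504 (.cut .s 16203776 (.pos 31 .pp ⟨⟨7739975296, 0, 0, 0, 0, 0, 0, 0, 0, ⟨0, 0⟩, 0⟩, 0, 1190⟩ 0 0) (.pos 31 .pp ⟨⟨9252903797, 0, 0, 0, 0, 0, 0, 0, 0, ⟨0, 0⟩, 0⟩, 0, 793⟩ 0 0)) (.pos 32 .pp ⟨⟨10725738455, 0, 0, 0, 0, 0, 0, 0, 0, ⟨0, 0⟩, 0⟩, 0, 750⟩ 0 0)) (.pos 29 .pp ⟨⟨6908899730, 0, 0, 0, 0, 0, 0, 0, 0, ⟨0, 0⟩, 0⟩, 0, 990⟩ 0 0)) (.pos 30 .pp ⟨⟨11416888998, 0, 0, 0, 0, 0,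 0, 0, 0, ⟨0, 0⟩, 0⟩, 0, 806⟩ 0 0)) (.pos 27 .pp ⟨⟨7359851745, 0, 0, 0, 0, 0, 0, 0, 0, ⟨0, 0⟩, 0⟩, 0, 1044⟩ 0 0)) (.pos 27 .pp ⟨⟨0, 0, 0, 0, 0, 0, 0, 0, 0, ⟨0, 0⟩, 0⟩, 0, 2536⟩ 0 0)) (.cut .d 20758 (.pos 28 .pp ⟨⟨13232229291, 0, 0, 0, 0, 0, 0, 0, 0, ⟨0, 0⟩, 0⟩, 0, 835⟩ 0 0) (.pos 28 .pp ⟨⟨9603701745, 0, 0, 0, 0, 0, 2308, 0, 0, ⟨0, 0⟩, 0⟩, 0, 0⟩ 0 0))) (.cut .v 23068672 (.cut .d 20758 (.void 55 ⟨⟨0, 0, 0, 0, 0, 0, 0, 0, 0, ⟨0, 0⟩, 0⟩, 100000, 0⟩ 0 0) (.cut .d 31137 (.pos 55 .pp ⟨⟨16626817042, 0, 0, 0, 0, 0, 1739, 0, 0, ⟨0, 0⟩, 0⟩, 0, 0⟩ 0 0) (.cut .v 22020096 (.pos 57 .pp ⟨⟨11763229627, 0, 0, 0, 0, 0, 2628, 0, 0, ⟨0, 0⟩, 0⟩, 0, 0⟩ 0 0)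 (.pos 58 .pp ⟨⟨0, 0, 0, 0, 0, 0, 2236, 0, 0, ⟨0, 0⟩, 0⟩, 1981213537, 0⟩ 0 0)))) (.pos 56 .pp ⟨⟨0, 0, 0, 0, 0, 0, 1702, 0, 0, ⟨0, 0⟩, 0⟩, 2812928814, 0⟩ 0 0))) (.cut .v 20971520 (.pos 25 .pp ⟨⟨0, 0, 0, 0, 0, 0, 0, 0, 0, ⟨0, 0⟩, 0⟩, 0, 3205⟩ 0 0) (.cut .v 23068672 (.pos 55 .pp ⟨⟨0, 0, 0, 0, 0, 0, 4119, 0, 0, ⟨0, 0⟩, 0⟩, 1535377803, 0⟩ 0 0) (.pos 56 .pp ⟨⟨0, 0, 0, 0, 0, 0, 2548, 0, 0, ⟨0, 0⟩, 0⟩, 1881488999, 0⟩ 0 0)))) (.pos 23 .pp ⟨⟨0, 0, 0, 0, 0, 0, 0, 0, 0, ⟨0, 0⟩, 0⟩, 0, 3462⟩ 0 0)) (.cut .d 83034 (.cut .v 29360128 (.cut .d 41517 (.void 75 ⟨⟨0, 0, 0, 0, 0, 0, 0, 0, 0, ⟨0, 0⟩, 0⟩, 100000, 0⟩ 0 0) (.pos 75 .pp ⟨⟨0, 0, 0, 0, 0, 0, 2406,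 0, 0, ⟨0, 0⟩, 0⟩, 2519764829, 0⟩ 0 0)) (.pos 76 .pp ⟨⟨0, 0, 0, 0, 0, 0, 0, 0, 0, ⟨0, 0⟩, 0⟩, 5464767213, 0⟩ 0 0)) (.pos 24 .pp ⟨⟨0, 0, 0, 0, 0, 0, 3949, 0, 0, ⟨0, 0⟩, 0⟩, 1973463552, 0⟩ 0 0))) (.pos 22 .pp ⟨⟨0, 0, 0, 0, 0, 0, 11539, 0, 0, ⟨0, 0⟩, 0⟩, 0, 0⟩ 0 0)) (.cut .v 50331648 (.cut .d 166069 (.pos 104 .pp ⟨⟨0, 0, 0, 0, 0, 0, 0, 0, 0, ⟨0, 0⟩, 0⟩, 4404672095, 0⟩ 0 0) (.pos 104 .pp ⟨⟨0, 0, 0, 0, 0, 0, 3447, 0, 0, ⟨0, 0⟩, 0⟩, 2545415674, 0⟩ 0 0)) (.void 105 ⟨⟨0, 0, 0, 51538, 0, 0, 0, 0, 0, ⟨0, 0⟩, 0⟩, 48462, 0⟩ 0 0))) (.pos 90 .pp ⟨⟨0, 1148936843, 0, 0, 0, 0, 0, 0, 0, ⟨0, 0⟩, 0⟩, 1101519853, 2009⟩ 0 0)) (.pos 112 .pp ⟨⟨0, 0, 0, 864660775885814,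 0, 0, 0, 0, 0, ⟨0, 0⟩, 0⟩, 813060824114186, 0⟩ 0 0)) (.void 121 ⟨⟨0, 0, 0, 0, 0, 0, 0, 0, 0, ⟨0, 0⟩, 0⟩, 100000, 0⟩ 0 0)))),
    by decide +kernel⟩

theorem covers41 : cell.Covers Vale.Agent.P237.Petty.Cor.Grid.N10.table row41.1 :=
  ⟨(.cut .d 0 (.cut .v 16777216 (.cut .v 8388608 (.void 2 ⟨⟨0, 0, 100000, 0, 0, 0, 0, 0, 0, ⟨0, 0⟩, 0⟩, 0, 0⟩ 0 0) (.cut .d (-8388608) (.void 3 ⟨⟨100000, 0, 0, 0, 0, 0, 0, 0, 0, ⟨0, 0⟩, 0⟩, 0, 0⟩ 0 0) (.cut .d (-4194304) (.void 3 ⟨⟨100000, 0, 0, 0, 0, 0, 0, 0, 0, ⟨0, 0⟩, 0⟩, 0, 0⟩ 0 0) (.pos 3 .mm ⟨⟨0, 0, 0, 0, 0, 56753591915, 0, 0, 0, ⟨0, 0⟩, 0⟩, 0, 0⟩ 0 0)))) (.cut .v 268435456 (.cut .v 67108864 (.cut .v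 33554432 (.cut .d (-8388608) (.void 22 ⟨⟨99999, 0, 0, 0, 0, 0, 0, 0, 0, ⟨0, 0⟩, 0⟩, 0, 0⟩ 0 0) (.cut .d (-4194304) (.void 22 ⟨⟨100000, 0, 0, 0, 0, 0, 0, 0, 0, ⟨0, 0⟩, 0⟩, 0, 0⟩ 0 0) (.cut .v 25165824 (.cut .d (-2097152) (.void 23 ⟨⟨100000, 0, 0, 0, 0, 0, 0, 0, 0, ⟨0, 0⟩, 0⟩, 0, 0⟩ 0 0) (.cut .v 20971520 (.cut .s 16318464 (.pos 25 .mp ⟨⟨15512311237, 0, 0, 0, 0, 18200392040, 0, 0, 0, ⟨0, 0⟩, 0⟩, 0, 0⟩ 0 0) (.pos 25 .mp ⟨⟨18460550894, 0, 0, 0, 0, 21066997775, 0, 0, 0, ⟨0, 0⟩, 0⟩, 0, 0⟩ 0 0)) (.void 26 ⟨⟨100000, 0, 0, 0, 0, 0, 0, 0, 0, ⟨0, 0⟩, 0⟩, 0, 0⟩ 0 0))) (.void 24 ⟨⟨100000, 0, 0, 0, 0, 0, 0, 0, 0, ⟨0, 0⟩, 0⟩, 0, 0⟩ 0 0)))) (.void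 91 ⟨⟨100000, 0, 0, 0, 0, 0, 0, 0, 0, ⟨0, 0⟩, 0⟩, 0, 0⟩ 0 0)) (.void 112 ⟨⟨100000, 0, 0, 0, 0, 0, 0, 0, 0, ⟨0, 0⟩, 0⟩, 0, 0⟩ 0 0)) (.void 121 ⟨⟨95144, 0, 0, 8251, 0, 0, 0, 0, 0, ⟨0, 0⟩, 0⟩, 0, 0⟩ 0 0))) (.cut .v 16777216 (.cut .v 8388608 (.cut .d 261881 (.pos 2 .pm ⟨⟨0, 0, 8330119069, 0, 0, 0, 0, 0, 0, ⟨0, 0⟩, 0⟩, 0, 165⟩ 0 0) (.cut .d 392822 (.pos 2 .pm ⟨⟨0, 0, 5024050737, 0, 0, 0, 0, 0, 0, ⟨0, 0⟩, 0⟩, 0, 0⟩ 0 0) (.pos 2 .pm ⟨⟨0, 0, 21128072, 0, 788, 0, 0, 0, 0, ⟨0, 0⟩, 0⟩, 0, 0⟩ 0 0))) (.pos 3 .pm ⟨⟨0, 0, 0, 0, 0, 0, 0, 0, 0, ⟨0, 0⟩, 0⟩, 0, 0⟩ 0 0)) (.cut .v 268435456 (.cut .v 67108864 (.cut .d 261881 (.cut .v 33554432 (.cut .d 130940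 (.cut .v 25165824 (.cut .d 65470 (.cut .d 32735 (.cut .v 20971520 (.cut .v 18874368 (.cut .d 16367 (.cut .d 8183 (.cut .v 17825792 (.cut .d 4091 (.cut .v 17301504 (.cut .s 16318464 (.pos 31 .pp ⟨⟨10932763176, 0, 0, 0, 0, 0, 0, 0, 0, ⟨0, 0⟩, 0⟩, 0, 542⟩ 0 0) (.pos 31 .pp ⟨⟨12905843753, 0, 0, 0, 0, 0, 0, 0, 0, ⟨0, 0⟩, 0⟩, 0, 367⟩ 0 0)) (.pos 32 .pp ⟨⟨15005959708, 0, 0, 0, 0, 0, 0, 0, 0, ⟨0, 0⟩, 0⟩, 0, 350⟩ 0 0)) (.pos 29 .pp ⟨⟨9775015925, 0, 0, 0, 0, 0, 0, 0, 0, ⟨0, 0⟩, 0⟩, 0, 450⟩ 0 0)) (.pos 30 .pp ⟨⟨15905966362, 0, 0, 0, 0, 0, 0, 0, 0, ⟨0, 0⟩, 0⟩, 0, 375⟩ 0 0)) (.pos 27 .pp ⟨⟨10418083913, 0, 0, 0, 0, 0, 0, 0, 0, ⟨0, 0⟩, 0⟩, 0, 471⟩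 0 0)) (.pos 27 .pp ⟨⟨0, 0, 0, 0, 0, 0, 0, 0, 0, ⟨0, 0⟩, 0⟩, 0, 1086⟩ 0 0)) (.cut .d 16367 (.pos 28 .pp ⟨⟨18433484780, 0, 0, 0, 0, 0, 878, 0, 0, ⟨0, 0⟩, 0⟩, 0, 0⟩ 0 0) (.pos 28 .pp ⟨⟨13627734399, 0, 0, 0, 0, 0, 1033, 0, 0, ⟨0, 0⟩, 0⟩, 0, 0⟩ 0 0))) (.cut .v 23068672 (.cut .d 16367 (.void 55 ⟨⟨0, 0, 0, 0, 0, 0, 0, 0, 0, ⟨0, 0⟩, 0⟩, 100000, 0⟩ 0 0) (.cut .d 24551 (.pos 55 .pp ⟨⟨23475969262, 0, 0, 0, 0, 0, 772, 0, 0, ⟨0, 0⟩, 0⟩, 0, 0⟩ 0 0) (.cut .v 22020096 (.pos 57 .pp ⟨⟨16564983788, 0, 0, 0, 0, 0, 1159, 0, 0, ⟨0, 0⟩, 0⟩, 0, 0⟩ 0 0) (.pos 58 .pp ⟨⟨0, 0, 0, 0, 0, 0, 1026, 0, 0, ⟨0, 0⟩, 0⟩, 2825796855, 0⟩ 0 0)))) (.pos 56 .pp ⟨⟨0, 0, 0, 0,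 0, 0, 821, 0, 0, ⟨0, 0⟩, 0⟩, 3847041985, 0⟩ 0 0))) (.cut .v 20971520 (.pos 25 .pp ⟨⟨0, 0, 0, 0, 0, 0, 0, 0, 0, ⟨0, 0⟩, 0⟩, 0, 1402⟩ 0 0) (.cut .v 23068672 (.pos 55 .pp ⟨⟨0, 0, 0, 0, 0, 0, 1755, 0, 0, ⟨0, 0⟩, 0⟩, 2177266346, 0⟩ 0 0) (.pos 56 .pp ⟨⟨0, 0, 0, 0, 0, 0, 1151, 0, 0, ⟨0, 0⟩, 0⟩, 2680603857, 0⟩ 0 0)))) (.pos 23 .pp ⟨⟨0, 0, 0, 0, 0, 0, 0, 0, 0, ⟨0, 0⟩, 0⟩, 0, 1514⟩ 0 0)) (.cut .d 65470 (.cut .v 29360128 (.cut .d 32735 (.void 75 ⟨⟨0, 0, 0, 0, 0, 0, 0, 0, 0, ⟨0, 0⟩, 0⟩, 100000, 0⟩ 0 0) (.pos 75 .pp ⟨⟨0, 0, 0, 0, 0, 0, 1125, 0, 0, ⟨0, 0⟩, 0⟩, 3535086662, 0⟩ 0 0)) (.void 76 ⟨⟨0, 0, 0, 0, 0, 0, 0, 0, 0, ⟨0, 0⟩, 0⟩, 100000, 0⟩ 0 0))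 (.pos 24 .pp ⟨⟨0, 0, 0, 0, 0, 0, 1673, 0, 0, ⟨0, 0⟩, 0⟩, 2820522807, 0⟩ 0 0))) (.pos 22 .pp ⟨⟨0, 0, 0, 0, 0, 0, 5047, 0, 0, ⟨0, 0⟩, 0⟩, 0, 0⟩ 0 0)) (.cut .v 50331648 (.cut .d 130940 (.pos 104 .pp ⟨⟨0, 0, 0, 0, 0, 0, 234, 0, 0, ⟨0, 0⟩, 0⟩, 6113497558, 0⟩ 0 0) (.pos 104 .pp ⟨⟨0, 0, 0, 0, 0, 0, 1654, 0, 0, ⟨0, 0⟩, 0⟩, 3674139330, 0⟩ 0 0)) (.void 105 ⟨⟨0, 0, 0, 51662, 0, 0, 0, 0, 0, ⟨0, 0⟩, 0⟩, 48338, 0⟩ 0 0))) (.cut .v 33554432 (.pos 22 .pp ⟨⟨0, 0, 0, 0, 0, 0, 0, 0, 0, ⟨0, 0⟩, 0⟩, 0, 1262⟩ 0 0) (.pos 91 .pp ⟨⟨0, 58250571476, 0, 0, 0, 0, 0, 0, 0, ⟨0, 0⟩, 0⟩, 0, 1682⟩ 0 0))) (.void 112 ⟨⟨0, 0, 0, 52897, 0, 0, 0, 0, 0, ⟨0, 0⟩, 0⟩, 48766,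 0⟩ 0 0)) (.void 121 ⟨⟨0, 0, 0, 0, 0, 0, 0, 0, 0, ⟨0, 0⟩, 0⟩, 100000, 0⟩ 0 0)))),
    by decide +kernel⟩

theorem covers42 : cell.Covers Vale.Agent.P237.Petty.Cor.Grid.N10.table row42.1 :=
  ⟨(.cut .d 0 (.cut .v 16777216 (.cut .v 8388608 (.pos 2 .mm ⟨⟨0, 0, 1677721600000000, 0, 0, 0, 0, 0, 0, ⟨0, 0⟩, 0⟩, 0, 0⟩ 0 0) (.cut .d (-8388608) (.void 3 ⟨⟨100000, 0, 0, 0, 0, 0, 0, 0, 0, ⟨0, 0⟩, 0⟩, 0, 0⟩ 0 0) (.cut .d (-4194304) (.void 3 ⟨⟨100000, 0, 0, 0, 0, 0, 0, 0, 0, ⟨0, 0⟩, 0⟩, 0, 0⟩ 0 0) (.pos 3 .mm ⟨⟨0, 0, 0, 0, 0, 77588677951, 0, 0, 0, ⟨0, 0⟩, 0⟩, 0, 0⟩ 0 0)))) (.cut .v 4294967296 (.cut .v 268435456 (.cut .v 67108864 (.cut .v 33554432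 (.cut .d (-8388608) (.void 22 ⟨⟨100000, 0, 0, 0, 0, 0, 0, 0, 0, ⟨0, 0⟩, 0⟩, 0, 0⟩ 0 0) (.cut .d (-4194304) (.void 22 ⟨⟨100000, 0, 0, 0, 0, 0, 0, 0, 0, ⟨0, 0⟩, 0⟩, 0, 0⟩ 0 0) (.cut .v 25165824 (.cut .d (-2097152) (.void 23 ⟨⟨100000, 0, 0, 0, 0, 0, 0, 0, 0, ⟨0, 0⟩, 0⟩, 0, 0⟩ 0 0) (.cut .v 20971520 (.cut .s 16408576 (.pos 25 .mp ⟨⟨21809297735, 0, 0, 0, 0, 23880004104, 0, 0, 0, ⟨0, 0⟩, 0⟩, 0, 0⟩ 0 0) (.pos 25 .mp ⟨⟨26099940516, 0, 0, 0, 0, 27648689050, 0, 0, 0, ⟨0, 0⟩, 0⟩, 0, 0⟩ 0 0)) (.void 26 ⟨⟨100000, 0, 0, 0, 0, 0, 0, 0, 0, ⟨0, 0⟩, 0⟩, 0, 0⟩ 0 0))) (.void 24 ⟨⟨100000, 0, 0, 0, 0, 0, 0, 0, 0, ⟨0, 0⟩, 0⟩, 0, 0⟩ 0 0)))) (.void 91 ⟨⟨100000,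 0, 0, 0, 0, 0, 0, 0, 0, ⟨0, 0⟩, 0⟩, 0, 0⟩ 0 0)) (.void 112 ⟨⟨99907, 0, 0, 0, 0, 0, 0, 0, 0, ⟨0, 0⟩, 0⟩, 0, 0⟩ 0 0)) (.pos 121 .mp ⟨⟨1540687474339062, 0, 0, 137034125660938, 0, 0, 0, 0, 0, ⟨0, 0⟩, 0⟩, 0, 0⟩ 0 0)) (.void 128 ⟨⟨91816, 0, 0, 8184, 0, 0, 0, 0, 0, ⟨0, 0⟩, 0⟩, 0, 0⟩ 0 0))) (.cut .v 16777216 (.cut .v 8388608 (.cut .d 209926 (.pos 2 .pm ⟨⟨0, 0, 12086549639, 0, 0, 0, 0, 0, 0, ⟨0, 0⟩, 0⟩, 0, 72⟩ 0 0) (.cut .d 314889 (.pos 2 .pm ⟨⟨0, 0, 8265029260, 0, 0, 0, 0, 0, 0, ⟨0, 0⟩, 0⟩, 0, 0⟩ 0 0) (.pos 2 .pm ⟨⟨0, 0, 20984595, 0, 367, 0, 0, 0, 0, ⟨0, 0⟩, 0⟩, 0, 0⟩ 0 0))) (.pos 3 .pm ⟨⟨0, 0, 0, 0, 0, 0, 0, 0, 0, ⟨0, 0⟩, 0⟩, 0, 0⟩ 0 0)) (.cut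 .v 4294967296 (.cut .v 268435456 (.cut .v 67108864 (.cut .d 209926 (.cut .v 33554432 (.cut .d 104963 (.cut .v 25165824 (.cut .d 52481 (.cut .d 26240 (.cut .v 20971520 (.cut .v 18874368 (.cut .d 13120 (.cut .d 6560 (.cut .v 17825792 (.cut .d 3280 (.cut .v 17301504 (.cut .s 16408576 (.pos 31 .pp ⟨⟨15198407192, 0, 0, 0, 0, 0, 0, 0, 0, ⟨0, 0⟩, 0⟩, 0, 248⟩ 0 0) (.pos 31 .pp ⟨⟨18031927568, 0, 0, 0, 0, 0, 0, 0, 0, ⟨0, 0⟩, 0⟩, 0, 164⟩ 0 0)) (.pos 32 .pp ⟨⟨20957294822, 0, 0, 0, 0, 0, 0, 0, 0, ⟨0, 0⟩, 0⟩, 0, 157⟩ 0 0)) (.pos 29 .pp ⟨⟨13567233749, 0, 0, 0, 0, 0, 0, 0, 0, ⟨0, 0⟩, 0⟩, 0, 200⟩ 0 0)) (.pos 30 .pp ⟨⟨22229529217, 0, 0, 0, 0, 0, 0, 0,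 0, ⟨0, 0⟩, 0⟩, 0, 168⟩ 0 0)) (.pos 27 .pp ⟨⟨14464877213, 0, 0, 0, 0, 0, 0, 0, 0, ⟨0, 0⟩, 0⟩, 0, 209⟩ 0 0)) (.pos 27 .pp ⟨⟨0, 0, 0, 0, 0, 0, 0, 0, 0, ⟨0, 0⟩, 0⟩, 0, 470⟩ 0 0)) (.cut .d 13120 (.pos 28 .pp ⟨⟨25747590227, 0, 0, 0, 0, 0, 393, 0, 0, ⟨0, 0⟩, 0⟩, 0, 0⟩ 0 0) (.pos 28 .pp ⟨⟨18948648504, 0, 0, 0, 0, 0, 463, 0, 0, ⟨0, 0⟩, 0⟩, 0, 0⟩ 0 0))) (.cut .v 23068672 (.cut .d 13120 (.void 55 ⟨⟨0, 0, 0, 0, 0, 0, 0, 0, 0, ⟨0, 0⟩, 0⟩, 100000, 0⟩ 0 0) (.cut .d 19680 (.pos 55 .pp ⟨⟨32682742957, 0, 0, 0, 0, 0, 358, 0, 0, ⟨0, 0⟩, 0⟩, 0, 0⟩ 0 0) (.cut .v 22020096 (.pos 57 .pp ⟨⟨23066425591, 0, 0, 0, 0, 0, 521, 0, 0, ⟨0, 0⟩, 0⟩, 0, 0⟩ 0 0) (.pos 58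 .pp ⟨⟨0, 0, 0, 0, 0, 0, 459, 0, 0, ⟨0, 0⟩, 0⟩, 3918489887, 0⟩ 0 0)))) (.pos 56 .pp ⟨⟨0, 0, 0, 0, 0, 0, 369, 0, 0, ⟨0, 0⟩, 0⟩, 5446162724, 0⟩ 0 0))) (.cut .v 20971520 (.pos 25 .pp ⟨⟨0, 0, 0, 0, 0, 0, 0, 0, 0, ⟨0, 0⟩, 0⟩, 0, 633⟩ 0 0) (.cut .v 23068672 (.pos 55 .pp ⟨⟨0, 0, 0, 0, 0, 0, 778, 0, 0, ⟨0, 0⟩, 0⟩, 3034077552, 0⟩ 0 0) (.pos 56 .pp ⟨⟨0, 0, 0, 0, 0, 0, 514, 0, 0, ⟨0, 0⟩, 0⟩, 3723327351, 0⟩ 0 0)))) (.pos 23 .pp ⟨⟨0, 0, 0, 0, 0, 0, 0, 0, 0, ⟨0, 0⟩, 0⟩, 0, 684⟩ 0 0)) (.cut .d 52481 (.cut .v 29360128 (.cut .d 26240 (.void 75 ⟨⟨0, 0, 0, 0, 0, 0, 0, 0, 0, ⟨0, 0⟩, 0⟩, 100000, 0⟩ 0 0) (.pos 75 .pp ⟨⟨0, 0, 0, 0, 0, 0, 508, 0, 0, ⟨0, 0⟩,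 0⟩, 4936842726, 0⟩ 0 0)) (.pos 76 .pp ⟨⟨0, 0, 0, 0, 0, 0, 0, 0, 0, ⟨0, 0⟩, 0⟩, 11649866827, 0⟩ 0 0)) (.pos 24 .pp ⟨⟨0, 0, 0, 0, 0, 0, 764, 0, 0, ⟨0, 0⟩, 0⟩, 3942345548, 0⟩ 0 0))) (.pos 22 .pp ⟨⟨0, 0, 0, 0, 0, 0, 2280, 0, 0, ⟨0, 0⟩, 0⟩, 0, 0⟩ 0 0)) (.cut .v 50331648 (.cut .d 104963 (.pos 104 .pp ⟨⟨0, 0, 0, 0, 0, 0, 181, 0, 0, ⟨0, 0⟩, 0⟩, 8529520808, 0⟩ 0 0) (.pos 104 .pp ⟨⟨0, 0, 0, 0, 0, 0, 797, 0, 0, ⟨0, 0⟩, 0⟩, 5173706301, 0⟩ 0 0)) (.void 105 ⟨⟨0, 0, 0, 51765, 0, 0, 0, 0, 0, ⟨0, 0⟩, 0⟩, 48235, 0⟩ 0 0))) (.cut .v 33554432 (.pos 22 .pp ⟨⟨0, 0, 0, 0, 0, 0, 0, 0, 0, ⟨0, 0⟩, 0⟩, 0, 570⟩ 0 0) (.pos 91 .pp ⟨⟨0, 84985374474, 0, 0, 0, 0, 0,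 0, 0, ⟨0, 0⟩, 0⟩, 0, 760⟩ 0 0))) (.void 112 ⟨⟨0, 0, 0, 53174, 0, 0, 0, 0, 0, ⟨0, 0⟩, 0⟩, 46934, 0⟩ 0 0)) (.void 121 ⟨⟨0, 0, 0, 0, 0, 0, 0, 0, 0, ⟨0, 0⟩, 0⟩, 100000, 0⟩ 0 0)) (.void 128 ⟨⟨0, 0, 0, 0, 0, 0, 0, 0, 0, ⟨0, 0⟩, 0⟩, 100000, 0⟩ 0 0)))),
    by decide +kernel⟩

theorem covers43 : cell.Covers Vale.Agent.P237.Petty.Cor.Grid.N10.table row43.1 :=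
  ⟨(.cut .d 0 (.cut .v 16777216 (.cut .v 8388608 (.pos 2 .mm ⟨⟨0, 0, 1677721600000000, 0, 0, 0, 0, 0, 0, ⟨0, 0⟩, 0⟩, 0, 0⟩ 0 0) (.cut .d (-8388608) (.void 3 ⟨⟨100003, 0, 0, 0, 0, 0, 0, 0, 0, ⟨0, 0⟩, 0⟩, 0, 0⟩ 0 0) (.cut .d (-4194304) (.void 3 ⟨⟨100000, 0, 0, 0, 0, 0, 0, 0, 0, ⟨0, 0⟩, 0⟩, 0, 0⟩ 0 0) (.pos 3 .mm ⟨⟨0, 0, 0, 0, 0, 105515887492, 0, 0, 0, ⟨0, 0⟩, 0⟩, 0, 0⟩ 0 0)))) (.cut .v 4294967296 (.cut .v 268435456 (.cut .v 67108864 (.cut .v 33554432 (.cut .d (-8388608) (.void 22 ⟨⟨100000, 0, 0, 0, 0, 0, 0, 0, 0, ⟨0, 0⟩, 0⟩, 0, 0⟩ 0 0) (.cut .v 25165824 (.cut .d (-4194304) (.void 23 ⟨⟨100000, 0, 0, 0, 0, 0, 0, 0, 0, ⟨0, 0⟩, 0⟩, 0, 0⟩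 0 0) (.cut .d (-2097152) (.void 23 ⟨⟨100000, 0, 0, 0, 0, 0, 0, 0, 0, ⟨0, 0⟩, 0⟩, 0, 0⟩ 0 0) (.cut .v 20971520 (.pos 25 .mp ⟨⟨35753489826, 0, 0, 0, 0, 37932707280, 0, 0, 0, ⟨0, 0⟩, 0⟩, 0, 0⟩ 0 0) (.void 26 ⟨⟨100000, 0, 0, 0, 0, 0, 0, 0, 0, ⟨0, 0⟩, 0⟩, 0, 0⟩ 0 0)))) (.void 24 ⟨⟨100000, 0, 0, 0, 0, 0, 0, 0, 0, ⟨0, 0⟩, 0⟩, 0, 0⟩ 0 0))) (.void 91 ⟨⟨100000, 0, 0, 0, 0, 0, 0, 0, 0, ⟨0, 0⟩, 0⟩, 0, 0⟩ 0 0)) (.void 112 ⟨⟨99992, 0, 0, 0, 0, 0, 0, 0, 0, ⟨0, 0⟩, 0⟩, 0, 0⟩ 0 0)) (.void 121 ⟨⟨91828, 0, 0, 8216, 0, 0, 0, 0, 0, ⟨0, 0⟩, 0⟩, 0, 0⟩ 0 0)) (.void 128 ⟨⟨82943, 0, 8855, 8199, 0, 0, 0, 0, 0, ⟨0, 0⟩, 0⟩, 0, 0⟩ 0 0))) (.cut .v 16777216 (.cut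 .v 8388608 (.cut .d 167105 (.pos 2 .pm ⟨⟨0, 0, 17406190405, 0, 0, 0, 0, 0, 0, ⟨0, 0⟩, 0⟩, 0, 31⟩ 0 0) (.pos 2 .pm ⟨⟨0, 0, 21129761, 0, 3, 0, 0, 0, 0, ⟨0, 0⟩, 0⟩, 0, 0⟩ 0 0)) (.pos 3 .pm ⟨⟨0, 0, 0, 0, 0, 0, 0, 0, 0, ⟨0, 0⟩, 0⟩, 0, 0⟩ 0 0)) (.cut .v 4294967296 (.cut .v 268435456 (.cut .v 67108864 (.cut .d 167105 (.cut .v 33554432 (.cut .d 83552 (.cut .v 25165824 (.cut .d 41776 (.cut .d 20888 (.cut .v 20971520 (.cut .v 18874368 (.cut .d 10444 (.cut .d 5222 (.cut .v 17825792 (.cut .d 2611 (.cut .v 17301504 (.cut .s 16482304 (.pos 31 .pp ⟨⟨21275622849, 0, 0, 0, 0, 0, 0, 0, 0, ⟨0, 0⟩, 0⟩, 0, 110⟩ 0 0) (.pos 31 .pp ⟨⟨25224837672, 0, 0, 0,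 0, 0, 0, 0, 0, ⟨0, 0⟩, 0⟩, 0, 72⟩ 0 0)) (.pos 32 .pp ⟨⟨29333989219, 0, 0, 0, 0, 0, 0, 0, 0, ⟨0, 0⟩, 0⟩, 0, 69⟩ 0 0)) (.pos 29 .pp ⟨⟨18985113147, 0, 0, 0, 0, 0, 0, 0, 0, ⟨0, 0⟩, 0⟩, 0, 87⟩ 0 0)) (.pos 30 .pp ⟨⟨31092957583, 0, 0, 0, 0, 0, 0, 0, 0, ⟨0, 0⟩, 0⟩, 0, 74⟩ 0 0)) (.pos 27 .pp ⟨⟨20246820583, 0, 0, 0, 0, 0, 0, 0, 0, ⟨0, 0⟩, 0⟩, 0, 91⟩ 0 0)) (.pos 27 .pp ⟨⟨0, 0, 0, 0, 0, 0, 0, 0, 0, ⟨0, 0⟩, 0⟩, 0, 199⟩ 0 0)) (.cut .d 10444 (.pos 28 .pp ⟨⟨36004505232, 0, 0, 0, 0, 0, 0, 0, 0, ⟨0, 0⟩, 0⟩, 0, 77⟩ 0 0) (.pos 28 .pp ⟨⟨26557519108, 0, 0, 0, 0, 0, 202, 0, 0, ⟨0, 0⟩, 0⟩, 0, 0⟩ 0 0))) (.cut .v 23068672 (.cut .d 10444 (.void 55 ⟨⟨0, 0, 0,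 0, 0, 0, 0, 0, 0, ⟨0, 0⟩, 0⟩, 100000, 0⟩ 0 0) (.cut .d 15666 (.pos 55 .pp ⟨⟨45765901171, 0, 0, 0, 0, 0, 159, 0, 0, ⟨0, 0⟩, 0⟩, 0, 0⟩ 0 0) (.cut .v 22020096 (.pos 57 .pp ⟨⟨32288970282, 0, 0, 0, 0, 0, 227, 0, 0, ⟨0, 0⟩, 0⟩, 0, 0⟩ 0 0) (.pos 58 .pp ⟨⟨0, 0, 0, 0, 0, 0, 202, 0, 0, ⟨0, 0⟩, 0⟩, 5492030565, 0⟩ 0 0)))) (.pos 56 .pp ⟨⟨0, 0, 0, 0, 0, 0, 164, 0, 0, ⟨0, 0⟩, 0⟩, 7630494053, 0⟩ 0 0))) (.cut .v 20971520 (.pos 25 .pp ⟨⟨0, 0, 0, 0, 0, 0, 0, 0, 0, ⟨0, 0⟩, 0⟩, 0, 276⟩ 0 0) (.cut .v 23068672 (.pos 55 .pp ⟨⟨0, 0, 0, 0, 0, 0, 333, 0, 0, ⟨0, 0⟩, 0⟩, 4255481554, 0⟩ 0 0) (.pos 56 .pp ⟨⟨0, 0, 0, 0, 0, 0, 225, 0, 0, ⟨0, 0⟩, 0⟩, 5223537905, 0⟩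 0 0)))) (.pos 23 .pp ⟨⟨0, 0, 0, 0, 0, 0, 0, 0, 0, ⟨0, 0⟩, 0⟩, 0, 298⟩ 0 0)) (.cut .d 41776 (.cut .v 29360128 (.cut .d 20888 (.void 75 ⟨⟨0, 0, 0, 0, 0, 0, 0, 0, 0, ⟨0, 0⟩, 0⟩, 100000, 0⟩ 0 0) (.pos 75 .pp ⟨⟨0, 0, 0, 0, 0, 0, 225, 0, 0, ⟨0, 0⟩, 0⟩, 6914504413, 0⟩ 0 0)) (.pos 76 .pp ⟨⟨0, 0, 0, 0, 0, 0, 0, 0, 0, ⟨0, 0⟩, 0⟩, 16963221288, 0⟩ 0 0)) (.pos 24 .pp ⟨⟨0, 0, 0, 0, 0, 0, 330, 0, 0, ⟨0, 0⟩, 0⟩, 5548704957, 0⟩ 0 0))) (.pos 22 .pp ⟨⟨0, 0, 0, 0, 0, 0, 992, 0, 0, ⟨0, 0⟩, 0⟩, 0, 0⟩ 0 0)) (.cut .v 50331648 (.cut .d 83552 (.pos 104 .pp ⟨⟨0, 0, 0, 0, 0, 0, 110, 0, 0, ⟨0, 0⟩, 0⟩, 11912169422, 0⟩ 0 0) (.pos 104 .pp ⟨⟨0, 0, 0, 0, 0, 0, 368,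 0, 0, ⟨0, 0⟩, 0⟩, 7325379678, 0⟩ 0 0)) (.void 105 ⟨⟨0, 0, 0, 51847, 0, 0, 0, 0, 0, ⟨0, 0⟩, 0⟩, 48153, 0⟩ 0 0))) (.cut .v 33554432 (.pos 22 .pp ⟨⟨0, 0, 0, 0, 0, 0, 0, 0, 0, ⟨0, 0⟩, 0⟩, 0, 248⟩ 0 0) (.pos 91 .pp ⟨⟨0, 123739242465, 0, 0, 0, 0, 0, 0, 0, ⟨0, 0⟩, 0⟩, 0, 331⟩ 0 0))) (.void 112 ⟨⟨0, 0, 0, 53413, 0, 0, 0, 0, 0, ⟨0, 0⟩, 0⟩, 51350, 0⟩ 0 0)) (.void 121 ⟨⟨0, 0, 0, 0, 0, 0, 0, 0, 0, ⟨0, 0⟩, 0⟩, 100000, 0⟩ 0 0)) (.void 128 ⟨⟨0, 0, 0, 0, 0, 0, 0, 0, 0, ⟨0, 0⟩, 0⟩, 100000, 0⟩ 0 0)))),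
    by decide +kernel⟩

theorem covers44 : cell.Covers Vale.Agent.P237.Petty.Cor.Grid.N10.table row44.1 :=
  ⟨(.cut .d 0 (.cut .v 16777216 (.cut .v 8388608 (.pos 2 .mm ⟨⟨0, 0, 1677721600000000, 0, 0, 0, 0, 0, 0, ⟨0, 0⟩, 0⟩, 0, 0⟩ 0 0) (.cut .d (-8388608) (.void 3 ⟨⟨98518, 0, 0, 0, 0, 0, 0, 0, 0, ⟨0, 0⟩, 0⟩, 0, 0⟩ 0 0) (.cut .d (-4194304) (.void 3 ⟨⟨100000, 0, 0, 0, 0, 0, 0, 0, 0, ⟨0, 0⟩, 0⟩, 0, 0⟩ 0 0) (.pos 3 .mm ⟨⟨0, 0, 0, 0, 0, 140018087320, 0, 0, 0, ⟨0, 0⟩, 0⟩, 0, 0⟩ 0 0)))) (.cut .v 4294967296 (.cut .v 268435456 (.cut .v 67108864 (.cut .v 33554432 (.cut .d (-8388608) (.void 22 ⟨⟨99988, 0, 0, 0, 0, 0, 0, 0, 0, ⟨0, 0⟩, 0⟩, 0, 0⟩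 0 0) (.cut .v 25165824 (.cut .d (-4194304) (.void 23 ⟨⟨100000, 0, 0, 0, 0, 0, 0, 0, 0, ⟨0, 0⟩, 0⟩, 0, 0⟩ 0 0) (.cut .d (-2097152) (.void 23 ⟨⟨100000, 0, 0, 0, 0, 0, 0, 0, 0, ⟨0, 0⟩, 0⟩, 0, 0⟩ 0 0) (.cut .v 20971520 (.pos 25 .mp ⟨⟨49510882140, 0, 0, 0, 0, 47723621406, 0, 0, 0, ⟨0, 0⟩, 0⟩, 0, 0⟩ 0 0) (.void 26 ⟨⟨100000, 0, 0, 0, 0, 0, 0, 0, 0, ⟨0, 0⟩, 0⟩, 0, 0⟩ 0 0)))) (.void 24 ⟨⟨100000, 0, 0, 0, 0, 0, 0, 0, 0, ⟨0, 0⟩, 0⟩, 0, 0⟩ 0 0))) (.void 91 ⟨⟨100000, 0, 0, 0, 0, 0, 0, 0, 0, ⟨0, 0⟩, 0⟩, 0, 0⟩ 0 0)) (.void 112 ⟨⟨98662, 0, 0, 1338, 0, 0, 0, 0, 0, ⟨0, 0⟩, 0⟩, 0, 0⟩ 0 0)) (.void 121 ⟨⟨91831, 0, 0, 8221, 0, 0, 0, 0, 0, ⟨0, 0⟩, 0⟩, 0,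 0⟩ 0 0)) (.void 128 ⟨⟨84722, 0, 7961, 7356, 0, 0, 0, 0, 0, ⟨0, 0⟩, 0⟩, 0, 0⟩ 0 0))) (.cut .v 16777216 (.cut .v 8388608 (.cut .d 133154 (.pos 2 .pm ⟨⟨0, 0, 24317488500, 0, 0, 0, 0, 0, 0, ⟨0, 0⟩, 0⟩, 0, 14⟩ 0 0) (.pos 2 .pm ⟨⟨0, 0, 20974364, 0, 6, 0, 0, 0, 0, ⟨0, 0⟩, 0⟩, 0, 0⟩ 0 0)) (.pos 3 .pm ⟨⟨0, 0, 0, 0, 0, 0, 0, 0, 0, ⟨0, 0⟩, 0⟩, 0, 0⟩ 0 0)) (.cut .v 4294967296 (.cut .v 268435456 (.cut .v 67108864 (.cut .v 33554432 (.cut .d 133154 (.cut .d 66577 (.cut .v 25165824 (.cut .d 33288 (.cut .d 16644 (.cut .v 20971520 (.cut .v 18874368 (.cut .d 8322 (.cut .d 4161 (.cut .v 17825792 (.cut .v 17301504 (.cut .s 16539648 (.pos 31 .pp ⟨⟨29921033723,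 0, 0, 0, 0, 0, 0, 0, 0, ⟨0, 0⟩, 0⟩, 0, 49⟩ 0 0) (.pos 31 .pp ⟨⟨34844901278, 0, 0, 0, 0, 0, 0, 0, 0, ⟨0, 0⟩, 0⟩, 0, 33⟩ 0 0)) (.pos 32 .pp ⟨⟨36205040775, 0, 0, 0, 0, 0, 0, 0, 0, ⟨0, 0⟩, 0⟩, 0, 35⟩ 0 0)) (.pos 30 .pp ⟨⟨42640151942, 0, 0, 0, 0, 0, 0, 0, 0, ⟨0, 0⟩, 0⟩, 0, 34⟩ 0 0)) (.pos 27 .pp ⟨⟨28194192286, 0, 0, 0, 0, 0, 0, 0, 0, ⟨0, 0⟩, 0⟩, 0, 41⟩ 0 0)) (.pos 27 .pp ⟨⟨0, 0, 0, 0, 0, 0, 0, 0, 0, ⟨0, 0⟩, 0⟩, 0, 86⟩ 0 0)) (.cut .d 8322 (.pos 28 .pp ⟨⟨49387577301, 0, 0, 0, 0, 0, 80, 0, 0, ⟨0, 0⟩, 0⟩, 0, 0⟩ 0 0) (.pos 28 .pp ⟨⟨37069204296, 0, 0, 0, 0, 0, 91, 0, 0, ⟨0, 0⟩, 0⟩, 0, 0⟩ 0 0))) (.cut .v 23068672 (.cut .d 8322 (.void 55 ⟨⟨0, 0,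 0, 0, 0, 0, 0, 0, 0, ⟨0, 0⟩, 0⟩, 100000, 0⟩ 0 0) (.cut .d 12483 (.pos 55 .pp ⟨⟨63442370566, 0, 0, 0, 0, 0, 71, 0, 0, ⟨0, 0⟩, 0⟩, 0, 0⟩ 0 0) (.cut .v 22020096 (.pos 57 .pp ⟨⟨44740573278, 0, 0, 0, 0, 0, 101, 0, 0, ⟨0, 0⟩, 0⟩, 0, 0⟩ 0 0) (.pos 58 .pp ⟨⟨0, 0, 0, 0, 0, 0, 92, 0, 0, ⟨0, 0⟩, 0⟩, 7688717924, 0⟩ 0 0)))) (.pos 56 .pp ⟨⟨0, 0, 0, 0, 0, 0, 78, 0, 0, ⟨0, 0⟩, 0⟩, 10255836494, 0⟩ 0 0))) (.cut .v 20971520 (.pos 25 .pp ⟨⟨0, 0, 0, 0, 0, 0, 0, 0, 0, ⟨0, 0⟩, 0⟩, 0, 120⟩ 0 0) (.cut .v 23068672 (.pos 55 .pp ⟨⟨0, 0, 0, 0, 0, 0, 144, 0, 0, ⟨0, 0⟩, 0⟩, 5925751137, 0⟩ 0 0) (.pos 56 .pp ⟨⟨0, 0, 0, 0, 0, 0, 103, 0, 0, ⟨0, 0⟩, 0⟩, 7317061597, 0⟩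 0 0)))) (.pos 23 .pp ⟨⟨0, 0, 0, 0, 0, 0, 0, 0, 0, ⟨0, 0⟩, 0⟩, 0, 129⟩ 0 0)) (.cut .d 33288 (.cut .v 29360128 (.cut .d 16644 (.void 75 ⟨⟨0, 0, 0, 0, 0, 0, 0, 0, 0, ⟨0, 0⟩, 0⟩, 100000, 0⟩ 0 0) (.pos 75 .pp ⟨⟨0, 0, 0, 0, 0, 0, 104, 0, 0, ⟨0, 0⟩, 0⟩, 9537344762, 0⟩ 0 0)) (.void 76 ⟨⟨0, 0, 0, 0, 0, 0, 0, 0, 0, ⟨0, 0⟩, 0⟩, 100000, 0⟩ 0 0)) (.pos 24 .pp ⟨⟨0, 0, 0, 0, 0, 0, 138, 0, 0, ⟨0, 0⟩, 0⟩, 7761433214, 0⟩ 0 0))) (.pos 22 .pp ⟨⟨0, 0, 0, 0, 0, 0, 430, 0, 0, ⟨0, 0⟩, 0⟩, 0, 0⟩ 0 0)) (.pos 22 .pp ⟨⟨0, 0, 0, 0, 0, 0, 0, 0, 0, ⟨0, 0⟩, 0⟩, 0, 108⟩ 0 0)) (.cut .v 50331648 (.cut .d 133154 (.cut .d 66577 (.pos 104 .pp ⟨⟨0, 0, 0, 0, 0, 0, 62, 0,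 0, ⟨0, 0⟩, 0⟩, 16305126861, 0⟩ 0 0) (.pos 104 .pp ⟨⟨0, 0, 0, 0, 0, 0, 168, 0, 0, ⟨0, 0⟩, 0⟩, 10337713559, 0⟩ 0 0)) (.pos 104 .pp ⟨⟨0, 104043090452, 0, 0, 0, 0, 0, 0, 0, ⟨0, 0⟩, 0⟩, 0, 143⟩ 0 0)) (.void 105 ⟨⟨0, 0, 0, 51909, 0, 0, 0, 0, 0, ⟨0, 0⟩, 0⟩, 48091, 0⟩ 0 0))) (.void 112 ⟨⟨0, 0, 0, 51673, 0, 0, 0, 0, 0, ⟨0, 0⟩, 0⟩, 48327, 0⟩ 0 0)) (.void 121 ⟨⟨0, 0, 0, 0, 0, 0, 0, 0, 0, ⟨0, 0⟩, 0⟩, 100000, 0⟩ 0 0)) (.void 128 ⟨⟨0, 0, 0, 0, 0, 0, 0, 0, 0, ⟨0, 0⟩, 0⟩, 100000, 0⟩ 0 0)))),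
    by decide +kernel⟩

theorem covers45 : cell.Covers Vale.Agent.P237.Petty.Cor.Grid.N10.table row45.1 :=
  ⟨(.cut .d 0 (.cut .v 16777216 (.cut .v 8388608 (.pos 2 .mm ⟨⟨0, 0, 1677721600000000, 0, 0, 0, 0, 0, 0, ⟨0, 0⟩, 0⟩, 0, 0⟩ 0 0) (.cut .d (-8388608) (.void 3 ⟨⟨99996, 0, 0, 0, 0, 0, 0, 0, 0, ⟨0, 0⟩, 0⟩, 0, 0⟩ 0 0) (.cut .d (-4194304) (.void 3 ⟨⟨100000, 0, 0, 0, 0, 0, 0, 0, 0, ⟨0, 0⟩, 0⟩, 0, 0⟩ 0 0) (.pos 3 .mm ⟨⟨0, 0, 0, 0, 0, 199881386746, 0, 0, 0, ⟨0, 0⟩, 0⟩, 0, 0⟩ 0 0)))) (.cut .d (-8388608) (.void 127 ⟨⟨99748, 0, 0, 0, 0, 0, 0, 0, 0, ⟨0, 0⟩, 0⟩, 0, 0⟩ 0 0) (.cut .v 4294967296 (.cut .v 268435456 (.cut .v 67108864 (.cut .v 33554432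 (.cut .v 25165824 (.cut .d (-4194304) (.void 23 ⟨⟨100000, 0, 0, 0, 0, 0, 0, 0, 0, ⟨0, 0⟩, 0⟩, 0, 0⟩ 0 0) (.cut .v 20971520 (.cut .d (-2097152) (.void 25 ⟨⟨100000, 0, 0, 0, 0, 0, 0, 0, 0, ⟨0, 0⟩, 0⟩, 0, 0⟩ 0 0) (.pos 25 .mp ⟨⟨72964488537, 0, 0, 0, 0, 66393175641, 0, 0, 0, ⟨0, 0⟩, 0⟩, 0, 0⟩ 0 0)) (.void 26 ⟨⟨100000, 0, 0, 0, 0, 0, 0, 0, 0, ⟨0, 0⟩, 0⟩, 0, 0⟩ 0 0))) (.void 24 ⟨⟨100000, 0, 0, 0, 0, 0, 0, 0, 0, ⟨0, 0⟩, 0⟩, 0, 0⟩ 0 0)) (.void 91 ⟨⟨100000, 0, 0, 0, 0, 0, 0, 0, 0, ⟨0, 0⟩, 0⟩, 0, 0⟩ 0 0)) (.void 112 ⟨⟨100000, 0, 0, 0, 0, 0, 0, 0, 0, ⟨0, 0⟩, 0⟩, 0, 0⟩ 0 0)) (.void 121 ⟨⟨87903, 0, 0, 11884, 0, 0, 0, 0, 0, ⟨0, 0⟩, 0⟩, 0, 0⟩ 0 0))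 (.void 128 ⟨⟨88103, 0, 0, 11897, 0, 0, 0, 0, 0, ⟨0, 0⟩, 0⟩, 0, 0⟩ 0 0)))) (.cut .v 16777216 (.cut .v 8388608 (.cut .d 107866 (.pos 2 .pm ⟨⟨0, 0, 36489741112, 0, 0, 0, 0, 0, 0, ⟨0, 0⟩, 0⟩, 0, 5⟩ 0 0) (.pos 2 .pm ⟨⟨0, 0, 20873533, 0, 4, 0, 0, 0, 0, ⟨0, 0⟩, 0⟩, 0, 0⟩ 0 0)) (.pos 3 .pm ⟨⟨0, 0, 0, 0, 0, 0, 0, 0, 0, ⟨0, 0⟩, 0⟩, 0, 0⟩ 0 0)) (.cut .v 4294967296 (.cut .v 268435456 (.cut .v 67108864 (.cut .d 107866 (.cut .v 33554432 (.cut .d 53933 (.cut .v 25165824 (.cut .d 26966 (.cut .d 13483 (.cut .v 20971520 (.cut .d 6741 (.cut .v 18874368 (.cut .d 3370 (.cut .v 17825792 (.cut .d 1685 (.cut .v 17301504 (.cut .d 842 (.cut .v 17039360 (.cut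 .s 16588800 (.pos 33 .pp ⟨⟨40712086855, 0, 0, 0, 0, 0, 0, 0, 0, ⟨0, 0⟩, 0⟩, 0, 21⟩ 0 0) (.cut .s 16601088 (.pos 33 .pp ⟨⟨47760380645, 0, 0, 0, 0, 0, 0, 0, 0, ⟨0, 0⟩, 0⟩, 0, 15⟩ 0 0) (.pos 33 .pp ⟨⟨53134360129, 0, 0, 0, 0, 0, 0, 0, 0, ⟨0, 0⟩, 0⟩, 0, 12⟩ 0 0))) (.pos 34 .pp ⟨⟨57333581780, 0, 0, 0, 0, 0, 0, 0, 0, ⟨0, 0⟩, 0⟩, 0, 12⟩ 0 0)) (.pos 31 .pp ⟨⟨35406035846, 0, 0, 0, 0, 0, 0, 0, 0, ⟨0, 0⟩, 0⟩, 0, 15⟩ 0 0)) (.pos 32 .pp ⟨⟨58160971609, 0, 0, 0, 0, 0, 0, 0, 0, ⟨0, 0⟩, 0⟩, 0, 12⟩ 0 0)) (.pos 29 .pp ⟨⟨36580272214, 0, 0, 0, 0, 0, 0, 0, 0, ⟨0, 0⟩, 0⟩, 0, 15⟩ 0 0)) (.pos 30 .pp ⟨⟨62098383221, 0, 0, 0, 0, 0, 0, 0, 0, ⟨0, 0⟩, 0⟩, 0, 13⟩ 0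 0)) (.pos 27 .pp ⟨⟨39024225234, 0, 0, 0, 0, 0, 0, 0, 0, ⟨0, 0⟩, 0⟩, 0, 16⟩ 0 0)) (.pos 28 .pp ⟨⟨71810078299, 0, 0, 0, 0, 0, 30, 0, 0, ⟨0, 0⟩, 0⟩, 0, 0⟩ 0 0)) (.cut .v 18874368 (.pos 27 .pp ⟨⟨0, 0, 0, 0, 0, 0, 0, 0, 0, ⟨0, 0⟩, 0⟩, 0, 34⟩ 0 0) (.pos 28 .pp ⟨⟨51223711749, 0, 0, 0, 0, 0, 37, 0, 0, ⟨0, 0⟩, 0⟩, 0, 0⟩ 0 0))) (.cut .v 23068672 (.cut .d 6741 (.void 55 ⟨⟨0, 0, 0, 0, 0, 0, 0, 0, 0, ⟨0, 0⟩, 0⟩, 100000, 0⟩ 0 0) (.cut .d 10112 (.pos 55 .pp ⟨⟨78596515724, 0, 0, 0, 0, 0, 32, 0, 0, ⟨0, 0⟩, 0⟩, 1032458899, 0⟩ 0 0) (.cut .v 22020096 (.pos 57 .pp ⟨⟨63130840265, 0, 0, 0, 0, 0, 42, 0, 0, ⟨0, 0⟩, 0⟩, 0, 0⟩ 0 0) (.pos 58 .pp ⟨⟨0, 0, 0, 0,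 0, 0, 37, 0, 0, ⟨0, 0⟩, 0⟩, 10549905392, 0⟩ 0 0)))) (.pos 56 .pp ⟨⟨0, 0, 0, 0, 0, 0, 28, 0, 0, ⟨0, 0⟩, 0⟩, 16127791170, 0⟩ 0 0))) (.cut .v 20971520 (.pos 25 .pp ⟨⟨0, 0, 0, 0, 0, 0, 0, 0, 0, ⟨0, 0⟩, 0⟩, 0, 52⟩ 0 0) (.cut .v 23068672 (.pos 55 .pp ⟨⟨0, 0, 0, 0, 0, 0, 61, 0, 0, ⟨0, 0⟩, 0⟩, 8282474976, 0⟩ 0 0) (.pos 56 .pp ⟨⟨0, 0, 0, 0, 0, 0, 43, 0, 0, ⟨0, 0⟩, 0⟩, 10095636377, 0⟩ 0 0)))) (.pos 23 .pp ⟨⟨0, 0, 0, 0, 0, 0, 0, 0, 0, ⟨0, 0⟩, 0⟩, 0, 57⟩ 0 0)) (.cut .d 26966 (.cut .v 29360128 (.cut .d 13483 (.void 75 ⟨⟨0, 0, 0, 0, 0, 0, 0, 0, 0, ⟨0, 0⟩, 0⟩, 100000, 0⟩ 0 0) (.cut .d 20224 (.pos 75 .pp ⟨⟨0, 0, 0, 0, 0, 0, 38, 0, 0, ⟨0, 0⟩, 0⟩, 14366498121,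 0⟩ 0 0) (.pos 75 .pp ⟨⟨0, 0, 0, 0, 0, 0, 46, 0, 0, ⟨0, 0⟩, 0⟩, 11332577250, 0⟩ 0 0))) (.pos 76 .pp ⟨⟨0, 0, 0, 0, 0, 0, 30, 0, 0, ⟨0, 0⟩, 0⟩, 18985694713, 0⟩ 0 0)) (.cut .v 29360128 (.pos 75 .pp ⟨⟨0, 0, 0, 0, 0, 0, 88, 0, 0, ⟨0, 0⟩, 0⟩, 9296888899, 0⟩ 0 0) (.pos 76 .pp ⟨⟨0, 0, 0, 0, 0, 0, 47, 0, 0, ⟨0, 0⟩, 0⟩, 12868185113, 0⟩ 0 0)))) (.pos 22 .pp ⟨⟨0, 0, 0, 0, 0, 0, 191, 0, 0, ⟨0, 0⟩, 0⟩, 0, 0⟩ 0 0)) (.cut .v 50331648 (.cut .d 53933 (.cut .v 41943040 (.pos 124 .pp ⟨⟨0, 0, 0, 0, 0, 0, 38, 0, 0, ⟨0, 0⟩, 0⟩, 21222802968, 0⟩ 0 0) (.void 125 ⟨⟨0, 0, 0, 0, 0, 0, 0, 0, 0, ⟨0, 0⟩, 0⟩, 100000, 0⟩ 0 0)) (.pos 104 .pp ⟨⟨0, 0, 0, 0, 0, 0, 77, 0,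 0, ⟨0, 0⟩, 0⟩, 14329734944, 0⟩ 0 0)) (.void 105 ⟨⟨0, 0, 0, 51970, 0, 0, 0, 0, 0, ⟨0, 0⟩, 0⟩, 48030, 0⟩ 0 0))) (.cut .v 33554432 (.pos 22 .pp ⟨⟨0, 0, 0, 0, 0, 0, 0, 0, 0, ⟨0, 0⟩, 0⟩, 0, 48⟩ 0 0) (.pos 91 .pp ⟨⟨0, 248260269830, 0, 0, 0, 0, 0, 0, 0, ⟨0, 0⟩, 0⟩, 0, 64⟩ 0 0))) (.void 112 ⟨⟨0, 0, 0, 51970, 0, 0, 0, 0, 0, ⟨0, 0⟩, 0⟩, 48030, 0⟩ 0 0)) (.void 121 ⟨⟨0, 0, 0, 0, 0, 0, 0, 0, 0, ⟨0, 0⟩, 0⟩, 100000, 0⟩ 0 0)) (.void 128 ⟨⟨0, 0, 0, 0, 0, 0, 0, 0, 0, ⟨0, 0⟩, 0⟩, 100000, 0⟩ 0 0)))),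
    by decide +kernel⟩

theorem covers46 : cell.Covers Vale.Agent.P237.Petty.Cor.Grid.N10.table row46.1 :=
  ⟨(.cut .d 0 (.cut .v 16777216 (.cut .v 8388608 (.pos 2 .mm ⟨⟨0, 0, 1677721600000000, 0, 0, 0, 0, 0, 0, ⟨0, 0⟩, 0⟩, 0, 0⟩ 0 0) (.cut .d (-8388608) (.void 3 ⟨⟨0, 0, 82485, 6800, 0, 0, 0, 11166, 0, ⟨(-1), 11966078⟩, 0⟩, 0, 0⟩ 0 127) (.pos 3 .mm ⟨⟨0, 0, 0, 0, 0, 368874422548, 0, 0, 0, ⟨0, 0⟩, 0⟩, 0, 0⟩ 0 0))) (.cut .v 4294967296 (.cut .v 268435456 (.cut .v 67108864 (.cut .v 33554432 (.cut .d (-8388608) (.void 22 ⟨⟨100000, 0, 0, 0, 0, 0, 0, 0, 0, ⟨0, 0⟩, 0⟩, 0, 0⟩ 0 0) (.cut .v 25165824 (.cut .d (-4194304) (.void 23 ⟨⟨100000, 0, 0,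 0, 0, 0, 0, 0, 0, ⟨0, 0⟩, 0⟩, 0, 0⟩ 0 0) (.cut .v 20971520 (.cut .d (-2097152) (.void 25 ⟨⟨100000, 0, 0, 0, 0, 0, 0, 0, 0, ⟨0, 0⟩, 0⟩, 0, 0⟩ 0 0) (.pos 25 .mp ⟨⟨103970985324, 0, 0, 0, 0, 82786262943, 0, 0, 0, ⟨0, 0⟩, 0⟩, 0, 0⟩ 0 0)) (.void 26 ⟨⟨100000, 0, 0, 0, 0, 0, 0, 0, 0, ⟨0, 0⟩, 0⟩, 0, 0⟩ 0 0))) (.void 24 ⟨⟨100000, 0, 0, 0, 0, 0, 0, 0, 0, ⟨0, 0⟩, 0⟩, 0, 0⟩ 0 0))) (.void 91 ⟨⟨100000, 0, 0, 0, 0, 0, 0, 0, 0, ⟨0, 0⟩, 0⟩, 0, 0⟩ 0 0)) (.void 112 ⟨⟨100002, 0, 0, 0, 0, 0, 0, 0, 0, ⟨0, 0⟩, 0⟩, 0, 0⟩ 0 0)) (.pos 121 .mp ⟨⟨1539697403298293, 0, 0, 138024196701707, 0, 0, 0, 0, 0, ⟨0, 0⟩, 0⟩, 0, 0⟩ 0 0)) (.void 128 ⟨⟨99084, 0, 0, 16, 0, 0,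 0, 0, 0, ⟨0, 0⟩, 0⟩, 0, 0⟩ 0 0))) (.cut .v 16777216 (.cut .v 8388608 (.cut .d 82729 (.pos 2 .pm ⟨⟨0, 0, 51746157173, 0, 0, 0, 0, 0, 0, ⟨0, 0⟩, 0⟩, 0, 2⟩ 0 0) (.cut .v 4194304 (.pos 4 .pm ⟨⟨0, 0, 20752283, 0, 2, 0, 0, 0, 0, ⟨0, 0⟩, 0⟩, 0, 0⟩ 0 0) (.pos 5 .pm ⟨⟨0, 0, 29118273856, 0, 0, 0, 0, 0, 0, ⟨0, 0⟩, 0⟩, 0, 7⟩ 0 0))) (.pos 3 .pm ⟨⟨0, 0, 0, 0, 0, 0, 0, 0, 0, ⟨0, 0⟩, 0⟩, 0, 0⟩ 0 0)) (.cut .v 4294967296 (.cut .v 268435456 (.cut .v 67108864 (.cut .v 33554432 (.cut .d 82729 (.cut .d 41364 (.cut .v 25165824 (.cut .d 20682 (.cut .d 10341 (.cut .v 20971520 (.cut .v 18874368 (.cut .d 5170 (.cut .d 2585 (.cut .v 17825792 (.cut .d 1292 (.cut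 .v 17301504 (.cut .s 16629760 (.pos 31 .pp ⟨⟨60110572266, 0, 0, 0, 0, 0, 0, 0, 0, ⟨0, 0⟩, 0⟩, 0, 8⟩ 0 0) (.pos 31 .pp ⟨⟨71210251347, 0, 0, 0, 0, 0, 0, 0, 0, ⟨0, 0⟩, 0⟩, 0, 5⟩ 0 0)) (.pos 32 .pp ⟨⟨82914445811, 0, 0, 0, 0, 0, 0, 0, 0, ⟨0, 0⟩, 0⟩, 0, 5⟩ 0 0)) (.pos 29 .pp ⟨⟨53589742652, 0, 0, 0, 0, 0, 0, 0, 0, ⟨0, 0⟩, 0⟩, 0, 6⟩ 0 0)) (.pos 30 .pp ⟨⟨87769790606, 0, 0, 0, 0, 0, 0, 0, 0, ⟨0, 0⟩, 0⟩, 0, 5⟩ 0 0)) (.pos 27 .pp ⟨⟨57175915090, 0, 0, 0, 0, 0, 0, 0, 0, ⟨0, 0⟩, 0⟩, 0, 7⟩ 0 0)) (.pos 27 .pp ⟨⟨0, 0, 0, 0, 0, 0, 0, 0, 0, ⟨0, 0⟩, 0⟩, 0, 13⟩ 0 0)) (.cut .d 5170 (.pos 28 .pp ⟨⟨101591052513, 0, 0, 0, 0, 0, 0, 0, 0, ⟨0, 0⟩, 0⟩, 0, 6⟩ 0 0)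 (.cut .v 19922944 (.pos 53 .pp ⟨⟨70276817533, 0, 0, 0, 0, 0, 0, 0, 0, ⟨0, 0⟩, 0⟩, 0, 7⟩ 0 0) (.pos 54 .pp ⟨⟨81086421417, 0, 0, 0, 0, 0, 0, 0, 0, ⟨0, 0⟩, 0⟩, 0, 6⟩ 0 0)))) (.cut .v 23068672 (.cut .d 5170 (.void 55 ⟨⟨0, 0, 0, 0, 0, 0, 0, 0, 0, ⟨0, 0⟩, 0⟩, 100000, 0⟩ 0 0) (.cut .d 7755 (.pos 55 .pp ⟨⟨129345160614, 0, 0, 0, 0, 0, 0, 0, 0, ⟨0, 0⟩, 0⟩, 0, 5⟩ 0 0) (.cut .v 22020096 (.pos 57 .pp ⟨⟨91205859538, 0, 0, 0, 0, 0, 0, 0, 0, ⟨0, 0⟩, 0⟩, 0, 7⟩ 0 0) (.pos 58 .pp ⟨⟨0, 0, 0, 0, 0, 0, 0, 0, 0, ⟨0, 0⟩, 0⟩, 15556868554, 6⟩ 0 0)))) (.pos 56 .pp ⟨⟨0, 0, 0, 0, 0, 0, 0, 0, 0, ⟨0, 0⟩, 0⟩, 21626048009, 5⟩ 0 0))) (.cut .v 20971520 (.pos 25 .pp ⟨⟨0,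 0, 0, 0, 0, 0, 0, 0, 0, ⟨0, 0⟩, 0⟩, 0, 20⟩ 0 0) (.cut .v 23068672 (.pos 55 .pp ⟨⟨0, 0, 0, 0, 0, 0, 0, 0, 0, ⟨0, 0⟩, 0⟩, 12056797869, 10⟩ 0 0) (.pos 56 .pp ⟨⟨0, 0, 0, 0, 0, 0, 0, 0, 0, ⟨0, 0⟩, 0⟩, 14818135041, 7⟩ 0 0)))) (.pos 23 .pp ⟨⟨0, 0, 0, 0, 0, 0, 0, 0, 0, ⟨0, 0⟩, 0⟩, 0, 21⟩ 0 0)) (.cut .d 20682 (.cut .v 29360128 (.cut .d 10341 (.void 75 ⟨⟨0, 0, 0, 0, 0, 0, 0, 0, 0, ⟨0, 0⟩, 0⟩, 100000, 0⟩ 0 0) (.pos 75 .pp ⟨⟨0, 0, 0, 0, 0, 0, 0, 0, 0, ⟨0, 0⟩, 0⟩, 19561921131, 6⟩ 0 0)) (.pos 76 .pp ⟨⟨0, 0, 0, 0, 0, 0, 0, 0, 0, ⟨0, 0⟩, 0⟩, 52885023708, 0⟩ 0 0)) (.pos 24 .pp ⟨⟨0, 0, 0, 0, 0, 0, 0, 0, 0, ⟨0, 0⟩, 0⟩, 15829567341, 8⟩ 0 0))) (.pos 22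 .pp ⟨⟨0, 0, 0, 0, 0, 0, 0, 0, 0, ⟨0, 0⟩, 0⟩, 0, 24⟩ 0 0)) (.pos 22 .pp ⟨⟨0, 0, 0, 0, 0, 0, 0, 0, 0, ⟨0, 0⟩, 0⟩, 0, 18⟩ 0 0)) (.cut .v 50331648 (.cut .d 82729 (.cut .d 41364 (.pos 104 .pp ⟨⟨0, 0, 0, 0, 0, 0, 0, 0, 0, ⟨0, 0⟩, 0⟩, 33547459967, 4⟩ 0 0) (.pos 104 .pp ⟨⟨0, 0, 0, 0, 0, 0, 0, 0, 0, ⟨0, 0⟩, 0⟩, 21147175070, 7⟩ 0 0)) (.pos 104 .pp ⟨⟨0, 220209791563, 0, 0, 0, 0, 0, 0, 0, ⟨0, 0⟩, 0⟩, 0, 24⟩ 0 0)) (.void 105 ⟨⟨0, 0, 0, 52011, 0, 0, 0, 0, 0, ⟨0, 0⟩, 0⟩, 47989, 0⟩ 0 0))) (.void 112 ⟨⟨0, 0, 30269, 37749, 0, 0, 0, 0, 0, ⟨0, 0⟩, 0⟩, 32264, 0⟩ 0 0)) (.void 121 ⟨⟨0, 0, 0, 0, 0, 0, 0, 0, 0, ⟨0, 0⟩, 0⟩, 100000, 0⟩ 0 0)) (.void 128 ⟨⟨0, 0,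 0, 0, 0, 0, 0, 0, 0, ⟨0, 0⟩, 0⟩, 100000, 0⟩ 0 0)))),
    by decide +kernel⟩

theorem covers47 : cell.Covers Vale.Agent.P237.Petty.Cor.Grid.N10.table row47.1 :=
  ⟨(.cut .d 0 (.cut .v 16777216 (.cut .v 8388608 (.pos 2 .mm ⟨⟨0, 0, 1677721600000000, 0, 0, 0, 0, 0, 0, ⟨0, 0⟩, 0⟩, 0, 0⟩ 0 0) (.cut .d (-8388608) (.void 3 ⟨⟨99219, 0, 0, 0, 0, 0, 0, 0, 0, ⟨0, 0⟩, 0⟩, 0, 0⟩ 0 0) (.pos 3 .mm ⟨⟨0, 0, 0, 0, 0, 437306068524, 0, 0, 0, ⟨0, 0⟩, 0⟩, 0, 0⟩ 0 0))) (.cut .d (-8388608) (.void 127 ⟨⟨89046, 0, 5095, 4670, 0, 0, 0, 0, 0, ⟨0, 0⟩, 0⟩, 0, 0⟩ 0 0) (.cut .d (-4194304) (.void 127 ⟨⟨99960, 0, 0, 11, 0, 0, 0, 0, 0, ⟨0, 0⟩, 0⟩, 0, 0⟩ 0 0) (.cut .v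 4294967296 (.cut .v 268435456 (.cut .v 67108864 (.cut .v 33554432 (.cut .v 25165824 (.cut .v 20971520 (.pos 25 .mp ⟨⟨126702556165, 0, 0, 0, 0, 184215960320, 0, 0, 0, ⟨0, 0⟩, 0⟩, 0, 0⟩ 0 0) (.void 26 ⟨⟨100000, 0, 0, 0, 0, 0, 0, 0, 0, ⟨0, 0⟩, 0⟩, 0, 0⟩ 0 0)) (.void 24 ⟨⟨100000, 0, 0, 0, 0, 0, 0, 0, 0, ⟨0, 0⟩, 0⟩, 0, 0⟩ 0 0)) (.void 91 ⟨⟨100000, 0, 0, 0, 0, 0, 0, 0, 0, ⟨0, 0⟩, 0⟩, 0, 0⟩ 0 0)) (.void 112 ⟨⟨100000, 0, 0, 0, 0, 0, 0, 0, 0, ⟨0, 0⟩, 0⟩, 0, 0⟩ 0 0)) (.void 121 ⟨⟨86356, 0, 0, 13644, 0, 0, 0, 0, 0, ⟨0, 0⟩, 0⟩, 0, 0⟩ 0 0)) (.void 128 ⟨⟨0, 0, 0, 100000, 0, 0, 0, 0, 0, ⟨0, 0⟩, 0⟩, 0, 0⟩ 0 0))))) (.cut .v 16777216 (.cut .v 8388608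 (.cut .d 66053 (.pos 2 .pm ⟨⟨0, 0, 63968442795, 0, 0, 0, 0, 0, 0, ⟨0, 0⟩, 0⟩, 0, 1⟩ 0 0) (.cut .s 16654336 (.cut .d 99080 (.pos 2 .pm ⟨⟨0, 0, 32801033189, 0, 0, 0, 0, 0, 0, ⟨0, 0⟩, 0⟩, 0, 0⟩ 0 0) (.pos 2 .pm ⟨⟨0, 0, 20654702, 0, 6, 0, 0, 0, 0, ⟨0, 0⟩, 0⟩, 0, 0⟩ 0 0)) (.pos 2 .pm ⟨⟨0, 0, 20664857, 0, 1, 0, 0, 0, 0, ⟨0, 0⟩, 0⟩, 0, 0⟩ 0 0))) (.pos 3 .pm ⟨⟨0, 0, 0, 0, 0, 0, 0, 0, 0, ⟨0, 0⟩, 0⟩, 0, 0⟩ 0 0)) (.cut .v 4294967296 (.cut .v 268435456 (.cut .v 67108864 (.cut .v 33554432 (.cut .d 66053 (.cut .d 33026 (.cut .v 25165824 (.cut .d 16513 (.cut .v 20971520 (.cut .d 8256 (.cut .v 18874368 (.cut .d 4128 (.cut .v 17825792 (.cut .s 16654336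 (.pos 29 .pp ⟨⟨84304029634, 0, 0, 0, 0, 0, 0, 0, 0, ⟨0, 0⟩, 0⟩, 0, 4⟩ 0 0) (.pos 29 .pp ⟨⟨93180877991, 0, 0, 0, 0, 0, 0, 0, 0, ⟨0, 0⟩, 0⟩, 0, 3⟩ 0 0)) (.pos 30 .pp ⟨⟨102374139357, 0, 0, 0, 0, 0, 0, 0, 0, ⟨0, 0⟩, 0⟩, 0, 3⟩ 0 0)) (.pos 27 .pp ⟨⟨0, 0, 0, 0, 0, 0, 0, 0, 0, ⟨0, 0⟩, 0⟩, 0, 7⟩ 0 0)) (.cut .d 4128 (.pos 28 .pp ⟨⟨126993131768, 0, 0, 0, 0, 0, 0, 0, 0, ⟨0, 0⟩, 0⟩, 0, 3⟩ 0 0) (.pos 28 .pp ⟨⟨104206196719, 0, 0, 0, 0, 0, 8, 0, 0, ⟨0, 0⟩, 0⟩, 0, 0⟩ 0 0))) (.pos 25 .pp ⟨⟨0, 0, 0, 0, 0, 0, 0, 0, 0, ⟨0, 0⟩, 0⟩, 0, 9⟩ 0 0)) (.cut .d 8256 (.cut .v 23068672 (.cut .v 22020096 (.pos 57 .pp ⟨⟨133631313304, 0, 0, 0, 0, 0, 8, 0, 0, ⟨0, 0⟩, 0⟩,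 0, 0⟩ 0 0) (.pos 58 .pp ⟨⟨0, 0, 0, 0, 0, 0, 8, 0, 0, ⟨0, 0⟩, 0⟩, 23118359571, 0⟩ 0 0)) (.pos 56 .pp ⟨⟨0, 0, 0, 0, 0, 0, 0, 0, 0, ⟨0, 0⟩, 0⟩, 65577055627, 0⟩ 0 0)) (.cut .v 23068672 (.pos 55 .pp ⟨⟨0, 0, 0, 0, 0, 0, 11, 0, 0, ⟨0, 0⟩, 0⟩, 16496621051, 0⟩ 0 0) (.pos 56 .pp ⟨⟨0, 0, 0, 0, 0, 0, 9, 0, 0, ⟨0, 0⟩, 0⟩, 20492827045, 0⟩ 0 0)))) (.pos 23 .pp ⟨⟨0, 0, 0, 0, 0, 0, 0, 0, 0, ⟨0, 0⟩, 0⟩, 0, 9⟩ 0 0)) (.cut .d 16513 (.cut .v 29360128 (.pos 75 .pp ⟨⟨0, 0, 0, 0, 0, 0, 9, 0, 0, ⟨0, 0⟩, 0⟩, 27239511868, 0⟩ 0 0) (.void 76 ⟨⟨0, 0, 0, 0, 0, 0, 0, 0, 0, ⟨0, 0⟩, 0⟩, 100000, 0⟩ 0 0)) (.pos 24 .pp ⟨⟨0, 0, 0, 0, 0, 0, 12, 0, 0, ⟨0, 0⟩, 0⟩, 21939139503,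 0⟩ 0 0))) (.pos 22 .pp ⟨⟨0, 0, 0, 0, 0, 0, 31, 0, 0, ⟨0, 0⟩, 0⟩, 0, 0⟩ 0 0)) (.pos 22 .pp ⟨⟨0, 0, 0, 0, 0, 0, 0, 0, 0, ⟨0, 0⟩, 0⟩, 0, 8⟩ 0 0)) (.cut .v 50331648 (.cut .d 66053 (.cut .d 33026 (.pos 104 .pp ⟨⟨0, 0, 0, 0, 0, 0, 7, 0, 0, ⟨0, 0⟩, 0⟩, 41697665972, 0⟩ 0 0) (.pos 104 .pp ⟨⟨0, 0, 0, 0, 0, 0, 14, 0, 0, ⟨0, 0⟩, 0⟩, 29348224378, 0⟩ 0 0)) (.pos 104 .pp ⟨⟨0, 310757595170, 0, 0, 0, 0, 0, 0, 0, ⟨0, 0⟩, 0⟩, 0, 10⟩ 0 0)) (.void 105 ⟨⟨0, 0, 0, 52031, 0, 0, 0, 0, 0, ⟨0, 0⟩, 0⟩, 47969, 0⟩ 0 0))) (.pos 112 .pp ⟨⟨0, 0, 0, 872906169472980, 0, 0, 0, 0, 0, ⟨0, 0⟩, 0⟩, 804815430527020, 0⟩ 0 0)) (.void 121 ⟨⟨0, 0, 0, 0, 0, 0, 0, 0, 0, ⟨0, 0⟩,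 0⟩, 100000, 0⟩ 0 0)) (.void 128 ⟨⟨0, 0, 0, 0, 0, 0, 0, 0, 0, ⟨0, 0⟩, 0⟩, 100000, 0⟩ 0 0)))),
    by decide +kernel⟩

theorem covers48 : cell.Covers Vale.Agent.P237.Petty.Cor.Grid.N10.table row48.1 :=
  ⟨(.cut .d 0 (.cut .v 16777216 (.cut .v 8388608 (.pos 2 .mm ⟨⟨0, 0, 1677721600000000, 0, 0, 0, 0, 0, 0, ⟨0, 0⟩, 0⟩, 0, 0⟩ 0 0) (.cut .d (-8388608) (.void 3 ⟨⟨100000, 0, 0, 0, 0, 0, 0, 0, 0, ⟨0, 0⟩, 0⟩, 0, 0⟩ 0 0) (.pos 3 .mm ⟨⟨0, 0, 0, 0, 0, 674317642465, 0, 0, 0, ⟨0, 0⟩, 0⟩, 0, 0⟩ 0 0))) (.cut .v 4294967296 (.cut .v 268435456 (.cut .v 67108864 (.cut .v 33554432 (.cut .d (-8388608) (.void 22 ⟨⟨99575, 0, 0, 0, 0, 0, 0, 0, 0, ⟨0, 0⟩, 0⟩,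 0, 0⟩ 0 0) (.cut .v 25165824 (.cut .d (-4194304) (.void 23 ⟨⟨100000, 0, 0, 0, 0, 0, 0, 0, 0, ⟨0, 0⟩, 0⟩, 0, 0⟩ 0 0) (.cut .v 20971520 (.cut .s 16678912 (.pos 25 .mp ⟨⟨159608190743, 0, 0, 0, 0, 221964448757, 0, 0, 0, ⟨0, 0⟩, 0⟩, 0, 0⟩ 0 0) (.pos 25 .mp ⟨⟨209448838292, 0, 0, 0, 0, 274350129839, 0, 0, 0, ⟨0, 0⟩, 0⟩, 0, 0⟩ 0 0)) (.void 26 ⟨⟨100000, 0, 0, 0, 0, 0, 0, 0, 0, ⟨0, 0⟩, 0⟩, 0, 0⟩ 0 0))) (.void 24 ⟨⟨100000, 0, 0, 0, 0, 0, 0, 0, 0, ⟨0, 0⟩, 0⟩, 0, 0⟩ 0 0))) (.pos 91 .mp ⟨⟨1677721599996564, 0, 0, 0, 0, 0, 0, 0, 0, ⟨0, 0⟩, 0⟩, 0, 0⟩ 0 0)) (.pos 112 .mp ⟨⟨1677721600006006, 0, 0, 0, 0, 0, 0, 0, 0, ⟨0, 0⟩, 0⟩, 0, 0⟩ 0 0)) (.pos 121 .mp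 ⟨⟨1543392822189161, 0, 0, 134328777811896, 0, 0, 0, 0, 0, ⟨0, 0⟩, 0⟩, 0, 0⟩ 0 0)) (.void 128 ⟨⟨110504, 0, 0, 8954, 0, 0, 0, 0, 0, ⟨0, 0⟩, 0⟩, 0, 0⟩ 0 0))) (.cut .v 16777216 (.cut .v 8388608 (.cut .d 57740 (.pos 2 .pm ⟨⟨0, 0, 89871382016, 0, 0, 0, 0, 0, 0, ⟨0, 0⟩, 0⟩, 0, 0⟩ 0 0) (.pos 2 .pm ⟨⟨0, 0, 20464534, 0, 0, 0, 0, 0, 0, ⟨0, 0⟩, 0⟩, 0, 0⟩ 0 0)) (.pos 3 .pm ⟨⟨0, 0, 0, 0, 0, 0, 0, 0, 0, ⟨0, 0⟩, 0⟩, 0, 0⟩ 0 0)) (.cut .v 4294967296 (.cut .v 268435456 (.cut .v 67108864 (.cut .d 57740 (.cut .v 33554432 (.cut .d 28870 (.cut .v 25165824 (.cut .d 14435 (.cut .d 7217 (.cut .v 20971520 (.cut .d 3608 (.cut .v 18874368 (.cut .d 1804 (.cut .l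 184549 (.cut .v 17825792 (.cut .d 902 (.cut .l 92274 (.cut .v 17301504 (.cut .d 451 (.cut .l 46137 (.cut .v 17039360 (.cut .d 225 (.cut .l 23068 (.cut .v 16908288 (.cut .d 112 (.cut .l 11534 (.cut .v 16842752 (.cut .d 56 (.cut .l 5767 (.cut .v 16809984 (.cut .l 2883 (.cut .s 16678912 (.cut .s 16670720 (.pos 49 .pp ⟨⟨99756207311, 0, 0, 0, 0, 0, 0, 0, 0, ⟨0, 0⟩, 0⟩, 0, 2⟩ 0 0) (.pos 49 .pp ⟨⟨111773748235, 0, 0, 0, 0, 0, 0, 0, 0, ⟨0, 0⟩, 0⟩, 0, 1⟩ 0 0)) (.cut .s 16687104 (.pos 49 .pp ⟨⟨127106524500, 0, 0, 0, 0, 0, 0, 0, 0, ⟨0, 0⟩, 0⟩, 0, 1⟩ 0 0) (.cut .l 1441 (.cut .l 720 (.pos 49 .pp ⟨⟨146044696779, 0, 0, 0, 0, 0, 0, 0, 0, ⟨0, 0⟩, 0⟩,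 0, 0⟩ 0 0) (.pos 49 .pp ⟨⟨83877139866, 0, 0, 0, 0, 0, 0, 0, 0, ⟨0, 0⟩, 0⟩, 11152877127, 0⟩ 0 0)) (.pos 49 .pp ⟨⟨80206640177, 0, 0, 0, 0, 0, 0, 0, 0, ⟨0, 0⟩, 0⟩, 11764076521, 0⟩ 0 0)))) (.pos 49 .pp ⟨⟨111769427121, 0, 0, 0, 0, 0, 0, 0, 0, ⟨0, 0⟩, 0⟩, 0, 0⟩ 0 0)) (.pos 50 .pp ⟨⟨152697788872, 0, 0, 0, 0, 0, 0, 0, 0, ⟨0, 0⟩, 0⟩, 0, 1⟩ 0 0)) (.pos 45 .pp ⟨⟨115047921392, 0, 0, 0, 0, 0, 0, 0, 0, ⟨0, 0⟩, 0⟩, 0, 0⟩ 0 0)) (.pos 45 .pp ⟨⟨88737389591, 0, 0, 0, 0, 0, 0, 0, 0, ⟨0, 0⟩, 0⟩, 0, 1⟩ 0 0)) (.pos 46 .pp ⟨⟨152992207015, 0, 0, 0, 0, 0, 0, 0, 0, ⟨0, 0⟩, 0⟩, 0, 1⟩ 0 0)) (.pos 35 .pp ⟨⟨115447349559, 0, 0, 0, 0, 0, 0, 0, 0, ⟨0, 0⟩, 0⟩, 0, 0⟩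 0 0)) (.pos 35 .pp ⟨⟨89108310305, 0, 0, 0, 0, 0, 0, 0, 0, ⟨0, 0⟩, 0⟩, 0, 1⟩ 0 0)) (.pos 36 .pp ⟨⟨153408524651, 0, 0, 0, 0, 0, 0, 0, 0, ⟨0, 0⟩, 0⟩, 0, 1⟩ 0 0)) (.pos 33 .pp ⟨⟨116225688779, 0, 0, 0, 0, 0, 0, 0, 0, ⟨0, 0⟩, 0⟩, 0, 0⟩ 0 0)) (.pos 33 .pp ⟨⟨89788896682, 0, 0, 0, 0, 0, 0, 0, 0, ⟨0, 0⟩, 0⟩, 0, 1⟩ 0 0)) (.pos 34 .pp ⟨⟨154441508778, 0, 0, 0, 0, 0, 0, 0, 0, ⟨0, 0⟩, 0⟩, 0, 1⟩ 0 0)) (.pos 31 .pp ⟨⟨117818587062, 0, 0, 0, 0, 0, 0, 0, 0, ⟨0, 0⟩, 0⟩, 0, 0⟩ 0 0)) (.pos 31 .pp ⟨⟨91251843072, 0, 0, 0, 0, 0, 0, 0, 0, ⟨0, 0⟩, 0⟩, 0, 1⟩ 0 0)) (.pos 32 .pp ⟨⟨157384532537, 0, 0, 0, 0, 0, 0, 0, 0, ⟨0, 0⟩, 0⟩, 0, 1⟩ 0 0)) (.pos 29 .pp ⟨⟨121057350814,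 0, 0, 0, 0, 0, 0, 0, 0, ⟨0, 0⟩, 0⟩, 0, 0⟩ 0 0)) (.pos 29 .pp ⟨⟨94299664786, 0, 0, 0, 0, 0, 0, 0, 0, ⟨0, 0⟩, 0⟩, 0, 1⟩ 0 0)) (.cut .s 16678912 (.pos 30 .pp ⟨⟨136416546258, 0, 0, 0, 0, 0, 0, 0, 0, ⟨0, 0⟩, 0⟩, 0, 2⟩ 0 0) (.pos 30 .pp ⟨⟨174848423482, 0, 0, 0, 0, 0, 0, 0, 0, ⟨0, 0⟩, 0⟩, 0, 1⟩ 0 0))) (.pos 27 .pp ⟨⟨127658640392, 0, 0, 0, 0, 0, 0, 0, 0, ⟨0, 0⟩, 0⟩, 0, 0⟩ 0 0)) (.pos 27 .pp ⟨⟨100631899543, 0, 0, 0, 0, 0, 0, 0, 0, ⟨0, 0⟩, 0⟩, 0, 1⟩ 0 0)) (.cut .s 16678912 (.pos 28 .pp ⟨⟨158247342299, 0, 0, 0, 0, 0, 0, 0, 0, ⟨0, 0⟩, 0⟩, 0, 2⟩ 0 0) (.cut .s 16687104 (.pos 28 .pp ⟨⟨179999773514, 0, 0, 0, 0, 0, 0, 0, 0, ⟨0, 0⟩, 0⟩, 0, 1⟩ 0 0) (.pos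 28 .pp ⟨⟨205223182355, 0, 0, 0, 0, 0, 0, 0, 0, ⟨0, 0⟩, 0⟩, 0, 1⟩ 0 0)))) (.cut .v 18874368 (.pos 27 .pp ⟨⟨0, 0, 0, 0, 0, 0, 0, 0, 0, ⟨0, 0⟩, 0⟩, 0, 3⟩ 0 0) (.cut .s 16678912 (.pos 28 .pp ⟨⟨127262673434, 0, 0, 0, 0, 0, 0, 0, 0, ⟨0, 0⟩, 0⟩, 0, 2⟩ 0 0) (.pos 28 .pp ⟨⟨154281957250, 0, 0, 0, 0, 0, 0, 0, 0, ⟨0, 0⟩, 0⟩, 0, 1⟩ 0 0)))) (.cut .v 23068672 (.cut .d 3608 (.pos 55 .pp ⟨⟨661104492603, 0, 0, 0, 0, 0, 0, 0, 0, ⟨0, 0⟩, 0⟩, 0, 0⟩ 0 0) (.cut .l 184549 (.cut .d 5412 (.cut .s 16678912 (.pos 55 .pp ⟨⟨205701356619, 0, 0, 0, 0, 0, 0, 0, 0, ⟨0, 0⟩, 0⟩, 0, 2⟩ 0 0) (.cut .v 22020096 (.pos 57 .pp ⟨⟨216114166344, 0, 0, 0, 0, 0, 0, 0, 0, ⟨0, 0⟩,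 0⟩, 0, 1⟩ 0 0) (.pos 58 .pp ⟨⟨0, 0, 0, 0, 0, 0, 0, 0, 0, ⟨0, 0⟩, 0⟩, 36729113071, 1⟩ 0 0))) (.cut .s 16678912 (.cut .v 22020096 (.pos 57 .pp ⟨⟨138635001906, 0, 0, 0, 0, 0, 0, 0, 0, ⟨0, 0⟩, 0⟩, 1971233287, 2⟩ 0 0) (.pos 58 .pp ⟨⟨0, 0, 0, 0, 0, 0, 5, 0, 0, ⟨0, 0⟩, 0⟩, 25539587463, 0⟩ 0 0)) (.pos 55 .pp ⟨⟨0, 0, 0, 0, 0, 0, 3, 0, 0, ⟨0, 0⟩, 0⟩, 27471697091, 0⟩ 0 0))) (.pos 55 .pp ⟨⟨0, 0, 0, 0, 0, 0, 0, 0, 0, ⟨0, 0⟩, 0⟩, 27628561299, 0⟩ 0 0))) (.pos 56 .pp ⟨⟨0, 0, 0, 0, 0, 0, 2, 0, 0, ⟨0, 0⟩, 0⟩, 40134615311, 0⟩ 0 0))) (.cut .v 20971520 (.pos 25 .pp ⟨⟨0, 0, 0, 0, 0, 0, 0, 0, 0, ⟨0, 0⟩, 0⟩, 0, 4⟩ 0 0) (.cut .s 16678912 (.cut .v 23068672 (.pos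 55 .pp ⟨⟨0, 0, 0, 0, 0, 0, 6, 0, 0, ⟨0, 0⟩, 0⟩, 20816920003, 0⟩ 0 0) (.pos 56 .pp ⟨⟨0, 0, 0, 0, 0, 0, 5, 0, 0, ⟨0, 0⟩, 0⟩, 25049544681, 0⟩ 0 0)) (.pos 26 .pp ⟨⟨0, 0, 0, 0, 0, 0, 3, 0, 0, ⟨0, 0⟩, 0⟩, 26789907024, 0⟩ 0 0)))) (.pos 23 .pp ⟨⟨0, 0, 0, 0, 0, 0, 0, 0, 0, ⟨0, 0⟩, 0⟩, 0, 5⟩ 0 0)) (.cut .d 14435 (.cut .v 29360128 (.cut .d 7217 (.void 75 ⟨⟨0, 0, 0, 0, 0, 0, 0, 0, 0, ⟨0, 0⟩, 0⟩, 100000, 0⟩ 0 0) (.cut .d 10826 (.pos 75 .pp ⟨⟨0, 0, 0, 0, 0, 0, 3, 0, 0, ⟨0, 0⟩, 0⟩, 38217333526, 0⟩ 0 0) (.pos 75 .pp ⟨⟨0, 0, 0, 0, 0, 0, 4, 0, 0, ⟨0, 0⟩, 0⟩, 29968164919, 0⟩ 0 0))) (.pos 76 .pp ⟨⟨0, 0, 0, 0, 0, 0, 2, 0, 0, ⟨0, 0⟩, 0⟩, 55196775200, 0⟩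 0 0)) (.cut .v 29360128 (.pos 75 .pp ⟨⟨0, 0, 0, 0, 0, 0, 8, 0, 0, ⟨0, 0⟩, 0⟩, 24859166585, 0⟩ 0 0) (.pos 76 .pp ⟨⟨0, 0, 0, 0, 0, 0, 5, 0, 0, ⟨0, 0⟩, 0⟩, 33368284834, 0⟩ 0 0)))) (.pos 22 .pp ⟨⟨0, 0, 0, 0, 0, 0, 17, 0, 0, ⟨0, 0⟩, 0⟩, 0, 0⟩ 0 0)) (.cut .v 50331648 (.cut .d 28870 (.cut .v 41943040 (.cut .s 16678912 (.pos 124 .pp ⟨⟨0, 0, 0, 0, 0, 0, 5, 0, 0, ⟨0, 0⟩, 0⟩, 46627283288, 0⟩ 0 0) (.pos 124 .pp ⟨⟨0, 0, 0, 0, 0, 0, 3, 0, 0, ⟨0, 0⟩, 0⟩, 59648193720, 0⟩ 0 0)) (.void 125 ⟨⟨0, 0, 0, 0, 0, 0, 0, 0, 0, ⟨0, 0⟩, 0⟩, 100000, 0⟩ 0 0)) (.pos 104 .pp ⟨⟨0, 0, 0, 0, 0, 0, 7, 0, 0, ⟨0, 0⟩, 0⟩, 37362276741, 0⟩ 0 0)) (.void 105 ⟨⟨0, 0, 0, 51731,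 0, 0, 0, 0, 0, ⟨0, 0⟩, 0⟩, 47197, 0⟩ 0 0))) (.cut .v 33554432 (.pos 22 .pp ⟨⟨0, 0, 0, 0, 0, 0, 0, 0, 0, ⟨0, 0⟩, 0⟩, 0, 4⟩ 0 0) (.pos 91 .pp ⟨⟨0, 651126549630, 0, 0, 0, 0, 0, 0, 0, ⟨0, 0⟩, 0⟩, 0, 6⟩ 0 0))) (.void 112 ⟨⟨0, 0, 0, 52072, 0, 0, 0, 0, 0, ⟨0, 0⟩, 0⟩, 47928, 0⟩ 0 0)) (.void 121 ⟨⟨0, 0, 0, 0, 0, 0, 0, 0, 0, ⟨0, 0⟩, 0⟩, 100000, 0⟩ 0 0)) (.void 128 ⟨⟨0, 0, 0, 0, 0, 0, 0, 0, 0, ⟨0, 0⟩, 0⟩, 100000, 0⟩ 0 0)))),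
    by decide +kernel⟩

theorem covers49 : cell.Covers Vale.Agent.P237.Petty.Cor.Grid.N10.table row49.1 :=
  ⟨(.cut .d 0 (.cut .v 16777216 (.cut .v 8388608 (.void 2 ⟨⟨0, 0, 100000, 0, 0, 0, 0, 0, 0, ⟨0, 0⟩, 0⟩, 0, 0⟩ 0 0) (.cut .d (-8388608) (.void 3 ⟨⟨99999, 0, 0, 0, 0, 0, 0, 0, 0, ⟨0, 0⟩, 0⟩, 0, 0⟩ 0 0) (.pos 3 .mm ⟨⟨0, 0, 0, 0, 0, 896950978825, 0, 0, 0, ⟨0, 0⟩, 0⟩, 0, 0⟩ 0 0))) (.cut .v 4294967296 (.cut .v 268435456 (.cut .v 67108864 (.cut .v 33554432 (.cut .d (-8388608) (.void 22 ⟨⟨95666, 0, 0, 4328, 0, 0, 0, 0, 0, ⟨0, 0⟩, 0⟩, 0, 0⟩ 0 0) (.cut .v 25165824 (.cut .d (-4194304) (.void 23 ⟨⟨100000, 0, 0, 0, 0, 0, 0, 0, 0, ⟨0, 0⟩, 0⟩,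 0, 0⟩ 0 0) (.cut .v 20971520 (.pos 25 .mp ⟨⟨291356918675, 0, 0, 0, 0, 356024487843, 0, 0, 0, ⟨0, 0⟩, 0⟩, 0, 0⟩ 0 0) (.void 26 ⟨⟨100000, 0, 0, 0, 0, 0, 0, 0, 0, ⟨0, 0⟩, 0⟩, 0, 0⟩ 0 0))) (.void 24 ⟨⟨100000, 0, 0, 0, 0, 0, 0, 0, 0, ⟨0, 0⟩, 0⟩, 0, 0⟩ 0 0))) (.void 91 ⟨⟨100000, 0, 0, 0, 0, 0, 0, 0, 0, ⟨0, 0⟩, 0⟩, 0, 0⟩ 0 0)) (.void 112 ⟨⟨99988, 0, 0, 0, 0, 0, 0, 0, 0, ⟨0, 0⟩, 0⟩, 0, 0⟩ 0 0)) (.void 121 ⟨⟨91707, 0, 0, 8303, 0, 0, 0, 0, 0, ⟨0, 0⟩, 0⟩, 0, 0⟩ 0 0)) (.void 128 ⟨⟨83407, 0, 8709, 7972, 0, 0, 0, 0, 0, ⟨0, 0⟩, 0⟩, 0, 0⟩ 0 0))) (.cut .v 16777216 (.cut .v 8388608 (.cut .d 41162 (.pos 2 .pm ⟨⟨0, 0, 148837324586, 0, 0, 0, 0, 0, 0, ⟨0,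 0⟩, 0⟩, 0, 0⟩ 0 0) (.pos 2 .pm ⟨⟨0, 0, 20564351, 0, 0, 0, 0, 0, 0, ⟨0, 0⟩, 0⟩, 0, 0⟩ 0 0)) (.pos 3 .pm ⟨⟨0, 0, 0, 0, 0, 0, 0, 0, 0, ⟨0, 0⟩, 0⟩, 0, 0⟩ 0 0)) (.cut .v 4294967296 (.cut .v 268435456 (.cut .v 67108864 (.cut .v 33554432 (.cut .d 41162 (.cut .d 20581 (.cut .v 25165824 (.cut .d 10290 (.cut .d 5145 (.cut .v 20971520 (.cut .v 18874368 (.cut .d 2572 (.cut .d 1286 (.cut .l 184549 (.cut .v 17825792 (.cut .d 643 (.cut .l 92274 (.cut .v 17301504 (.cut .s 16703488 (.pos 31 .pp ⟨⟨169360601510, 0, 0, 0, 0, 0, 1, 0, 0, ⟨0, 0⟩, 0⟩, 0, 0⟩ 0 0) (.cut .l 46137 (.cut .l 23068 (.cut .l 11534 (.cut .s 16707584 (.pos 31 .pp ⟨⟨193874421639, 0,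 0, 0, 0, 0, 0, 0, 0, ⟨0, 0⟩, 0⟩, 0, 0⟩ 0 0) (.pos 31 .pp ⟨⟨212078546761, 0, 0, 0, 0, 0, 0, 0, 0, ⟨0, 0⟩, 0⟩, 0, 0⟩ 0 0)) (.pos 31 .pp ⟨⟨172303042730, 0, 0, 0, 0, 0, 0, 0, 0, ⟨0, 0⟩, 0⟩, 5188405824, 0⟩ 0 0)) (.pos 31 .pp ⟨⟨162936633722, 0, 0, 0, 0, 0, 0, 0, 0, ⟨0, 0⟩, 0⟩, 6748353791, 0⟩ 0 0)) (.pos 31 .pp ⟨⟨144541556199, 0, 0, 0, 0, 0, 0, 0, 0, ⟨0, 0⟩, 0⟩, 9812000035, 0⟩ 0 0))) (.pos 32 .pp ⟨⟨233755796803, 0, 0, 0, 0, 0, 1, 0, 0, ⟨0, 0⟩, 0⟩, 0, 0⟩ 0 0)) (.pos 29 .pp ⟨⟨184976017442, 0, 0, 0, 0, 0, 0, 0, 0, ⟨0, 0⟩, 0⟩, 0, 0⟩ 0 0)) (.pos 29 .pp ⟨⟨150863443155, 0, 0, 0, 0, 0, 1, 0, 0, ⟨0, 0⟩, 0⟩, 0, 0⟩ 0 0)) (.pos 30 .pp ⟨⟨247307062523,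 0, 0, 0, 0, 0, 1, 0, 0, ⟨0, 0⟩, 0⟩, 0, 0⟩ 0 0)) (.pos 27 .pp ⟨⟨194991087496, 0, 0, 0, 0, 0, 0, 0, 0, ⟨0, 0⟩, 0⟩, 0, 0⟩ 0 0)) (.pos 27 .pp ⟨⟨160999264568, 0, 0, 0, 0, 0, 1, 0, 0, ⟨0, 0⟩, 0⟩, 0, 0⟩ 0 0)) (.pos 27 .pp ⟨⟨0, 0, 0, 0, 0, 0, 2, 0, 0, ⟨0, 0⟩, 0⟩, 0, 0⟩ 0 0)) (.cut .d 2572 (.cut .d 1286 (.void 28 ⟨⟨100000, 0, 0, 0, 0, 0, 0, 0, 0, ⟨0, 0⟩, 0⟩, 0, 0⟩ 0 0) (.pos 28 .pp ⟨⟨277481108950, 0, 0, 0, 0, 0, 1, 0, 0, ⟨0, 0⟩, 0⟩, 0, 0⟩ 0 0)) (.pos 28 .pp ⟨⟨212007730781, 0, 0, 0, 0, 0, 1, 0, 0, ⟨0, 0⟩, 0⟩, 0, 0⟩ 0 0))) (.cut .v 23068672 (.cut .d 2572 (.void 55 ⟨⟨0, 0, 0, 0, 0, 0, 0, 0, 0, ⟨0, 0⟩, 0⟩, 100000, 0⟩ 0 0) (.cut .v 22020096 (.cut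 .d 3858 (.pos 57 .pp ⟨⟨309646145414, 0, 0, 0, 0, 0, 1, 0, 0, ⟨0, 0⟩, 0⟩, 0, 0⟩ 0 0) (.pos 57 .pp ⟨⟨256893273022, 0, 0, 0, 0, 0, 1, 0, 0, ⟨0, 0⟩, 0⟩, 0, 0⟩ 0 0)) (.pos 58 .pp ⟨⟨0, 0, 0, 0, 0, 0, 1, 0, 0, ⟨0, 0⟩, 0⟩, 48969966254, 0⟩ 0 0))) (.pos 56 .pp ⟨⟨0, 0, 0, 0, 0, 0, 1, 0, 0, ⟨0, 0⟩, 0⟩, 61081164108, 0⟩ 0 0))) (.cut .v 20971520 (.pos 25 .pp ⟨⟨0, 0, 0, 0, 0, 0, 3, 0, 0, ⟨0, 0⟩, 0⟩, 0, 0⟩ 0 0) (.cut .v 23068672 (.cut .v 22020096 (.pos 57 .pp ⟨⟨0, 0, 0, 0, 0, 0, 3, 0, 0, ⟨0, 0⟩, 0⟩, 0, 0⟩ 0 0) (.pos 58 .pp ⟨⟨0, 0, 0, 0, 0, 0, 1, 0, 0, ⟨0, 0⟩, 0⟩, 38022907133, 0⟩ 0 0)) (.pos 56 .pp ⟨⟨0, 0, 0, 0, 0, 0, 1, 0, 0, ⟨0, 0⟩, 0⟩, 41824066529,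 0⟩ 0 0)))) (.pos 23 .pp ⟨⟨0, 0, 0, 0, 0, 0, 4, 0, 0, ⟨0, 0⟩, 0⟩, 0, 0⟩ 0 0)) (.cut .d 10290 (.cut .v 29360128 (.cut .d 5145 (.void 75 ⟨⟨0, 0, 0, 0, 0, 0, 0, 0, 0, ⟨0, 0⟩, 0⟩, 100000, 0⟩ 0 0) (.pos 75 .pp ⟨⟨0, 0, 0, 0, 0, 0, 1, 0, 0, ⟨0, 0⟩, 0⟩, 55161748661, 0⟩ 0 0)) (.pos 76 .pp ⟨⟨0, 0, 0, 0, 0, 0, 0, 0, 0, ⟨0, 0⟩, 0⟩, 159666897387, 0⟩ 0 0)) (.cut .v 29360128 (.pos 75 .pp ⟨⟨0, 0, 0, 0, 0, 0, 2, 0, 0, ⟨0, 0⟩, 0⟩, 38370197212, 0⟩ 0 0) (.pos 76 .pp ⟨⟨0, 0, 0, 0, 0, 0, 1, 0, 0, ⟨0, 0⟩, 0⟩, 53886744984, 0⟩ 0 0)))) (.pos 22 .pp ⟨⟨0, 0, 0, 0, 0, 0, 5, 0, 0, ⟨0, 0⟩, 0⟩, 0, 0⟩ 0 0)) (.pos 22 .pp ⟨⟨0, 0, 0, 0, 0, 0, 2, 0, 0, ⟨0, 0⟩, 0⟩, 0, 0⟩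 0 0)) (.cut .v 50331648 (.cut .d 41162 (.cut .d 20581 (.pos 104 .pp ⟨⟨0, 0, 0, 0, 0, 0, 1, 0, 0, ⟨0, 0⟩, 0⟩, 94465218206, 0⟩ 0 0) (.pos 104 .pp ⟨⟨0, 0, 0, 0, 0, 0, 2, 0, 0, ⟨0, 0⟩, 0⟩, 60084704916, 0⟩ 0 0)) (.pos 104 .pp ⟨⟨0, 639866116862, 0, 0, 0, 0, 5, 0, 0, ⟨0, 0⟩, 0⟩, 0, 0⟩ 0 0)) (.void 105 ⟨⟨0, 0, 0, 52093, 0, 0, 0, 0, 0, ⟨0, 0⟩, 0⟩, 47907, 0⟩ 0 0))) (.void 112 ⟨⟨0, 0, 29415, 38037, 0, 0, 0, 0, 0, ⟨0, 0⟩, 0⟩, 32548, 0⟩ 0 0)) (.void 121 ⟨⟨0, 0, 0, 0, 0, 0, 0, 0, 0, ⟨0, 0⟩, 0⟩, 100000, 0⟩ 0 0)) (.void 128 ⟨⟨0, 0, 0, 0, 0, 0, 0, 0, 0, ⟨0, 0⟩, 0⟩, 100000, 0⟩ 0 0)))),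
    by decide +kernel⟩

theorem covers50 : cell.Covers Vale.Agent.P237.Petty.Cor.Grid.N10.table row50.1 :=
  ⟨(.cut .d 0 (.cut .v 16777216 (.cut .v 8388608 (.pos 2 .mm ⟨⟨0, 0, 1677721600000000, 0, 0, 0, 0, 0, 0, ⟨0, 0⟩, 0⟩, 0, 0⟩ 0 0) (.cut .d (-8388608) (.void 3 ⟨⟨100001, 0, 0, 0, 0, 0, 0, 0, 0, ⟨0, 0⟩, 0⟩, 0, 0⟩ 0 0) (.pos 3 .mm ⟨⟨0, 0, 0, 0, 0, 1302537980434, 0, 0, 0, ⟨0, 0⟩, 0⟩, 0, 0⟩ 0 0))) (.cut .d (-8388608) (.void 127 ⟨⟨89988, 0, 5055, 4624, 0, 0, 0, 0, 0, ⟨0, 0⟩, 0⟩, 0, 0⟩ 0 0) (.cut .v 4294967296 (.cut .v 268435456 (.cut .v 67108864 (.cut .v 33554432 (.cut .v 25165824 (.cut .d (-4194304) (.void 23 ⟨⟨100000, 0, 0, 0, 0, 0,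 0, 0, 0, ⟨0, 0⟩, 0⟩, 0, 0⟩ 0 0) (.cut .s 16719872 (.pos 23 .mp ⟨⟨492551118538, 0, 0, 0, 0, 386968698824, 0, 0, 0, ⟨0, 0⟩, 0⟩, 0, 0⟩ 0 0) (.pos 23 .mp ⟨⟨619933246859, 0, 0, 0, 0, 456254751402, 0, 0, 0, ⟨0, 0⟩, 0⟩, 0, 0⟩ 0 0))) (.void 24 ⟨⟨100000, 0, 0, 0, 0, 0, 0, 0, 0, ⟨0, 0⟩, 0⟩, 0, 0⟩ 0 0)) (.void 91 ⟨⟨100000, 0, 0, 0, 0, 0, 0, 0, 0, ⟨0, 0⟩, 0⟩, 0, 0⟩ 0 0)) (.void 112 ⟨⟨100049, 0, 0, 0, 0, 0, 0, 0, 0, ⟨0, 0⟩, 0⟩, 0, 0⟩ 0 0)) (.void 121 ⟨⟨87939, 0, 0, 11961, 0, 0, 0, 0, 0, ⟨0, 0⟩, 0⟩, 0, 0⟩ 0 0)) (.void 128 ⟨⟨88031, 0, 0, 11969, 0, 0, 0, 0, 0, ⟨0, 0⟩, 0⟩, 0, 0⟩ 0 0)))) (.cut .v 16777216 (.cut .v 8388608 (.cut .d 32898 (.pos 2 .pm ⟨⟨0,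 0, 230192786622, 0, 0, 0, 0, 0, 0, ⟨0, 0⟩, 0⟩, 0, 0⟩ 0 0) (.pos 2 .pm ⟨⟨0, 0, 20424050, 0, 0, 0, 0, 0, 0, ⟨0, 0⟩, 0⟩, 0, 0⟩ 0 0)) (.pos 3 .pm ⟨⟨0, 0, 0, 0, 0, 0, 0, 0, 0, ⟨0, 0⟩, 0⟩, 0, 0⟩ 0 0)) (.cut .v 4294967296 (.cut .v 268435456 (.cut .v 67108864 (.cut .v 33554432 (.cut .d 32898 (.cut .d 16449 (.cut .v 25165824 (.cut .d 8224 (.cut .d 4112 (.cut .v 20971520 (.cut .d 2056 (.cut .v 18874368 (.cut .d 1028 (.cut .v 17825792 (.cut .d 514 (.cut .v 17301504 (.cut .d 257 (.cut .v 17039360 (.cut .s 16719872 (.pos 33 .pp ⟨⟨238434008962, 0, 0, 0, 0, 0, 0, 0, 0, ⟨0, 0⟩, 0⟩, 0, 0⟩ 0 0) (.cut .s 16723968 (.pos 33 .pp ⟨⟨283727816441, 0, 0, 0,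 0, 0, 0, 0, 0, ⟨0, 0⟩, 0⟩, 0, 0⟩ 0 0) (.pos 33 .pp ⟨⟨319067375199, 0, 0, 0, 0, 0, 0, 0, 0, ⟨0, 0⟩, 0⟩, 0, 0⟩ 0 0))) (.pos 34 .pp ⟨⟨342059998511, 0, 0, 0, 0, 0, 0, 0, 0, ⟨0, 0⟩, 0⟩, 0, 0⟩ 0 0)) (.pos 31 .pp ⟨⟨207276559040, 0, 0, 0, 0, 0, 0, 0, 0, ⟨0, 0⟩, 0⟩, 0, 0⟩ 0 0)) (.pos 32 .pp ⟨⟨346984347003, 0, 0, 0, 0, 0, 0, 0, 0, ⟨0, 0⟩, 0⟩, 0, 0⟩ 0 0)) (.pos 29 .pp ⟨⟨214200942953, 0, 0, 0, 0, 0, 0, 0, 0, ⟨0, 0⟩, 0⟩, 0, 0⟩ 0 0)) (.pos 30 .pp ⟨⟨372221965144, 0, 0, 0, 0, 0, 0, 0, 0, ⟨0, 0⟩, 0⟩, 0, 0⟩ 0 0)) (.pos 27 .pp ⟨⟨228586235793, 0, 0, 0, 0, 0, 0, 0, 0, ⟨0, 0⟩, 0⟩, 0, 0⟩ 0 0)) (.cut .s 16719872 (.pos 28 .pp ⟨⟨356773575007, 0, 0, 0, 0, 0,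 0, 0, 0, ⟨0, 0⟩, 0⟩, 0, 0⟩ 0 0) (.pos 28 .pp ⟨⟨438071416791, 0, 0, 0, 0, 0, 0, 0, 0, ⟨0, 0⟩, 0⟩, 0, 0⟩ 0 0))) (.cut .s 16719872 (.cut .v 18874368 (.pos 27 .pp ⟨⟨0, 0, 0, 0, 0, 0, 1, 0, 0, ⟨0, 0⟩, 0⟩, 0, 0⟩ 0 0) (.cut .l 184549 (.cut .d 3084 (.cut .l 92274 (.cut .l 46137 (.pos 28 .pp ⟨⟨303526912900, 0, 0, 0, 0, 0, 1, 0, 0, ⟨0, 0⟩, 0⟩, 0, 0⟩ 0 0) (.pos 28 .pp ⟨⟨299638803761, 0, 0, 0, 0, 0, 0, 0, 0, ⟨0, 0⟩, 0⟩, 0, 0⟩ 0 0)) (.pos 28 .pp ⟨⟨295771568012, 0, 0, 0, 0, 0, 0, 0, 0, ⟨0, 0⟩, 0⟩, 0, 0⟩ 0 0)) (.pos 28 .pp ⟨⟨271811546537, 0, 0, 0, 0, 0, 1, 0, 0, ⟨0, 0⟩, 0⟩, 0, 0⟩ 0 0)) (.pos 28 .pp ⟨⟨283710037743, 0, 0, 0, 0, 0, 0, 0, 0, ⟨0, 0⟩, 0⟩,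 0, 0⟩ 0 0))) (.pos 25 .pp ⟨⟨294393563404, 0, 0, 0, 0, 0, 0, 0, 0, ⟨0, 0⟩, 0⟩, 0, 0⟩ 0 0))) (.cut .v 23068672 (.cut .d 2056 (.void 55 ⟨⟨100000, 0, 0, 0, 0, 0, 0, 0, 0, ⟨0, 0⟩, 0⟩, 0, 0⟩ 0 0) (.cut .l 184549 (.cut .d 3084 (.cut .v 22020096 (.pos 57 .pp ⟨⟨446661848498, 0, 0, 0, 0, 0, 0, 0, 0, ⟨0, 0⟩, 0⟩, 0, 0⟩ 0 0) (.pos 58 .pp ⟨⟨0, 0, 0, 0, 0, 0, 0, 0, 0, ⟨0, 0⟩, 0⟩, 84641543437, 0⟩ 0 0)) (.cut .v 22020096 (.pos 57 .pp ⟨⟨367950459439, 0, 0, 0, 0, 0, 0, 0, 0, ⟨0, 0⟩, 0⟩, 821880593, 0⟩ 0 0) (.pos 58 .pp ⟨⟨0, 0, 0, 0, 0, 0, 0, 0, 0, ⟨0, 0⟩, 0⟩, 62125005664, 0⟩ 0 0))) (.pos 55 .pp ⟨⟨0, 0, 0, 0, 0, 0, 0, 0, 0, ⟨0, 0⟩, 0⟩, 62507380520, 0⟩ 0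 0))) (.pos 56 .pp ⟨⟨0, 0, 0, 0, 0, 0, 0, 0, 0, ⟨0, 0⟩, 0⟩, 100490624409, 0⟩ 0 0))) (.cut .v 20971520 (.pos 25 .pp ⟨⟨0, 0, 0, 0, 0, 0, 1, 0, 0, ⟨0, 0⟩, 0⟩, 0, 0⟩ 0 0) (.cut .v 23068672 (.cut .s 16719872 (.cut .l 184549 (.pos 55 .pp ⟨⟨0, 0, 0, 0, 0, 0, 1, 0, 0, ⟨0, 0⟩, 0⟩, 47331324451, 0⟩ 0 0) (.pos 55 .pp ⟨⟨0, 0, 0, 0, 0, 0, 0, 0, 0, ⟨0, 0⟩, 0⟩, 45267748570, 0⟩ 0 0)) (.pos 55 .pp ⟨⟨0, 0, 0, 0, 0, 0, 0, 0, 0, ⟨0, 0⟩, 0⟩, 54376826021, 0⟩ 0 0)) (.pos 56 .pp ⟨⟨0, 0, 0, 0, 0, 0, 0, 0, 0, ⟨0, 0⟩, 0⟩, 59427650254, 0⟩ 0 0)))) (.pos 23 .pp ⟨⟨0, 0, 0, 0, 0, 0, 1, 0, 0, ⟨0, 0⟩, 0⟩, 0, 0⟩ 0 0)) (.cut .d 8224 (.cut .v 29360128 (.cut .d 4112 (.void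 75 ⟨⟨0, 0, 0, 0, 0, 0, 0, 0, 0, ⟨0, 0⟩, 0⟩, 100000, 0⟩ 0 0) (.cut .d 6168 (.pos 75 .pp ⟨⟨0, 0, 0, 0, 0, 0, 0, 0, 0, ⟨0, 0⟩, 0⟩, 85528779472, 0⟩ 0 0) (.pos 75 .pp ⟨⟨0, 0, 0, 0, 0, 0, 0, 0, 0, ⟨0, 0⟩, 0⟩, 67220823897, 0⟩ 0 0))) (.pos 76 .pp ⟨⟨0, 0, 0, 0, 0, 0, 0, 0, 0, ⟨0, 0⟩, 0⟩, 114534945986, 0⟩ 0 0)) (.cut .v 29360128 (.pos 75 .pp ⟨⟨0, 0, 0, 0, 0, 0, 1, 0, 0, ⟨0, 0⟩, 0⟩, 55304869093, 0⟩ 0 0) (.pos 76 .pp ⟨⟨0, 0, 0, 0, 0, 0, 0, 0, 0, ⟨0, 0⟩, 0⟩, 75657139136, 0⟩ 0 0)))) (.pos 22 .pp ⟨⟨0, 0, 0, 0, 0, 0, 2, 0, 0, ⟨0, 0⟩, 0⟩, 0, 0⟩ 0 0)) (.pos 22 .pp ⟨⟨0, 0, 0, 0, 0, 0, 1, 0, 0, ⟨0, 0⟩, 0⟩, 0, 0⟩ 0 0)) (.cut .v 50331648 (.cut .d 32898 (.cut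 .d 16449 (.cut .v 41943040 (.pos 124 .pp ⟨⟨0, 0, 0, 0, 0, 0, 0, 0, 0, ⟨0, 0⟩, 0⟩, 126996619230, 0⟩ 0 0) (.void 125 ⟨⟨0, 0, 0, 0, 0, 0, 0, 0, 0, ⟨0, 0⟩, 0⟩, 100000, 0⟩ 0 0)) (.pos 104 .pp ⟨⟨0, 0, 0, 0, 0, 0, 1, 0, 0, ⟨0, 0⟩, 0⟩, 85272423243, 0⟩ 0 0)) (.pos 104 .pp ⟨⟨0, 0, 0, 81874227828, 0, 0, 2, 0, 0, ⟨0, 0⟩, 0⟩, 0, 0⟩ 0 0)) (.void 105 ⟨⟨0, 0, 0, 52113, 0, 0, 0, 0, 0, ⟨0, 0⟩, 0⟩, 47887, 0⟩ 0 0))) (.void 112 ⟨⟨0, 0, 0, 49398, 0, 0, 0, 0, 0, ⟨0, 0⟩, 0⟩, 48416, 0⟩ 0 0)) (.void 121 ⟨⟨0, 0, 0, 0, 0, 0, 0, 0, 0, ⟨0, 0⟩, 0⟩, 100000, 0⟩ 0 0)) (.void 128 ⟨⟨0, 0, 0, 0, 0, 0, 0, 0, 0, ⟨0, 0⟩, 0⟩, 100000, 0⟩ 0 0)))),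
    by decide +kernel⟩

end Vale.Agent.P237.Petty.Cor.Grid.Tiny.N10
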