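import Vale.Agent.P237.Petty.Cor.Grid.Tiny.N10.Cert

/-!
# P237: a cell down to zero in dimension 10, subdivisions
-/

namespace Vale.Agent.P237.Petty.Cor.Grid.Tiny.N10

theorem covers0 : cell.Covers Vale.Agent.P237.Petty.Cor.Grid.N10.table row0.1 :=
  ⟨(.cut .d 0 (.cut .v 16777216 (.cut .v 8388608 (.cut .v 4194304 (.void 4 ⟨⟨0, 0, 100000, 0, 0, 0, 0, 0, 0, ⟨0, 0⟩, 0⟩, 0, 0⟩ 0 0) (.cut .d (-8388608) (.pos 5 .mm ⟨⟨0, 0, 0, 0, 0, 0, 0, 0, 0, ⟨0, 0⟩, 0⟩, 0, 0⟩ 0 0) (.pos 5 .mm ⟨⟨0, 0, 0, 0, 0, 0, 0, 0, 0, ⟨0, 0⟩, 0⟩, 0, 0⟩ 0 0))) (.cut .d (-8388608) (.cut .v 12582912 (.pos 8 .mm ⟨⟨0, 0, 0, 0, 0, 0, 0, 0, 0, ⟨0, 0⟩, 0⟩, 0, 0⟩ 0 0) (.pos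 9 .mm ⟨⟨0, 0, 0, 0, 0, 0, 0, 0, 0, ⟨0, 0⟩, 0⟩, 0, 0⟩ 0 0)) (.cut .v 12582912 (.cut .d (-4194304) (.cut .d (-6291456) (.pos 8 .mm ⟨⟨0, 0, 0, 0, 0, 0, 0, 0, 0, ⟨0, 0⟩, 0⟩, 0, 0⟩ 0 0) (.cut .d (-5242880) (.pos 8 .mm ⟨⟨0, 0, 0, 0, 0, 0, 0, 0, 0, ⟨0, 0⟩, 0⟩, 0, 0⟩ 0 0) (.pos 8 .mm ⟨⟨0, 0, 0, 0, 0, 0, 0, 0, 0, ⟨0, 0⟩, 0⟩, 0, 0⟩ 0 0))) (.pos 8 .mm ⟨⟨0, 0, 0, 0, 0, 0, 0, 0, 0, ⟨0, 0⟩, 0⟩, 0, 0⟩ 0 0)) (.cut .d (-4194304) (.cut .v 14680064 (.cut .v 13631488 (.pos 14 .mm ⟨⟨0, 0, 0, 0, 0, 0, 0, 0, 0, ⟨0, 0⟩, 0⟩, 0, 0⟩ 0 0) (.pos 15 .mm ⟨⟨0, 0, 0, 0, 0, 0, 0, 0, 0, ⟨0, 0⟩, 0⟩, 0, 0⟩ 0 0)) (.pos 13 .mm ⟨⟨0, 0, 0, 0, 0, 0, 0, 0, 0, ⟨0, 0⟩, 0⟩,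 0, 0⟩ 0 0)) (.cut .v 14680064 (.cut .d (-2097152) (.cut .s 851968 (.cut .v 13631488 (.cut .d (-3145728) (.cut .d (-3670016) (.pos 14 .mm ⟨⟨0, 0, 0, 0, 0, 0, 0, 0, 0, ⟨0, 0⟩, 0⟩, 0, 0⟩ 0 0) (.pos 14 .mm ⟨⟨0, 0, 0, 0, 0, 0, 0, 0, 0, ⟨0, 0⟩, 0⟩, 0, 0⟩ 0 0)) (.pos 14 .mm ⟨⟨0, 0, 0, 0, 0, 0, 0, 0, 0, ⟨0, 0⟩, 0⟩, 0, 0⟩ 0 0)) (.cut .d (-3145728) (.pos 15 .mm ⟨⟨0, 0, 0, 0, 0, 0, 0, 0, 0, ⟨0, 0⟩, 0⟩, 0, 0⟩ 0 0) (.cut .d (-2621440) (.pos 15 .mm ⟨⟨0, 0, 0, 0, 0, 0, 0, 0, 0, ⟨0, 0⟩, 0⟩, 0, 0⟩ 0 0) (.pos 15 .mm ⟨⟨0, 0, 0, 0, 0, 0, 0, 0, 0, ⟨0, 0⟩, 0⟩, 0, 0⟩ 0 0)))) (.pos 12 .mm ⟨⟨0, 0, 0, 0, 984628, 5026246, 0, 0, 0, ⟨0, 0⟩, 0⟩, 0, 0⟩ 0 0))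 (.pos 12 .mm ⟨⟨0, 0, 0, 0, 0, 0, 0, 0, 0, ⟨0, 0⟩, 0⟩, 0, 0⟩ 0 0)) (.cut .d (-2097152) (.pos 13 .mm ⟨⟨0, 0, 0, 0, 0, 0, 0, 0, 0, ⟨0, 0⟩, 0⟩, 0, 0⟩ 0 0) (.cut .d (-1048576) (.cut .v 15728640 (.pos 20 .mm ⟨⟨0, 0, 0, 0, 0, 0, 0, 0, 0, ⟨0, 0⟩, 0⟩, 0, 0⟩ 0 0) (.pos 21 .mm ⟨⟨0, 0, 0, 0, 0, 0, 0, 0, 0, ⟨0, 0⟩, 0⟩, 0, 0⟩ 0 0)) (.pos 13 .mm ⟨⟨0, 0, 0, 0, 0, 736821, 0, 0, 0, ⟨0, 0⟩, 0⟩, 0, 0⟩ 0 0)))))))) (.cut .v 25165824 (.cut .v 20971520 (.cut .v 18874368 (.pos 27 .mp ⟨⟨1285473, 0, 0, 0, 0, 34202, 5351, 0, 0, ⟨0, 0⟩, 0⟩, 0, 0⟩ 0 0) (.void 28 ⟨⟨0, 0, 0, 0, 0, 0, 100000, 0, 0, ⟨0, 0⟩, 0⟩, 0, 0⟩ 0 0)) (.void 26 ⟨⟨0, 0, 0, 0, 0, 0, 100000,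 0, 0, ⟨0, 0⟩, 0⟩, 0, 0⟩ 0 0)) (.void 24 ⟨⟨0, 0, 0, 0, 0, 0, 100000, 0, 0, ⟨0, 0⟩, 0⟩, 0, 0⟩ 0 0))) (.cut .v 16777216 (.cut .v 8388608 (.cut .v 4194304 (.void 4 ⟨⟨0, 0, 100000, 0, 0, 0, 0, 0, 0, ⟨0, 0⟩, 0⟩, 0, 0⟩ 0 0) (.pos 5 .pm ⟨⟨0, 0, 0, 0, 678852, 0, 0, 0, 0, ⟨0, 0⟩, 0⟩, 0, 0⟩ 0 0)) (.cut .v 12582912 (.pos 8 .pm ⟨⟨0, 0, 0, 0, 588439, 0, 0, 0, 0, ⟨0, 0⟩, 0⟩, 0, 0⟩ 0 0) (.pos 9 .pm ⟨⟨0, 0, 0, 0, 0, 0, 0, 0, 0, ⟨0, 0⟩, 0⟩, 0, 1190085⟩ 0 0))) (.cut .v 25165824 (.cut .v 20971520 (.cut .v 18874368 (.cut .v 17825792 (.cut .v 17301504 (.cut .d 330465 (.cut .s 851968 (.pos 31 .pp ⟨⟨556225, 0, 0, 0, 0, 0, 527852, 0, 0, ⟨0, 0⟩, 0⟩, 0,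 336688⟩ 0 0) (.cut .d 165232 (.pos 31 .pp ⟨⟨1203479, 0, 0, 0, 0, 0, 0, 0, 0, ⟨0, 0⟩, 0⟩, 0, 435487⟩ 0 0) (.pos 31 .pp ⟨⟨1355228, 0, 0, 0, 0, 0, 0, 0, 0, ⟨0, 0⟩, 0⟩, 0, 285177⟩ 0 0))) (.cut .s 851968 (.pos 31 .pp ⟨⟨240930, 0, 0, 0, 0, 0, 818528, 0, 0, ⟨0, 0⟩, 0⟩, 0, 590211⟩ 0 0) (.pos 31 .pp ⟨⟨1283028, 0, 0, 0, 0, 0, 0, 0, 0, ⟨0, 0⟩, 0⟩, 0, 775154⟩ 0 0))) (.void 32 ⟨⟨90616, 0, 0, 0, 0, 0, 0, 0, 0, ⟨0, 0⟩, 0⟩, 0, 9384⟩ 0 0)) (.void 30 ⟨⟨0, 0, 0, 0, 0, 0, 100000, 0, 0, ⟨0, 0⟩, 0⟩, 0, 0⟩ 0 0)) (.void 28 ⟨⟨0, 0, 0, 0, 0, 0, 0, 0, 0, ⟨0, 0⟩, 0⟩, 100000, 0⟩ 0 0)) (.void 26 ⟨⟨0, 0, 0, 0, 0, 0, 0, 0, 0, ⟨0, 0⟩, 0⟩, 100000, 0⟩ 0 0)) (.void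 24 ⟨⟨0, 0, 0, 0, 0, 0, 0, 0, 0, ⟨0, 0⟩, 0⟩, 100000, 0⟩ 0 0)))),
    by decide +kernel⟩

theorem covers1 : cell.Covers Vale.Agent.P237.Petty.Cor.Grid.N10.table row1.1 :=
  ⟨(.cut .d 0 (.cut .v 16777216 (.cut .v 8388608 (.void 2 ⟨⟨0, 0, 0, 0, 50000, 50000, 0, 0, 0, ⟨0, 0⟩, 0⟩, 0, 0⟩ 0 0) (.cut .v 12582912 (.void 8 ⟨⟨0, 0, 0, 0, 50000, 50000, 0, 0, 0, ⟨0, 0⟩, 0⟩, 0, 0⟩ 0 0) (.cut .v 14680064 (.void 12 ⟨⟨0, 0, 0, 0, 50000, 50000, 0, 0, 0, ⟨0, 0⟩, 0⟩, 0, 0⟩ 0 0) (.cut .d (-8388608) (.void 13 ⟨⟨0, 0, 0, 0, 0, 100000, 0, 0, 0, ⟨0, 0⟩, 0⟩, 0, 0⟩ 0 0) (.cut .d (-4194304) (.void 13 ⟨⟨0, 0, 0, 0, 0, 100000, 0, 0, 0, ⟨0, 0⟩, 0⟩, 0, 0⟩ 0 0)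 (.cut .d (-2097152) (.void 13 ⟨⟨0, 0, 0, 0, 0, 100000, 0, 0, 0, ⟨0, 0⟩, 0⟩, 0, 0⟩ 0 0) (.pos 13 .mm ⟨⟨0, 0, 0, 0, 0, 776590, 0, 0, 0, ⟨0, 0⟩, 0⟩, 0, 0⟩ 0 0))))))) (.cut .v 25165824 (.cut .v 20971520 (.cut .v 18874368 (.pos 27 .mp ⟨⟨1232731, 0, 0, 0, 0, 0, 0, 0, 0, ⟨0, 0⟩, 0⟩, 0, 0⟩ 0 0) (.void 28 ⟨⟨0, 0, 0, 0, 0, 0, 100000, 0, 0, ⟨0, 0⟩, 0⟩, 0, 0⟩ 0 0)) (.void 26 ⟨⟨0, 0, 0, 0, 0, 0, 100000, 0, 0, ⟨0, 0⟩, 0⟩, 0, 0⟩ 0 0)) (.void 24 ⟨⟨0, 0, 0, 0, 0, 0, 100000, 0, 0, ⟨0, 0⟩, 0⟩, 0, 0⟩ 0 0))) (.cut .v 16777216 (.cut .v 8388608 (.void 2 ⟨⟨0, 0, 0, 0, 100000, 0, 0, 0, 0, ⟨0, 0⟩, 0⟩, 0, 0⟩ 0 0) (.cut .v 12582912 (.void 8 ⟨⟨0, 0, 0, 0,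 100000, 0, 0, 0, 0, ⟨0, 0⟩, 0⟩, 0, 0⟩ 0 0) (.pos 9 .pm ⟨⟨0, 0, 0, 0, 0, 0, 0, 0, 0, ⟨0, 0⟩, 0⟩, 0, 586471⟩ 0 0))) (.cut .v 25165824 (.cut .v 20971520 (.cut .v 18874368 (.cut .d 645870 (.cut .v 17825792 (.cut .v 17301504 (.cut .d 322935 (.cut .v 17039360 (.cut .l 184549 (.cut .d 161467 (.cut .s 2359296 (.pos 33 .pp ⟨⟨1012486, 0, 0, 0, 0, 0, 0, 0, 0, ⟨0, 0⟩, 0⟩, 0, 457490⟩ 0 0) (.cut .s 2686976 (.pos 33 .pp ⟨⟨885521, 0, 0, 0, 0, 0, 0, 0, 0, ⟨0, 0⟩, 0⟩, 0, 461060⟩ 0 0) (.pos 33 .pp ⟨⟨791588, 0, 0, 0, 0, 0, 0, 0, 0, ⟨0, 0⟩, 0⟩, 0, 440786⟩ 0 0))) (.cut .s 2359296 (.pos 33 .pp ⟨⟨918053, 0, 0, 0, 0, 0, 0, 0, 0, ⟨0, 0⟩, 0⟩, 0, 752382⟩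 0 0) (.pos 33 .pp ⟨⟨686753, 0, 0, 0, 0, 0, 0, 0, 0, ⟨0, 0⟩, 0⟩, 0, 712688⟩ 0 0))) (.pos 33 .pp ⟨⟨815045, 0, 0, 0, 0, 0, 0, 0, 0, ⟨0, 0⟩, 0⟩, 0, 253399⟩ 0 0)) (.pos 34 .pp ⟨⟨1254527, 0, 0, 0, 0, 0, 0, 0, 0, ⟨0, 0⟩, 0⟩, 0, 226061⟩ 0 0)) (.cut .s 2359296 (.pos 31 .pp ⟨⟨1082276, 0, 0, 0, 0, 0, 0, 0, 0, ⟨0, 0⟩, 0⟩, 0, 619297⟩ 0 0) (.pos 31 .pp ⟨⟨800867, 0, 0, 0, 0, 0, 0, 0, 0, ⟨0, 0⟩, 0⟩, 0, 646647⟩ 0 0))) (.void 32 ⟨⟨84520, 0, 0, 0, 0, 0, 0, 0, 0, ⟨0, 0⟩, 0⟩, 0, 15480⟩ 0 0)) (.void 30 ⟨⟨100000, 0, 0, 0, 0, 0, 0, 0, 0, ⟨0, 0⟩, 0⟩, 0, 0⟩ 0 0)) (.void 27 ⟨⟨0, 0, 0, 0, 0, 0, 772, 0, 0, ⟨0, 0⟩, 0⟩, 0, 99228⟩ 0 0)) (.void 28 ⟨⟨0, 0, 0, 0,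 0, 0, 100000, 0, 0, ⟨0, 0⟩, 0⟩, 0, 0⟩ 0 0)) (.void 26 ⟨⟨0, 0, 0, 0, 0, 0, 0, 0, 0, ⟨0, 0⟩, 0⟩, 100000, 0⟩ 0 0)) (.void 24 ⟨⟨0, 0, 0, 0, 0, 0, 0, 0, 0, ⟨0, 0⟩, 0⟩, 100000, 0⟩ 0 0)))),
    by decide +kernel⟩

theorem covers2 : cell.Covers Vale.Agent.P237.Petty.Cor.Grid.N10.table row2.1 :=
  ⟨(.cut .d 0 (.cut .v 16777216 (.cut .v 8388608 (.void 2 ⟨⟨0, 0, 0, 0, 50000, 50000, 0, 0, 0, ⟨0, 0⟩, 0⟩, 0, 0⟩ 0 0) (.cut .v 12582912 (.void 8 ⟨⟨0, 0, 0, 0, 50000, 50000, 0, 0, 0, ⟨0, 0⟩, 0⟩, 0, 0⟩ 0 0) (.cut .v 14680064 (.pos 12 .mm ⟨⟨0, 0, 0, 0, 0, 1480776, 0, 0, 0, ⟨0, 0⟩, 0⟩, 0, 0⟩ 0 0) (.pos 13 .mm ⟨⟨0, 0, 0, 0, 0, 756052, 0, 0, 0, ⟨0, 0⟩,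 0⟩, 0, 0⟩ 0 0)))) (.cut .v 25165824 (.cut .v 20971520 (.cut .v 18874368 (.pos 27 .mp ⟨⟨726555, 0, 0, 0, 0, 458005, 0, 0, 0, ⟨0, 0⟩, 0⟩, 0, 0⟩ 0 0) (.void 28 ⟨⟨100000, 0, 0, 0, 0, 0, 0, 0, 0, ⟨0, 0⟩, 0⟩, 0, 0⟩ 0 0)) (.void 26 ⟨⟨0, 0, 0, 0, 0, 0, 100000, 0, 0, ⟨0, 0⟩, 0⟩, 0, 0⟩ 0 0)) (.void 24 ⟨⟨0, 0, 0, 0, 0, 0, 100000, 0, 0, ⟨0, 0⟩, 0⟩, 0, 0⟩ 0 0))) (.cut .v 16777216 (.cut .v 8388608 (.void 2 ⟨⟨0, 0, 0, 0, 100000, 0, 0, 0, 0, ⟨0, 0⟩, 0⟩, 0, 0⟩ 0 0) (.cut .v 12582912 (.void 8 ⟨⟨0, 0, 0, 0, 29629, 0, 0, 0, 70371, ⟨0, 0⟩, 13128881⟩, 0, 0⟩ 0 0) (.cut .v 14680064 (.void 12 ⟨⟨0, 0, 0, 0, 0, 0, 0, 0, 100000, ⟨0, 0⟩, 15100357⟩, 0, 0⟩ 0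 0) (.pos 13 .pm ⟨⟨0, 0, 0, 0, 0, 0, 0, 0, 0, ⟨0, 0⟩, 0⟩, 0, 372872⟩ 0 0)))) (.cut .v 25165824 (.cut .v 20971520 (.cut .v 18874368 (.cut .d 910087 (.cut .d 455043 (.cut .v 17825792 (.cut .v 17301504 (.cut .s 3407872 (.cut .l 184549 (.cut .d 227521 (.cut .s 3211264 (.pos 31 .pp ⟨⟨709571, 0, 0, 0, 0, 0, 0, 0, 0, ⟨0, 0⟩, 0⟩, 0, 412573⟩ 0 0) (.cut .s 3309568 (.pos 31 .pp ⟨⟨632879, 0, 0, 0, 0, 0, 0, 0, 0, ⟨0, 0⟩, 0⟩, 0, 406165⟩ 0 0) (.pos 31 .pp ⟨⟨594105, 0, 0, 0, 0, 0, 0, 0, 0, ⟨0, 0⟩, 0⟩, 0, 390953⟩ 0 0))) (.void 31 ⟨⟨1211, 0, 0, 0, 0, 0, 0, 0, 0, ⟨0, 0⟩, 0⟩, 0, 98789⟩ 0 0)) (.pos 31 .pp ⟨⟨629055, 0, 0, 0, 0, 0, 0, 0, 0, ⟨0, 0⟩, 0⟩,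 0, 371398⟩ 0 0)) (.cut .s 3604480 (.cut .s 3506176 (.pos 31 .pp ⟨⟨524640, 0, 0, 0, 0, 0, 0, 0, 0, ⟨0, 0⟩, 0⟩, 0, 394125⟩ 0 0) (.pos 31 .pp ⟨⟨502071, 0, 0, 0, 0, 0, 0, 0, 0, ⟨0, 0⟩, 0⟩, 0, 371686⟩ 0 0)) (.pos 31 .pp ⟨⟨449712, 0, 0, 0, 0, 0, 0, 0, 0, ⟨0, 0⟩, 0⟩, 0, 341522⟩ 0 0))) (.pos 32 .pp ⟨⟨822989, 0, 0, 0, 0, 0, 0, 0, 0, ⟨0, 0⟩, 0⟩, 0, 424297⟩ 0 0)) (.void 30 ⟨⟨100000, 0, 0, 0, 0, 0, 0, 0, 0, ⟨0, 0⟩, 0⟩, 0, 0⟩ 0 0)) (.void 27 ⟨⟨2918, 0, 0, 0, 0, 0, 0, 0, 0, ⟨0, 0⟩, 0⟩, 0, 97082⟩ 0 0)) (.void 27 ⟨⟨0, 0, 0, 0, 0, 0, 1740, 0, 0, ⟨0, 0⟩, 0⟩, 0, 98260⟩ 0 0)) (.void 28 ⟨⟨0, 0, 0, 0, 0, 0, 100000, 0, 0, ⟨0, 0⟩, 0⟩, 0, 0⟩ 0 0)) (.void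 26 ⟨⟨0, 0, 0, 0, 0, 0, 0, 0, 0, ⟨0, 0⟩, 0⟩, 100000, 0⟩ 0 0)) (.void 24 ⟨⟨0, 0, 0, 0, 0, 0, 0, 0, 0, ⟨0, 0⟩, 0⟩, 100000, 0⟩ 0 0)))),
    by decide +kernel⟩

theorem covers3 : cell.Covers Vale.Agent.P237.Petty.Cor.Grid.N10.table row3.1 :=
  ⟨(.cut .d 0 (.cut .v 16777216 (.cut .v 8388608 (.void 2 ⟨⟨0, 0, 0, 0, 50000, 50000, 0, 0, 0, ⟨0, 0⟩, 0⟩, 0, 0⟩ 0 0) (.cut .v 12582912 (.void 8 ⟨⟨0, 0, 0, 0, 0, 61015, 0, 0, 38985, ⟨0, 0⟩, 13128881⟩, 0, 0⟩ 0 0) (.cut .d (-8388608) (.void 9 ⟨⟨0, 0, 0, 0, 0, 100000, 0, 0, 0, ⟨0, 0⟩, 0⟩, 0, 0⟩ 0 0) (.cut .d (-4194304) (.void 9 ⟨⟨0, 0, 0, 0, 0, 100000, 0, 0, 0, ⟨0, 0⟩, 0⟩, 0, 0⟩ 0 0) (.cut .v 14680064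 (.pos 12 .mm ⟨⟨0, 0, 0, 0, 0, 1897885, 0, 0, 0, ⟨0, 0⟩, 0⟩, 0, 0⟩ 0 0) (.cut .d (-2097152) (.void 13 ⟨⟨0, 0, 0, 0, 0, 100000, 0, 0, 0, ⟨0, 0⟩, 0⟩, 0, 0⟩ 0 0) (.cut .d (-1048576) (.void 13 ⟨⟨0, 0, 0, 0, 0, 100000, 0, 0, 0, ⟨0, 0⟩, 0⟩, 0, 0⟩ 0 0) (.pos 13 .mm ⟨⟨0, 0, 0, 0, 0, 708455, 0, 0, 0, ⟨0, 0⟩, 0⟩, 0, 0⟩ 0 0)))))))) (.cut .v 25165824 (.cut .d (-8388608) (.void 23 ⟨⟨0, 0, 0, 0, 0, 100000, 0, 0, 0, ⟨0, 0⟩, 0⟩, 0, 0⟩ 0 0) (.cut .v 20971520 (.cut .d (-4194304) (.void 25 ⟨⟨0, 0, 0, 0, 0, 100000, 0, 0, 0, ⟨0, 0⟩, 0⟩, 0, 0⟩ 0 0) (.cut .d (-2097152) (.void 25 ⟨⟨0, 0, 0, 0, 0, 100000, 0, 0, 0, ⟨0, 0⟩, 0⟩, 0, 0⟩ 0 0) (.cut .d (-1048576)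 (.void 25 ⟨⟨0, 0, 0, 0, 0, 100000, 0, 0, 0, ⟨0, 0⟩, 0⟩, 0, 0⟩ 0 0) (.cut .v 18874368 (.cut .d (-524288) (.void 27 ⟨⟨0, 0, 0, 0, 0, 100000, 0, 0, 0, ⟨0, 0⟩, 0⟩, 0, 0⟩ 0 0) (.pos 27 .mp ⟨⟨644719, 0, 0, 0, 0, 36786, 0, 0, 0, ⟨0, 0⟩, 0⟩, 0, 0⟩ 0 0)) (.void 28 ⟨⟨100000, 0, 0, 0, 0, 0, 0, 0, 0, ⟨0, 0⟩, 0⟩, 0, 0⟩ 0 0))))) (.void 26 ⟨⟨100000, 0, 0, 0, 0, 0, 0, 0, 0, ⟨0, 0⟩, 0⟩, 0, 0⟩ 0 0))) (.void 24 ⟨⟨0, 0, 0, 0, 0, 0, 100000, 0, 0, ⟨0, 0⟩, 0⟩, 0, 0⟩ 0 0))) (.cut .v 16777216 (.cut .v 8388608 (.void 2 ⟨⟨0, 0, 0, 0, 100000, 0, 0, 0, 0, ⟨0, 0⟩, 0⟩, 0, 0⟩ 0 0) (.cut .v 12582912 (.void 8 ⟨⟨0, 0, 0, 0, 0, 0, 0, 0, 100000, ⟨0, 0⟩, 13128881⟩,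 0, 0⟩ 0 0) (.cut .v 14680064 (.pos 12 .pm ⟨⟨0, 0, 0, 0, 0, 0, 0, 0, 857713, ⟨0, 0⟩, 15100357⟩, 0, 0⟩ 0 0) (.cut .d 1208557 (.cut .d 604278 (.pos 13 .pm ⟨⟨0, 0, 0, 0, 0, 0, 0, 0, 0, ⟨0, 0⟩, 0⟩, 0, 212243⟩ 0 0) (.void 13 ⟨⟨0, 0, 0, 0, 0, 0, 0, 0, 0, ⟨0, 0⟩, 0⟩, 0, 100000⟩ 0 0)) (.void 13 ⟨⟨0, 0, 0, 0, 0, 0, 0, 0, 0, ⟨0, 0⟩, 0⟩, 0, 100000⟩ 0 0))))) (.cut .v 25165824 (.cut .v 20971520 (.cut .v 18874368 (.cut .d 1208557 (.cut .d 604278 (.cut .v 17825792 (.cut .v 17301504 (.cut .s 4161536 (.cut .d 302139 (.cut .s 3981312 (.pos 31 .pp ⟨⟨371190, 0, 0, 0, 0, 0, 0, 0, 0, ⟨0, 0⟩, 0⟩, 0, 288815⟩ 0 0) (.cut .s 4071424 (.pos 31 .pp ⟨⟨335313,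 0, 0, 0, 0, 0, 0, 0, 0, ⟨0, 0⟩, 0⟩, 0, 259713⟩ 0 0) (.pos 31 .pp ⟨⟨298752, 0, 0, 0, 0, 0, 0, 0, 0, ⟨0, 0⟩, 0⟩, 0, 238318⟩ 0 0))) (.pos 31 .pp ⟨⟨176838, 0, 0, 0, 0, 0, 0, 0, 0, ⟨0, 0⟩, 0⟩, 0, 405480⟩ 0 0)) (.cut .d 302139 (.cut .l 184549 (.cut .d 151069 (.cut .s 4341760 (.pos 31 .pp ⟨⟨257506, 0, 0, 0, 0, 0, 0, 0, 0, ⟨0, 0⟩, 0⟩, 0, 190148⟩ 0 0) (.pos 31 .pp ⟨⟨212906, 0, 0, 0, 0, 0, 0, 0, 0, ⟨0, 0⟩, 0⟩, 0, 147349⟩ 0 0)) (.pos 31 .pp ⟨⟨124820, 0, 0, 0, 0, 0, 0, 0, 0, ⟨0, 0⟩, 0⟩, 0, 306847⟩ 0 0)) (.pos 31 .pp ⟨⟨149979, 0, 0, 0, 0, 0, 0, 0, 0, ⟨0, 0⟩, 0⟩, 0, 134453⟩ 0 0)) (.pos 31 .pp ⟨⟨20812, 0, 0, 0, 0, 0, 0, 0, 0, ⟨0, 0⟩, 0⟩, 0, 325294⟩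 0 0))) (.cut .d 302139 (.pos 32 .pp ⟨⟨1141046, 0, 0, 0, 0, 0, 0, 0, 0, ⟨0, 0⟩, 0⟩, 0, 0⟩ 0 0) (.pos 32 .pp ⟨⟨317421, 0, 0, 0, 0, 0, 0, 0, 0, ⟨0, 0⟩, 0⟩, 0, 336256⟩ 0 0))) (.void 30 ⟨⟨78469, 0, 0, 0, 0, 0, 0, 0, 0, ⟨0, 0⟩, 0⟩, 0, 21531⟩ 0 0)) (.void 27 ⟨⟨3781, 0, 0, 0, 0, 0, 0, 0, 0, ⟨0, 0⟩, 0⟩, 0, 96219⟩ 0 0)) (.void 27 ⟨⟨0, 0, 0, 0, 0, 0, 0, 0, 0, ⟨0, 0⟩, 0⟩, 0, 100000⟩ 0 0)) (.void 28 ⟨⟨0, 0, 0, 0, 0, 0, 100000, 0, 0, ⟨0, 0⟩, 0⟩, 0, 0⟩ 0 0)) (.void 26 ⟨⟨0, 0, 0, 0, 0, 0, 0, 0, 0, ⟨0, 0⟩, 0⟩, 23055, 76945⟩ 0 0)) (.void 24 ⟨⟨0, 0, 0, 0, 0, 0, 0, 0, 0, ⟨0, 0⟩, 0⟩, 100000, 0⟩ 0 0)))),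
    by decide +kernel⟩

theorem covers4 : cell.Covers Vale.Agent.P237.Petty.Cor.Grid.N10.table row4.1 :=
  ⟨(.cut .d 0 (.cut .v 16777216 (.cut .v 8388608 (.void 2 ⟨⟨0, 0, 0, 0, 50000, 50000, 0, 0, 0, ⟨0, 0⟩, 0⟩, 0, 0⟩ 0 0) (.cut .v 12582912 (.void 8 ⟨⟨0, 0, 0, 0, 0, 61015, 0, 0, 38985, ⟨0, 0⟩, 13128881⟩, 0, 0⟩ 0 0) (.cut .d (-8388608) (.void 9 ⟨⟨0, 0, 0, 0, 0, 100000, 0, 0, 0, ⟨0, 0⟩, 0⟩, 0, 0⟩ 0 0) (.cut .d (-4194304) (.void 9 ⟨⟨0, 0, 0, 0, 0, 100000, 0, 0, 0, ⟨0, 0⟩, 0⟩, 0, 0⟩ 0 0) (.cut .d (-2097152) (.void 9 ⟨⟨0, 0, 0, 0, 0, 100000, 0, 0, 0, ⟨0, 0⟩, 0⟩, 0, 0⟩ 0 0) (.cut .v 14680064 (.pos 12 .mm ⟨⟨0, 0, 0, 0, 0, 2051938, 0,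 0, 0, ⟨0, 0⟩, 0⟩, 0, 0⟩ 0 0) (.cut .d (-1048576) (.void 13 ⟨⟨0, 0, 0, 0, 0, 100000, 0, 0, 0, ⟨0, 0⟩, 0⟩, 0, 0⟩ 0 0) (.cut .d (-524288) (.void 13 ⟨⟨0, 0, 0, 0, 0, 100000, 0, 0, 0, ⟨0, 0⟩, 0⟩, 0, 0⟩ 0 0) (.cut .d (-262144) (.pos 13 .mm ⟨⟨0, 0, 0, 0, 0, 1715023, 0, 0, 0, ⟨0, 0⟩, 0⟩, 0, 0⟩ 0 0) (.cut .v 15728640 (.pos 20 .mm ⟨⟨0, 0, 0, 0, 0, 431598, 0, 0, 0, ⟨0, 0⟩, 0⟩, 0, 0⟩ 0 0) (.cut .s 4882432 (.pos 21 .mm ⟨⟨0, 0, 0, 0, 0, 601749, 0, 0, 0, ⟨0, 0⟩, 0⟩, 0, 0⟩ 0 0) (.cut .s 5062656 (.pos 21 .mm ⟨⟨0, 0, 0, 0, 0, 774959, 0, 0, 0, ⟨0, 0⟩, 0⟩, 0, 0⟩ 0 0) (.pos 21 .mm ⟨⟨0, 0, 0, 0, 0, 963480, 0, 0, 0, ⟨0, 0⟩, 0⟩, 0, 0⟩ 0 0)))))))))))))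 (.cut .v 25165824 (.cut .d (-8388608) (.void 23 ⟨⟨0, 0, 0, 0, 0, 100000, 0, 0, 0, ⟨0, 0⟩, 0⟩, 0, 0⟩ 0 0) (.cut .d (-4194304) (.void 23 ⟨⟨0, 0, 0, 0, 0, 100000, 0, 0, 0, ⟨0, 0⟩, 0⟩, 0, 0⟩ 0 0) (.cut .v 20971520 (.cut .d (-2097152) (.void 25 ⟨⟨0, 0, 0, 0, 0, 100000, 0, 0, 0, ⟨0, 0⟩, 0⟩, 0, 0⟩ 0 0) (.cut .d (-1048576) (.void 25 ⟨⟨0, 0, 0, 0, 0, 100000, 0, 0, 0, ⟨0, 0⟩, 0⟩, 0, 0⟩ 0 0) (.cut .d (-524288) (.void 25 ⟨⟨0, 0, 0, 0, 0, 100000, 0, 0, 0, ⟨0, 0⟩, 0⟩, 0, 0⟩ 0 0) (.cut .v 18874368 (.cut .d (-262144) (.pos 27 .mp ⟨⟨639790, 0, 0, 0, 0, 2752361, 0, 0, 0, ⟨0, 0⟩, 0⟩, 0, 0⟩ 0 0) (.cut .v 17825792 (.cut .s 4882432 (.pos 29 .mp ⟨⟨285127,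 0, 0, 0, 0, 402770, 0, 0, 0, ⟨0, 0⟩, 0⟩, 0, 0⟩ 0 0) (.cut .d (-131072) (.pos 29 .mp ⟨⟨366862, 0, 0, 0, 0, 791610, 0, 0, 0, ⟨0, 0⟩, 0⟩, 0, 0⟩ 0 0) (.pos 29 .mp ⟨⟨236334, 0, 0, 0, 0, 668382, 0, 0, 0, ⟨0, 0⟩, 0⟩, 0, 0⟩ 0 0))) (.void 30 ⟨⟨100000, 0, 0, 0, 0, 0, 0, 0, 0, ⟨0, 0⟩, 0⟩, 0, 0⟩ 0 0))) (.void 28 ⟨⟨100000, 0, 0, 0, 0, 0, 0, 0, 0, ⟨0, 0⟩, 0⟩, 0, 0⟩ 0 0))))) (.void 26 ⟨⟨100000, 0, 0, 0, 0, 0, 0, 0, 0, ⟨0, 0⟩, 0⟩, 0, 0⟩ 0 0)))) (.void 24 ⟨⟨0, 0, 0, 0, 0, 0, 100000, 0, 0, ⟨0, 0⟩, 0⟩, 0, 0⟩ 0 0))) (.cut .v 16777216 (.cut .v 8388608 (.void 2 ⟨⟨0, 0, 0, 0, 100000, 0, 0, 0, 0, ⟨0, 0⟩, 0⟩, 0, 0⟩ 0 0) (.cut .v 12582912 (.void 8 ⟨⟨0,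 0, 0, 0, 0, 0, 0, 0, 100000, ⟨0, 0⟩, 13128881⟩, 0, 0⟩ 0 0) (.cut .d 1598086 (.cut .d 799043 (.cut .v 14680064 (.pos 12 .pm ⟨⟨0, 0, 0, 0, 0, 0, 0, 0, 0, ⟨0, 0⟩, 0⟩, 0, 574939⟩ 0 0) (.cut .v 15728640 (.cut .d 399521 (.pos 20 .pm ⟨⟨0, 0, 0, 0, 0, 0, 0, 0, 0, ⟨0, 0⟩, 0⟩, 0, 190645⟩ 0 0) (.pos 20 .pm ⟨⟨0, 0, 0, 0, 0, 0, 0, 0, 0, ⟨0, 0⟩, 0⟩, 0, 711285⟩ 0 0)) (.cut .d 399521 (.pos 21 .pm ⟨⟨0, 0, 0, 0, 0, 0, 0, 0, 0, ⟨0, 0⟩, 0⟩, 0, 166160⟩ 0 0) (.cut .s 4882432 (.pos 21 .pm ⟨⟨0, 0, 0, 0, 0, 0, 0, 0, 0, ⟨0, 0⟩, 0⟩, 0, 533630⟩ 0 0) (.pos 21 .pm ⟨⟨0, 0, 0, 0, 0, 0, 0, 0, 0, ⟨0, 0⟩, 0⟩, 0, 615378⟩ 0 0))))) (.void 9 ⟨⟨0, 0, 0, 0, 0, 0, 0, 0,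 0, ⟨0, 0⟩, 0⟩, 0, 100000⟩ 0 0)) (.void 9 ⟨⟨0, 0, 0, 0, 0, 0, 0, 0, 0, ⟨0, 0⟩, 0⟩, 0, 100000⟩ 0 0)))) (.cut .v 25165824 (.cut .v 20971520 (.cut .d 1598086 (.cut .v 18874368 (.cut .d 799043 (.cut .v 17825792 (.cut .d 399521 (.cut .d 199760 (.pos 29 .pp ⟨⟨198429, 0, 0, 0, 0, 0, 0, 0, 0, ⟨0, 0⟩, 0⟩, 0, 142714⟩ 0 0) (.pos 29 .pp ⟨⟨79823, 0, 0, 0, 0, 0, 0, 0, 0, ⟨0, 0⟩, 0⟩, 0, 197967⟩ 0 0)) (.pos 29 .pp ⟨⟨34360, 0, 0, 0, 0, 0, 0, 0, 0, ⟨0, 0⟩, 0⟩, 0, 415772⟩ 0 0)) (.void 30 ⟨⟨75761, 0, 0, 0, 0, 0, 0, 0, 0, ⟨0, 0⟩, 0⟩, 0, 24239⟩ 0 0)) (.void 27 ⟨⟨4863, 0, 0, 0, 0, 0, 0, 0, 0, ⟨0, 0⟩, 0⟩, 0, 95137⟩ 0 0)) (.void 28 ⟨⟨75336, 0, 0, 0, 0,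 0, 0, 0, 0, ⟨0, 0⟩, 0⟩, 0, 24664⟩ 0 0)) (.void 25 ⟨⟨0, 0, 0, 0, 0, 0, 0, 0, 0, ⟨0, 0⟩, 0⟩, 671, 99329⟩ 0 0)) (.void 26 ⟨⟨0, 0, 0, 0, 0, 0, 0, 0, 0, ⟨0, 0⟩, 0⟩, 23155, 76845⟩ 0 0)) (.void 24 ⟨⟨0, 0, 0, 0, 0, 0, 0, 0, 0, ⟨0, 0⟩, 0⟩, 100000, 0⟩ 0 0)))),
    by decide +kernel⟩

theorem covers5 : cell.Covers Vale.Agent.P237.Petty.Cor.Grid.N10.table row5.1 :=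
  ⟨(.cut .d 0 (.cut .v 16777216 (.cut .v 8388608 (.void 2 ⟨⟨0, 0, 0, 0, 50000, 50000, 0, 0, 0, ⟨0, 0⟩, 0⟩, 0, 0⟩ 0 0) (.cut .d (-8388608) (.void 3 ⟨⟨0, 0, 0, 0, 0, 100000, 0, 0, 0, ⟨0, 0⟩, 0⟩, 0, 0⟩ 0 0) (.cut .d (-4194304) (.void 3 ⟨⟨0, 0, 0, 0, 0, 100000, 0, 0, 0, ⟨0, 0⟩, 0⟩, 0, 0⟩ 0 0) (.cut .v 12582912 (.pos 8 .mm ⟨⟨0, 0, 0, 0, 0, 5465844, 0, 0, 0, ⟨0, 0⟩, 0⟩, 0, 0⟩ 0 0) (.cut .d (-2097152) (.void 9 ⟨⟨0, 0, 0, 0, 0, 100000, 0, 0, 0, ⟨0, 0⟩, 0⟩, 0, 0⟩ 0 0) (.cut .d (-1048576) (.void 9 ⟨⟨0, 0, 0, 0, 0, 100000, 0, 0, 0, ⟨0, 0⟩, 0⟩, 0, 0⟩ 0 0) (.cut .v 14680064 (.pos 12 .mm ⟨⟨0, 0, 0, 0, 0, 1956634, 0, 0, 0, ⟨0, 0⟩, 0⟩, 0, 0⟩ 0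 0) (.cut .d (-524288) (.void 13 ⟨⟨0, 0, 0, 0, 0, 100000, 0, 0, 0, ⟨0, 0⟩, 0⟩, 0, 0⟩ 0 0) (.cut .d (-262144) (.void 13 ⟨⟨0, 0, 0, 0, 0, 100000, 0, 0, 0, ⟨0, 0⟩, 0⟩, 0, 0⟩ 0 0) (.cut .v 15728640 (.pos 20 .mm ⟨⟨0, 0, 0, 0, 0, 1129017, 0, 0, 0, ⟨0, 0⟩, 0⟩, 0, 0⟩ 0 0) (.cut .d (-131072) (.cut .s 5636096 (.pos 21 .mm ⟨⟨0, 0, 0, 0, 0, 1609246, 0, 0, 0, ⟨0, 0⟩, 0⟩, 0, 0⟩ 0 0) (.pos 21 .mm ⟨⟨0, 0, 0, 0, 0, 2230196, 0, 0, 0, ⟨0, 0⟩, 0⟩, 0, 0⟩ 0 0)) (.cut .v 16252928 (.pos 39 .mm ⟨⟨0, 0, 0, 0, 0, 1169162, 0, 0, 0, ⟨0, 0⟩, 0⟩, 0, 0⟩ 0 0) (.cut .s 5636096 (.pos 40 .mm ⟨⟨0, 0, 0, 0, 0, 1267035, 0, 0, 0, ⟨0, 0⟩, 0⟩, 0, 0⟩ 0 0) (.cut .s 5832704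 (.pos 40 .mm ⟨⟨0, 0, 0, 0, 0, 1575371, 0, 0, 0, ⟨0, 0⟩, 0⟩, 0, 0⟩ 0 0) (.pos 40 .mm ⟨⟨0, 0, 0, 0, 0, 1914066, 0, 0, 0, ⟨0, 0⟩, 0⟩, 0, 0⟩ 0 0))))))))))))))) (.cut .v 25165824 (.cut .d (-8388608) (.void 23 ⟨⟨0, 0, 0, 0, 0, 100000, 0, 0, 0, ⟨0, 0⟩, 0⟩, 0, 0⟩ 0 0) (.cut .d (-4194304) (.void 23 ⟨⟨0, 0, 0, 0, 0, 100000, 0, 0, 0, ⟨0, 0⟩, 0⟩, 0, 0⟩ 0 0) (.cut .d (-2097152) (.void 23 ⟨⟨0, 0, 0, 0, 0, 100000, 0, 0, 0, ⟨0, 0⟩, 0⟩, 0, 0⟩ 0 0) (.cut .v 20971520 (.cut .d (-1048576) (.void 25 ⟨⟨0, 0, 0, 0, 0, 100000, 0, 0, 0, ⟨0, 0⟩, 0⟩, 0, 0⟩ 0 0) (.cut .d (-524288) (.void 25 ⟨⟨0, 0, 0, 0, 0, 100000, 0, 0, 0, ⟨0, 0⟩, 0⟩, 0, 0⟩ 0 0) (.cut .v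 18874368 (.cut .d (-262144) (.void 27 ⟨⟨0, 0, 0, 0, 0, 100000, 0, 0, 0, ⟨0, 0⟩, 0⟩, 0, 0⟩ 0 0) (.cut .v 17825792 (.cut .v 17301504 (.cut .v 17039360 (.cut .d (-131072) (.cut .s 5636096 (.pos 33 .mp ⟨⟨114016, 0, 0, 0, 0, 1620603, 0, 0, 0, ⟨0, 0⟩, 0⟩, 0, 0⟩ 0 0) (.pos 33 .mp ⟨⟨180430, 0, 0, 0, 0, 2242252, 0, 0, 0, ⟨0, 0⟩, 0⟩, 0, 0⟩ 0 0)) (.cut .l 184549 (.cut .v 16908288 (.cut .d (-65536) (.pos 35 .mp ⟨⟨71394, 0, 0, 0, 0, 1972975, 0, 0, 0, ⟨0, 0⟩, 0⟩, 0, 0⟩ 0 0) (.cut .s 5636096 (.pos 35 .mp ⟨⟨150326, 0, 0, 0, 0, 1084316, 0, 0, 0, ⟨0, 0⟩, 0⟩, 0, 0⟩ 0 0) (.cut .s 5832704 (.pos 35 .mp ⟨⟨344824, 0, 0, 0, 0, 1270187, 0, 0, 0, ⟨0, 0⟩,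 0⟩, 0, 0⟩ 0 0) (.pos 35 .mp ⟨⟨413343, 0, 0, 0, 0, 1503165, 0, 0, 0, ⟨0, 0⟩, 0⟩, 0, 0⟩ 0 0)))) (.pos 36 .mp ⟨⟨2000062, 0, 0, 0, 0, 0, 0, 0, 0, ⟨0, 0⟩, 0⟩, 0, 0⟩ 0 0)) (.pos 33 .mp ⟨⟨369655, 0, 0, 0, 0, 851713, 0, 0, 0, ⟨0, 0⟩, 0⟩, 0, 0⟩ 0 0))) (.pos 34 .mp ⟨⟨2444985, 0, 0, 0, 0, 0, 0, 0, 0, ⟨0, 0⟩, 0⟩, 0, 0⟩ 0 0)) (.void 32 ⟨⟨100000, 0, 0, 0, 0, 0, 0, 0, 0, ⟨0, 0⟩, 0⟩, 0, 0⟩ 0 0)) (.void 30 ⟨⟨100000, 0, 0, 0, 0, 0, 0, 0, 0, ⟨0, 0⟩, 0⟩, 0, 0⟩ 0 0))) (.void 28 ⟨⟨100000, 0, 0, 0, 0, 0, 0, 0, 0, ⟨0, 0⟩, 0⟩, 0, 0⟩ 0 0)))) (.void 26 ⟨⟨100000, 0, 0, 0, 0, 0, 0, 0, 0, ⟨0, 0⟩, 0⟩, 0, 0⟩ 0 0))))) (.void 24 ⟨⟨100000, 0, 0, 0, 0, 0, 0, 0, 0,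 ⟨0, 0⟩, 0⟩, 0, 0⟩ 0 0))) (.cut .v 16777216 (.cut .v 8388608 (.void 2 ⟨⟨0, 0, 0, 0, 100000, 0, 0, 0, 0, ⟨0, 0⟩, 0⟩, 0, 0⟩ 0 0) (.cut .v 12582912 (.void 8 ⟨⟨0, 0, 0, 0, 0, 0, 0, 0, 100000, ⟨0, 0⟩, 13128881⟩, 0, 0⟩ 0 0) (.cut .d 2098376 (.cut .d 1049188 (.cut .v 14680064 (.cut .d 524594 (.pos 12 .pm ⟨⟨0, 0, 0, 0, 0, 0, 0, 0, 0, ⟨0, 0⟩, 0⟩, 0, 456126⟩ 0 0) (.pos 12 .pm ⟨⟨0, 0, 0, 0, 0, 0, 0, 0, 0, ⟨0, 0⟩, 0⟩, 0, 3102921⟩ 0 0)) (.cut .d 524594 (.cut .v 15728640 (.cut .s 5636096 (.pos 20 .pm ⟨⟨0, 0, 0, 0, 0, 0, 0, 0, 0, ⟨0, 0⟩, 0⟩, 0, 303881⟩ 0 0) (.pos 20 .pm ⟨⟨0, 0, 0, 0, 0, 0, 0, 0, 0, ⟨0, 0⟩, 0⟩, 0, 288314⟩ 0 0)) (.cut .s 5636096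 (.cut .v 16252928 (.pos 39 .pm ⟨⟨0, 0, 0, 0, 0, 0, 0, 0, 0, ⟨0, 0⟩, 0⟩, 0, 221143⟩ 0 0) (.pos 40 .pm ⟨⟨0, 0, 0, 0, 0, 0, 0, 0, 0, ⟨0, 0⟩, 0⟩, 0, 151285⟩ 0 0)) (.pos 21 .pm ⟨⟨0, 0, 0, 0, 0, 0, 0, 0, 0, ⟨0, 0⟩, 0⟩, 0, 164617⟩ 0 0))) (.cut .v 15728640 (.pos 20 .pm ⟨⟨0, 0, 0, 0, 0, 0, 0, 0, 0, ⟨0, 0⟩, 0⟩, 0, 3601059⟩ 0 0) (.pos 21 .pm ⟨⟨0, 0, 0, 0, 0, 0, 0, 0, 0, ⟨0, 0⟩, 0⟩, 0, 4139135⟩ 0 0)))) (.void 9 ⟨⟨0, 0, 0, 0, 0, 0, 0, 0, 0, ⟨0, 0⟩, 0⟩, 0, 100000⟩ 0 0)) (.void 9 ⟨⟨0, 0, 0, 0, 0, 0, 0, 0, 0, ⟨0, 0⟩, 0⟩, 0, 100000⟩ 0 0)))) (.cut .v 25165824 (.cut .v 20971520 (.cut .d 2098376 (.cut .d 1049188 (.cut .v 18874368 (.cut .d 524594 (.cut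 .v 17825792 (.pos 29 .pp ⟨⟨381719, 0, 0, 0, 0, 0, 0, 0, 0, ⟨0, 0⟩, 0⟩, 0, 179388⟩ 0 0) (.pos 30 .pp ⟨⟨5425644, 0, 0, 0, 0, 0, 0, 0, 0, ⟨0, 0⟩, 0⟩, 0, 0⟩ 0 0)) (.pos 27 .pp ⟨⟨0, 0, 0, 0, 0, 0, 0, 0, 0, ⟨0, 0⟩, 0⟩, 0, 1349593⟩ 0 0)) (.void 28 ⟨⟨72960, 0, 0, 0, 0, 0, 0, 0, 0, ⟨0, 0⟩, 0⟩, 0, 27040⟩ 0 0)) (.void 25 ⟨⟨0, 0, 0, 0, 0, 0, 0, 0, 0, ⟨0, 0⟩, 0⟩, 1162, 98838⟩ 0 0)) (.void 25 ⟨⟨0, 0, 0, 0, 0, 0, 0, 0, 0, ⟨0, 0⟩, 0⟩, 0, 100000⟩ 0 0)) (.void 26 ⟨⟨0, 0, 0, 0, 0, 0, 0, 0, 0, ⟨0, 0⟩, 0⟩, 22894, 77106⟩ 0 0)) (.void 24 ⟨⟨0, 0, 0, 0, 0, 0, 0, 0, 0, ⟨0, 0⟩, 0⟩, 22894, 77106⟩ 0 0)))),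
    by decide +kernel⟩

theorem covers6 : cell.Covers Vale.Agent.P237.Petty.Cor.Grid.N10.table row6.1 :=
  ⟨(.cut .d 0 (.cut .v 16777216 (.cut .v 8388608 (.void 2 ⟨⟨0, 0, 0, 0, 50000, 50000, 0, 0, 0, ⟨0, 0⟩, 0⟩, 0, 0⟩ 0 0) (.cut .d (-8388608) (.void 3 ⟨⟨0, 0, 0, 0, 0, 100000, 0, 0, 0, ⟨0, 0⟩, 0⟩, 0, 0⟩ 0 0) (.cut .d (-4194304) (.void 3 ⟨⟨0, 0, 0, 0, 0, 100000, 0, 0, 0, ⟨0, 0⟩, 0⟩, 0, 0⟩ 0 0) (.cut .v 12582912 (.pos 8 .mm ⟨⟨0, 0, 0, 0, 0, 8333641, 0, 0, 0, ⟨0, 0⟩, 0⟩, 0, 0⟩ 0 0) (.cut .d (-2097152) (.void 9 ⟨⟨0, 0, 0, 0, 0, 100000, 0, 0, 0, ⟨0, 0⟩, 0⟩, 0, 0⟩ 0 0) (.cut .d (-1048576) (.void 9 ⟨⟨0, 0, 0, 0, 0, 100000, 0, 0, 0, ⟨0,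 0⟩, 0⟩, 0, 0⟩ 0 0) (.cut .v 14680064 (.pos 12 .mm ⟨⟨0, 0, 0, 0, 0, 3353723, 0, 0, 0, ⟨0, 0⟩, 0⟩, 0, 0⟩ 0 0) (.cut .d (-524288) (.void 13 ⟨⟨0, 0, 0, 0, 0, 100000, 0, 0, 0, ⟨0, 0⟩, 0⟩, 0, 0⟩ 0 0) (.cut .d (-262144) (.void 13 ⟨⟨0, 0, 0, 0, 0, 100000, 0, 0, 0, ⟨0, 0⟩, 0⟩, 0, 0⟩ 0 0) (.cut .d (-131072) (.pos 13 .mm ⟨⟨0, 0, 0, 0, 0, 3936285, 0, 0, 0, ⟨0, 0⟩, 0⟩, 0, 0⟩ 0 0) (.cut .v 15728640 (.pos 20 .mm ⟨⟨0, 0, 0, 0, 0, 1185513, 0, 0, 0, ⟨0, 0⟩, 0⟩, 0, 0⟩ 0 0) (.cut .v 16252928 (.pos 39 .mm ⟨⟨0, 0, 0, 0, 0, 1886339, 0, 0, 0, ⟨0, 0⟩, 0⟩, 0, 0⟩ 0 0) (.cut .s 6422528 (.cut .s 6225920 (.pos 40 .mm ⟨⟨0, 0, 0, 0, 0, 2302884, 0, 0, 0, ⟨0, 0⟩,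 0⟩, 0, 0⟩ 0 0) (.pos 40 .mm ⟨⟨0, 0, 0, 0, 0, 2682705, 0, 0, 0, ⟨0, 0⟩, 0⟩, 0, 0⟩ 0 0)) (.cut .s 6619136 (.pos 40 .mm ⟨⟨0, 0, 0, 0, 0, 3118711, 0, 0, 0, ⟨0, 0⟩, 0⟩, 0, 0⟩ 0 0) (.pos 40 .mm ⟨⟨0, 0, 0, 0, 0, 3633234, 0, 0, 0, ⟨0, 0⟩, 0⟩, 0, 0⟩ 0 0))))))))))))))) (.cut .v 25165824 (.cut .d (-8388608) (.void 23 ⟨⟨0, 0, 0, 0, 0, 100000, 0, 0, 0, ⟨0, 0⟩, 0⟩, 0, 0⟩ 0 0) (.cut .d (-4194304) (.void 23 ⟨⟨0, 0, 0, 0, 0, 100000, 0, 0, 0, ⟨0, 0⟩, 0⟩, 0, 0⟩ 0 0) (.cut .d (-2097152) (.void 23 ⟨⟨0, 0, 0, 0, 0, 100000, 0, 0, 0, ⟨0, 0⟩, 0⟩, 0, 0⟩ 0 0) (.cut .v 20971520 (.cut .d (-1048576) (.void 25 ⟨⟨0, 0, 0, 0, 0, 100000, 0, 0, 0, ⟨0, 0⟩, 0⟩, 0,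 0⟩ 0 0) (.cut .d (-524288) (.void 25 ⟨⟨0, 0, 0, 0, 0, 100000, 0, 0, 0, ⟨0, 0⟩, 0⟩, 0, 0⟩ 0 0) (.cut .v 18874368 (.cut .d (-262144) (.void 27 ⟨⟨0, 0, 0, 0, 0, 100000, 0, 0, 0, ⟨0, 0⟩, 0⟩, 0, 0⟩ 0 0) (.cut .v 17825792 (.cut .v 17301504 (.cut .v 17039360 (.cut .d (-131072) (.cut .s 6422528 (.pos 33 .mp ⟨⟨346825, 0, 0, 0, 0, 3203844, 0, 0, 0, ⟨0, 0⟩, 0⟩, 0, 0⟩ 0 0) (.pos 33 .mp ⟨⟨657588, 0, 0, 0, 0, 3951275, 0, 0, 0, ⟨0, 0⟩, 0⟩, 0, 0⟩ 0 0)) (.cut .s 6422528 (.cut .s 6225920 (.pos 33 .mp ⟨⟨532842, 0, 0, 0, 0, 1803825, 0, 0, 0, ⟨0, 0⟩, 0⟩, 0, 0⟩ 0 0) (.cut .s 6324224 (.pos 33 .mp ⟨⟨620041, 0, 0, 0, 0, 1977007, 0, 0, 0, ⟨0, 0⟩, 0⟩, 0,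 0⟩ 0 0) (.pos 33 .mp ⟨⟨719644, 0, 0, 0, 0, 2073687, 0, 0, 0, ⟨0, 0⟩, 0⟩, 0, 0⟩ 0 0))) (.cut .v 16908288 (.cut .s 6619136 (.cut .s 6520832 (.pos 35 .mp ⟨⟨797535, 0, 0, 0, 0, 2210414, 0, 0, 0, ⟨0, 0⟩, 0⟩, 0, 0⟩ 0 0) (.pos 35 .mp ⟨⟨918905, 0, 0, 0, 0, 2321501, 0, 0, 0, ⟨0, 0⟩, 0⟩, 0, 0⟩ 0 0)) (.cut .s 6717440 (.pos 35 .mp ⟨⟨1053148, 0, 0, 0, 0, 2437173, 0, 0, 0, ⟨0, 0⟩, 0⟩, 0, 0⟩ 0 0) (.pos 35 .mp ⟨⟨1200511, 0, 0, 0, 0, 2556806, 0, 0, 0, ⟨0, 0⟩, 0⟩, 0, 0⟩ 0 0))) (.pos 36 .mp ⟨⟨3444735, 0, 0, 0, 0, 0, 0, 0, 0, ⟨0, 0⟩, 0⟩, 0, 0⟩ 0 0)))) (.pos 34 .mp ⟨⟨4440407, 0, 0, 0, 0, 0, 0, 0, 0, ⟨0, 0⟩, 0⟩, 0, 0⟩ 0 0)) (.void 32 ⟨⟨100000, 0, 0,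 0, 0, 0, 0, 0, 0, ⟨0, 0⟩, 0⟩, 0, 0⟩ 0 0)) (.void 30 ⟨⟨100000, 0, 0, 0, 0, 0, 0, 0, 0, ⟨0, 0⟩, 0⟩, 0, 0⟩ 0 0))) (.void 28 ⟨⟨100000, 0, 0, 0, 0, 0, 0, 0, 0, ⟨0, 0⟩, 0⟩, 0, 0⟩ 0 0)))) (.void 26 ⟨⟨100000, 0, 0, 0, 0, 0, 0, 0, 0, ⟨0, 0⟩, 0⟩, 0, 0⟩ 0 0))))) (.void 24 ⟨⟨100000, 0, 0, 0, 0, 0, 0, 0, 0, ⟨0, 0⟩, 0⟩, 0, 0⟩ 0 0))) (.cut .v 16777216 (.cut .v 8388608 (.void 2 ⟨⟨0, 0, 0, 0, 100000, 0, 0, 0, 0, ⟨0, 0⟩, 0⟩, 0, 0⟩ 0 0) (.cut .d 2682930 (.cut .d 1341465 (.cut .v 12582912 (.pos 8 .pm ⟨⟨0, 0, 0, 0, 0, 0, 0, 0, 681119, ⟨0, 0⟩, 13128881⟩, 0, 666613⟩ 0 0) (.cut .d 670732 (.cut .v 14680064 (.pos 12 .pm ⟨⟨0, 0, 0, 0, 0, 0, 0, 0, 0, ⟨0,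 0⟩, 0⟩, 0, 505387⟩ 0 0) (.cut .v 15728640 (.pos 20 .pm ⟨⟨0, 0, 0, 0, 0, 0, 0, 0, 0, ⟨0, 0⟩, 0⟩, 0, 377617⟩ 0 0) (.pos 21 .pm ⟨⟨0, 0, 0, 0, 0, 0, 0, 0, 0, ⟨0, 0⟩, 0⟩, 0, 205934⟩ 0 0))) (.void 9 ⟨⟨0, 0, 0, 0, 0, 0, 0, 0, 0, ⟨0, 0⟩, 0⟩, 0, 100000⟩ 0 0))) (.void 3 ⟨⟨0, 0, 0, 0, 0, 0, 0, 0, 0, ⟨0, 0⟩, 0⟩, 0, 100000⟩ 0 0)) (.void 3 ⟨⟨0, 0, 0, 0, 0, 0, 0, 0, 0, ⟨0, 0⟩, 0⟩, 0, 100000⟩ 0 0))) (.cut .v 25165824 (.cut .v 20971520 (.cut .d 2682930 (.cut .d 1341465 (.cut .v 18874368 (.cut .d 670732 (.cut .v 17825792 (.cut .d 335366 (.pos 29 .pp ⟨⟨1339826, 0, 0, 0, 0, 0, 0, 0, 0, ⟨0, 0⟩, 0⟩, 0, 102462⟩ 0 0) (.pos 29 .pp ⟨⟨0, 0, 0, 0, 0, 0, 0,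 0, 0, ⟨0, 0⟩, 0⟩, 0, 358623⟩ 0 0)) (.pos 30 .pp ⟨⟨2332538, 0, 0, 0, 0, 0, 0, 0, 0, ⟨0, 0⟩, 0⟩, 0, 177268⟩ 0 0)) (.pos 27 .pp ⟨⟨0, 0, 0, 0, 0, 0, 0, 0, 0, ⟨0, 0⟩, 0⟩, 0, 2987788⟩ 0 0)) (.void 28 ⟨⟨70299, 0, 0, 0, 0, 0, 0, 0, 0, ⟨0, 0⟩, 0⟩, 0, 29701⟩ 0 0)) (.void 25 ⟨⟨0, 0, 0, 0, 0, 0, 0, 0, 0, ⟨0, 0⟩, 0⟩, 0, 100000⟩ 0 0)) (.void 25 ⟨⟨0, 0, 0, 0, 0, 0, 0, 0, 0, ⟨0, 0⟩, 0⟩, 0, 100000⟩ 0 0)) (.void 26 ⟨⟨0, 0, 0, 0, 0, 0, 0, 0, 0, ⟨0, 0⟩, 0⟩, 22396, 77604⟩ 0 0)) (.void 24 ⟨⟨0, 0, 0, 0, 0, 0, 0, 0, 0, ⟨0, 0⟩, 0⟩, 22396, 77604⟩ 0 0)))),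
    by decide +kernel⟩

theorem covers7 : cell.Covers Vale.Agent.P237.Petty.Cor.Grid.N10.table row7.1 :=
  ⟨(.cut .d 0 (.cut .v 16777216 (.cut .d (-8388608) (.void 1 ⟨⟨0, 0, 0, 0, 0, 100000, 0, 0, 0, ⟨0, 0⟩, 0⟩, 0, 0⟩ 0 0) (.cut .d (-4194304) (.void 1 ⟨⟨0, 0, 0, 0, 0, 100000, 0, 0, 0, ⟨0, 0⟩, 0⟩, 0, 0⟩ 0 0) (.cut .d (-2097152) (.void 1 ⟨⟨0, 0, 0, 0, 0, 100000, 0, 0, 0, ⟨0, 0⟩, 0⟩, 0, 0⟩ 0 0) (.cut .d (-1048576) (.void 1 ⟨⟨0, 0, 0, 0, 0, 100000, 0, 0, 0, ⟨0, 0⟩, 0⟩, 0, 0⟩ 0 0) (.cut .d (-524288) (.void 1 ⟨⟨0, 0, 0, 0, 0, 100000, 0, 0, 0, ⟨0, 0⟩, 0⟩, 0, 0⟩ 0 0) (.cut .d (-262144) (.void 1 ⟨⟨0, 0, 0, 0, 0, 100000, 0, 0, 0, ⟨0, 0⟩,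 0⟩, 0, 0⟩ 0 0) (.cut .v 8388608 (.cut .v 4194304 (.void 4 ⟨⟨0, 0, 100000, 0, 0, 0, 0, 0, 0, ⟨0, 0⟩, 0⟩, 0, 0⟩ 0 0) (.void 5 ⟨⟨0, 0, 0, 0, 0, 0, 0, 0, 100000, ⟨0, 0⟩, 9975792⟩, 0, 0⟩ 0 0)) (.cut .v 12582912 (.pos 8 .mm ⟨⟨0, 0, 0, 0, 0, 753912, 0, 0, 0, ⟨0, 0⟩, 0⟩, 0, 0⟩ 0 0) (.cut .v 14680064 (.pos 12 .mm ⟨⟨0, 0, 0, 0, 0, 1969992, 0, 0, 0, ⟨0, 0⟩, 0⟩, 0, 0⟩ 0 0) (.cut .d (-131072) (.pos 13 .mm ⟨⟨0, 0, 0, 0, 0, 6800589, 0, 0, 0, ⟨0, 0⟩, 0⟩, 0, 0⟩ 0 0) (.cut .v 15728640 (.pos 20 .mm ⟨⟨0, 0, 0, 0, 0, 2497778, 0, 0, 0, ⟨0, 0⟩, 0⟩, 0, 0⟩ 0 0) (.cut .v 16252928 (.pos 39 .mm ⟨⟨0, 0, 0, 0, 0, 3141606, 0, 0, 0, ⟨0, 0⟩, 0⟩, 0, 0⟩ 0 0) (.cut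 .v 16515072 (.pos 43 .mm ⟨⟨0, 0, 0, 0, 0, 4430599, 0, 0, 0, ⟨0, 0⟩, 0⟩, 0, 0⟩ 0 0) (.cut .s 7176192 (.cut .s 6995968 (.pos 44 .mm ⟨⟨0, 0, 0, 0, 0, 4215013, 0, 0, 0, ⟨0, 0⟩, 0⟩, 0, 0⟩ 0 0) (.pos 44 .mm ⟨⟨0, 0, 0, 0, 0, 4770691, 0, 0, 0, ⟨0, 0⟩, 0⟩, 0, 0⟩ 0 0)) (.cut .s 7356416 (.pos 44 .mm ⟨⟨0, 0, 0, 0, 0, 5434948, 0, 0, 0, ⟨0, 0⟩, 0⟩, 0, 0⟩ 0 0) (.pos 44 .mm ⟨⟨0, 0, 0, 0, 0, 6207288, 0, 0, 0, ⟨0, 0⟩, 0⟩, 0, 0⟩ 0 0)))))))))))))))) (.cut .v 25165824 (.cut .d (-8388608) (.void 23 ⟨⟨0, 0, 0, 0, 0, 100000, 0, 0, 0, ⟨0, 0⟩, 0⟩, 0, 0⟩ 0 0) (.cut .d (-4194304) (.void 23 ⟨⟨0, 0, 0, 0, 0, 100000, 0, 0, 0, ⟨0, 0⟩, 0⟩, 0, 0⟩ 0 0) (.cut .v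 20971520 (.cut .d (-2097152) (.void 25 ⟨⟨0, 0, 0, 0, 0, 100000, 0, 0, 0, ⟨0, 0⟩, 0⟩, 0, 0⟩ 0 0) (.cut .d (-1048576) (.void 25 ⟨⟨0, 0, 0, 0, 0, 100000, 0, 0, 0, ⟨0, 0⟩, 0⟩, 0, 0⟩ 0 0) (.cut .d (-524288) (.void 25 ⟨⟨0, 0, 0, 0, 0, 100000, 0, 0, 0, ⟨0, 0⟩, 0⟩, 0, 0⟩ 0 0) (.cut .v 18874368 (.cut .d (-262144) (.void 27 ⟨⟨0, 0, 0, 0, 0, 100000, 0, 0, 0, ⟨0, 0⟩, 0⟩, 0, 0⟩ 0 0) (.cut .v 17825792 (.cut .v 17301504 (.cut .v 17039360 (.cut .d (-131072) (.pos 33 .mp ⟨⟨1162913, 0, 0, 0, 0, 9165294, 0, 0, 0, ⟨0, 0⟩, 0⟩, 0, 0⟩ 0 0) (.cut .s 7176192 (.cut .v 16908288 (.cut .d (-65536) (.cut .s 6995968 (.pos 35 .mp ⟨⟨1008288, 0, 0, 0, 0, 3520905,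 0, 0, 0, ⟨0, 0⟩, 0⟩, 0, 0⟩ 0 0) (.pos 35 .mp ⟨⟨1254426, 0, 0, 0, 0, 3854687, 0, 0, 0, ⟨0, 0⟩, 0⟩, 0, 0⟩ 0 0)) (.cut .s 6995968 (.pos 35 .mp ⟨⟨1346751, 0, 0, 0, 0, 2717022, 0, 0, 0, ⟨0, 0⟩, 0⟩, 0, 0⟩ 0 0) (.cut .s 7086080 (.pos 35 .mp ⟨⟨1652714, 0, 0, 0, 0, 2799018, 0, 0, 0, ⟨0, 0⟩, 0⟩, 0, 0⟩ 0 0) (.pos 35 .mp ⟨⟨1778414, 0, 0, 0, 0, 2951925, 0, 0, 0, ⟨0, 0⟩, 0⟩, 0, 0⟩ 0 0)))) (.pos 36 .mp ⟨⟨4711782, 0, 0, 0, 0, 0, 0, 0, 0, ⟨0, 0⟩, 0⟩, 0, 0⟩ 0 0)) (.cut .v 16908288 (.cut .s 7356416 (.cut .d (-65536) (.pos 35 .mp ⟨⟨1612817, 0, 0, 0, 0, 4159589, 0, 0, 0, ⟨0, 0⟩, 0⟩, 0, 0⟩ 0 0) (.cut .s 7266304 (.pos 35 .mp ⟨⟨1933256, 0, 0, 0, 0, 3099877,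 0, 0, 0, ⟨0, 0⟩, 0⟩, 0, 0⟩ 0 0) (.pos 35 .mp ⟨⟨2159781, 0, 0, 0, 0, 3193570, 0, 0, 0, ⟨0, 0⟩, 0⟩, 0, 0⟩ 0 0))) (.cut .d (-65536) (.pos 35 .mp ⟨⟨2040621, 0, 0, 0, 0, 4495765, 0, 0, 0, ⟨0, 0⟩, 0⟩, 0, 0⟩ 0 0) (.cut .s 7446528 (.pos 35 .mp ⟨⟨2408947, 0, 0, 0, 0, 3288433, 0, 0, 0, ⟨0, 0⟩, 0⟩, 0, 0⟩ 0 0) (.pos 35 .mp ⟨⟨2677228, 0, 0, 0, 0, 3388344, 0, 0, 0, ⟨0, 0⟩, 0⟩, 0, 0⟩ 0 0)))) (.pos 36 .mp ⟨⟨5720796, 0, 0, 0, 0, 0, 0, 0, 0, ⟨0, 0⟩, 0⟩, 0, 0⟩ 0 0)))) (.pos 34 .mp ⟨⟨7017763, 0, 0, 0, 0, 0, 0, 0, 0, ⟨0, 0⟩, 0⟩, 0, 0⟩ 0 0)) (.void 32 ⟨⟨100000, 0, 0, 0, 0, 0, 0, 0, 0, ⟨0, 0⟩, 0⟩, 0, 0⟩ 0 0)) (.void 30 ⟨⟨100000, 0, 0, 0, 0, 0, 0, 0,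 0, ⟨0, 0⟩, 0⟩, 0, 0⟩ 0 0))) (.void 28 ⟨⟨100000, 0, 0, 0, 0, 0, 0, 0, 0, ⟨0, 0⟩, 0⟩, 0, 0⟩ 0 0))))) (.void 26 ⟨⟨100000, 0, 0, 0, 0, 0, 0, 0, 0, ⟨0, 0⟩, 0⟩, 0, 0⟩ 0 0)))) (.void 24 ⟨⟨100000, 0, 0, 0, 0, 0, 0, 0, 0, ⟨0, 0⟩, 0⟩, 0, 0⟩ 0 0))) (.cut .v 16777216 (.cut .d 3298859 (.cut .d 1649429 (.cut .d 824714 (.cut .v 8388608 (.cut .v 4194304 (.void 4 ⟨⟨0, 0, 50000, 0, 50000, 0, 0, 0, 0, ⟨0, 0⟩, 0⟩, 0, 0⟩ 0 0) (.void 5 ⟨⟨0, 0, 0, 0, 0, 0, 0, 0, 100000, ⟨0, 0⟩, 9975792⟩, 0, 0⟩ 0 0)) (.cut .v 12582912 (.pos 8 .pm ⟨⟨0, 0, 0, 0, 0, 0, 0, 0, 0, ⟨0, 0⟩, 0⟩, 0, 696447⟩ 0 0) (.cut .v 14680064 (.pos 12 .pm ⟨⟨0, 0, 0, 0, 0, 0, 0, 0, 0, ⟨0, 0⟩,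 0⟩, 0, 503766⟩ 0 0) (.pos 13 .pm ⟨⟨0, 0, 0, 0, 0, 0, 0, 0, 0, ⟨0, 0⟩, 0⟩, 0, 157466⟩ 0 0)))) (.void 1 ⟨⟨0, 0, 0, 0, 0, 0, 0, 0, 0, ⟨0, 0⟩, 0⟩, 0, 100000⟩ 0 0)) (.void 1 ⟨⟨0, 0, 0, 0, 0, 0, 0, 0, 0, ⟨0, 0⟩, 0⟩, 0, 100000⟩ 0 0)) (.void 1 ⟨⟨0, 0, 0, 0, 0, 0, 0, 0, 0, ⟨0, 0⟩, 0⟩, 0, 100000⟩ 0 0)) (.cut .v 25165824 (.cut .v 20971520 (.cut .d 3298859 (.cut .d 1649429 (.cut .d 824714 (.cut .v 18874368 (.cut .v 17825792 (.cut .d 412357 (.cut .s 7176192 (.pos 29 .pp ⟨⟨2274125, 0, 0, 0, 0, 0, 0, 0, 0, ⟨0, 0⟩, 0⟩, 0, 82119⟩ 0 0) (.pos 29 .pp ⟨⟨3288056, 0, 0, 0, 0, 0, 0, 0, 0, ⟨0, 0⟩, 0⟩, 0, 70315⟩ 0 0)) (.pos 29 .pp ⟨⟨284862, 0, 0, 0, 0,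 0, 0, 0, 0, ⟨0, 0⟩, 0⟩, 0, 426100⟩ 0 0)) (.pos 30 .pp ⟨⟨3908970, 0, 0, 0, 0, 0, 0, 0, 0, ⟨0, 0⟩, 0⟩, 0, 220936⟩ 0 0)) (.pos 28 .pp ⟨⟨7482365, 0, 0, 0, 0, 0, 0, 0, 0, ⟨0, 0⟩, 0⟩, 0, 492736⟩ 0 0)) (.cut .v 18874368 (.pos 27 .pp ⟨⟨0, 0, 0, 0, 0, 0, 0, 0, 0, ⟨0, 0⟩, 0⟩, 0, 5287392⟩ 0 0) (.pos 28 .pp ⟨⟨4144371, 0, 0, 0, 0, 0, 0, 0, 0, ⟨0, 0⟩, 0⟩, 0, 2983604⟩ 0 0))) (.void 25 ⟨⟨0, 0, 0, 0, 0, 0, 0, 0, 0, ⟨0, 0⟩, 0⟩, 0, 100000⟩ 0 0)) (.void 25 ⟨⟨0, 0, 0, 0, 0, 0, 0, 0, 0, ⟨0, 0⟩, 0⟩, 0, 100000⟩ 0 0)) (.void 26 ⟨⟨0, 0, 0, 0, 0, 0, 100000, 0, 0, ⟨0, 0⟩, 0⟩, 0, 0⟩ 0 0)) (.void 24 ⟨⟨0, 0, 0, 0, 0, 0, 0, 0, 0, ⟨0, 0⟩, 0⟩, 21816, 78184⟩ 0 0)))),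
    by decide +kernel⟩

theorem covers8 : cell.Covers Vale.Agent.P237.Petty.Cor.Grid.N10.table row8.1 :=
  ⟨(.cut .d 0 (.cut .v 16777216 (.cut .d (-8388608) (.void 1 ⟨⟨0, 0, 0, 0, 0, 100000, 0, 0, 0, ⟨0, 0⟩, 0⟩, 0, 0⟩ 0 0) (.cut .d (-4194304) (.void 1 ⟨⟨0, 0, 0, 0, 0, 100000, 0, 0, 0, ⟨0, 0⟩, 0⟩, 0, 0⟩ 0 0) (.cut .d (-2097152) (.void 1 ⟨⟨0, 0, 0, 0, 0, 100000, 0, 0, 0, ⟨0, 0⟩, 0⟩, 0, 0⟩ 0 0) (.cut .d (-1048576) (.void 1 ⟨⟨0, 0, 0, 0, 0, 100000, 0, 0, 0, ⟨0, 0⟩, 0⟩, 0, 0⟩ 0 0) (.cut .d (-524288) (.void 1 ⟨⟨0, 0, 0, 0, 0, 100000, 0, 0, 0, ⟨0, 0⟩, 0⟩, 0, 0⟩ 0 0) (.cut .d (-262144) (.void 1 ⟨⟨0, 0, 0, 0, 0, 100000, 0, 0, 0, ⟨0, 0⟩,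 0⟩, 0, 0⟩ 0 0) (.cut .d (-131072) (.void 1 ⟨⟨0, 0, 0, 0, 0, 100000, 0, 0, 0, ⟨0, 0⟩, 0⟩, 0, 0⟩ 0 0) (.cut .v 8388608 (.cut .v 4194304 (.void 4 ⟨⟨0, 0, 100000, 0, 0, 0, 0, 0, 0, ⟨0, 0⟩, 0⟩, 0, 0⟩ 0 0) (.void 5 ⟨⟨0, 0, 0, 0, 0, 0, 0, 0, 100000, ⟨0, 0⟩, 9975792⟩, 0, 0⟩ 0 0)) (.cut .v 12582912 (.pos 8 .mm ⟨⟨0, 0, 0, 0, 0, 1953435, 0, 0, 0, ⟨0, 0⟩, 0⟩, 0, 0⟩ 0 0) (.cut .s 7798784 (.pos 9 .mm ⟨⟨0, 0, 0, 0, 0, 7342535, 0, 0, 0, ⟨0, 0⟩, 0⟩, 0, 0⟩ 0 0) (.pos 9 .mm ⟨⟨0, 0, 0, 0, 0, 8870784, 0, 0, 0, ⟨0, 0⟩, 0⟩, 0, 0⟩ 0 0))))))))))) (.cut .v 25165824 (.cut .d (-8388608) (.void 23 ⟨⟨0, 0, 0, 0, 0, 100000, 0, 0, 0, ⟨0, 0⟩, 0⟩, 0, 0⟩ 0 0) (.cut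 .v 20971520 (.cut .d (-4194304) (.void 25 ⟨⟨0, 0, 0, 0, 0, 100000, 0, 0, 0, ⟨0, 0⟩, 0⟩, 0, 0⟩ 0 0) (.cut .d (-2097152) (.void 25 ⟨⟨0, 0, 0, 0, 0, 100000, 0, 0, 0, ⟨0, 0⟩, 0⟩, 0, 0⟩ 0 0) (.cut .d (-1048576) (.void 25 ⟨⟨0, 0, 0, 0, 0, 100000, 0, 0, 0, ⟨0, 0⟩, 0⟩, 0, 0⟩ 0 0) (.cut .v 18874368 (.cut .d (-524288) (.void 27 ⟨⟨0, 0, 0, 0, 0, 100000, 0, 0, 0, ⟨0, 0⟩, 0⟩, 0, 0⟩ 0 0) (.cut .d (-262144) (.void 27 ⟨⟨0, 0, 0, 0, 0, 100000, 0, 0, 0, ⟨0, 0⟩, 0⟩, 0, 0⟩ 0 0) (.cut .d (-131072) (.void 27 ⟨⟨0, 0, 0, 0, 0, 100000, 0, 0, 0, ⟨0, 0⟩, 0⟩, 0, 0⟩ 0 0) (.cut .v 17825792 (.cut .v 17301504 (.cut .v 17039360 (.cut .s 7798784 (.cut .v 16908288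 (.cut .d (-65536) (.cut .s 7667712 (.pos 35 .mp ⟨⟨2538739, 0, 0, 0, 0, 4679777, 0, 0, 0, ⟨0, 0⟩, 0⟩, 0, 0⟩ 0 0) (.pos 35 .mp ⟨⟨2961050, 0, 0, 0, 0, 4892462, 0, 0, 0, ⟨0, 0⟩, 0⟩, 0, 0⟩ 0 0)) (.cut .l 184549 (.cut .v 16842752 (.cut .d (-32768) (.pos 45 .mp ⟨⟨2456338, 0, 0, 0, 0, 5331715, 0, 0, 0, ⟨0, 0⟩, 0⟩, 0, 0⟩ 0 0) (.cut .s 7667712 (.pos 45 .mp ⟨⟨2945850, 0, 0, 0, 0, 3543141, 0, 0, 0, ⟨0, 0⟩, 0⟩, 0, 0⟩ 0 0) (.cut .s 7733248 (.pos 45 .mp ⟨⟨3440402, 0, 0, 0, 0, 3481690, 0, 0, 0, ⟨0, 0⟩, 0⟩, 0, 0⟩ 0 0) (.pos 45 .mp ⟨⟨3633736, 0, 0, 0, 0, 3599455, 0, 0, 0, ⟨0, 0⟩, 0⟩, 0, 0⟩ 0 0)))) (.pos 46 .mp ⟨⟨6854721, 0, 0, 0, 0, 0, 0, 0, 0,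 ⟨0, 0⟩, 0⟩, 0, 0⟩ 0 0)) (.pos 35 .mp ⟨⟨3519990, 0, 0, 0, 0, 2623879, 0, 0, 0, ⟨0, 0⟩, 0⟩, 0, 0⟩ 0 0))) (.pos 36 .mp ⟨⟨7221490, 0, 0, 0, 0, 0, 0, 0, 0, ⟨0, 0⟩, 0⟩, 0, 0⟩ 0 0)) (.cut .v 16908288 (.cut .d (-65536) (.cut .s 7929856 (.pos 35 .mp ⟨⟨3438517, 0, 0, 0, 0, 5128214, 0, 0, 0, ⟨0, 0⟩, 0⟩, 0, 0⟩ 0 0) (.pos 35 .mp ⟨⟨3972899, 0, 0, 0, 0, 5382657, 0, 0, 0, ⟨0, 0⟩, 0⟩, 0, 0⟩ 0 0)) (.cut .s 7929856 (.cut .s 7864320 (.pos 35 .mp ⟨⟨3869731, 0, 0, 0, 0, 3736272, 0, 0, 0, ⟨0, 0⟩, 0⟩, 0, 0⟩ 0 0) (.cut .s 7897088 (.pos 35 .mp ⟨⟨4084652, 0, 0, 0, 0, 3804955, 0, 0, 0, ⟨0, 0⟩, 0⟩, 0, 0⟩ 0 0) (.pos 35 .mp ⟨⟨4215663, 0, 0, 0, 0, 3851640, 0,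 0, 0, ⟨0, 0⟩, 0⟩, 0, 0⟩ 0 0))) (.cut .v 16842752 (.cut .l 184549 (.cut .d (-32768) (.pos 45 .mp ⟨⟨3868305, 0, 0, 0, 0, 5443156, 0, 0, 0, ⟨0, 0⟩, 0⟩, 0, 0⟩ 0 0) (.cut .s 7995392 (.pos 45 .mp ⟨⟨4353196, 0, 0, 0, 0, 3917605, 0, 0, 0, ⟨0, 0⟩, 0⟩, 0, 0⟩ 0 0) (.pos 45 .mp ⟨⟨4645372, 0, 0, 0, 0, 4004027, 0, 0, 0, ⟨0, 0⟩, 0⟩, 0, 0⟩ 0 0))) (.pos 45 .mp ⟨⟨3730338, 0, 0, 0, 0, 4516001, 0, 0, 0, ⟨0, 0⟩, 0⟩, 0, 0⟩ 0 0)) (.pos 46 .mp ⟨⟨6453300, 0, 0, 0, 0, 1737180, 0, 0, 0, ⟨0, 0⟩, 0⟩, 0, 0⟩ 0 0)))) (.pos 36 .mp ⟨⟨8401653, 0, 0, 0, 0, 0, 0, 0, 0, ⟨0, 0⟩, 0⟩, 0, 0⟩ 0 0))) (.pos 34 .mp ⟨⟨8697141, 0, 0, 0, 0, 0, 0, 0, 0, ⟨0, 0⟩, 0⟩, 0, 0⟩ 0 0))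 (.void 32 ⟨⟨100000, 0, 0, 0, 0, 0, 0, 0, 0, ⟨0, 0⟩, 0⟩, 0, 0⟩ 0 0)) (.void 30 ⟨⟨100000, 0, 0, 0, 0, 0, 0, 0, 0, ⟨0, 0⟩, 0⟩, 0, 0⟩ 0 0))))) (.void 28 ⟨⟨100000, 0, 0, 0, 0, 0, 0, 0, 0, ⟨0, 0⟩, 0⟩, 0, 0⟩ 0 0))))) (.void 26 ⟨⟨100000, 0, 0, 0, 0, 0, 0, 0, 0, ⟨0, 0⟩, 0⟩, 0, 0⟩ 0 0))) (.void 24 ⟨⟨100000, 0, 0, 0, 0, 0, 0, 0, 0, ⟨0, 0⟩, 0⟩, 0, 0⟩ 0 0))) (.cut .v 16777216 (.cut .d 3868184 (.cut .d 1934092 (.cut .d 967046 (.cut .v 8388608 (.cut .v 4194304 (.void 4 ⟨⟨0, 0, 50000, 0, 50000, 0, 0, 0, 0, ⟨0, 0⟩, 0⟩, 0, 0⟩ 0 0) (.void 5 ⟨⟨0, 0, 0, 0, 0, 0, 0, 0, 100000, ⟨0, 0⟩, 9975792⟩, 0, 0⟩ 0 0)) (.cut .v 12582912 (.pos 8 .pm ⟨⟨0, 0, 0, 0,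 0, 0, 0, 0, 0, ⟨0, 0⟩, 0⟩, 0, 328339⟩ 0 0) (.pos 9 .pm ⟨⟨0, 0, 0, 0, 0, 0, 0, 0, 0, ⟨0, 0⟩, 0⟩, 0, 113808⟩ 0 0))) (.void 1 ⟨⟨0, 0, 0, 0, 0, 0, 0, 0, 0, ⟨0, 0⟩, 0⟩, 0, 100000⟩ 0 0)) (.void 1 ⟨⟨0, 0, 0, 0, 0, 0, 0, 0, 0, ⟨0, 0⟩, 0⟩, 0, 100000⟩ 0 0)) (.void 1 ⟨⟨0, 0, 0, 0, 0, 0, 0, 0, 0, ⟨0, 0⟩, 0⟩, 0, 100000⟩ 0 0)) (.cut .v 25165824 (.cut .d 3868184 (.cut .v 20971520 (.cut .d 1934092 (.cut .d 967046 (.cut .v 18874368 (.cut .d 483523 (.cut .v 17825792 (.cut .s 7798784 (.pos 29 .pp ⟨⟨4302833, 0, 0, 0, 0, 0, 0, 0, 0, ⟨0, 0⟩, 0⟩, 0, 85549⟩ 0 0) (.pos 29 .pp ⟨⟨5476811, 0, 0, 0, 0, 0, 0, 0, 0, ⟨0, 0⟩, 0⟩, 0, 86754⟩ 0 0)) (.pos 30 .pp ⟨⟨7550311,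 0, 0, 0, 0, 0, 0, 0, 0, ⟨0, 0⟩, 0⟩, 0, 0⟩ 0 0)) (.pos 27 .pp ⟨⟨2084230, 0, 0, 0, 0, 0, 0, 0, 0, ⟨0, 0⟩, 0⟩, 0, 429426⟩ 0 0)) (.pos 28 .pp ⟨⟨9434695, 0, 0, 0, 0, 0, 0, 0, 0, ⟨0, 0⟩, 0⟩, 0, 61625⟩ 0 0)) (.cut .v 18874368 (.void 27 ⟨⟨0, 0, 0, 0, 0, 0, 0, 0, 0, ⟨0, 0⟩, 0⟩, 0, 100000⟩ 0 0) (.pos 28 .pp ⟨⟨6737877, 0, 0, 0, 0, 0, 0, 0, 0, ⟨0, 0⟩, 0⟩, 0, 5710252⟩ 0 0))) (.void 25 ⟨⟨0, 0, 0, 0, 0, 0, 0, 0, 0, ⟨0, 0⟩, 0⟩, 0, 100000⟩ 0 0)) (.void 26 ⟨⟨0, 0, 0, 0, 0, 0, 100000, 0, 0, ⟨0, 0⟩, 0⟩, 0, 0⟩ 0 0)) (.void 23 ⟨⟨0, 0, 0, 0, 0, 0, 0, 0, 0, ⟨0, 0⟩, 0⟩, 0, 100000⟩ 0 0)) (.void 24 ⟨⟨0, 0, 0, 0, 0, 0, 0, 0, 0, ⟨0, 0⟩, 0⟩, 21353, 78647⟩ 0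 0)))),
    by decide +kernel⟩

theorem covers9 : cell.Covers Vale.Agent.P237.Petty.Cor.Grid.N10.table row9.1 :=
  ⟨(.cut .d 0 (.cut .v 16777216 (.cut .d (-8388608) (.void 1 ⟨⟨0, 0, 0, 0, 0, 100000, 0, 0, 0, ⟨0, 0⟩, 0⟩, 0, 0⟩ 0 0) (.cut .d (-4194304) (.void 1 ⟨⟨0, 0, 0, 0, 0, 100000, 0, 0, 0, ⟨0, 0⟩, 0⟩, 0, 0⟩ 0 0) (.cut .d (-2097152) (.void 1 ⟨⟨0, 0, 0, 0, 0, 100000, 0, 0, 0, ⟨0, 0⟩, 0⟩, 0, 0⟩ 0 0) (.cut .d (-1048576) (.void 1 ⟨⟨0, 0, 0, 0, 0, 100000, 0, 0, 0, ⟨0, 0⟩, 0⟩, 0, 0⟩ 0 0) (.cut .d (-524288) (.void 1 ⟨⟨0, 0, 0, 0, 0, 100000, 0, 0, 0, ⟨0, 0⟩, 0⟩, 0, 0⟩ 0 0) (.cut .d (-262144) (.void 1 ⟨⟨0, 0, 0, 0, 0, 100000, 0, 0, 0,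 ⟨0, 0⟩, 0⟩, 0, 0⟩ 0 0) (.cut .d (-131072) (.void 1 ⟨⟨0, 0, 0, 0, 0, 100000, 0, 0, 0, ⟨0, 0⟩, 0⟩, 0, 0⟩ 0 0) (.cut .v 8388608 (.cut .v 4194304 (.void 4 ⟨⟨0, 0, 100000, 0, 0, 0, 0, 0, 0, ⟨0, 0⟩, 0⟩, 0, 0⟩ 0 0) (.pos 5 .mm ⟨⟨0, 0, 0, 0, 0, 5621777, 0, 0, 1769525, ⟨0, 0⟩, 9975792⟩, 0, 0⟩ 0 0)) (.cut .v 12582912 (.pos 8 .mm ⟨⟨0, 0, 0, 0, 0, 3655884, 0, 0, 0, ⟨0, 0⟩, 0⟩, 0, 0⟩ 0 0) (.cut .s 8323072 (.pos 9 .mm ⟨⟨0, 0, 0, 0, 0, 10802446, 0, 0, 0, ⟨0, 0⟩, 0⟩, 0, 0⟩ 0 0) (.pos 9 .mm ⟨⟨0, 0, 0, 0, 0, 13131638, 0, 0, 0, ⟨0, 0⟩, 0⟩, 0, 0⟩ 0 0))))))))))) (.cut .v 25165824 (.cut .d (-8388608) (.void 23 ⟨⟨0, 0, 0, 0, 0, 100000, 0, 0, 0, ⟨0, 0⟩,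 0⟩, 0, 0⟩ 0 0) (.cut .v 20971520 (.cut .d (-4194304) (.void 25 ⟨⟨0, 0, 0, 0, 0, 100000, 0, 0, 0, ⟨0, 0⟩, 0⟩, 0, 0⟩ 0 0) (.cut .d (-2097152) (.void 25 ⟨⟨0, 0, 0, 0, 0, 100000, 0, 0, 0, ⟨0, 0⟩, 0⟩, 0, 0⟩ 0 0) (.cut .d (-1048576) (.void 25 ⟨⟨0, 0, 0, 0, 0, 100000, 0, 0, 0, ⟨0, 0⟩, 0⟩, 0, 0⟩ 0 0) (.cut .v 18874368 (.cut .d (-524288) (.void 27 ⟨⟨0, 0, 0, 0, 0, 100000, 0, 0, 0, ⟨0, 0⟩, 0⟩, 0, 0⟩ 0 0) (.cut .d (-262144) (.void 27 ⟨⟨0, 0, 0, 0, 0, 100000, 0, 0, 0, ⟨0, 0⟩, 0⟩, 0, 0⟩ 0 0) (.cut .v 17825792 (.cut .d (-131072) (.void 29 ⟨⟨0, 0, 0, 0, 0, 100000, 0, 0, 0, ⟨0, 0⟩, 0⟩, 0, 0⟩ 0 0) (.cut .v 17301504 (.cut .v 17039360 (.cut .s 8323072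 (.cut .v 16908288 (.cut .d (-65536) (.cut .s 8192000 (.pos 35 .mp ⟨⟨4566547, 0, 0, 0, 0, 5672013, 0, 0, 0, ⟨0, 0⟩, 0⟩, 0, 0⟩ 0 0) (.pos 35 .mp ⟨⟨5229054, 0, 0, 0, 0, 5945508, 0, 0, 0, ⟨0, 0⟩, 0⟩, 0, 0⟩ 0 0)) (.cut .s 8192000 (.cut .v 16842752 (.cut .l 184549 (.cut .d (-32768) (.pos 45 .mp ⟨⟨4453548, 0, 0, 0, 0, 5758425, 0, 0, 0, ⟨0, 0⟩, 0⟩, 0, 0⟩ 0 0) (.cut .s 8126464 (.pos 45 .mp ⟨⟨4958152, 0, 0, 0, 0, 4089308, 0, 0, 0, ⟨0, 0⟩, 0⟩, 0, 0⟩ 0 0) (.pos 45 .mp ⟨⟨5229959, 0, 0, 0, 0, 4221046, 0, 0, 0, ⟨0, 0⟩, 0⟩, 0, 0⟩ 0 0))) (.pos 45 .mp ⟨⟨4304035, 0, 0, 0, 0, 4803992, 0, 0, 0, ⟨0, 0⟩, 0⟩, 0, 0⟩ 0 0)) (.pos 46 .mp ⟨⟨7313078, 0, 0,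 0, 0, 1613141, 0, 0, 0, ⟨0, 0⟩, 0⟩, 0, 0⟩ 0 0)) (.cut .l 184549 (.cut .d (-32768) (.pos 35 .mp ⟨⟨5326744, 0, 0, 0, 0, 5990158, 0, 0, 0, ⟨0, 0⟩, 0⟩, 0, 0⟩ 0 0) (.cut .s 8257536 (.pos 35 .mp ⟨⟨5644509, 0, 0, 0, 0, 4208528, 0, 0, 0, ⟨0, 0⟩, 0⟩, 0, 0⟩ 0 0) (.cut .s 8290304 (.pos 35 .mp ⟨⟨5872723, 0, 0, 0, 0, 4364508, 0, 0, 0, ⟨0, 0⟩, 0⟩, 0, 0⟩ 0 0) (.pos 35 .mp ⟨⟨6057148, 0, 0, 0, 0, 4408850, 0, 0, 0, ⟨0, 0⟩, 0⟩, 0, 0⟩ 0 0)))) (.pos 35 .mp ⟨⟨6089154, 0, 0, 0, 0, 3548908, 0, 0, 0, ⟨0, 0⟩, 0⟩, 0, 0⟩ 0 0)))) (.cut .s 8192000 (.pos 36 .mp ⟨⟨9661373, 0, 0, 0, 0, 0, 0, 0, 0, ⟨0, 0⟩, 0⟩, 0, 0⟩ 0 0) (.pos 36 .mp ⟨⟨10463743, 0, 0, 0, 0, 0,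 0, 0, 0, ⟨0, 0⟩, 0⟩, 0, 0⟩ 0 0))) (.cut .d (-65536) (.cut .v 16908288 (.cut .s 8454144 (.pos 35 .mp ⟨⟨5970079, 0, 0, 0, 0, 6245483, 0, 0, 0, ⟨0, 0⟩, 0⟩, 0, 0⟩ 0 0) (.pos 35 .mp ⟨⟨6792415, 0, 0, 0, 0, 6579619, 0, 0, 0, ⟨0, 0⟩, 0⟩, 0, 0⟩ 0 0)) (.pos 36 .mp ⟨⟨12615831, 0, 0, 0, 0, 0, 0, 0, 0, ⟨0, 0⟩, 0⟩, 0, 0⟩ 0 0)) (.cut .v 16908288 (.cut .s 8454144 (.cut .s 8388608 (.cut .s 8355840 (.pos 35 .mp ⟨⟨6412504, 0, 0, 0, 0, 4301549, 0, 0, 0, ⟨0, 0⟩, 0⟩, 0, 0⟩ 0 0) (.pos 35 .mp ⟨⟨6621495, 0, 0, 0, 0, 4332253, 0, 0, 0, ⟨0, 0⟩, 0⟩, 0, 0⟩ 0 0)) (.cut .s 8421376 (.pos 35 .mp ⟨⟨6835833, 0, 0, 0, 0, 4363895, 0, 0, 0, ⟨0, 0⟩, 0⟩, 0, 0⟩ 0 0) (.pos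 35 .mp ⟨⟨7055568, 0, 0, 0, 0, 4396393, 0, 0, 0, ⟨0, 0⟩, 0⟩, 0, 0⟩ 0 0))) (.cut .s 8519680 (.cut .s 8486912 (.pos 35 .mp ⟨⟨7280748, 0, 0, 0, 0, 4429663, 0, 0, 0, ⟨0, 0⟩, 0⟩, 0, 0⟩ 0 0) (.pos 35 .mp ⟨⟨7511424, 0, 0, 0, 0, 4463621, 0, 0, 0, ⟨0, 0⟩, 0⟩, 0, 0⟩ 0 0)) (.cut .s 8552448 (.pos 35 .mp ⟨⟨7747647, 0, 0, 0, 0, 4498178, 0, 0, 0, ⟨0, 0⟩, 0⟩, 0, 0⟩ 0 0) (.pos 35 .mp ⟨⟨7989468, 0, 0, 0, 0, 4533247, 0, 0, 0, ⟨0, 0⟩, 0⟩, 0, 0⟩ 0 0)))) (.pos 36 .mp ⟨⟨11061205, 0, 0, 0, 0, 0, 0, 0, 0, ⟨0, 0⟩, 0⟩, 0, 0⟩ 0 0)))) (.pos 34 .mp ⟨⟨12102721, 0, 0, 0, 0, 0, 0, 0, 0, ⟨0, 0⟩, 0⟩, 0, 0⟩ 0 0)) (.void 32 ⟨⟨100000, 0, 0, 0, 0, 0, 0, 0, 0, ⟨0, 0⟩,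 0⟩, 0, 0⟩ 0 0))) (.void 30 ⟨⟨100000, 0, 0, 0, 0, 0, 0, 0, 0, ⟨0, 0⟩, 0⟩, 0, 0⟩ 0 0)))) (.void 28 ⟨⟨100000, 0, 0, 0, 0, 0, 0, 0, 0, ⟨0, 0⟩, 0⟩, 0, 0⟩ 0 0))))) (.void 26 ⟨⟨100000, 0, 0, 0, 0, 0, 0, 0, 0, ⟨0, 0⟩, 0⟩, 0, 0⟩ 0 0))) (.void 24 ⟨⟨100000, 0, 0, 0, 0, 0, 0, 0, 0, ⟨0, 0⟩, 0⟩, 0, 0⟩ 0 0))) (.cut .v 16777216 (.cut .d 4423332 (.cut .d 2211666 (.cut .d 1105833 (.cut .v 8388608 (.cut .v 4194304 (.void 4 ⟨⟨0, 0, 50000, 0, 50000, 0, 0, 0, 0, ⟨0, 0⟩, 0⟩, 0, 0⟩ 0 0) (.pos 5 .pm ⟨⟨0, 0, 0, 0, 0, 0, 0, 0, 3081676, ⟨0, 0⟩, 9975792⟩, 0, 0⟩ 0 0)) (.cut .v 12582912 (.pos 8 .pm ⟨⟨0, 0, 0, 0, 0, 0, 0, 0, 0, ⟨0, 0⟩, 0⟩, 0, 78398⟩ 0 0) (.pos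 9 .pm ⟨⟨0, 0, 0, 0, 0, 0, 0, 0, 0, ⟨0, 0⟩, 0⟩, 0, 0⟩ 0 0))) (.void 1 ⟨⟨0, 0, 0, 0, 0, 0, 0, 0, 0, ⟨0, 0⟩, 0⟩, 0, 100000⟩ 0 0)) (.void 1 ⟨⟨0, 0, 0, 0, 0, 0, 0, 0, 0, ⟨0, 0⟩, 0⟩, 0, 100000⟩ 0 0)) (.void 1 ⟨⟨0, 0, 0, 0, 0, 0, 0, 0, 0, ⟨0, 0⟩, 0⟩, 0, 100000⟩ 0 0)) (.cut .v 25165824 (.cut .d 4423332 (.cut .d 2211666 (.cut .v 20971520 (.cut .d 1105833 (.cut .v 18874368 (.cut .d 552916 (.cut .v 17825792 (.cut .d 276458 (.cut .s 8323072 (.pos 29 .pp ⟨⟨7221496, 0, 0, 0, 0, 0, 0, 0, 0, ⟨0, 0⟩, 0⟩, 0, 13153⟩ 0 0) (.pos 29 .pp ⟨⟨9013840, 0, 0, 0, 0, 0, 0, 0, 0, ⟨0, 0⟩, 0⟩, 0, 20308⟩ 0 0)) (.pos 29 .pp ⟨⟨3968496, 0, 0, 0, 0, 0, 0, 0, 0, ⟨0,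 0⟩, 0⟩, 0, 325385⟩ 0 0)) (.pos 30 .pp ⟨⟨10785188, 0, 0, 0, 0, 0, 0, 0, 0, ⟨0, 0⟩, 0⟩, 0, 0⟩ 0 0)) (.pos 27 .pp ⟨⟨3474517, 0, 0, 0, 0, 0, 0, 0, 0, ⟨0, 0⟩, 0⟩, 0, 387714⟩ 0 0)) (.cut .d 552916 (.pos 28 .pp ⟨⟨16247334, 0, 0, 0, 0, 0, 0, 0, 0, ⟨0, 0⟩, 0⟩, 0, 0⟩ 0 0) (.cut .v 19922944 (.pos 53 .pp ⟨⟨7084256, 0, 0, 0, 0, 0, 0, 0, 0, ⟨0, 0⟩, 0⟩, 0, 356001⟩ 0 0) (.pos 54 .pp ⟨⟨11281112, 0, 0, 0, 0, 0, 0, 0, 0, ⟨0, 0⟩, 0⟩, 0, 181160⟩ 0 0)))) (.pos 25 .pp ⟨⟨0, 0, 0, 0, 0, 0, 0, 0, 0, ⟨0, 0⟩, 0⟩, 0, 8637597⟩ 0 0)) (.cut .d 1105833 (.pos 26 .pp ⟨⟨25621836, 0, 0, 0, 0, 0, 0, 0, 0, ⟨0, 0⟩, 0⟩, 0, 0⟩ 0 0) (.pos 26 .pp ⟨⟨24263234, 0, 0, 0, 0,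 0, 116342, 0, 0, ⟨0, 0⟩, 0⟩, 0, 10738829⟩ 0 0))) (.void 23 ⟨⟨0, 0, 0, 0, 0, 0, 0, 0, 0, ⟨0, 0⟩, 0⟩, 0, 100000⟩ 0 0)) (.void 23 ⟨⟨0, 0, 0, 0, 0, 0, 0, 0, 0, ⟨0, 0⟩, 0⟩, 0, 100000⟩ 0 0)) (.void 24 ⟨⟨0, 0, 0, 0, 0, 0, 0, 0, 0, ⟨0, 0⟩, 0⟩, 20870, 79130⟩ 0 0)))),
    by decide +kernel⟩

theorem covers10 : cell.Covers Vale.Agent.P237.Petty.Cor.Grid.N10.table row10.1 :=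
  ⟨(.cut .d 0 (.cut .v 16777216 (.cut .d (-8388608) (.void 1 ⟨⟨0, 0, 0, 0, 0, 100000, 0, 0, 0, ⟨0, 0⟩, 0⟩, 0, 0⟩ 0 0) (.cut .d (-4194304) (.void 1 ⟨⟨0, 0, 0, 0, 0, 100000, 0, 0, 0, ⟨0, 0⟩, 0⟩, 0, 0⟩ 0 0) (.cut .d (-2097152) (.void 1 ⟨⟨0, 0, 0, 0, 0, 100000, 0, 0, 0, ⟨0, 0⟩, 0⟩, 0, 0⟩ 0 0) (.cut .d (-1048576) (.void 1 ⟨⟨0, 0, 0, 0, 0, 100000, 0, 0, 0, ⟨0, 0⟩, 0⟩, 0, 0⟩ 0 0) (.cut .d (-524288) (.void 1 ⟨⟨0, 0, 0, 0, 0, 100000, 0, 0, 0, ⟨0, 0⟩, 0⟩, 0, 0⟩ 0 0) (.cut .d (-262144) (.void 1 ⟨⟨0, 0, 0, 0, 0, 100000, 0, 0, 0, ⟨0, 0⟩, 0⟩, 0, 0⟩ 0 0) (.cut .d (-131072) (.void 1 ⟨⟨0, 0, 0, 0, 0, 100000, 0, 0, 0, ⟨0, 0⟩, 0⟩, 0, 0⟩ 0 0) (.cut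 .v 8388608 (.cut .v 4194304 (.void 4 ⟨⟨0, 0, 100000, 0, 0, 0, 0, 0, 0, ⟨0, 0⟩, 0⟩, 0, 0⟩ 0 0) (.pos 5 .mm ⟨⟨0, 0, 0, 0, 0, 4979166, 0, 0, 1229228, ⟨0, 0⟩, 9975792⟩, 0, 0⟩ 0 0)) (.cut .v 12582912 (.pos 8 .mm ⟨⟨0, 0, 0, 0, 0, 5711695, 0, 0, 0, ⟨0, 0⟩, 0⟩, 0, 0⟩ 0 0) (.cut .s 8814592 (.pos 9 .mm ⟨⟨0, 0, 0, 0, 0, 15812323, 0, 0, 0, ⟨0, 0⟩, 0⟩, 0, 0⟩ 0 0) (.pos 9 .mm ⟨⟨0, 0, 0, 0, 0, 19048406, 0, 0, 0, ⟨0, 0⟩, 0⟩, 0, 0⟩ 0 0))))))))))) (.cut .v 25165824 (.cut .d (-8388608) (.void 23 ⟨⟨0, 0, 0, 0, 0, 100000, 0, 0, 0, ⟨0, 0⟩, 0⟩, 0, 0⟩ 0 0) (.cut .v 20971520 (.cut .d (-4194304) (.void 25 ⟨⟨0, 0, 0, 0, 0, 100000, 0, 0, 0, ⟨0, 0⟩, 0⟩, 0,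 0⟩ 0 0) (.cut .d (-2097152) (.void 25 ⟨⟨0, 0, 0, 0, 0, 100000, 0, 0, 0, ⟨0, 0⟩, 0⟩, 0, 0⟩ 0 0) (.cut .v 18874368 (.cut .d (-1048576) (.void 27 ⟨⟨0, 0, 0, 0, 0, 100000, 0, 0, 0, ⟨0, 0⟩, 0⟩, 0, 0⟩ 0 0) (.cut .d (-524288) (.void 27 ⟨⟨0, 0, 0, 0, 0, 100000, 0, 0, 0, ⟨0, 0⟩, 0⟩, 0, 0⟩ 0 0) (.cut .d (-262144) (.void 27 ⟨⟨0, 0, 0, 0, 0, 100000, 0, 0, 0, ⟨0, 0⟩, 0⟩, 0, 0⟩ 0 0) (.cut .v 17825792 (.cut .d (-131072) (.void 29 ⟨⟨0, 0, 0, 0, 0, 100000, 0, 0, 0, ⟨0, 0⟩, 0⟩, 0, 0⟩ 0 0) (.cut .v 17301504 (.cut .v 17039360 (.cut .s 8814592 (.cut .d (-65536) (.cut .s 8699904 (.cut .s 8642560 (.pos 33 .mp ⟨⟨7929490, 0, 0, 0, 0, 6200696, 0, 0, 0,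 ⟨0, 0⟩, 0⟩, 0, 0⟩ 0 0) (.pos 33 .mp ⟨⟨8372228, 0, 0, 0, 0, 6350385, 0, 0, 0, ⟨0, 0⟩, 0⟩, 0, 0⟩ 0 0)) (.pos 33 .mp ⟨⟨8891592, 0, 0, 0, 0, 7422658, 0, 0, 0, ⟨0, 0⟩, 0⟩, 0, 0⟩ 0 0)) (.cut .v 16908288 (.cut .s 8699904 (.cut .l 184549 (.cut .d (-32768) (.pos 35 .mp ⟨⟨7700460, 0, 0, 0, 0, 7169357, 0, 0, 0, ⟨0, 0⟩, 0⟩, 0, 0⟩ 0 0) (.cut .s 8642560 (.pos 35 .mp ⟨⟨8204153, 0, 0, 0, 0, 4647214, 0, 0, 0, ⟨0, 0⟩, 0⟩, 0, 0⟩ 0 0) (.pos 35 .mp ⟨⟨8655044, 0, 0, 0, 0, 4748440, 0, 0, 0, ⟨0, 0⟩, 0⟩, 0, 0⟩ 0 0))) (.pos 35 .mp ⟨⟨8728357, 0, 0, 0, 0, 3805006, 0, 0, 0, ⟨0, 0⟩, 0⟩, 0, 0⟩ 0 0)) (.cut .v 16842752 (.cut .s 8757248 (.cut .s 8728576 (.pos 45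 .mp ⟨⟨9372116, 0, 0, 0, 0, 4479721, 0, 0, 0, ⟨0, 0⟩, 0⟩, 0, 0⟩ 0 0) (.pos 45 .mp ⟨⟨9682517, 0, 0, 0, 0, 4447160, 0, 0, 0, ⟨0, 0⟩, 0⟩, 0, 0⟩ 0 0)) (.pos 45 .mp ⟨⟨9419031, 0, 0, 0, 0, 5340299, 0, 0, 0, ⟨0, 0⟩, 0⟩, 0, 0⟩ 0 0)) (.pos 46 .mp ⟨⟨13019026, 0, 0, 0, 0, 480962, 0, 0, 0, ⟨0, 0⟩, 0⟩, 0, 0⟩ 0 0))) (.pos 36 .mp ⟨⟨13111565, 0, 0, 0, 0, 0, 0, 0, 0, ⟨0, 0⟩, 0⟩, 0, 0⟩ 0 0))) (.cut .d (-65536) (.pos 33 .mp ⟨⟨9990701, 0, 0, 0, 0, 10051584, 0, 0, 0, ⟨0, 0⟩, 0⟩, 0, 0⟩ 0 0) (.cut .v 16908288 (.cut .s 8929280 (.cut .s 8871936 (.pos 35 .mp ⟨⟨10399181, 0, 0, 0, 0, 4815009, 0, 0, 0, ⟨0, 0⟩, 0⟩, 0, 0⟩ 0 0) (.pos 35 .mp ⟨⟨10947750, 0, 0, 0,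 0, 4922376, 0, 0, 0, ⟨0, 0⟩, 0⟩, 0, 0⟩ 0 0)) (.cut .s 8986624 (.pos 35 .mp ⟨⟨11519401, 0, 0, 0, 0, 5032538, 0, 0, 0, ⟨0, 0⟩, 0⟩, 0, 0⟩ 0 0) (.pos 35 .mp ⟨⟨12182078, 0, 0, 0, 0, 5057124, 0, 0, 0, ⟨0, 0⟩, 0⟩, 0, 0⟩ 0 0))) (.pos 36 .mp ⟨⟨15546625, 0, 0, 0, 0, 0, 0, 0, 0, ⟨0, 0⟩, 0⟩, 0, 0⟩ 0 0)))) (.pos 34 .mp ⟨⟨16300425, 0, 0, 0, 0, 0, 0, 0, 0, ⟨0, 0⟩, 0⟩, 0, 0⟩ 0 0)) (.void 32 ⟨⟨100000, 0, 0, 0, 0, 0, 0, 0, 0, ⟨0, 0⟩, 0⟩, 0, 0⟩ 0 0))) (.void 30 ⟨⟨100000, 0, 0, 0, 0, 0, 0, 0, 0, ⟨0, 0⟩, 0⟩, 0, 0⟩ 0 0))))) (.void 28 ⟨⟨100000, 0, 0, 0, 0, 0, 0, 0, 0, ⟨0, 0⟩, 0⟩, 0, 0⟩ 0 0)))) (.void 26 ⟨⟨100000, 0, 0, 0, 0, 0, 0, 0, 0, ⟨0, 0⟩, 0⟩, 0,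 0⟩ 0 0))) (.void 24 ⟨⟨100000, 0, 0, 0, 0, 0, 0, 0, 0, ⟨0, 0⟩, 0⟩, 0, 0⟩ 0 0))) (.cut .v 16777216 (.cut .d 5085821 (.cut .d 2542910 (.cut .d 1271455 (.cut .v 8388608 (.cut .v 4194304 (.void 4 ⟨⟨0, 0, 100000, 0, 0, 0, 0, 0, 0, ⟨0, 0⟩, 0⟩, 0, 0⟩ 0 0) (.pos 5 .pm ⟨⟨0, 0, 0, 0, 0, 0, 0, 0, 1580398, ⟨0, 0⟩, 9975792⟩, 0, 0⟩ 0 0)) (.cut .v 12582912 (.pos 8 .pm ⟨⟨0, 0, 0, 0, 0, 0, 0, 0, 0, ⟨0, 0⟩, 0⟩, 0, 0⟩ 0 0) (.pos 9 .pm ⟨⟨0, 0, 0, 0, 0, 0, 0, 0, 0, ⟨0, 0⟩, 0⟩, 0, 0⟩ 0 0))) (.void 1 ⟨⟨0, 0, 0, 0, 0, 0, 0, 0, 0, ⟨0, 0⟩, 0⟩, 0, 100000⟩ 0 0)) (.void 1 ⟨⟨0, 0, 0, 0, 0, 0, 0, 0, 0, ⟨0, 0⟩, 0⟩, 0, 100000⟩ 0 0)) (.void 1 ⟨⟨0, 0, 0, 0, 0, 0,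 0, 0, 0, ⟨0, 0⟩, 0⟩, 0, 100000⟩ 0 0)) (.cut .v 25165824 (.cut .d 5085821 (.cut .d 2542910 (.cut .v 20971520 (.cut .d 1271455 (.cut .v 18874368 (.cut .d 635727 (.cut .d 317863 (.cut .v 17825792 (.cut .v 17301504 (.cut .s 8814592 (.pos 31 .pp ⟨⟨10578306, 0, 0, 0, 0, 0, 0, 0, 0, ⟨0, 0⟩, 0⟩, 0, 14644⟩ 0 0) (.pos 31 .pp ⟨⟨12629468, 0, 0, 0, 0, 0, 0, 0, 0, ⟨0, 0⟩, 0⟩, 0, 29728⟩ 0 0)) (.pos 32 .pp ⟨⟨13622209, 0, 0, 0, 0, 0, 0, 0, 0, ⟨0, 0⟩, 0⟩, 0, 0⟩ 0 0)) (.pos 30 .pp ⟨⟨16829477, 0, 0, 0, 0, 0, 0, 0, 0, ⟨0, 0⟩, 0⟩, 0, 0⟩ 0 0)) (.pos 27 .pp ⟨⟨9057827, 0, 0, 0, 0, 0, 0, 0, 0, ⟨0, 0⟩, 0⟩, 0, 413460⟩ 0 0)) (.pos 27 .pp ⟨⟨0, 0, 0, 0, 0, 0,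 0, 0, 0, ⟨0, 0⟩, 0⟩, 0, 699372⟩ 0 0)) (.cut .d 635727 (.pos 28 .pp ⟨⟨21458565, 0, 0, 0, 0, 0, 0, 0, 0, ⟨0, 0⟩, 0⟩, 0, 0⟩ 0 0) (.cut .d 953591 (.pos 28 .pp ⟨⟨13179013, 0, 0, 0, 0, 0, 0, 0, 0, ⟨0, 0⟩, 0⟩, 0, 322582⟩ 0 0) (.pos 28 .pp ⟨⟨8553965, 0, 0, 0, 0, 0, 0, 0, 0, ⟨0, 0⟩, 0⟩, 0, 316328⟩ 0 0)))) (.pos 25 .pp ⟨⟨0, 0, 0, 0, 0, 0, 0, 0, 0, ⟨0, 0⟩, 0⟩, 0, 16631877⟩ 0 0)) (.cut .l 184549 (.void 26 ⟨⟨0, 0, 0, 0, 0, 0, 100000, 0, 0, ⟨0, 0⟩, 0⟩, 0, 0⟩ 0 0) (.cut .d 1271455 (.cut .v 23068672 (.cut .d 635727 (.void 55 ⟨⟨0, 0, 0, 0, 0, 0, 0, 0, 0, ⟨0, 0⟩, 0⟩, 100000, 0⟩ 0 0) (.cut .v 22020096 (.pos 57 .pp ⟨⟨18345468, 0, 0, 0, 0, 0, 0, 0,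 0, ⟨0, 0⟩, 0⟩, 0, 167307⟩ 0 0) (.pos 58 .pp ⟨⟨23263480, 0, 0, 0, 0, 0, 73167, 0, 0, ⟨0, 0⟩, 0⟩, 0, 0⟩ 0 0))) (.pos 56 .pp ⟨⟨35353545, 0, 0, 0, 0, 0, 0, 0, 0, ⟨0, 0⟩, 0⟩, 0, 0⟩ 0 0)) (.cut .v 23068672 (.pos 55 .pp ⟨⟨3450549, 0, 0, 0, 0, 0, 12188997, 0, 0, ⟨0, 0⟩, 0⟩, 0, 0⟩ 0 0) (.pos 56 .pp ⟨⟨10698538, 0, 0, 0, 0, 0, 21467126, 0, 0, ⟨0, 0⟩, 0⟩, 0, 0⟩ 0 0))))) (.void 23 ⟨⟨0, 0, 0, 0, 0, 0, 0, 0, 0, ⟨0, 0⟩, 0⟩, 0, 100000⟩ 0 0)) (.void 23 ⟨⟨0, 0, 0, 0, 0, 0, 0, 0, 0, ⟨0, 0⟩, 0⟩, 0, 100000⟩ 0 0)) (.void 24 ⟨⟨0, 0, 0, 0, 0, 0, 100000, 0, 0, ⟨0, 0⟩, 0⟩, 0, 0⟩ 0 0)))),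
    by decide +kernel⟩

theorem covers11 : cell.Covers Vale.Agent.P237.Petty.Cor.Grid.N10.table row11.1 :=
  ⟨(.cut .d 0 (.cut .v 16777216 (.cut .d (-8388608) (.void 1 ⟨⟨0, 0, 0, 0, 0, 100000, 0, 0, 0, ⟨0, 0⟩, 0⟩, 0, 0⟩ 0 0) (.cut .d (-4194304) (.void 1 ⟨⟨0, 0, 0, 0, 0, 100000, 0, 0, 0, ⟨0, 0⟩, 0⟩, 0, 0⟩ 0 0) (.cut .d (-2097152) (.void 1 ⟨⟨0, 0, 0, 0, 0, 100000, 0, 0, 0, ⟨0, 0⟩, 0⟩, 0, 0⟩ 0 0) (.cut .d (-1048576) (.void 1 ⟨⟨0, 0, 0, 0, 0, 100000, 0, 0, 0, ⟨0, 0⟩, 0⟩, 0, 0⟩ 0 0) (.cut .d (-524288) (.void 1 ⟨⟨0, 0, 0, 0, 0, 100000, 0, 0, 0, ⟨0, 0⟩, 0⟩, 0, 0⟩ 0 0) (.cut .d (-262144) (.void 1 ⟨⟨0, 0, 0, 0, 0, 100000, 0, 0, 0, ⟨0, 0⟩,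 0⟩, 0, 0⟩ 0 0) (.cut .d (-131072) (.void 1 ⟨⟨0, 0, 0, 0, 0, 100000, 0, 0, 0, ⟨0, 0⟩, 0⟩, 0, 0⟩ 0 0) (.cut .v 8388608 (.cut .v 4194304 (.void 4 ⟨⟨0, 0, 100000, 0, 0, 0, 0, 0, 0, ⟨0, 0⟩, 0⟩, 0, 0⟩ 0 0) (.pos 5 .mm ⟨⟨0, 0, 0, 0, 0, 5288675, 0, 0, 0, ⟨0, 0⟩, 0⟩, 0, 0⟩ 0 0)) (.cut .v 12582912 (.pos 8 .mm ⟨⟨0, 0, 0, 0, 0, 9463737, 0, 0, 0, ⟨0, 0⟩, 0⟩, 0, 0⟩ 0 0) (.cut .s 9306112 (.pos 9 .mm ⟨⟨0, 0, 0, 0, 0, 23256736, 0, 0, 0, ⟨0, 0⟩, 0⟩, 0, 0⟩ 0 0) (.pos 9 .mm ⟨⟨0, 0, 0, 0, 0, 29107288, 0, 0, 0, ⟨0, 0⟩, 0⟩, 0, 0⟩ 0 0))))))))))) (.cut .v 25165824 (.cut .d (-8388608) (.void 23 ⟨⟨0, 0, 0, 0, 0, 100000, 0, 0, 0, ⟨0, 0⟩, 0⟩, 0, 0⟩ 0 0) (.cut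 .v 20971520 (.cut .d (-4194304) (.void 25 ⟨⟨0, 0, 0, 0, 0, 100000, 0, 0, 0, ⟨0, 0⟩, 0⟩, 0, 0⟩ 0 0) (.cut .v 18874368 (.cut .d (-2097152) (.void 27 ⟨⟨0, 0, 0, 0, 0, 100000, 0, 0, 0, ⟨0, 0⟩, 0⟩, 0, 0⟩ 0 0) (.cut .d (-1048576) (.void 27 ⟨⟨100000, 0, 0, 0, 0, 0, 0, 0, 0, ⟨0, 0⟩, 0⟩, 0, 0⟩ 0 0) (.cut .d (-524288) (.void 27 ⟨⟨0, 0, 0, 0, 0, 100000, 0, 0, 0, ⟨0, 0⟩, 0⟩, 0, 0⟩ 0 0) (.cut .d (-262144) (.void 27 ⟨⟨0, 0, 0, 0, 0, 100000, 0, 0, 0, ⟨0, 0⟩, 0⟩, 0, 0⟩ 0 0) (.cut .v 17825792 (.cut .d (-131072) (.void 29 ⟨⟨0, 0, 0, 0, 0, 100000, 0, 0, 0, ⟨0, 0⟩, 0⟩, 0, 0⟩ 0 0) (.cut .v 17301504 (.cut .v 17039360 (.cut .d (-65536) (.pos 33 .mp ⟨⟨11950592,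 0, 0, 0, 0, 21171664, 0, 0, 0, ⟨0, 0⟩, 0⟩, 0, 0⟩ 0 0) (.cut .s 9306112 (.cut .v 16908288 (.cut .s 9175040 (.cut .s 9109504 (.pos 35 .mp ⟨⟨12841736, 0, 0, 0, 0, 5172248, 0, 0, 0, ⟨0, 0⟩, 0⟩, 0, 0⟩ 0 0) (.pos 35 .mp ⟨⟨13929060, 0, 0, 0, 0, 4936736, 0, 0, 0, ⟨0, 0⟩, 0⟩, 0, 0⟩ 0 0)) (.cut .s 9240576 (.pos 35 .mp ⟨⟨15069411, 0, 0, 0, 0, 4688708, 0, 0, 0, ⟨0, 0⟩, 0⟩, 0, 0⟩ 0 0) (.pos 35 .mp ⟨⟨16206266, 0, 0, 0, 0, 4526117, 0, 0, 0, ⟨0, 0⟩, 0⟩, 0, 0⟩ 0 0))) (.pos 36 .mp ⟨⟨18702860, 0, 0, 0, 0, 0, 0, 0, 0, ⟨0, 0⟩, 0⟩, 0, 0⟩ 0 0)) (.cut .s 9437184 (.cut .s 9371648 (.pos 33 .mp ⟨⟨16597652, 0, 0, 0, 0, 5470714, 0, 0, 0, ⟨0, 0⟩, 0⟩, 0, 0⟩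 0 0) (.pos 33 .mp ⟨⟨17713752, 0, 0, 0, 0, 5471832, 0, 0, 0, ⟨0, 0⟩, 0⟩, 0, 0⟩ 0 0)) (.pos 33 .mp ⟨⟨19278074, 0, 0, 0, 0, 5337597, 0, 0, 0, ⟨0, 0⟩, 0⟩, 0, 0⟩ 0 0)))) (.pos 34 .mp ⟨⟨23525728, 0, 0, 0, 0, 0, 0, 0, 0, ⟨0, 0⟩, 0⟩, 0, 0⟩ 0 0)) (.void 32 ⟨⟨100000, 0, 0, 0, 0, 0, 0, 0, 0, ⟨0, 0⟩, 0⟩, 0, 0⟩ 0 0))) (.void 30 ⟨⟨100000, 0, 0, 0, 0, 0, 0, 0, 0, ⟨0, 0⟩, 0⟩, 0, 0⟩ 0 0)))))) (.void 28 ⟨⟨100000, 0, 0, 0, 0, 0, 0, 0, 0, ⟨0, 0⟩, 0⟩, 0, 0⟩ 0 0))) (.void 26 ⟨⟨100000, 0, 0, 0, 0, 0, 0, 0, 0, ⟨0, 0⟩, 0⟩, 0, 0⟩ 0 0))) (.void 24 ⟨⟨100000, 0, 0, 0, 0, 0, 0, 0, 0, ⟨0, 0⟩, 0⟩, 0, 0⟩ 0 0))) (.cut .v 16777216 (.cut .d 5939809 (.cut .d 2969904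 (.cut .d 1484952 (.cut .v 8388608 (.cut .v 4194304 (.void 4 ⟨⟨0, 0, 100000, 0, 0, 0, 0, 0, 0, ⟨0, 0⟩, 0⟩, 0, 0⟩ 0 0) (.pos 5 .pm ⟨⟨0, 0, 0, 0, 0, 0, 0, 0, 0, ⟨0, 0⟩, 0⟩, 0, 0⟩ 0 0)) (.cut .v 12582912 (.pos 8 .pm ⟨⟨0, 0, 0, 0, 0, 0, 0, 0, 0, ⟨0, 0⟩, 0⟩, 0, 0⟩ 0 0) (.pos 9 .pm ⟨⟨0, 0, 0, 0, 0, 0, 0, 0, 0, ⟨0, 0⟩, 0⟩, 0, 0⟩ 0 0))) (.void 1 ⟨⟨0, 0, 0, 0, 0, 0, 0, 0, 0, ⟨0, 0⟩, 0⟩, 0, 100000⟩ 0 0)) (.void 1 ⟨⟨0, 0, 0, 0, 0, 0, 0, 0, 0, ⟨0, 0⟩, 0⟩, 0, 100000⟩ 0 0)) (.void 1 ⟨⟨0, 0, 0, 0, 0, 0, 0, 0, 0, ⟨0, 0⟩, 0⟩, 0, 100000⟩ 0 0)) (.cut .d 5939809 (.cut .d 2969904 (.cut .v 25165824 (.cut .d 1484952 (.cut .v 20971520 (.cut .d 742476 (.cut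 .v 18874368 (.cut .d 371238 (.cut .v 17825792 (.cut .d 185619 (.cut .v 17301504 (.cut .s 9306112 (.pos 31 .pp ⟨⟨15540774, 0, 0, 0, 0, 0, 0, 0, 0, ⟨0, 0⟩, 0⟩, 0, 28490⟩ 0 0) (.cut .s 9437184 (.pos 31 .pp ⟨⟨18340018, 0, 0, 0, 0, 0, 0, 0, 0, ⟨0, 0⟩, 0⟩, 0, 45356⟩ 0 0) (.pos 31 .pp ⟨⟨20211970, 0, 0, 0, 0, 0, 0, 0, 0, ⟨0, 0⟩, 0⟩, 0, 60213⟩ 0 0))) (.pos 32 .pp ⟨⟨20852617, 0, 0, 0, 0, 0, 0, 0, 0, ⟨0, 0⟩, 0⟩, 0, 0⟩ 0 0)) (.pos 29 .pp ⟨⟨12254191, 0, 0, 0, 0, 0, 0, 0, 0, ⟨0, 0⟩, 0⟩, 0, 188591⟩ 0 0)) (.cut .s 9306112 (.pos 30 .pp ⟨⟨20345488, 0, 0, 0, 0, 0, 0, 0, 0, ⟨0, 0⟩, 0⟩, 0, 0⟩ 0 0) (.pos 30 .pp ⟨⟨24579887, 0, 0, 0, 0, 0, 0, 0, 0, ⟨0,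 0⟩, 0⟩, 0, 0⟩ 0 0))) (.pos 27 .pp ⟨⟨11932096, 0, 0, 0, 0, 0, 0, 0, 0, ⟨0, 0⟩, 0⟩, 0, 412838⟩ 0 0)) (.cut .d 371238 (.pos 28 .pp ⟨⟨33684488, 0, 0, 0, 0, 0, 0, 0, 0, ⟨0, 0⟩, 0⟩, 0, 0⟩ 0 0) (.cut .v 19922944 (.pos 53 .pp ⟨⟨21592016, 0, 0, 0, 0, 0, 0, 0, 0, ⟨0, 0⟩, 0⟩, 0, 0⟩ 0 0) (.pos 54 .pp ⟨⟨29249274, 0, 0, 0, 0, 0, 0, 0, 0, ⟨0, 0⟩, 0⟩, 0, 0⟩ 0 0)))) (.cut .v 18874368 (.pos 27 .pp ⟨⟨0, 0, 0, 0, 0, 0, 0, 0, 0, ⟨0, 0⟩, 0⟩, 0, 793098⟩ 0 0) (.pos 28 .pp ⟨⟨13811892, 0, 0, 0, 0, 0, 0, 0, 0, ⟨0, 0⟩, 0⟩, 0, 431508⟩ 0 0))) (.cut .d 742476 (.void 26 ⟨⟨100000, 0, 0, 0, 0, 0, 0, 0, 0, ⟨0, 0⟩, 0⟩, 0, 0⟩ 0 0) (.cut .l 184549 (.pos 26 .pp ⟨⟨53419958,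 0, 0, 0, 0, 0, 0, 0, 0, ⟨0, 0⟩, 0⟩, 0, 16687458⟩ 0 0) (.cut .v 23068672 (.cut .d 1113714 (.cut .v 22020096 (.pos 57 .pp ⟨⟨25299767, 0, 0, 0, 0, 0, 0, 0, 0, ⟨0, 0⟩, 0⟩, 0, 0⟩ 0 0) (.pos 58 .pp ⟨⟨33610011, 0, 0, 0, 0, 0, 0, 0, 0, ⟨0, 0⟩, 0⟩, 0, 0⟩ 0 0)) (.pos 55 .pp ⟨⟨18522074, 0, 0, 0, 0, 0, 801935, 0, 0, ⟨0, 0⟩, 0⟩, 0, 0⟩ 0 0)) (.cut .d 1113714 (.pos 56 .pp ⟨⟨48090024, 0, 0, 0, 0, 0, 0, 0, 0, ⟨0, 0⟩, 0⟩, 0, 0⟩ 0 0) (.cut .l 276824 (.pos 56 .pp ⟨⟨30705719, 0, 0, 0, 0, 0, 17979365, 0, 0, ⟨0, 0⟩, 0⟩, 0, 0⟩ 0 0) (.cut .v 24117248 (.cut .v 23592960 (.pos 63 .pp ⟨⟨25154028, 0, 0, 0, 0, 0, 388398, 0, 0, ⟨0, 0⟩, 0⟩, 0, 0⟩ 0 0) (.cut .d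 1299333 (.pos 64 .pp ⟨⟨34939467, 0, 0, 0, 0, 0, 0, 0, 0, ⟨0, 0⟩, 0⟩, 0, 0⟩ 0 0) (.cut .s 9306112 (.pos 64 .pp ⟨⟨24835178, 0, 0, 0, 0, 0, 2896414, 0, 0, ⟨0, 0⟩, 0⟩, 0, 0⟩ 0 0) (.pos 64 .pp ⟨⟨27938217, 0, 0, 0, 0, 0, 279583, 0, 0, ⟨0, 0⟩, 0⟩, 0, 0⟩ 0 0)))) (.cut .d 1299333 (.cut .v 24641536 (.pos 67 .pp ⟨⟨37521454, 0, 0, 0, 0, 0, 0, 0, 0, ⟨0, 0⟩, 0⟩, 770085, 0⟩ 0 0) (.void 68 ⟨⟨0, 0, 0, 0, 0, 0, 0, 0, 0, ⟨0, 0⟩, 0⟩, 100000, 0⟩ 0 0)) (.cut .l 322961 (.pos 62 .pp ⟨⟨0, 0, 0, 0, 0, 0, 11966046, 0, 0, ⟨0, 0⟩, 0⟩, 3632909, 0⟩ 0 0) (.cut .s 9306112 (.cut .v 24641536 (.pos 67 .pp ⟨⟨27938217, 0, 0, 0, 0, 0, 11059769, 0, 0, ⟨0, 0⟩, 0⟩, 0,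 0⟩ 0 0) (.void 68 ⟨⟨0, 0, 0, 0, 0, 0, 100000, 0, 0, ⟨0, 0⟩, 0⟩, 0, 0⟩ 0 0)) (.cut .v 24641536 (.cut .d 1392142 (.cut .s 9437184 (.cut .s 9371648 (.cut .v 24379392 (.pos 69 .pp ⟨⟨29787839, 0, 0, 0, 0, 0, 238194, 0, 0, ⟨0, 0⟩, 0⟩, 0, 0⟩ 0 0) (.cut .d 1345737 (.pos 70 .pp ⟨⟨40408523, 0, 0, 0, 0, 0, 0, 0, 0, ⟨0, 0⟩, 0⟩, 0, 0⟩ 0 0) (.cut .s 9338880 (.pos 70 .pp ⟨⟨30936709, 0, 0, 0, 0, 0, 7452668, 0, 0, ⟨0, 0⟩, 0⟩, 0, 0⟩ 0 0) (.pos 70 .pp ⟨⟨16095411, 0, 0, 0, 0, 0, 723611, 0, 0, ⟨0, 0⟩, 0⟩, 2256533, 0⟩ 0 0)))) (.pos 67 .pp ⟨⟨19765950, 0, 0, 0, 0, 0, 138918, 0, 0, ⟨0, 0⟩, 0⟩, 1912450, 0⟩ 0 0)) (.pos 67 .pp ⟨⟨9316171, 0, 0, 0, 0, 0, 180489,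 0, 0, ⟨0, 0⟩, 0⟩, 3410170, 0⟩ 0 0)) (.pos 67 .pp ⟨⟨0, 0, 0, 0, 0, 0, 19057400, 0, 0, ⟨0, 0⟩, 0⟩, 0, 0⟩ 0 0)) (.cut .d 1392142 (.pos 68 .pp ⟨⟨0, 0, 0, 0, 0, 0, 1225853, 0, 0, ⟨0, 0⟩, 0⟩, 5110351, 0⟩ 0 0) (.pos 68 .pp ⟨⟨0, 0, 0, 0, 0, 0, 5659979, 0, 0, ⟨0, 0⟩, 0⟩, 3839573, 0⟩ 0 0))))))))))))) (.cut .v 20971520 (.pos 25 .pp ⟨⟨0, 0, 0, 0, 0, 0, 0, 0, 0, ⟨0, 0⟩, 0⟩, 0, 26858432⟩ 0 0) (.pos 26 .pp ⟨⟨0, 0, 0, 0, 0, 0, 26098727, 0, 0, ⟨0, 0⟩, 0⟩, 0, 0⟩ 0 0))) (.cut .v 29360128 (.cut .d 1484952 (.cut .v 27262976 (.pos 77 .pp ⟨⟨0, 0, 0, 0, 0, 0, 343503, 0, 0, ⟨0, 0⟩, 0⟩, 7907962, 0⟩ 0 0) (.void 78 ⟨⟨0, 0, 0, 0, 0, 0, 0, 0, 0, ⟨0, 0⟩, 0⟩,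 100000, 0⟩ 0 0)) (.pos 75 .pp ⟨⟨0, 0, 0, 0, 0, 0, 27357548, 0, 0, ⟨0, 0⟩, 0⟩, 3155036, 0⟩ 0 0)) (.void 76 ⟨⟨0, 0, 0, 0, 0, 0, 100000, 0, 0, ⟨0, 0⟩, 0⟩, 0, 0⟩ 0 0))) (.void 22 ⟨⟨0, 0, 0, 0, 0, 0, 0, 0, 0, ⟨0, 0⟩, 0⟩, 3986, 96014⟩ 0 0)) (.void 22 ⟨⟨0, 0, 0, 0, 0, 0, 0, 0, 0, ⟨0, 0⟩, 0⟩, 0, 100000⟩ 0 0)))),
    by decide +kernel⟩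

theorem covers12 : cell.Covers Vale.Agent.P237.Petty.Cor.Grid.N10.table row12.1 :=
  ⟨(.cut .d 0 (.cut .v 16777216 (.cut .d (-8388608) (.void 1 ⟨⟨0, 0, 0, 0, 0, 100000, 0, 0, 0, ⟨0, 0⟩, 0⟩, 0, 0⟩ 0 0) (.cut .d (-4194304) (.void 1 ⟨⟨0, 0, 0, 0, 0, 100000, 0, 0, 0, ⟨0, 0⟩, 0⟩, 0, 0⟩ 0 0) (.cut .d (-2097152) (.void 1 ⟨⟨0, 0, 0, 0, 0, 100000, 0, 0, 0, ⟨0, 0⟩, 0⟩, 0, 0⟩ 0 0) (.cut .d (-1048576) (.void 1 ⟨⟨0, 0, 0, 0, 0, 100000, 0, 0, 0, ⟨0, 0⟩, 0⟩, 0, 0⟩ 0 0) (.cut .d (-524288) (.void 1 ⟨⟨0, 0, 0, 0, 0, 100000, 0, 0, 0, ⟨0, 0⟩, 0⟩, 0, 0⟩ 0 0) (.cut .d (-262144) (.void 1 ⟨⟨0, 0, 0, 0, 0, 100000, 0, 0, 0, ⟨0, 0⟩, 0⟩, 0, 0⟩ 0 0) (.cut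 .d (-131072) (.void 1 ⟨⟨0, 0, 0, 0, 0, 100000, 0, 0, 0, ⟨0, 0⟩, 0⟩, 0, 0⟩ 0 0) (.cut .d (-65536) (.void 1 ⟨⟨0, 0, 0, 0, 0, 100000, 0, 0, 0, ⟨0, 0⟩, 0⟩, 0, 0⟩ 0 0) (.cut .v 8388608 (.cut .v 4194304 (.void 4 ⟨⟨0, 0, 100000, 0, 0, 0, 0, 0, 0, ⟨0, 0⟩, 0⟩, 0, 0⟩ 0 0) (.pos 5 .mm ⟨⟨0, 0, 0, 0, 0, 8135235, 0, 0, 0, ⟨0, 0⟩, 0⟩, 0, 0⟩ 0 0)) (.cut .s 9830400 (.pos 3 .mm ⟨⟨0, 0, 0, 0, 0, 37409305, 0, 0, 0, ⟨0, 0⟩, 0⟩, 0, 0⟩ 0 0) (.pos 3 .mm ⟨⟨0, 0, 0, 0, 0, 43647530, 0, 0, 0, ⟨0, 0⟩, 0⟩, 0, 0⟩ 0 0))))))))))) (.cut .v 25165824 (.cut .d (-8388608) (.void 23 ⟨⟨0, 0, 0, 0, 0, 100000, 0, 0, 0, ⟨0, 0⟩, 0⟩, 0, 0⟩ 0 0) (.cut .v 20971520 (.cut .d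 (-4194304) (.void 25 ⟨⟨0, 0, 0, 0, 0, 100000, 0, 0, 0, ⟨0, 0⟩, 0⟩, 0, 0⟩ 0 0) (.cut .v 18874368 (.cut .d (-2097152) (.void 27 ⟨⟨100000, 0, 0, 0, 0, 0, 0, 0, 0, ⟨0, 0⟩, 0⟩, 0, 0⟩ 0 0) (.cut .v 17825792 (.cut .d (-1048576) (.void 29 ⟨⟨100000, 0, 0, 0, 0, 0, 0, 0, 0, ⟨0, 0⟩, 0⟩, 0, 0⟩ 0 0) (.cut .v 17301504 (.cut .d (-524288) (.void 31 ⟨⟨100000, 0, 0, 0, 0, 0, 0, 0, 0, ⟨0, 0⟩, 0⟩, 0, 0⟩ 0 0) (.cut .v 17039360 (.cut .d (-262144) (.void 33 ⟨⟨0, 0, 0, 0, 0, 100000, 0, 0, 0, ⟨0, 0⟩, 0⟩, 0, 0⟩ 0 0) (.cut .d (-131072) (.void 33 ⟨⟨0, 0, 0, 0, 0, 100000, 0, 0, 0, ⟨0, 0⟩, 0⟩, 0, 0⟩ 0 0) (.cut .d (-65536) (.void 33 ⟨⟨0, 0, 0, 0, 0, 100000,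 0, 0, 0, ⟨0, 0⟩, 0⟩, 0, 0⟩ 0 0) (.cut .s 9830400 (.cut .s 9699328 (.pos 33 .mp ⟨⟨21307361, 0, 0, 0, 0, 5986421, 0, 0, 0, ⟨0, 0⟩, 0⟩, 0, 0⟩ 0 0) (.cut .s 9764864 (.pos 33 .mp ⟨⟨22653702, 0, 0, 0, 0, 6028530, 0, 0, 0, ⟨0, 0⟩, 0⟩, 0, 0⟩ 0 0) (.pos 33 .mp ⟨⟨23836163, 0, 0, 0, 0, 5686779, 0, 0, 0, ⟨0, 0⟩, 0⟩, 0, 0⟩ 0 0))) (.cut .s 9961472 (.cut .s 9895936 (.pos 33 .mp ⟨⟨25116581, 0, 0, 0, 0, 5419183, 0, 0, 0, ⟨0, 0⟩, 0⟩, 0, 0⟩ 0 0) (.cut .s 9928704 (.pos 33 .mp ⟨⟨25778893, 0, 0, 0, 0, 5640021, 0, 0, 0, ⟨0, 0⟩, 0⟩, 0, 0⟩ 0 0) (.pos 33 .mp ⟨⟨26456183, 0, 0, 0, 0, 5520130, 0, 0, 0, ⟨0, 0⟩, 0⟩, 0, 0⟩ 0 0))) (.cut .v 16908288 (.cut .s 10027008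 (.cut .d (-32768) (.pos 35 .mp ⟨⟨24580662, 0, 0, 0, 0, 11617785, 0, 0, 0, ⟨0, 0⟩, 0⟩, 0, 0⟩ 0 0) (.cut .s 9994240 (.pos 35 .mp ⟨⟨25941621, 0, 0, 0, 0, 7071560, 0, 0, 0, ⟨0, 0⟩, 0⟩, 0, 0⟩ 0 0) (.pos 35 .mp ⟨⟨26688572, 0, 0, 0, 0, 6817643, 0, 0, 0, ⟨0, 0⟩, 0⟩, 0, 0⟩ 0 0))) (.cut .d (-32768) (.cut .s 10059776 (.pos 35 .mp ⟨⟨25878893, 0, 0, 0, 0, 10440666, 0, 0, 0, ⟨0, 0⟩, 0⟩, 0, 0⟩ 0 0) (.pos 35 .mp ⟨⟨26550534, 0, 0, 0, 0, 10302353, 0, 0, 0, ⟨0, 0⟩, 0⟩, 0, 0⟩ 0 0)) (.cut .v 16842752 (.cut .l 184549 (.cut .d (-16384) (.pos 45 .mp ⟨⟨25703440, 0, 0, 0, 0, 11430079, 0, 0, 0, ⟨0, 0⟩, 0⟩, 0, 0⟩ 0 0) (.cut .s 10059776 (.pos 45 .mp ⟨⟨26790509,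 0, 0, 0, 0, 7517647, 0, 0, 0, ⟨0, 0⟩, 0⟩, 0, 0⟩ 0 0) (.cut .s 10076160 (.pos 45 .mp ⟨⟨27238577, 0, 0, 0, 0, 7637094, 0, 0, 0, ⟨0, 0⟩, 0⟩, 0, 0⟩ 0 0) (.pos 45 .mp ⟨⟨27470005, 0, 0, 0, 0, 7747276, 0, 0, 0, ⟨0, 0⟩, 0⟩, 0, 0⟩ 0 0)))) (.pos 45 .mp ⟨⟨27408227, 0, 0, 0, 0, 6181666, 0, 0, 0, ⟨0, 0⟩, 0⟩, 0, 0⟩ 0 0)) (.pos 46 .mp ⟨⟨32535434, 0, 0, 0, 0, 0, 0, 0, 0, ⟨0, 0⟩, 0⟩, 0, 0⟩ 0 0)))) (.pos 36 .mp ⟨⟨33156270, 0, 0, 0, 0, 0, 0, 0, 0, ⟨0, 0⟩, 0⟩, 0, 0⟩ 0 0))))))) (.pos 34 .mp ⟨⟨37748060, 0, 0, 0, 0, 0, 0, 0, 0, ⟨0, 0⟩, 0⟩, 0, 0⟩ 0 0))) (.void 32 ⟨⟨100000, 0, 0, 0, 0, 0, 0, 0, 0, ⟨0, 0⟩, 0⟩, 0, 0⟩ 0 0))) (.void 30 ⟨⟨100000, 0, 0, 0, 0,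 0, 0, 0, 0, ⟨0, 0⟩, 0⟩, 0, 0⟩ 0 0))) (.void 28 ⟨⟨100000, 0, 0, 0, 0, 0, 0, 0, 0, ⟨0, 0⟩, 0⟩, 0, 0⟩ 0 0))) (.void 26 ⟨⟨100000, 0, 0, 0, 0, 0, 0, 0, 0, ⟨0, 0⟩, 0⟩, 0, 0⟩ 0 0))) (.void 24 ⟨⟨100000, 0, 0, 0, 0, 0, 0, 0, 0, ⟨0, 0⟩, 0⟩, 0, 0⟩ 0 0))) (.cut .v 16777216 (.cut .d 6320185 (.cut .d 3160092 (.cut .v 8388608 (.cut .v 4194304 (.void 4 ⟨⟨0, 0, 66667, 0, 0, 0, 0, 0, 0, ⟨0, 0⟩, 0⟩, 0, 33333⟩ 0 0) (.pos 5 .pm ⟨⟨0, 0, 0, 0, 0, 0, 0, 0, 0, ⟨0, 0⟩, 0⟩, 0, 0⟩ 0 0)) (.pos 3 .pm ⟨⟨0, 0, 0, 0, 0, 0, 0, 0, 0, ⟨0, 0⟩, 0⟩, 0, 0⟩ 0 0)) (.void 1 ⟨⟨0, 0, 0, 0, 0, 0, 0, 0, 0, ⟨0, 0⟩, 0⟩, 0, 100000⟩ 0 0)) (.void 1 ⟨⟨0, 0, 0, 0, 0, 0, 0, 0, 0, ⟨0,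 0⟩, 0⟩, 0, 100000⟩ 0 0)) (.cut .d 6320185 (.cut .d 3160092 (.cut .v 25165824 (.cut .d 1580046 (.cut .v 20971520 (.cut .d 790023 (.cut .v 18874368 (.cut .d 395011 (.cut .v 17825792 (.cut .d 197505 (.cut .v 17301504 (.cut .d 98752 (.cut .d 49376 (.cut .v 17039360 (.cut .s 9830400 (.pos 33 .pp ⟨⟨22953153, 0, 0, 0, 0, 0, 0, 0, 0, ⟨0, 0⟩, 0⟩, 0, 79900⟩ 0 0) (.cut .s 9961472 (.pos 33 .pp ⟨⟨26561004, 0, 0, 0, 0, 0, 0, 0, 0, ⟨0, 0⟩, 0⟩, 0, 43317⟩ 0 0) (.pos 33 .pp ⟨⟨29236026, 0, 0, 0, 0, 0, 0, 0, 0, ⟨0, 0⟩, 0⟩, 0, 18926⟩ 0 0))) (.pos 34 .pp ⟨⟨29650920, 0, 0, 0, 0, 0, 0, 0, 0, ⟨0, 0⟩, 0⟩, 0, 0⟩ 0 0)) (.pos 31 .pp ⟨⟨22869319, 0, 0, 0, 0,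 0, 0, 0, 0, ⟨0, 0⟩, 0⟩, 0, 88655⟩ 0 0)) (.pos 31 .pp ⟨⟨17172100, 0, 0, 0, 0, 0, 0, 0, 0, ⟨0, 0⟩, 0⟩, 0, 313137⟩ 0 0)) (.cut .d 98752 (.pos 32 .pp ⟨⟨32409115, 0, 0, 0, 0, 0, 0, 0, 0, ⟨0, 0⟩, 0⟩, 0, 0⟩ 0 0) (.pos 32 .pp ⟨⟨27180664, 0, 0, 0, 0, 0, 0, 0, 0, ⟨0, 0⟩, 0⟩, 0, 0⟩ 0 0))) (.pos 29 .pp ⟨⟨17283015, 0, 0, 0, 0, 0, 0, 0, 0, ⟨0, 0⟩, 0⟩, 0, 331363⟩ 0 0)) (.cut .d 197505 (.pos 30 .pp ⟨⟨37207538, 0, 0, 0, 0, 0, 0, 0, 0, ⟨0, 0⟩, 0⟩, 0, 0⟩ 0 0) (.pos 30 .pp ⟨⟨29295392, 0, 0, 0, 0, 0, 0, 0, 0, ⟨0, 0⟩, 0⟩, 0, 0⟩ 0 0))) (.pos 27 .pp ⟨⟨17646972, 0, 0, 0, 0, 0, 0, 0, 0, ⟨0, 0⟩, 0⟩, 0, 368301⟩ 0 0)) (.cut .d 395011 (.pos 28 .pp ⟨⟨47203842,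 0, 0, 0, 0, 0, 0, 0, 0, ⟨0, 0⟩, 0⟩, 0, 0⟩ 0 0) (.cut .v 19922944 (.pos 53 .pp ⟨⟨27940331, 0, 0, 0, 0, 0, 0, 0, 0, ⟨0, 0⟩, 0⟩, 0, 267856⟩ 0 0) (.cut .d 592517 (.pos 54 .pp ⟨⟨42983620, 0, 0, 0, 0, 0, 0, 0, 0, ⟨0, 0⟩, 0⟩, 0, 0⟩ 0 0) (.pos 54 .pp ⟨⟨31837058, 0, 0, 0, 0, 0, 0, 0, 0, ⟨0, 0⟩, 0⟩, 0, 194796⟩ 0 0))))) (.pos 25 .pp ⟨⟨0, 0, 0, 0, 0, 0, 0, 0, 0, ⟨0, 0⟩, 0⟩, 0, 966410⟩ 0 0)) (.cut .d 790023 (.cut .v 23068672 (.cut .v 22020096 (.pos 57 .pp ⟨⟨52060528, 0, 0, 0, 0, 0, 0, 0, 0, ⟨0, 0⟩, 0⟩, 0, 0⟩ 0 0) (.pos 58 .pp ⟨⟨59713779, 0, 0, 0, 0, 0, 0, 0, 0, ⟨0, 0⟩, 0⟩, 0, 0⟩ 0 0)) (.void 56 ⟨⟨0, 0, 0, 0, 0, 0, 0, 0, 0, ⟨0, 0⟩, 0⟩, 100000,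 0⟩ 0 0)) (.cut .v 23068672 (.cut .d 1185034 (.cut .d 987528 (.cut .v 22020096 (.pos 57 .pp ⟨⟨34267412, 0, 0, 0, 0, 0, 0, 0, 0, ⟨0, 0⟩, 0⟩, 0, 119099⟩ 0 0) (.pos 58 .pp ⟨⟨46818240, 0, 0, 0, 0, 0, 0, 0, 0, ⟨0, 0⟩, 0⟩, 0, 0⟩ 0 0)) (.pos 55 .pp ⟨⟨31801002, 0, 0, 0, 0, 0, 515871, 0, 0, ⟨0, 0⟩, 0⟩, 0, 0⟩ 0 0)) (.pos 55 .pp ⟨⟨0, 0, 0, 0, 0, 0, 0, 14053289, 0, ⟨5300039, 1657363⟩, 0⟩, 0, 0⟩ 156 169)) (.cut .l 184549 (.pos 56 .pp ⟨⟨48622030, 0, 0, 0, 0, 0, 45626238, 0, 0, ⟨0, 0⟩, 0⟩, 0, 0⟩ 0 0) (.cut .d 1185034 (.cut .d 987528 (.cut .v 24117248 (.pos 61 .pp ⟨⟨62308122, 0, 0, 0, 0, 0, 0, 0, 0, ⟨0, 0⟩, 0⟩, 0, 0⟩ 0 0) (.void 62 ⟨⟨0, 0, 0, 0,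 0, 0, 0, 0, 0, ⟨0, 0⟩, 0⟩, 100000, 0⟩ 0 0)) (.cut .v 24117248 (.cut .s 9830400 (.pos 61 .pp ⟨⟨44867938, 0, 0, 0, 0, 0, 0, 0, 0, ⟨0, 0⟩, 0⟩, 0, 0⟩ 0 0) (.cut .d 1086281 (.pos 61 .pp ⟨⟨54922894, 0, 0, 0, 0, 0, 0, 0, 0, ⟨0, 0⟩, 0⟩, 0, 0⟩ 0 0) (.pos 61 .pp ⟨⟨48171950, 0, 0, 0, 0, 0, 0, 0, 0, ⟨0, 0⟩, 0⟩, 0, 0⟩ 0 0))) (.cut .s 9830400 (.pos 62 .pp ⟨⟨33643606, 0, 0, 0, 0, 0, 0, 0, 0, ⟨0, 0⟩, 0⟩, 2640851, 0⟩ 0 0) (.cut .d 1086281 (.pos 62 .pp ⟨⟨0, 0, 0, 0, 0, 0, 0, 0, 0, ⟨0, 0⟩, 0⟩, 9654608, 0⟩ 0 0) (.pos 62 .pp ⟨⟨0, 0, 0, 0, 0, 0, 0, 0, 0, ⟨0, 0⟩, 0⟩, 7165003, 0⟩ 0 0))))) (.cut .v 24117248 (.pos 61 .pp ⟨⟨28195488, 0, 0, 0, 0, 0, 822516,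 0, 0, ⟨0, 0⟩, 0⟩, 0, 0⟩ 0 0) (.cut .s 9830400 (.cut .d 1382540 (.cut .s 9699328 (.cut .v 24641536 (.pos 67 .pp ⟨⟨5562294, 0, 0, 0, 0, 0, 136691, 0, 0, ⟨0, 0⟩, 0⟩, 4687385, 0⟩ 0 0) (.pos 68 .pp ⟨⟨0, 0, 0, 0, 0, 0, 0, 0, 0, ⟨0, 0⟩, 0⟩, 6015040, 0⟩ 0 0)) (.pos 62 .pp ⟨⟨6023816, 0, 0, 0, 0, 0, 0, 0, 0, ⟨0, 0⟩, 0⟩, 5156927, 0⟩ 0 0)) (.pos 62 .pp ⟨⟨0, 0, 0, 0, 0, 0, 494555, 0, 0, ⟨0, 0⟩, 0⟩, 4550620, 0⟩ 0 0)) (.pos 62 .pp ⟨⟨0, 0, 0, 0, 0, 0, 132978, 0, 0, ⟨0, 0⟩, 0⟩, 5989097, 0⟩ 0 0)))))))) (.cut .v 20971520 (.pos 25 .pp ⟨⟨0, 0, 0, 0, 0, 0, 0, 0, 0, ⟨0, 0⟩, 0⟩, 0, 966410⟩ 0 0) (.pos 26 .pp ⟨⟨0, 0, 0, 0, 0, 0, 2500174, 0, 0, ⟨0, 0⟩, 0⟩,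 0, 0⟩ 0 0))) (.cut .v 29360128 (.cut .d 1580046 (.cut .d 790023 (.void 75 ⟨⟨0, 0, 0, 0, 0, 0, 0, 0, 0, ⟨0, 0⟩, 0⟩, 100000, 0⟩ 0 0) (.cut .d 1185034 (.void 75 ⟨⟨0, 0, 0, 0, 0, 0, 0, 0, 0, ⟨0, 0⟩, 0⟩, 100000, 0⟩ 0 0) (.cut .v 27262976 (.cut .d 1382540 (.pos 77 .pp ⟨⟨0, 0, 0, 0, 0, 0, 0, 0, 0, ⟨0, 0⟩, 0⟩, 7481440, 0⟩ 0 0) (.pos 77 .pp ⟨⟨0, 0, 0, 0, 0, 0, 70262, 0, 0, ⟨0, 0⟩, 0⟩, 6096326, 0⟩ 0 0)) (.void 78 ⟨⟨0, 0, 0, 0, 0, 0, 0, 0, 0, ⟨0, 0⟩, 0⟩, 100000, 0⟩ 0 0)))) (.pos 75 .pp ⟨⟨0, 0, 0, 0, 0, 0, 18991598, 0, 0, ⟨0, 0⟩, 0⟩, 4322691, 0⟩ 0 0)) (.pos 76 .pp ⟨⟨0, 0, 0, 0, 0, 0, 78700684, 0, 0, ⟨0, 0⟩, 0⟩, 12645674, 0⟩ 0 0))) (.void 22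 ⟨⟨0, 0, 0, 0, 0, 0, 0, 0, 0, ⟨0, 0⟩, 0⟩, 0, 100000⟩ 0 0)) (.void 22 ⟨⟨0, 0, 0, 0, 0, 0, 0, 0, 0, ⟨0, 0⟩, 0⟩, 0, 100000⟩ 0 0)))),
    by decide +kernel⟩

theorem covers13 : cell.Covers Vale.Agent.P237.Petty.Cor.Grid.N10.table row13.1 :=
  ⟨(.cut .d 0 (.cut .v 16777216 (.cut .d (-8388608) (.void 1 ⟨⟨0, 0, 0, 0, 0, 100000, 0, 0, 0, ⟨0, 0⟩, 0⟩, 0, 0⟩ 0 0) (.cut .d (-4194304) (.void 1 ⟨⟨0, 0, 0, 0, 0, 100000, 0, 0, 0, ⟨0, 0⟩, 0⟩, 0, 0⟩ 0 0) (.cut .d (-2097152) (.void 1 ⟨⟨0, 0, 0, 0, 0, 100000, 0, 0, 0, ⟨0, 0⟩, 0⟩, 0, 0⟩ 0 0) (.cut .d (-1048576) (.void 1 ⟨⟨0, 0, 0, 0, 0, 100000, 0, 0, 0, ⟨0, 0⟩, 0⟩, 0, 0⟩ 0 0) (.cut .d (-524288) (.void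 1 ⟨⟨0, 0, 0, 0, 0, 100000, 0, 0, 0, ⟨0, 0⟩, 0⟩, 0, 0⟩ 0 0) (.cut .d (-262144) (.void 1 ⟨⟨0, 0, 0, 0, 0, 100000, 0, 0, 0, ⟨0, 0⟩, 0⟩, 0, 0⟩ 0 0) (.cut .d (-131072) (.void 1 ⟨⟨0, 0, 0, 0, 0, 100000, 0, 0, 0, ⟨0, 0⟩, 0⟩, 0, 0⟩ 0 0) (.cut .d (-65536) (.void 1 ⟨⟨0, 0, 0, 0, 0, 100000, 0, 0, 0, ⟨0, 0⟩, 0⟩, 0, 0⟩ 0 0) (.cut .v 8388608 (.cut .v 4194304 (.void 4 ⟨⟨0, 0, 100000, 0, 0, 0, 0, 0, 0, ⟨0, 0⟩, 0⟩, 0, 0⟩ 0 0) (.pos 5 .mm ⟨⟨0, 0, 607581, 0, 0, 12035018, 0, 0, 0, ⟨0, 0⟩, 0⟩, 0, 0⟩ 0 0)) (.cut .s 10289152 (.pos 3 .mm ⟨⟨0, 0, 0, 0, 0, 50779434, 0, 0, 0, ⟨0, 0⟩, 0⟩, 0, 0⟩ 0 0) (.pos 3 .mm ⟨⟨0, 0, 0, 0, 0, 59084268, 0, 0, 0, ⟨0, 0⟩,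 0⟩, 0, 0⟩ 0 0))))))))))) (.cut .v 25165824 (.cut .v 20971520 (.cut .d (-8388608) (.void 25 ⟨⟨0, 0, 0, 0, 0, 100000, 0, 0, 0, ⟨0, 0⟩, 0⟩, 0, 0⟩ 0 0) (.cut .d (-4194304) (.void 25 ⟨⟨100000, 0, 0, 0, 0, 0, 0, 0, 0, ⟨0, 0⟩, 0⟩, 0, 0⟩ 0 0) (.cut .v 18874368 (.cut .d (-2097152) (.void 27 ⟨⟨100000, 0, 0, 0, 0, 0, 0, 0, 0, ⟨0, 0⟩, 0⟩, 0, 0⟩ 0 0) (.cut .v 17825792 (.cut .d (-1048576) (.void 29 ⟨⟨100000, 0, 0, 0, 0, 0, 0, 0, 0, ⟨0, 0⟩, 0⟩, 0, 0⟩ 0 0) (.cut .v 17301504 (.cut .d (-524288) (.void 31 ⟨⟨100000, 0, 0, 0, 0, 0, 0, 0, 0, ⟨0, 0⟩, 0⟩, 0, 0⟩ 0 0) (.cut .d (-262144) (.void 31 ⟨⟨100000, 0, 0, 0, 0, 0, 0, 0, 0, ⟨0, 0⟩, 0⟩, 0, 0⟩ 0 0)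 (.cut .d (-131072) (.void 31 ⟨⟨0, 0, 0, 0, 0, 100000, 0, 0, 0, ⟨0, 0⟩, 0⟩, 0, 0⟩ 0 0) (.cut .d (-65536) (.void 31 ⟨⟨0, 0, 0, 0, 0, 100000, 0, 0, 0, ⟨0, 0⟩, 0⟩, 0, 0⟩ 0 0) (.cut .v 17039360 (.cut .s 10289152 (.cut .s 10190848 (.cut .v 16908288 (.cut .d (-32768) (.cut .d (-49152) (.pos 35 .mp ⟨⟨27737278, 0, 0, 0, 0, 12240857, 0, 0, 0, ⟨0, 0⟩, 0⟩, 0, 0⟩ 0 0) (.cut .l 184549 (.void 35 ⟨⟨0, 0, 0, 0, 0, 100000, 0, 0, 0, ⟨0, 0⟩, 0⟩, 0, 0⟩ 0 0) (.cut .s 10141696 (.cut .s 10117120 (.pos 35 .mp ⟨⟨27356025, 0, 0, 0, 0, 9407309, 0, 0, 0, ⟨0, 0⟩, 0⟩, 0, 0⟩ 0 0) (.pos 35 .mp ⟨⟨27877087, 0, 0, 0, 0, 9516455, 0, 0, 0, ⟨0, 0⟩, 0⟩, 0, 0⟩ 0 0)) (.cut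 .s 10166272 (.pos 35 .mp ⟨⟨28407761, 0, 0, 0, 0, 9630020, 0, 0, 0, ⟨0, 0⟩, 0⟩, 0, 0⟩ 0 0) (.pos 35 .mp ⟨⟨28948386, 0, 0, 0, 0, 9747371, 0, 0, 0, ⟨0, 0⟩, 0⟩, 0, 0⟩ 0 0))))) (.cut .l 184549 (.cut .v 16842752 (.cut .s 10141696 (.cut .s 10117120 (.cut .s 10104832 (.pos 45 .mp ⟨⟨28101237, 0, 0, 0, 0, 7240667, 0, 0, 0, ⟨0, 0⟩, 0⟩, 0, 0⟩ 0 0) (.pos 45 .mp ⟨⟨28371679, 0, 0, 0, 0, 7264149, 0, 0, 0, ⟨0, 0⟩, 0⟩, 0, 0⟩ 0 0)) (.cut .s 10129408 (.pos 45 .mp ⟨⟨28644551, 0, 0, 0, 0, 7288643, 0, 0, 0, ⟨0, 0⟩, 0⟩, 0, 0⟩ 0 0) (.pos 45 .mp ⟨⟨28919863, 0, 0, 0, 0, 7314130, 0, 0, 0, ⟨0, 0⟩, 0⟩, 0, 0⟩ 0 0))) (.cut .s 10166272 (.cut .s 10153984 (.pos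 45 .mp ⟨⟨29197628, 0, 0, 0, 0, 7340590, 0, 0, 0, ⟨0, 0⟩, 0⟩, 0, 0⟩ 0 0) (.pos 45 .mp ⟨⟨29477857, 0, 0, 0, 0, 7368002, 0, 0, 0, ⟨0, 0⟩, 0⟩, 0, 0⟩ 0 0)) (.cut .s 10178560 (.pos 45 .mp ⟨⟨29760561, 0, 0, 0, 0, 7396344, 0, 0, 0, ⟨0, 0⟩, 0⟩, 0, 0⟩ 0 0) (.pos 45 .mp ⟨⟨30045753, 0, 0, 0, 0, 7425597, 0, 0, 0, ⟨0, 0⟩, 0⟩, 0, 0⟩ 0 0)))) (.pos 46 .mp ⟨⟨34926533, 0, 0, 0, 0, 0, 0, 0, 0, ⟨0, 0⟩, 0⟩, 0, 0⟩ 0 0)) (.cut .s 10141696 (.pos 35 .mp ⟨⟨28655469, 0, 0, 0, 0, 6177211, 0, 0, 0, ⟨0, 0⟩, 0⟩, 0, 0⟩ 0 0) (.pos 35 .mp ⟨⟨29795097, 0, 0, 0, 0, 6224232, 0, 0, 0, ⟨0, 0⟩, 0⟩, 0, 0⟩ 0 0)))) (.pos 36 .mp ⟨⟨35235365, 0, 0, 0, 0, 0, 0, 0, 0, ⟨0, 0⟩,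 0⟩, 0, 0⟩ 0 0)) (.cut .v 16908288 (.cut .d (-32768) (.cut .d (-49152) (.pos 35 .mp ⟨⟨30061845, 0, 0, 0, 0, 12659767, 0, 0, 0, ⟨0, 0⟩, 0⟩, 0, 0⟩ 0 0) (.cut .l 184549 (.void 35 ⟨⟨0, 0, 0, 0, 0, 100000, 0, 0, 0, ⟨0, 0⟩, 0⟩, 0, 0⟩ 0 0) (.cut .s 10240000 (.cut .s 10215424 (.pos 35 .mp ⟨⟨29499305, 0, 0, 0, 0, 9867867, 0, 0, 0, ⟨0, 0⟩, 0⟩, 0, 0⟩ 0 0) (.pos 35 .mp ⟨⟨30060861, 0, 0, 0, 0, 9990866, 0, 0, 0, ⟨0, 0⟩, 0⟩, 0, 0⟩ 0 0)) (.cut .s 10264576 (.pos 35 .mp ⟨⟨30633398, 0, 0, 0, 0, 10115718, 0, 0, 0, ⟨0, 0⟩, 0⟩, 0, 0⟩ 0 0) (.pos 35 .mp ⟨⟨31217265, 0, 0, 0, 0, 10241770, 0, 0, 0, ⟨0, 0⟩, 0⟩, 0, 0⟩ 0 0))))) (.cut .l 184549 (.cut .v 16842752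 (.cut .s 10240000 (.cut .s 10215424 (.cut .s 10203136 (.pos 45 .mp ⟨⟨30333445, 0, 0, 0, 0, 7455740, 0, 0, 0, ⟨0, 0⟩, 0⟩, 0, 0⟩ 0 0) (.pos 45 .mp ⟨⟨30623649, 0, 0, 0, 0, 7486750, 0, 0, 0, ⟨0, 0⟩, 0⟩, 0, 0⟩ 0 0)) (.cut .s 10227712 (.pos 45 .mp ⟨⟨30916376, 0, 0, 0, 0, 7518606, 0, 0, 0, ⟨0, 0⟩, 0⟩, 0, 0⟩ 0 0) (.cut .s 10233856 (.pos 45 .mp ⟨⟨31063690, 0, 0, 0, 0, 7647962, 0, 0, 0, ⟨0, 0⟩, 0⟩, 0, 0⟩ 0 0) (.pos 45 .mp ⟨⟨31211640, 0, 0, 0, 0, 7664918, 0, 0, 0, ⟨0, 0⟩, 0⟩, 0, 0⟩ 0 0)))) (.cut .d (-16384) (.cut .s 10264576 (.pos 45 .mp ⟨⟨30341052, 0, 0, 0, 0, 10622510, 0, 0, 0, ⟨0, 0⟩, 0⟩, 0, 0⟩ 0 0) (.pos 45 .mp ⟨⟨30922162, 0, 0, 0, 0,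 10748837, 0, 0, 0, ⟨0, 0⟩, 0⟩, 0, 0⟩ 0 0)) (.cut .v 16809984 (.cut .l 92274 (.cut .d (-8192) (.pos 49 .mp ⟨⟨30241910, 0, 0, 0, 0, 11509878, 0, 0, 0, ⟨0, 0⟩, 0⟩, 0, 0⟩ 0 0) (.cut .v 16793600 (.cut .l 46137 (.cut .d (-4096) (.pos 83 .mp ⟨⟨30192755, 0, 0, 0, 0, 11518873, 0, 0, 0, ⟨0, 0⟩, 0⟩, 0, 0⟩ 0 0) (.cut .s 10264576 (.pos 83 .mp ⟨⟨30890521, 0, 0, 0, 0, 8584730, 0, 0, 0, ⟨0, 0⟩, 0⟩, 0, 0⟩ 0 0) (.pos 83 .mp ⟨⟨31480030, 0, 0, 0, 0, 8675989, 0, 0, 0, ⟨0, 0⟩, 0⟩, 0, 0⟩ 0 0))) (.pos 83 .mp ⟨⟨31417210, 0, 0, 0, 0, 7149679, 0, 0, 0, ⟨0, 0⟩, 0⟩, 0, 0⟩ 0 0)) (.pos 84 .mp ⟨⟨37000494, 0, 0, 0, 0, 0, 0, 0, 0, ⟨0, 0⟩, 0⟩, 0, 0⟩ 0 0))) (.pos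 49 .mp ⟨⟨31571312, 0, 0, 0, 0, 7013032, 0, 0, 0, ⟨0, 0⟩, 0⟩, 0, 0⟩ 0 0)) (.pos 50 .mp ⟨⟨37045625, 0, 0, 0, 0, 0, 0, 0, 0, ⟨0, 0⟩, 0⟩, 0, 0⟩ 0 0)))) (.pos 46 .mp ⟨⟨37416750, 0, 0, 0, 0, 0, 0, 0, 0, ⟨0, 0⟩, 0⟩, 0, 0⟩ 0 0)) (.cut .s 10240000 (.pos 35 .mp ⟨⟨30973359, 0, 0, 0, 0, 6286104, 0, 0, 0, ⟨0, 0⟩, 0⟩, 0, 0⟩ 0 0) (.pos 35 .mp ⟨⟨32191024, 0, 0, 0, 0, 6360128, 0, 0, 0, ⟨0, 0⟩, 0⟩, 0, 0⟩ 0 0)))) (.pos 36 .mp ⟨⟨37741522, 0, 0, 0, 0, 0, 0, 0, 0, ⟨0, 0⟩, 0⟩, 0, 0⟩ 0 0))) (.cut .s 10387456 (.cut .v 16908288 (.cut .d (-32768) (.cut .d (-49152) (.pos 35 .mp ⟨⟨32532051, 0, 0, 0, 0, 13189054, 0, 0, 0, ⟨0, 0⟩, 0⟩, 0, 0⟩ 0 0) (.cut .l 184549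 (.void 35 ⟨⟨0, 0, 0, 0, 0, 100000, 0, 0, 0, ⟨0, 0⟩, 0⟩, 0, 0⟩ 0 0) (.cut .s 10338304 (.cut .s 10313728 (.pos 35 .mp ⟨⟨31812810, 0, 0, 0, 0, 10368363, 0, 0, 0, ⟨0, 0⟩, 0⟩, 0, 0⟩ 0 0) (.pos 35 .mp ⟨⟨32420384, 0, 0, 0, 0, 10494831, 0, 0, 0, ⟨0, 0⟩, 0⟩, 0, 0⟩ 0 0)) (.cut .s 10362880 (.pos 35 .mp ⟨⟨33040341, 0, 0, 0, 0, 10620506, 0, 0, 0, ⟨0, 0⟩, 0⟩, 0, 0⟩ 0 0) (.pos 35 .mp ⟨⟨33673036, 0, 0, 0, 0, 10744711, 0, 0, 0, ⟨0, 0⟩, 0⟩, 0, 0⟩ 0 0))))) (.cut .s 10338304 (.cut .l 184549 (.cut .v 16842752 (.cut .d (-16384) (.cut .s 10313728 (.pos 45 .mp ⟨⟨31513193, 0, 0, 0, 0, 10880528, 0, 0, 0, ⟨0, 0⟩, 0⟩, 0, 0⟩ 0 0) (.pos 45 .mp ⟨⟨32114242, 0,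 0, 0, 0, 11017655, 0, 0, 0, ⟨0, 0⟩, 0⟩, 0, 0⟩ 0 0)) (.cut .v 16809984 (.cut .l 92274 (.cut .d (-8192) (.pos 49 .mp ⟨⟨31409220, 0, 0, 0, 0, 11811840, 0, 0, 0, ⟨0, 0⟩, 0⟩, 0, 0⟩ 0 0) (.cut .v 16793600 (.cut .l 46137 (.cut .d (-4096) (.pos 83 .mp ⟨⟨31357659, 0, 0, 0, 0, 11822224, 0, 0, 0, ⟨0, 0⟩, 0⟩, 0, 0⟩ 0 0) (.cut .v 16785408 (.cut .s 10313728 (.pos 85 .mp ⟨⟨32043497, 0, 0, 0, 0, 8824617, 0, 0, 0, ⟨0, 0⟩, 0⟩, 0, 0⟩ 0 0) (.cut .s 10326016 (.pos 85 .mp ⟨⟨32993004, 0, 0, 0, 0, 8284978, 0, 0, 0, ⟨0, 0⟩, 0⟩, 0, 0⟩ 0 0) (.pos 85 .mp ⟨⟨33300793, 0, 0, 0, 0, 8334919, 0, 0, 0, ⟨0, 0⟩, 0⟩, 0, 0⟩ 0 0))) (.pos 86 .mp ⟨⟨38294760, 0, 0, 0, 0,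 0, 0, 0, 0, ⟨0, 0⟩, 0⟩, 0, 0⟩ 0 0))) (.pos 83 .mp ⟨⟨32661803, 0, 0, 0, 0, 7250569, 0, 0, 0, ⟨0, 0⟩, 0⟩, 0, 0⟩ 0 0)) (.pos 84 .mp ⟨⟨38318192, 0, 0, 0, 0, 0, 0, 0, 0, ⟨0, 0⟩, 0⟩, 0, 0⟩ 0 0))) (.pos 49 .mp ⟨⟨32823023, 0, 0, 0, 0, 7105410, 0, 0, 0, ⟨0, 0⟩, 0⟩, 0, 0⟩ 0 0)) (.pos 50 .mp ⟨⟨38364947, 0, 0, 0, 0, 0, 0, 0, 0, ⟨0, 0⟩, 0⟩, 0, 0⟩ 0 0))) (.pos 46 .mp ⟨⟨39443947, 0, 0, 0, 0, 0, 0, 0, 0, ⟨0, 0⟩, 0⟩, 0, 0⟩ 0 0)) (.pos 35 .mp ⟨⟨33448885, 0, 0, 0, 0, 6443581, 0, 0, 0, ⟨0, 0⟩, 0⟩, 0, 0⟩ 0 0)) (.cut .l 184549 (.cut .v 16842752 (.cut .d (-16384) (.cut .s 10362880 (.pos 45 .mp ⟨⟨32725410, 0, 0, 0, 0, 11160288, 0, 0, 0, ⟨0, 0⟩, 0⟩, 0,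 0⟩ 0 0) (.pos 45 .mp ⟨⟨33346798, 0, 0, 0, 0, 11308502, 0, 0, 0, ⟨0, 0⟩, 0⟩, 0, 0⟩ 0 0)) (.cut .v 16809984 (.cut .l 92274 (.cut .d (-8192) (.pos 49 .mp ⟨⟨32616381, 0, 0, 0, 0, 12136327, 0, 0, 0, ⟨0, 0⟩, 0⟩, 0, 0⟩ 0 0) (.cut .v 16793600 (.cut .l 46137 (.cut .d (-4096) (.pos 83 .mp ⟨⟨32562301, 0, 0, 0, 0, 12148195, 0, 0, 0, ⟨0, 0⟩, 0⟩, 0, 0⟩ 0 0) (.cut .v 16785408 (.cut .l 23068 (.cut .d (-2048) (.pos 85 .mp ⟨⟨32535370, 0, 0, 0, 0, 12154002, 0, 0, 0, ⟨0, 0⟩, 0⟩, 0, 0⟩ 0 0) (.cut .s 10362880 (.pos 85 .mp ⟨⟨33214579, 0, 0, 0, 0, 9108559, 0, 0, 0, ⟨0, 0⟩, 0⟩, 0, 0⟩ 0 0) (.pos 85 .mp ⟨⟨33843706, 0, 0, 0, 0, 9216020, 0, 0, 0, ⟨0, 0⟩, 0⟩,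 0, 0⟩ 0 0))) (.pos 85 .mp ⟨⟨33835340, 0, 0, 0, 0, 7480792, 0, 0, 0, ⟨0, 0⟩, 0⟩, 0, 0⟩ 0 0)) (.pos 86 .mp ⟨⟨39663769, 0, 0, 0, 0, 0, 0, 0, 0, ⟨0, 0⟩, 0⟩, 0, 0⟩ 0 0))) (.pos 83 .mp ⟨⟨33919770, 0, 0, 0, 0, 7403406, 0, 0, 0, ⟨0, 0⟩, 0⟩, 0, 0⟩ 0 0)) (.pos 84 .mp ⟨⟨39688047, 0, 0, 0, 0, 0, 0, 0, 0, ⟨0, 0⟩, 0⟩, 0, 0⟩ 0 0))) (.pos 49 .mp ⟨⟨34089081, 0, 0, 0, 0, 7248227, 0, 0, 0, ⟨0, 0⟩, 0⟩, 0, 0⟩ 0 0)) (.pos 50 .mp ⟨⟨39736488, 0, 0, 0, 0, 0, 0, 0, 0, ⟨0, 0⟩, 0⟩, 0, 0⟩ 0 0))) (.pos 46 .mp ⟨⟨40819659, 0, 0, 0, 0, 0, 0, 0, 0, ⟨0, 0⟩, 0⟩, 0, 0⟩ 0 0)) (.pos 35 .mp ⟨⟨34737551, 0, 0, 0, 0, 6555278, 0, 0, 0, ⟨0, 0⟩, 0⟩, 0, 0⟩ 0 0)))) (.pos 36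 .mp ⟨⟨40449593, 0, 0, 0, 0, 0, 0, 0, 0, ⟨0, 0⟩, 0⟩, 0, 0⟩ 0 0)) (.cut .v 16908288 (.cut .d (-32768) (.cut .d (-49152) (.pos 35 .mp ⟨⟨34663592, 0, 0, 0, 0, 24744485, 0, 0, 0, ⟨0, 0⟩, 0⟩, 0, 0⟩ 0 0) (.cut .l 184549 (.void 35 ⟨⟨0, 0, 0, 0, 0, 100000, 0, 0, 0, ⟨0, 0⟩, 0⟩, 0, 0⟩ 0 0) (.cut .s 10436608 (.cut .s 10412032 (.pos 35 .mp ⟨⟨34318827, 0, 0, 0, 0, 10866766, 0, 0, 0, ⟨0, 0⟩, 0⟩, 0, 0⟩ 0 0) (.pos 35 .mp ⟨⟨34978073, 0, 0, 0, 0, 10985982, 0, 0, 0, ⟨0, 0⟩, 0⟩, 0, 0⟩ 0 0)) (.cut .s 10461184 (.pos 35 .mp ⟨⟨35651139, 0, 0, 0, 0, 11101668, 0, 0, 0, ⟨0, 0⟩, 0⟩, 0, 0⟩ 0 0) (.pos 35 .mp ⟨⟨36338388, 0, 0, 0, 0, 11213122, 0, 0, 0, ⟨0, 0⟩,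 0⟩, 0, 0⟩ 0 0))))) (.cut .s 10436608 (.cut .v 16842752 (.cut .l 184549 (.cut .d (-16384) (.cut .s 10412032 (.pos 45 .mp ⟨⟨33978508, 0, 0, 0, 0, 11462370, 0, 0, 0, ⟨0, 0⟩, 0⟩, 0, 0⟩ 0 0) (.pos 45 .mp ⟨⟨34620644, 0, 0, 0, 0, 11621967, 0, 0, 0, ⟨0, 0⟩, 0⟩, 0, 0⟩ 0 0)) (.cut .v 16809984 (.cut .l 92274 (.cut .d (-8192) (.pos 49 .mp ⟨⟨33864191, 0, 0, 0, 0, 12483931, 0, 0, 0, ⟨0, 0⟩, 0⟩, 0, 0⟩ 0 0) (.cut .v 16793600 (.cut .l 46137 (.cut .d (-4096) (.pos 83 .mp ⟨⟨33807479, 0, 0, 0, 0, 12497382, 0, 0, 0, ⟨0, 0⟩, 0⟩, 0, 0⟩ 0 0) (.cut .v 16785408 (.cut .l 23068 (.cut .d (-2048) (.pos 85 .mp ⟨⟨33779233, 0, 0, 0, 0, 12503978, 0, 0, 0, ⟨0, 0⟩,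 0⟩, 0, 0⟩ 0 0) (.cut .s 10412032 (.pos 85 .mp ⟨⟨34480907, 0, 0, 0, 0, 9331217, 0, 0, 0, ⟨0, 0⟩, 0⟩, 0, 0⟩ 0 0) (.pos 85 .mp ⟨⟨35126041, 0, 0, 0, 0, 9454498, 0, 0, 0, ⟨0, 0⟩, 0⟩, 0, 0⟩ 0 0))) (.pos 85 .mp ⟨⟨35123002, 0, 0, 0, 0, 7655122, 0, 0, 0, ⟨0, 0⟩, 0⟩, 0, 0⟩ 0 0)) (.pos 86 .mp ⟨⟨41085924, 0, 0, 0, 0, 0, 0, 0, 0, ⟨0, 0⟩, 0⟩, 0, 0⟩ 0 0))) (.pos 83 .mp ⟨⟨35211304, 0, 0, 0, 0, 7573071, 0, 0, 0, ⟨0, 0⟩, 0⟩, 0, 0⟩ 0 0)) (.pos 84 .mp ⟨⟨41111081, 0, 0, 0, 0, 0, 0, 0, 0, ⟨0, 0⟩, 0⟩, 0, 0⟩ 0 0))) (.pos 49 .mp ⟨⟨35388373, 0, 0, 0, 0, 7408549, 0, 0, 0, ⟨0, 0⟩, 0⟩, 0, 0⟩ 0 0)) (.pos 50 .mp ⟨⟨41161272, 0, 0, 0, 0, 0, 0, 0, 0, ⟨0, 0⟩, 0⟩,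 0, 0⟩ 0 0))) (.pos 45 .mp ⟨⟨35744370, 0, 0, 0, 0, 7077509, 0, 0, 0, ⟨0, 0⟩, 0⟩, 0, 0⟩ 0 0)) (.pos 46 .mp ⟨⟨41261622, 0, 0, 0, 0, 0, 0, 0, 0, ⟨0, 0⟩, 0⟩, 0, 0⟩ 0 0)) (.cut .v 16842752 (.cut .l 184549 (.cut .d (-16384) (.cut .s 10461184 (.pos 45 .mp ⟨⟨35273314, 0, 0, 0, 0, 11787368, 0, 0, 0, ⟨0, 0⟩, 0⟩, 0, 0⟩ 0 0) (.pos 45 .mp ⟨⟨35936625, 0, 0, 0, 0, 11958652, 0, 0, 0, ⟨0, 0⟩, 0⟩, 0, 0⟩ 0 0)) (.cut .v 16809984 (.cut .l 92274 (.cut .d (-8192) (.pos 49 .mp ⟨⟨35153477, 0, 0, 0, 0, 12855261, 0, 0, 0, ⟨0, 0⟩, 0⟩, 0, 0⟩ 0 0) (.cut .v 16793600 (.cut .l 46137 (.cut .d (-4096) (.pos 83 .mp ⟨⟨35094014, 0, 0, 0, 0, 12870396, 0, 0, 0, ⟨0, 0⟩,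 0⟩, 0, 0⟩ 0 0) (.cut .s 10461184 (.cut .s 10448896 (.pos 83 .mp ⟨⟨35968452, 0, 0, 0, 0, 9172710, 0, 0, 0, ⟨0, 0⟩, 0⟩, 0, 0⟩ 0 0) (.pos 83 .mp ⟨⟨36311061, 0, 0, 0, 0, 9219654, 0, 0, 0, ⟨0, 0⟩, 0⟩, 0, 0⟩ 0 0)) (.pos 83 .mp ⟨⟨36563781, 0, 0, 0, 0, 9538356, 0, 0, 0, ⟨0, 0⟩, 0⟩, 0, 0⟩ 0 0))) (.pos 83 .mp ⟨⟨36545267, 0, 0, 0, 0, 7743382, 0, 0, 0, ⟨0, 0⟩, 0⟩, 0, 0⟩ 0 0)) (.pos 84 .mp ⟨⟨42588347, 0, 0, 0, 0, 0, 0, 0, 0, ⟨0, 0⟩, 0⟩, 0, 0⟩ 0 0))) (.pos 49 .mp ⟨⟨36730435, 0, 0, 0, 0, 7569068, 0, 0, 0, ⟨0, 0⟩, 0⟩, 0, 0⟩ 0 0)) (.pos 50 .mp ⟨⟨42640355, 0, 0, 0, 0, 0, 0, 0, 0, ⟨0, 0⟩, 0⟩, 0, 0⟩ 0 0))) (.pos 45 .mp ⟨⟨37102681, 0, 0, 0, 0, 7218386,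 0, 0, 0, ⟨0, 0⟩, 0⟩, 0, 0⟩ 0 0)) (.pos 46 .mp ⟨⟨42744334, 0, 0, 0, 0, 0, 0, 0, 0, ⟨0, 0⟩, 0⟩, 0, 0⟩ 0 0)))) (.pos 36 .mp ⟨⟨43354245, 0, 0, 0, 0, 0, 0, 0, 0, ⟨0, 0⟩, 0⟩, 0, 0⟩ 0 0)))) (.pos 34 .mp ⟨⟨43065187, 0, 0, 0, 0, 0, 0, 0, 0, ⟨0, 0⟩, 0⟩, 0, 0⟩ 0 0)))))) (.void 32 ⟨⟨100000, 0, 0, 0, 0, 0, 0, 0, 0, ⟨0, 0⟩, 0⟩, 0, 0⟩ 0 0))) (.void 30 ⟨⟨100000, 0, 0, 0, 0, 0, 0, 0, 0, ⟨0, 0⟩, 0⟩, 0, 0⟩ 0 0))) (.void 28 ⟨⟨100000, 0, 0, 0, 0, 0, 0, 0, 0, ⟨0, 0⟩, 0⟩, 0, 0⟩ 0 0)))) (.void 26 ⟨⟨100000, 0, 0, 0, 0, 0, 0, 0, 0, ⟨0, 0⟩, 0⟩, 0, 0⟩ 0 0)) (.void 24 ⟨⟨100000, 0, 0, 0, 0, 0, 0, 0, 0, ⟨0, 0⟩, 0⟩, 0, 0⟩ 0 0))) (.cut .v 16777216 (.cut .d 5556092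 (.cut .v 8388608 (.cut .v 4194304 (.void 4 ⟨⟨0, 0, 66667, 0, 0, 0, 0, 0, 0, ⟨0, 0⟩, 0⟩, 0, 33333⟩ 0 0) (.pos 5 .pm ⟨⟨0, 0, 607581, 0, 0, 0, 0, 0, 0, ⟨0, 0⟩, 0⟩, 0, 0⟩ 0 0)) (.pos 3 .pm ⟨⟨0, 0, 0, 0, 0, 0, 0, 0, 0, ⟨0, 0⟩, 0⟩, 0, 0⟩ 0 0)) (.void 1 ⟨⟨0, 0, 0, 0, 0, 0, 0, 0, 0, ⟨0, 0⟩, 0⟩, 0, 100000⟩ 0 0)) (.cut .d 5556092 (.cut .d 2778046 (.cut .v 25165824 (.cut .d 1389023 (.cut .v 20971520 (.cut .d 694511 (.cut .v 18874368 (.cut .d 347255 (.cut .v 17825792 (.cut .d 173627 (.cut .v 17301504 (.cut .d 86813 (.cut .d 43406 (.cut .s 10289152 (.cut .s 10190848 (.pos 31 .pp ⟨⟨31644174, 0, 0, 0, 0, 0, 0, 0, 0, ⟨0, 0⟩, 0⟩, 0, 8941⟩ 0 0)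 (.pos 31 .pp ⟨⟨34071743, 0, 0, 0, 0, 0, 0, 0, 0, ⟨0, 0⟩, 0⟩, 0, 5656⟩ 0 0)) (.cut .s 10387456 (.pos 31 .pp ⟨⟨36672025, 0, 0, 0, 0, 0, 0, 0, 0, ⟨0, 0⟩, 0⟩, 0, 3176⟩ 0 0) (.pos 31 .pp ⟨⟨39448583, 0, 0, 0, 0, 0, 0, 0, 0, ⟨0, 0⟩, 0⟩, 0, 1573⟩ 0 0))) (.pos 31 .pp ⟨⟨32528776, 0, 0, 0, 0, 0, 0, 0, 0, ⟨0, 0⟩, 0⟩, 0, 1576⟩ 0 0)) (.pos 31 .pp ⟨⟨27050139, 0, 0, 0, 0, 0, 0, 0, 0, ⟨0, 0⟩, 0⟩, 0, 137542⟩ 0 0)) (.cut .s 10289152 (.pos 32 .pp ⟨⟨37089237, 0, 0, 0, 0, 0, 0, 0, 0, ⟨0, 0⟩, 0⟩, 0, 0⟩ 0 0) (.pos 32 .pp ⟨⟨42546713, 0, 0, 0, 0, 0, 0, 0, 0, ⟨0, 0⟩, 0⟩, 0, 0⟩ 0 0))) (.pos 29 .pp ⟨⟨26464213, 0, 0, 0, 0, 0, 0, 0, 0, ⟨0, 0⟩, 0⟩, 0, 205019⟩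 0 0)) (.cut .d 173627 (.pos 30 .pp ⟨⟨48880114, 0, 0, 0, 0, 0, 0, 0, 0, ⟨0, 0⟩, 0⟩, 0, 0⟩ 0 0) (.pos 30 .pp ⟨⟨40195824, 0, 0, 0, 0, 0, 0, 0, 0, ⟨0, 0⟩, 0⟩, 0, 0⟩ 0 0))) (.pos 27 .pp ⟨⟨26953805, 0, 0, 0, 0, 0, 0, 0, 0, ⟨0, 0⟩, 0⟩, 0, 243126⟩ 0 0)) (.cut .d 347255 (.pos 28 .pp ⟨⟨62014211, 0, 0, 0, 0, 0, 0, 0, 0, ⟨0, 0⟩, 0⟩, 0, 0⟩ 0 0) (.cut .v 19922944 (.pos 53 .pp ⟨⟨41018891, 0, 0, 0, 0, 0, 0, 0, 0, ⟨0, 0⟩, 0⟩, 0, 0⟩ 0 0) (.cut .d 520883 (.pos 54 .pp ⟨⟨57677732, 0, 0, 0, 0, 0, 0, 0, 0, ⟨0, 0⟩, 0⟩, 0, 0⟩ 0 0) (.pos 54 .pp ⟨⟨46226245, 0, 0, 0, 0, 0, 0, 0, 0, ⟨0, 0⟩, 0⟩, 0, 0⟩ 0 0))))) (.pos 25 .pp ⟨⟨0, 0, 0, 0, 0, 0, 0, 0, 0, ⟨0, 0⟩,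 0⟩, 0, 898734⟩ 0 0)) (.cut .d 694511 (.cut .v 23068672 (.cut .v 22020096 (.pos 57 .pp ⟨⟨68420119, 0, 0, 0, 0, 0, 0, 0, 0, ⟨0, 0⟩, 0⟩, 0, 0⟩ 0 0) (.pos 58 .pp ⟨⟨77912987, 0, 0, 0, 0, 0, 0, 0, 0, ⟨0, 0⟩, 0⟩, 0, 0⟩ 0 0)) (.void 56 ⟨⟨0, 0, 0, 0, 0, 0, 0, 0, 0, ⟨0, 0⟩, 0⟩, 100000, 0⟩ 0 0)) (.cut .v 23068672 (.cut .d 1041767 (.cut .d 868139 (.cut .v 22020096 (.pos 57 .pp ⟨⟨48289649, 0, 0, 0, 0, 0, 139025, 0, 0, ⟨0, 0⟩, 0⟩, 0, 0⟩ 0 0) (.pos 58 .pp ⟨⟨64313985, 0, 0, 0, 0, 0, 0, 0, 0, ⟨0, 0⟩, 0⟩, 0, 0⟩ 0 0)) (.pos 55 .pp ⟨⟨46410696, 0, 0, 0, 0, 0, 333571, 0, 0, ⟨0, 0⟩, 0⟩, 0, 0⟩ 0 0)) (.pos 55 .pp ⟨⟨0, 0, 0, 0, 0, 0, 2158442, 0, 0, ⟨0,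 0⟩, 0⟩, 0, 0⟩ 0 0)) (.cut .d 1041767 (.cut .v 24117248 (.cut .d 868139 (.pos 61 .pp ⟨⟨83034403, 0, 0, 0, 0, 0, 0, 0, 0, ⟨0, 0⟩, 0⟩, 0, 0⟩ 0 0) (.cut .v 23592960 (.pos 63 .pp ⟨⟨60871075, 0, 0, 0, 0, 0, 0, 0, 0, ⟨0, 0⟩, 0⟩, 0, 0⟩ 0 0) (.cut .s 10289152 (.cut .d 954953 (.pos 64 .pp ⟨⟨74099406, 0, 0, 0, 0, 0, 0, 0, 0, ⟨0, 0⟩, 0⟩, 0, 0⟩ 0 0) (.pos 64 .pp ⟨⟨46223130, 0, 0, 0, 0, 0, 0, 0, 0, ⟨0, 0⟩, 0⟩, 2212584, 0⟩ 0 0)) (.cut .d 954953 (.cut .v 23855104 (.pos 65 .pp ⟨⟨56280022, 0, 0, 0, 0, 0, 0, 0, 0, ⟨0, 0⟩, 0⟩, 2170671, 0⟩ 0 0) (.pos 66 .pp ⟨⟨4931468, 0, 0, 0, 0, 0, 0, 0, 0, ⟨0, 0⟩, 0⟩, 9930125, 0⟩ 0 0)) (.pos 64 .pp ⟨⟨32152961, 0,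 0, 0, 0, 0, 0, 0, 0, ⟨0, 0⟩, 0⟩, 4598013, 0⟩ 0 0))))) (.cut .s 10289152 (.pos 62 .pp ⟨⟨0, 0, 0, 0, 0, 0, 0, 0, 0, ⟨0, 0⟩, 0⟩, 10251619, 0⟩ 0 0) (.pos 62 .pp ⟨⟨0, 0, 0, 0, 0, 0, 0, 0, 0, ⟨0, 0⟩, 0⟩, 11512744, 0⟩ 0 0))) (.cut .v 24117248 (.pos 61 .pp ⟨⟨17853345, 0, 0, 0, 0, 0, 0, 0, 0, ⟨0, 0⟩, 0⟩, 4708128, 0⟩ 0 0) (.pos 62 .pp ⟨⟨0, 0, 0, 0, 0, 0, 0, 0, 0, ⟨0, 0⟩, 0⟩, 8376975, 0⟩ 0 0)))))) (.cut .v 20971520 (.pos 25 .pp ⟨⟨0, 0, 0, 0, 0, 0, 0, 0, 0, ⟨0, 0⟩, 0⟩, 0, 898734⟩ 0 0) (.pos 26 .pp ⟨⟨0, 0, 0, 0, 0, 0, 2354664, 0, 0, ⟨0, 0⟩, 0⟩, 0, 0⟩ 0 0))) (.cut .l 184549 (.void 24 ⟨⟨0, 0, 0, 0, 0, 0, 100000, 0, 0, ⟨0, 0⟩, 0⟩, 0, 0⟩ 0 0) (.cut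 .d 1389023 (.cut .v 29360128 (.cut .d 694511 (.void 75 ⟨⟨0, 0, 0, 0, 0, 0, 0, 0, 0, ⟨0, 0⟩, 0⟩, 100000, 0⟩ 0 0) (.cut .d 1041767 (.void 75 ⟨⟨0, 0, 0, 0, 0, 0, 0, 0, 0, ⟨0, 0⟩, 0⟩, 100000, 0⟩ 0 0) (.pos 75 .pp ⟨⟨0, 0, 0, 0, 0, 0, 0, 0, 0, ⟨0, 0⟩, 0⟩, 10954165, 0⟩ 0 0))) (.void 76 ⟨⟨0, 0, 0, 0, 0, 0, 0, 0, 0, ⟨0, 0⟩, 0⟩, 100000, 0⟩ 0 0)) (.cut .v 29360128 (.pos 75 .pp ⟨⟨0, 0, 0, 0, 0, 0, 188767, 0, 0, ⟨0, 0⟩, 0⟩, 7705343, 0⟩ 0 0) (.pos 76 .pp ⟨⟨0, 0, 0, 0, 0, 0, 6609290, 0, 0, ⟨0, 0⟩, 0⟩, 12043524, 0⟩ 0 0))))) (.cut .v 25165824 (.void 23 ⟨⟨0, 0, 0, 0, 0, 0, 0, 0, 0, ⟨0, 0⟩, 0⟩, 0, 100000⟩ 0 0) (.pos 24 .pp ⟨⟨0, 0, 0, 0, 0, 0, 53202141,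 0, 0, ⟨0, 0⟩, 0⟩, 0, 42128984⟩ 0 0))) (.void 22 ⟨⟨0, 0, 0, 0, 0, 0, 0, 0, 0, ⟨0, 0⟩, 0⟩, 0, 100000⟩ 0 0)))),
    by decide +kernel⟩

theorem covers14 : cell.Covers Vale.Agent.P237.Petty.Cor.Grid.N10.table row14.1 :=
  ⟨(.cut .d 0 (.cut .v 16777216 (.cut .d (-8388608) (.void 1 ⟨⟨0, 0, 0, 0, 0, 100000, 0, 0, 0, ⟨0, 0⟩, 0⟩, 0, 0⟩ 0 0) (.cut .d (-4194304) (.void 1 ⟨⟨0, 0, 0, 0, 0, 100000, 0, 0, 0, ⟨0, 0⟩, 0⟩, 0, 0⟩ 0 0) (.cut .d (-2097152) (.void 1 ⟨⟨0, 0, 0, 0, 0, 100000, 0, 0, 0, ⟨0, 0⟩, 0⟩, 0, 0⟩ 0 0) (.cut .d (-1048576) (.void 1 ⟨⟨0, 0, 0, 0, 0, 100000, 0, 0, 0, ⟨0, 0⟩, 0⟩, 0, 0⟩ 0 0) (.cut .d (-524288) (.void 1 ⟨⟨0, 0, 0, 0, 0,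 100000, 0, 0, 0, ⟨0, 0⟩, 0⟩, 0, 0⟩ 0 0) (.cut .d (-262144) (.void 1 ⟨⟨0, 0, 0, 0, 0, 100000, 0, 0, 0, ⟨0, 0⟩, 0⟩, 0, 0⟩ 0 0) (.cut .d (-131072) (.void 1 ⟨⟨0, 0, 0, 0, 0, 100000, 0, 0, 0, ⟨0, 0⟩, 0⟩, 0, 0⟩ 0 0) (.cut .d (-65536) (.void 1 ⟨⟨0, 0, 0, 0, 0, 100000, 0, 0, 0, ⟨0, 0⟩, 0⟩, 0, 0⟩ 0 0) (.cut .v 8388608 (.cut .v 4194304 (.void 4 ⟨⟨0, 0, 100000, 0, 0, 0, 0, 0, 0, ⟨0, 0⟩, 0⟩, 0, 0⟩ 0 0) (.pos 5 .mm ⟨⟨0, 0, 1252031, 0, 0, 16351406, 0, 0, 0, ⟨0, 0⟩, 0⟩, 0, 0⟩ 0 0)) (.cut .s 10682368 (.pos 3 .mm ⟨⟨0, 0, 0, 0, 0, 68867756, 0, 0, 0, ⟨0, 0⟩, 0⟩, 0, 0⟩ 0 0) (.pos 3 .mm ⟨⟨0, 0, 0, 0, 0, 80068757, 0, 0, 0, ⟨0, 0⟩, 0⟩, 0, 0⟩ 0 0)))))))))))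 (.cut .v 33554432 (.cut .v 25165824 (.cut .v 20971520 (.cut .d (-8388608) (.void 25 ⟨⟨0, 0, 0, 0, 0, 100000, 0, 0, 0, ⟨0, 0⟩, 0⟩, 0, 0⟩ 0 0) (.cut .d (-4194304) (.void 25 ⟨⟨100000, 0, 0, 0, 0, 0, 0, 0, 0, ⟨0, 0⟩, 0⟩, 0, 0⟩ 0 0) (.cut .v 18874368 (.cut .d (-2097152) (.void 27 ⟨⟨100000, 0, 0, 0, 0, 0, 0, 0, 0, ⟨0, 0⟩, 0⟩, 0, 0⟩ 0 0) (.cut .v 17825792 (.cut .d (-1048576) (.void 29 ⟨⟨100000, 0, 0, 0, 0, 0, 0, 0, 0, ⟨0, 0⟩, 0⟩, 0, 0⟩ 0 0) (.cut .v 17301504 (.cut .d (-524288) (.void 31 ⟨⟨100000, 0, 0, 0, 0, 0, 0, 0, 0, ⟨0, 0⟩, 0⟩, 0, 0⟩ 0 0) (.cut .d (-262144) (.void 31 ⟨⟨100000, 0, 0, 0, 0, 0, 0, 0, 0, ⟨0, 0⟩, 0⟩, 0, 0⟩ 0 0) (.cut .d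 (-131072) (.void 31 ⟨⟨0, 0, 0, 0, 0, 100000, 0, 0, 0, ⟨0, 0⟩, 0⟩, 0, 0⟩ 0 0) (.cut .d (-65536) (.void 31 ⟨⟨0, 0, 0, 0, 0, 100000, 0, 0, 0, ⟨0, 0⟩, 0⟩, 0, 0⟩ 0 0) (.cut .v 17039360 (.cut .s 10682368 (.cut .s 10584064 (.cut .v 16908288 (.cut .d (-32768) (.cut .d (-49152) (.void 35 ⟨⟨0, 0, 0, 0, 0, 100000, 0, 0, 0, ⟨0, 0⟩, 0⟩, 0, 0⟩ 0 0) (.cut .l 184549 (.void 35 ⟨⟨0, 0, 0, 0, 0, 100000, 0, 0, 0, ⟨0, 0⟩, 0⟩, 0, 0⟩ 0 0) (.cut .s 10534912 (.cut .s 10510336 (.pos 35 .mp ⟨⟨37074598, 0, 0, 0, 0, 11284742, 0, 0, 0, ⟨0, 0⟩, 0⟩, 0, 0⟩ 0 0) (.pos 35 .mp ⟨⟨37753415, 0, 0, 0, 0, 11443467, 0, 0, 0, ⟨0, 0⟩, 0⟩, 0, 0⟩ 0 0)) (.cut .s 10559488 (.pos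 35 .mp ⟨⟨38444566, 0, 0, 0, 0, 11608739, 0, 0, 0, ⟨0, 0⟩, 0⟩, 0, 0⟩ 0 0) (.pos 35 .mp ⟨⟨39148513, 0, 0, 0, 0, 11779687, 0, 0, 0, ⟨0, 0⟩, 0⟩, 0, 0⟩ 0 0))))) (.cut .s 10534912 (.cut .v 16842752 (.cut .l 184549 (.cut .d (-16384) (.pos 45 .mp ⟨⟨36611030, 0, 0, 0, 0, 13222510, 0, 0, 0, ⟨0, 0⟩, 0⟩, 0, 0⟩ 0 0) (.cut .v 16809984 (.cut .l 92274 (.cut .d (-8192) (.pos 49 .mp ⟨⟨36485407, 0, 0, 0, 0, 13257840, 0, 0, 0, ⟨0, 0⟩, 0⟩, 0, 0⟩ 0 0) (.cut .v 16793600 (.cut .l 46137 (.cut .d (-4096) (.pos 83 .mp ⟨⟨36423063, 0, 0, 0, 0, 13274769, 0, 0, 0, ⟨0, 0⟩, 0⟩, 0, 0⟩ 0 0) (.cut .s 10510336 (.pos 83 .mp ⟨⟨37247494, 0, 0, 0, 0, 9662066, 0, 0, 0,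 ⟨0, 0⟩, 0⟩, 0, 0⟩ 0 0) (.cut .s 10522624 (.pos 83 .mp ⟨⟨38021362, 0, 0, 0, 0, 9492450, 0, 0, 0, ⟨0, 0⟩, 0⟩, 0, 0⟩ 0 0) (.pos 83 .mp ⟨⟨38358415, 0, 0, 0, 0, 9558865, 0, 0, 0, ⟨0, 0⟩, 0⟩, 0, 0⟩ 0 0)))) (.pos 83 .mp ⟨⟨37924978, 0, 0, 0, 0, 8013345, 0, 0, 0, ⟨0, 0⟩, 0⟩, 0, 0⟩ 0 0)) (.pos 84 .mp ⟨⟨44125045, 0, 0, 0, 0, 0, 0, 0, 0, ⟨0, 0⟩, 0⟩, 0, 0⟩ 0 0))) (.pos 49 .mp ⟨⟨38118856, 0, 0, 0, 0, 7828471, 0, 0, 0, ⟨0, 0⟩, 0⟩, 0, 0⟩ 0 0)) (.pos 50 .mp ⟨⟨44178948, 0, 0, 0, 0, 0, 0, 0, 0, ⟨0, 0⟩, 0⟩, 0, 0⟩ 0 0))) (.pos 45 .mp ⟨⟨38508574, 0, 0, 0, 0, 7456608, 0, 0, 0, ⟨0, 0⟩, 0⟩, 0, 0⟩ 0 0)) (.pos 46 .mp ⟨⟨44286714, 0, 0, 0, 0, 0, 0, 0, 0, ⟨0,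 0⟩, 0⟩, 0, 0⟩ 0 0)) (.cut .v 16842752 (.cut .l 184549 (.cut .d (-16384) (.cut .s 10559488 (.pos 45 .mp ⟨⟨37994619, 0, 0, 0, 0, 12395092, 0, 0, 0, ⟨0, 0⟩, 0⟩, 0, 0⟩ 0 0) (.pos 45 .mp ⟨⟨38704682, 0, 0, 0, 0, 12535729, 0, 0, 0, ⟨0, 0⟩, 0⟩, 0, 0⟩ 0 0)) (.cut .v 16809984 (.cut .l 92274 (.cut .d (-8192) (.pos 49 .mp ⟨⟨37862549, 0, 0, 0, 0, 13580772, 0, 0, 0, ⟨0, 0⟩, 0⟩, 0, 0⟩ 0 0) (.cut .v 16793600 (.cut .l 46137 (.cut .d (-4096) (.pos 83 .mp ⟨⟨37796992, 0, 0, 0, 0, 13600031, 0, 0, 0, ⟨0, 0⟩, 0⟩, 0, 0⟩ 0 0) (.cut .v 16785408 (.cut .l 23068 (.cut .d (-2048) (.pos 85 .mp ⟨⟨37764333, 0, 0, 0, 0, 13609523, 0, 0, 0, ⟨0, 0⟩, 0⟩, 0, 0⟩ 0 0)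 (.cut .v 16781312 (.cut .s 10559488 (.pos 87 .mp ⟨⟨38521594, 0, 0, 0, 0, 10037948, 0, 0, 0, ⟨0, 0⟩, 0⟩, 0, 0⟩ 0 0) (.cut .s 10571776 (.pos 87 .mp ⟨⟨39655643, 0, 0, 0, 0, 9347432, 0, 0, 0, ⟨0, 0⟩, 0⟩, 0, 0⟩ 0 0) (.pos 87 .mp ⟨⟨40000702, 0, 0, 0, 0, 9426834, 0, 0, 0, ⟨0, 0⟩, 0⟩, 0, 0⟩ 0 0))) (.pos 88 .mp ⟨⟨45615291, 0, 0, 0, 0, 0, 0, 0, 0, ⟨0, 0⟩, 0⟩, 0, 0⟩ 0 0))) (.pos 85 .mp ⟨⟨39251785, 0, 0, 0, 0, 8302798, 0, 0, 0, ⟨0, 0⟩, 0⟩, 0, 0⟩ 0 0)) (.pos 86 .mp ⟨⟨45629405, 0, 0, 0, 0, 0, 0, 0, 0, ⟨0, 0⟩, 0⟩, 0, 0⟩ 0 0))) (.pos 83 .mp ⟨⟨39353043, 0, 0, 0, 0, 8205039, 0, 0, 0, ⟨0, 0⟩, 0⟩, 0, 0⟩ 0 0)) (.pos 84 .mp ⟨⟨45657381, 0, 0, 0, 0, 0,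 0, 0, 0, ⟨0, 0⟩, 0⟩, 0, 0⟩ 0 0))) (.pos 49 .mp ⟨⟨39556064, 0, 0, 0, 0, 8009058, 0, 0, 0, ⟨0, 0⟩, 0⟩, 0, 0⟩ 0 0)) (.pos 50 .mp ⟨⟨45713192, 0, 0, 0, 0, 0, 0, 0, 0, ⟨0, 0⟩, 0⟩, 0, 0⟩ 0 0))) (.pos 45 .mp ⟨⟨39964127, 0, 0, 0, 0, 7614914, 0, 0, 0, ⟨0, 0⟩, 0⟩, 0, 0⟩ 0 0)) (.pos 46 .mp ⟨⟨45824772, 0, 0, 0, 0, 0, 0, 0, 0, ⟨0, 0⟩, 0⟩, 0, 0⟩ 0 0)))) (.pos 36 .mp ⟨⟨46480895, 0, 0, 0, 0, 0, 0, 0, 0, ⟨0, 0⟩, 0⟩, 0, 0⟩ 0 0)) (.cut .v 16908288 (.cut .d (-32768) (.cut .d (-49152) (.void 35 ⟨⟨0, 0, 0, 0, 0, 100000, 0, 0, 0, ⟨0, 0⟩, 0⟩, 0, 0⟩ 0 0) (.cut .l 184549 (.void 35 ⟨⟨0, 0, 0, 0, 0, 100000, 0, 0, 0, ⟨0, 0⟩, 0⟩, 0, 0⟩ 0 0) (.cut .s 10633216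 (.cut .s 10608640 (.pos 35 .mp ⟨⟨39865723, 0, 0, 0, 0, 11955430, 0, 0, 0, ⟨0, 0⟩, 0⟩, 0, 0⟩ 0 0) (.pos 35 .mp ⟨⟨40596666, 0, 0, 0, 0, 12135081, 0, 0, 0, ⟨0, 0⟩, 0⟩, 0, 0⟩ 0 0)) (.cut .s 10657792 (.pos 35 .mp ⟨⟨41341814, 0, 0, 0, 0, 12317744, 0, 0, 0, ⟨0, 0⟩, 0⟩, 0, 0⟩ 0 0) (.pos 35 .mp ⟨⟨42101643, 0, 0, 0, 0, 12502515, 0, 0, 0, ⟨0, 0⟩, 0⟩, 0, 0⟩ 0 0))))) (.cut .s 10633216 (.cut .v 16842752 (.cut .l 184549 (.cut .d (-16384) (.cut .s 10608640 (.pos 45 .mp ⟨⟨39427093, 0, 0, 0, 0, 12683504, 0, 0, 0, ⟨0, 0⟩, 0⟩, 0, 0⟩ 0 0) (.pos 45 .mp ⟨⟨40161981, 0, 0, 0, 0, 12838515, 0, 0, 0, ⟨0, 0⟩, 0⟩, 0, 0⟩ 0 0)) (.cut .v 16809984 (.cut .l 92274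 (.cut .d (-8192) (.pos 49 .mp ⟨⟨39288240, 0, 0, 0, 0, 13933096, 0, 0, 0, ⟨0, 0⟩, 0⟩, 0, 0⟩ 0 0) (.cut .v 16793600 (.cut .l 46137 (.cut .d (-4096) (.pos 83 .mp ⟨⟨39219304, 0, 0, 0, 0, 13954856, 0, 0, 0, ⟨0, 0⟩, 0⟩, 0, 0⟩ 0 0) (.cut .v 16785408 (.cut .l 23068 (.cut .d (-2048) (.pos 85 .mp ⟨⟨39184959, 0, 0, 0, 0, 13965596, 0, 0, 0, ⟨0, 0⟩, 0⟩, 0, 0⟩ 0 0) (.cut .v 16781312 (.cut .l 11534 (.cut .d (-1024) (.pos 87 .mp ⟨⟨39167806, 0, 0, 0, 0, 13970909, 0, 0, 0, ⟨0, 0⟩, 0⟩, 0, 0⟩ 0 0) (.cut .l 5767 (.cut .d (-512) (.pos 87 .mp ⟨⟨40658473, 0, 0, 0, 0, 10568934, 0, 0, 0, ⟨0, 0⟩, 0⟩, 0, 0⟩ 0 0) (.cut .v 16779264 (.cut .l 2883 (.cut .v 16778240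 (.cut .s 10608640 (.cut .s 10596352 (.pos 94 .mp ⟨⟨40255502, 0, 0, 0, 0, 9600373, 0, 0, 0, ⟨0, 0⟩, 0⟩, 0, 0⟩ 0 0) (.pos 94 .mp ⟨⟨40609096, 0, 0, 0, 0, 9680412, 0, 0, 0, ⟨0, 0⟩, 0⟩, 0, 0⟩ 0 0)) (.cut .s 10620928 (.pos 94 .mp ⟨⟨40966391, 0, 0, 0, 0, 9761147, 0, 0, 0, ⟨0, 0⟩, 0⟩, 0, 0⟩ 0 0) (.pos 94 .mp ⟨⟨41327482, 0, 0, 0, 0, 9842440, 0, 0, 0, ⟨0, 0⟩, 0⟩, 0, 0⟩ 0 0))) (.pos 95 .mp ⟨⟨47935001, 0, 0, 0, 0, 0, 0, 0, 0, ⟨0, 0⟩, 0⟩, 0, 0⟩ 0 0)) (.pos 92 .mp ⟨⟨40637629, 0, 0, 0, 0, 8604866, 0, 0, 0, ⟨0, 0⟩, 0⟩, 0, 0⟩ 0 0)) (.pos 93 .mp ⟨⟨47409269, 0, 0, 0, 0, 0, 0, 0, 0, ⟨0, 0⟩, 0⟩, 0, 0⟩ 0 0))) (.pos 87 .mp ⟨⟨40656394, 0, 0, 0, 0, 8584610,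 0, 0, 0, ⟨0, 0⟩, 0⟩, 0, 0⟩ 0 0))) (.pos 87 .mp ⟨⟨40671773, 0, 0, 0, 0, 8572812, 0, 0, 0, ⟨0, 0⟩, 0⟩, 0, 0⟩ 0 0)) (.pos 88 .mp ⟨⟨46890467, 0, 0, 0, 0, 539043, 0, 0, 0, ⟨0, 0⟩, 0⟩, 0, 0⟩ 0 0))) (.pos 85 .mp ⟨⟨40724746, 0, 0, 0, 0, 8521091, 0, 0, 0, ⟨0, 0⟩, 0⟩, 0, 0⟩ 0 0)) (.pos 86 .mp ⟨⟨47225359, 0, 0, 0, 0, 0, 0, 0, 0, ⟨0, 0⟩, 0⟩, 0, 0⟩ 0 0))) (.pos 83 .mp ⟨⟨40830801, 0, 0, 0, 0, 8417493, 0, 0, 0, ⟨0, 0⟩, 0⟩, 0, 0⟩ 0 0)) (.pos 84 .mp ⟨⟨47254332, 0, 0, 0, 0, 0, 0, 0, 0, ⟨0, 0⟩, 0⟩, 0, 0⟩ 0 0))) (.pos 49 .mp ⟨⟨41043430, 0, 0, 0, 0, 8209822, 0, 0, 0, ⟨0, 0⟩, 0⟩, 0, 0⟩ 0 0)) (.pos 50 .mp ⟨⟨47312129, 0, 0, 0, 0, 0, 0, 0, 0, ⟨0, 0⟩, 0⟩,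 0, 0⟩ 0 0))) (.cut .s 10608640 (.pos 45 .mp ⟨⟨40710995, 0, 0, 0, 0, 8636392, 0, 0, 0, ⟨0, 0⟩, 0⟩, 0, 0⟩ 0 0) (.pos 45 .mp ⟨⟨39614025, 0, 0, 0, 0, 11868366, 0, 0, 0, ⟨0, 0⟩, 0⟩, 0, 0⟩ 0 0))) (.pos 46 .mp ⟨⟨47427679, 0, 0, 0, 0, 0, 0, 0, 0, ⟨0, 0⟩, 0⟩, 0, 0⟩ 0 0)) (.cut .s 10657792 (.cut .v 16842752 (.cut .l 184549 (.cut .d (-16384) (.pos 45 .mp ⟨⟨40909479, 0, 0, 0, 0, 13000861, 0, 0, 0, ⟨0, 0⟩, 0⟩, 0, 0⟩ 0 0) (.cut .s 10645504 (.pos 45 .mp ⟨⟨41920453, 0, 0, 0, 0, 9631179, 0, 0, 0, ⟨0, 0⟩, 0⟩, 0, 0⟩ 0 0) (.pos 45 .mp ⟨⟨42307704, 0, 0, 0, 0, 9685713, 0, 0, 0, ⟨0, 0⟩, 0⟩, 0, 0⟩ 0 0))) (.pos 45 .mp ⟨⟨40349264, 0, 0, 0, 0, 12042126,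 0, 0, 0, ⟨0, 0⟩, 0⟩, 0, 0⟩ 0 0)) (.pos 46 .mp ⟨⟨45388994, 0, 0, 0, 0, 5220077, 0, 0, 0, ⟨0, 0⟩, 0⟩, 0, 0⟩ 0 0)) (.cut .v 16842752 (.cut .l 184549 (.cut .d (-16384) (.pos 45 .mp ⟨⟨41669720, 0, 0, 0, 0, 13170645, 0, 0, 0, ⟨0, 0⟩, 0⟩, 0, 0⟩ 0 0) (.cut .s 10670080 (.pos 45 .mp ⟨⟨42698230, 0, 0, 0, 0, 9741579, 0, 0, 0, ⟨0, 0⟩, 0⟩, 0, 0⟩ 0 0) (.pos 45 .mp ⟨⟨43092047, 0, 0, 0, 0, 9798758, 0, 0, 0, ⟨0, 0⟩, 0⟩, 0, 0⟩ 0 0))) (.pos 45 .mp ⟨⟨41096946, 0, 0, 0, 0, 12220578, 0, 0, 0, ⟨0, 0⟩, 0⟩, 0, 0⟩ 0 0)) (.pos 46 .mp ⟨⟨46188706, 0, 0, 0, 0, 5306204, 0, 0, 0, ⟨0, 0⟩, 0⟩, 0, 0⟩ 0 0))))) (.pos 36 .mp ⟨⟨49789547, 0, 0, 0, 0, 0, 0, 0, 0, ⟨0, 0⟩,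 0⟩, 0, 0⟩ 0 0))) (.cut .s 10780672 (.cut .v 16908288 (.cut .d (-32768) (.cut .d (-49152) (.void 35 ⟨⟨0, 0, 0, 0, 0, 100000, 0, 0, 0, ⟨0, 0⟩, 0⟩, 0, 0⟩ 0 0) (.cut .l 184549 (.void 35 ⟨⟨0, 0, 0, 0, 0, 100000, 0, 0, 0, ⟨0, 0⟩, 0⟩, 0, 0⟩ 0 0) (.cut .v 16842752 (.pos 45 .mp ⟨⟨0, 0, 0, 0, 0, 86308871, 0, 0, 0, ⟨0, 0⟩, 0⟩, 0, 0⟩ 0 0) (.cut .l 276824 (.pos 46 .mp ⟨⟨47752052, 0, 0, 0, 0, 9098536, 0, 0, 0, ⟨0, 0⟩, 0⟩, 0, 0⟩ 0 0) (.cut .s 10731520 (.pos 46 .mp ⟨⟨45693323, 0, 0, 0, 0, 8341490, 0, 0, 0, ⟨0, 0⟩, 0⟩, 0, 0⟩ 0 0) (.pos 46 .mp ⟨⟨47401229, 0, 0, 0, 0, 8547695, 0, 0, 0, ⟨0, 0⟩, 0⟩, 0, 0⟩ 0 0)))))) (.cut .s 10731520 (.cut .s 10706944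 (.cut .v 16842752 (.cut .l 184549 (.cut .d (-16384) (.pos 45 .mp ⟨⟨42442840, 0, 0, 0, 0, 13347968, 0, 0, 0, ⟨0, 0⟩, 0⟩, 0, 0⟩ 0 0) (.cut .s 10694656 (.pos 45 .mp ⟨⟨43489174, 0, 0, 0, 0, 9857229, 0, 0, 0, ⟨0, 0⟩, 0⟩, 0, 0⟩ 0 0) (.pos 45 .mp ⟨⟨43889628, 0, 0, 0, 0, 9916972, 0, 0, 0, ⟨0, 0⟩, 0⟩, 0, 0⟩ 0 0))) (.pos 45 .mp ⟨⟨41857204, 0, 0, 0, 0, 12403276, 0, 0, 0, ⟨0, 0⟩, 0⟩, 0, 0⟩ 0 0)) (.pos 46 .mp ⟨⟨47009608, 0, 0, 0, 0, 5385518, 0, 0, 0, ⟨0, 0⟩, 0⟩, 0, 0⟩ 0 0)) (.cut .v 16842752 (.cut .l 184549 (.cut .d (-16384) (.pos 45 .mp ⟨⟨43228977, 0, 0, 0, 0, 13532935, 0, 0, 0, ⟨0, 0⟩, 0⟩, 0, 0⟩ 0 0) (.cut .s 10719232 (.pos 45 .mp ⟨⟨44293427,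 0, 0, 0, 0, 9977968, 0, 0, 0, ⟨0, 0⟩, 0⟩, 0, 0⟩ 0 0) (.pos 45 .mp ⟨⟨44700589, 0, 0, 0, 0, 10040195, 0, 0, 0, ⟨0, 0⟩, 0⟩, 0, 0⟩ 0 0))) (.pos 45 .mp ⟨⟨42630173, 0, 0, 0, 0, 12589766, 0, 0, 0, ⟨0, 0⟩, 0⟩, 0, 0⟩ 0 0)) (.pos 46 .mp ⟨⟨47853185, 0, 0, 0, 0, 5455771, 0, 0, 0, ⟨0, 0⟩, 0⟩, 0, 0⟩ 0 0))) (.cut .s 10756096 (.cut .v 16842752 (.cut .l 184549 (.cut .d (-16384) (.pos 45 .mp ⟨⟨44028272, 0, 0, 0, 0, 13725653, 0, 0, 0, ⟨0, 0⟩, 0⟩, 0, 0⟩ 0 0) (.cut .s 10743808 (.pos 45 .mp ⟨⟨45111133, 0, 0, 0, 0, 10103632, 0, 0, 0, ⟨0, 0⟩, 0⟩, 0, 0⟩ 0 0) (.pos 45 .mp ⟨⟨45525076, 0, 0, 0, 0, 10168258, 0, 0, 0, ⟨0, 0⟩, 0⟩, 0, 0⟩ 0 0))) (.pos 45 .mp ⟨⟨43415990,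 0, 0, 0, 0, 12779596, 0, 0, 0, ⟨0, 0⟩, 0⟩, 0, 0⟩ 0 0)) (.pos 46 .mp ⟨⟨48720934, 0, 0, 0, 0, 5514679, 0, 0, 0, ⟨0, 0⟩, 0⟩, 0, 0⟩ 0 0)) (.cut .v 16842752 (.cut .l 184549 (.cut .d (-16384) (.pos 45 .mp ⟨⟨44840867, 0, 0, 0, 0, 13926229, 0, 0, 0, ⟨0, 0⟩, 0⟩, 0, 0⟩ 0 0) (.cut .s 10768384 (.pos 45 .mp ⟨⟨45942438, 0, 0, 0, 0, 10234052, 0, 0, 0, ⟨0, 0⟩, 0⟩, 0, 0⟩ 0 0) (.pos 45 .mp ⟨⟨46363237, 0, 0, 0, 0, 10300991, 0, 0, 0, ⟨0, 0⟩, 0⟩, 0, 0⟩ 0 0))) (.pos 45 .mp ⟨⟨44214796, 0, 0, 0, 0, 12972306, 0, 0, 0, ⟨0, 0⟩, 0⟩, 0, 0⟩ 0 0)) (.pos 46 .mp ⟨⟨49614367, 0, 0, 0, 0, 5559926, 0, 0, 0, ⟨0, 0⟩, 0⟩, 0, 0⟩ 0 0))))) (.pos 36 .mp ⟨⟨53360451, 0, 0,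 0, 0, 0, 0, 0, 0, ⟨0, 0⟩, 0⟩, 0, 0⟩ 0 0)) (.cut .v 16908288 (.cut .d (-32768) (.cut .d (-49152) (.void 35 ⟨⟨0, 0, 0, 0, 0, 100000, 0, 0, 0, ⟨0, 0⟩, 0⟩, 0, 0⟩ 0 0) (.cut .l 184549 (.void 35 ⟨⟨0, 0, 0, 0, 0, 100000, 0, 0, 0, ⟨0, 0⟩, 0⟩, 0, 0⟩ 0 0) (.cut .v 16842752 (.pos 45 .mp ⟨⟨0, 0, 0, 0, 0, 93260274, 0, 0, 0, ⟨0, 0⟩, 0⟩, 0, 0⟩ 0 0) (.cut .d (-40960) (.pos 46 .mp ⟨⟨47171774, 0, 0, 0, 0, 17267478, 0, 0, 0, ⟨0, 0⟩, 0⟩, 0, 0⟩ 0 0) (.cut .s 10829824 (.pos 46 .mp ⟨⟨49190649, 0, 0, 0, 0, 8741784, 0, 0, 0, ⟨0, 0⟩, 0⟩, 0, 0⟩ 0 0) (.pos 46 .mp ⟨⟨51011997, 0, 0, 0, 0, 8973711, 0, 0, 0, ⟨0, 0⟩, 0⟩, 0, 0⟩ 0 0)))))) (.cut .s 10829824 (.cut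 .s 10805248 (.cut .v 16842752 (.cut .l 184549 (.cut .d (-16384) (.pos 45 .mp ⟨⟨45666909, 0, 0, 0, 0, 14134773, 0, 0, 0, ⟨0, 0⟩, 0⟩, 0, 0⟩ 0 0) (.cut .s 10792960 (.pos 45 .mp ⟨⟨46787491, 0, 0, 0, 0, 10369054, 0, 0, 0, ⟨0, 0⟩, 0⟩, 0, 0⟩ 0 0) (.pos 45 .mp ⟨⟨47215221, 0, 0, 0, 0, 10438218, 0, 0, 0, ⟨0, 0⟩, 0⟩, 0, 0⟩ 0 0))) (.pos 45 .mp ⟨⟨45026733, 0, 0, 0, 0, 13167438, 0, 0, 0, ⟨0, 0⟩, 0⟩, 0, 0⟩ 0 0)) (.pos 46 .mp ⟨⟨50535012, 0, 0, 0, 0, 5589160, 0, 0, 0, ⟨0, 0⟩, 0⟩, 0, 0⟩ 0 0)) (.cut .v 16842752 (.cut .l 184549 (.cut .d (-16384) (.pos 45 .mp ⟨⟨46506544, 0, 0, 0, 0, 14351395, 0, 0, 0, ⟨0, 0⟩, 0⟩, 0, 0⟩ 0 0) (.cut .s 10817536 (.pos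 45 .mp ⟨⟨47646445, 0, 0, 0, 0, 10508460, 0, 0, 0, ⟨0, 0⟩, 0⟩, 0, 0⟩ 0 0) (.pos 45 .mp ⟨⟨48081182, 0, 0, 0, 0, 10579757, 0, 0, 0, ⟨0, 0⟩, 0⟩, 0, 0⟩ 0 0))) (.pos 45 .mp ⟨⟨45851944, 0, 0, 0, 0, 13364526, 0, 0, 0, ⟨0, 0⟩, 0⟩, 0, 0⟩ 0 0)) (.pos 46 .mp ⟨⟨51484410, 0, 0, 0, 0, 5599990, 0, 0, 0, ⟨0, 0⟩, 0⟩, 0, 0⟩ 0 0))) (.cut .s 10854400 (.cut .v 16842752 (.cut .l 184549 (.cut .d (-16384) (.pos 45 .mp ⟨⟨47359923, 0, 0, 0, 0, 14576209, 0, 0, 0, ⟨0, 0⟩, 0⟩, 0, 0⟩ 0 0) (.cut .s 10842112 (.pos 45 .mp ⟨⟨48519452, 0, 0, 0, 0, 10652086, 0, 0, 0, ⟨0, 0⟩, 0⟩, 0, 0⟩ 0 0) (.pos 45 .mp ⟨⟨48961275, 0, 0, 0, 0, 10725423, 0, 0, 0, ⟨0, 0⟩, 0⟩, 0, 0⟩ 0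 0))) (.pos 45 .mp ⟨⟨46690576, 0, 0, 0, 0, 13563103, 0, 0, 0, ⟨0, 0⟩, 0⟩, 0, 0⟩ 0 0)) (.pos 46 .mp ⟨⟨52464120, 0, 0, 0, 0, 5589994, 0, 0, 0, ⟨0, 0⟩, 0⟩, 0, 0⟩ 0 0)) (.cut .v 16842752 (.cut .l 184549 (.cut .d (-16384) (.pos 45 .mp ⟨⟨48227199, 0, 0, 0, 0, 14809330, 0, 0, 0, ⟨0, 0⟩, 0⟩, 0, 0⟩ 0 0) (.cut .s 10866688 (.pos 45 .mp ⟨⟨49406670, 0, 0, 0, 0, 10799744, 0, 0, 0, ⟨0, 0⟩, 0⟩, 0, 0⟩ 0 0) (.pos 45 .mp ⟨⟨49855657, 0, 0, 0, 0, 10875025, 0, 0, 0, ⟨0, 0⟩, 0⟩, 0, 0⟩ 0 0))) (.pos 45 .mp ⟨⟨47542780, 0, 0, 0, 0, 13762700, 0, 0, 0, ⟨0, 0⟩, 0⟩, 0, 0⟩ 0 0)) (.pos 46 .mp ⟨⟨53475716, 0, 0, 0, 0, 5556708, 0, 0, 0, ⟨0, 0⟩, 0⟩, 0, 0⟩ 0 0)))))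 (.pos 36 .mp ⟨⟨57190440, 0, 0, 0, 0, 0, 0, 0, 0, ⟨0, 0⟩, 0⟩, 0, 0⟩ 0 0)))) (.pos 34 .mp ⟨⟨56857325, 0, 0, 0, 0, 0, 0, 0, 0, ⟨0, 0⟩, 0⟩, 0, 0⟩ 0 0)))))) (.void 32 ⟨⟨100000, 0, 0, 0, 0, 0, 0, 0, 0, ⟨0, 0⟩, 0⟩, 0, 0⟩ 0 0))) (.void 30 ⟨⟨100000, 0, 0, 0, 0, 0, 0, 0, 0, ⟨0, 0⟩, 0⟩, 0, 0⟩ 0 0))) (.void 28 ⟨⟨100000, 0, 0, 0, 0, 0, 0, 0, 0, ⟨0, 0⟩, 0⟩, 0, 0⟩ 0 0)))) (.void 26 ⟨⟨100000, 0, 0, 0, 0, 0, 0, 0, 0, ⟨0, 0⟩, 0⟩, 0, 0⟩ 0 0)) (.void 24 ⟨⟨100000, 0, 0, 0, 0, 0, 0, 0, 0, ⟨0, 0⟩, 0⟩, 0, 0⟩ 0 0)) (.void 91 ⟨⟨100000, 0, 0, 0, 0, 0, 0, 0, 0, ⟨0, 0⟩, 0⟩, 0, 0⟩ 0 0))) (.cut .v 16777216 (.cut .d 5033166 (.cut .v 8388608 (.cut .v 4194304 (.void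 4 ⟨⟨0, 0, 66667, 0, 0, 0, 0, 0, 0, ⟨0, 0⟩, 0⟩, 0, 33333⟩ 0 0) (.pos 5 .pm ⟨⟨0, 0, 1252031, 0, 0, 0, 0, 0, 0, ⟨0, 0⟩, 0⟩, 0, 0⟩ 0 0)) (.pos 3 .pm ⟨⟨0, 0, 0, 0, 0, 0, 0, 0, 0, ⟨0, 0⟩, 0⟩, 0, 0⟩ 0 0)) (.void 1 ⟨⟨0, 0, 0, 0, 0, 0, 0, 0, 0, ⟨0, 0⟩, 0⟩, 0, 100000⟩ 0 0)) (.cut .d 5033166 (.cut .v 33554432 (.cut .v 25165824 (.cut .d 2516583 (.cut .d 1258291 (.cut .v 20971520 (.cut .d 629145 (.cut .v 18874368 (.cut .d 314572 (.cut .v 17825792 (.cut .d 157286 (.cut .v 17301504 (.cut .d 78643 (.cut .d 39321 (.cut .s 10682368 (.cut .s 10584064 (.pos 31 .pp ⟨⟨42378999, 0, 0, 0, 0, 0, 0, 0, 0, ⟨0, 0⟩, 0⟩, 0, 2294⟩ 0 0) (.pos 31 .pp ⟨⟨45392738,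 0, 0, 0, 0, 0, 0, 0, 0, ⟨0, 0⟩, 0⟩, 31136, 0⟩ 0 0)) (.cut .s 10780672 (.pos 31 .pp ⟨⟨48204528, 0, 0, 0, 0, 0, 0, 0, 0, ⟨0, 0⟩, 0⟩, 146762, 0⟩ 0 0) (.pos 31 .pp ⟨⟨51432417, 0, 0, 0, 0, 0, 0, 0, 0, ⟨0, 0⟩, 0⟩, 225369, 0⟩ 0 0))) (.pos 31 .pp ⟨⟨43287707, 0, 0, 0, 0, 0, 0, 0, 0, ⟨0, 0⟩, 0⟩, 0, 0⟩ 0 0)) (.pos 31 .pp ⟨⟨36596773, 0, 0, 0, 0, 0, 0, 0, 0, ⟨0, 0⟩, 0⟩, 0, 123096⟩ 0 0)) (.cut .s 10682368 (.pos 32 .pp ⟨⟨49010569, 0, 0, 0, 0, 0, 0, 0, 0, ⟨0, 0⟩, 0⟩, 0, 0⟩ 0 0) (.pos 32 .pp ⟨⟨56148439, 0, 0, 0, 0, 0, 0, 0, 0, ⟨0, 0⟩, 0⟩, 0, 0⟩ 0 0))) (.pos 29 .pp ⟨⟨35807303, 0, 0, 0, 0, 0, 0, 0, 0, ⟨0, 0⟩, 0⟩, 0, 192740⟩ 0 0)) (.cut .d 157286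 (.pos 30 .pp ⟨⟨64221639, 0, 0, 0, 0, 0, 0, 0, 0, ⟨0, 0⟩, 0⟩, 0, 0⟩ 0 0) (.cut .v 18350080 (.pos 59 .pp ⟨⟨49305010, 0, 0, 0, 0, 0, 0, 0, 0, ⟨0, 0⟩, 0⟩, 0, 0⟩ 0 0) (.pos 60 .pp ⟨⟨57526728, 0, 0, 0, 0, 0, 0, 0, 0, ⟨0, 0⟩, 0⟩, 0, 0⟩ 0 0)))) (.pos 27 .pp ⟨⟨36380518, 0, 0, 0, 0, 0, 0, 0, 0, ⟨0, 0⟩, 0⟩, 0, 233439⟩ 0 0)) (.cut .d 314572 (.pos 28 .pp ⟨⟨80909689, 0, 0, 0, 0, 0, 0, 0, 0, ⟨0, 0⟩, 0⟩, 0, 0⟩ 0 0) (.cut .v 19922944 (.pos 53 .pp ⟨⟨54251563, 0, 0, 0, 0, 0, 0, 0, 0, ⟨0, 0⟩, 0⟩, 0, 0⟩ 0 0) (.cut .d 471858 (.pos 54 .pp ⟨⟨75332894, 0, 0, 0, 0, 0, 0, 0, 0, ⟨0, 0⟩, 0⟩, 0, 0⟩ 0 0) (.pos 54 .pp ⟨⟨60398471, 0, 0, 0, 0, 0, 0, 0, 0, ⟨0, 0⟩,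 0⟩, 0, 0⟩ 0 0))))) (.pos 25 .pp ⟨⟨0, 0, 0, 0, 0, 0, 0, 0, 0, ⟨0, 0⟩, 0⟩, 0, 914076⟩ 0 0)) (.cut .d 629145 (.cut .v 23068672 (.cut .v 22020096 (.cut .d 314572 (.void 57 ⟨⟨0, 0, 0, 0, 0, 0, 0, 0, 0, ⟨0, 0⟩, 0⟩, 100000, 0⟩ 0 0) (.pos 57 .pp ⟨⟨84049632, 0, 0, 0, 0, 0, 0, 0, 0, ⟨0, 0⟩, 0⟩, 0, 0⟩ 0 0)) (.pos 58 .pp ⟨⟨100993230, 0, 0, 0, 0, 0, 0, 0, 0, ⟨0, 0⟩, 0⟩, 0, 0⟩ 0 0)) (.void 56 ⟨⟨0, 0, 0, 0, 0, 0, 0, 0, 0, ⟨0, 0⟩, 0⟩, 100000, 0⟩ 0 0)) (.cut .v 23068672 (.cut .d 943718 (.cut .v 22020096 (.pos 57 .pp ⟨⟨60751821, 0, 0, 0, 0, 0, 232604, 0, 0, ⟨0, 0⟩, 0⟩, 0, 0⟩ 0 0) (.cut .d 786431 (.cut .d 707788 (.pos 58 .pp ⟨⟨89272651, 0, 0, 0,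 0, 0, 0, 0, 0, ⟨0, 0⟩, 0⟩, 0, 0⟩ 0 0) (.pos 58 .pp ⟨⟨79475634, 0, 0, 0, 0, 0, 0, 0, 0, ⟨0, 0⟩, 0⟩, 0, 0⟩ 0 0)) (.pos 58 .pp ⟨⟨67765890, 0, 0, 0, 0, 0, 137459, 0, 0, ⟨0, 0⟩, 0⟩, 0, 0⟩ 0 0))) (.pos 55 .pp ⟨⟨0, 0, 0, 0, 0, 0, 0, 0, 0, ⟨0, 0⟩, 0⟩, 0, 952564⟩ 0 0)) (.cut .d 943718 (.cut .v 24117248 (.cut .d 786431 (.cut .v 23592960 (.pos 63 .pp ⟨⟨96387626, 0, 0, 0, 0, 0, 0, 0, 0, ⟨0, 0⟩, 0⟩, 0, 0⟩ 0 0) (.pos 64 .pp ⟨⟨54910867, 0, 0, 0, 0, 0, 0, 0, 0, ⟨0, 0⟩, 0⟩, 7035417, 0⟩ 0 0)) (.cut .v 23592960 (.cut .s 10682368 (.pos 63 .pp ⟨⟨76160473, 0, 0, 0, 0, 0, 0, 0, 0, ⟨0, 0⟩, 0⟩, 0, 0⟩ 0 0) (.pos 63 .pp ⟨⟨83634640, 0, 0, 0, 0, 0, 0, 0, 0,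 ⟨0, 0⟩, 0⟩, 0, 0⟩ 0 0)) (.cut .s 10682368 (.cut .d 865074 (.pos 64 .pp ⟨⟨73452721, 0, 0, 0, 0, 0, 0, 0, 0, ⟨0, 0⟩, 0⟩, 2220987, 0⟩ 0 0) (.pos 64 .pp ⟨⟨25443421, 0, 0, 0, 0, 0, 0, 0, 0, ⟨0, 0⟩, 0⟩, 7266981, 0⟩ 0 0)) (.pos 64 .pp ⟨⟨27294139, 0, 0, 0, 0, 0, 0, 0, 0, ⟨0, 0⟩, 0⟩, 8787949, 0⟩ 0 0)))) (.pos 62 .pp ⟨⟨0, 0, 0, 0, 0, 0, 0, 0, 0, ⟨0, 0⟩, 0⟩, 14788307, 0⟩ 0 0)) (.pos 56 .pp ⟨⟨0, 0, 0, 0, 0, 0, 14145, 0, 0, ⟨0, 0⟩, 0⟩, 9525726, 0⟩ 0 0))))) (.pos 23 .pp ⟨⟨0, 0, 0, 0, 0, 0, 2412780, 0, 0, ⟨0, 0⟩, 0⟩, 0, 0⟩ 0 0)) (.pos 23 .pp ⟨⟨0, 0, 0, 0, 0, 0, 0, 0, 0, ⟨0, 0⟩, 0⟩, 0, 12468366⟩ 0 0)) (.cut .d 2516583 (.cut .d 1258291 (.cut .v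 29360128 (.cut .d 629145 (.void 75 ⟨⟨0, 0, 0, 0, 0, 0, 0, 0, 0, ⟨0, 0⟩, 0⟩, 100000, 0⟩ 0 0) (.cut .d 943718 (.void 75 ⟨⟨0, 0, 0, 0, 0, 0, 0, 0, 0, ⟨0, 0⟩, 0⟩, 100000, 0⟩ 0 0) (.pos 75 .pp ⟨⟨0, 0, 0, 0, 0, 0, 0, 0, 0, ⟨0, 0⟩, 0⟩, 14081065, 0⟩ 0 0))) (.void 76 ⟨⟨0, 0, 0, 0, 0, 0, 0, 0, 0, ⟨0, 0⟩, 0⟩, 100000, 0⟩ 0 0)) (.cut .v 29360128 (.pos 75 .pp ⟨⟨0, 0, 0, 0, 0, 0, 0, 0, 0, ⟨0, 0⟩, 0⟩, 10047022, 0⟩ 0 0) (.pos 76 .pp ⟨⟨0, 0, 0, 0, 0, 0, 0, 0, 0, ⟨0, 0⟩, 0⟩, 16186192, 0⟩ 0 0))) (.pos 24 .pp ⟨⟨0, 0, 0, 0, 0, 0, 2418495, 0, 0, ⟨0, 0⟩, 0⟩, 2379730, 0⟩ 0 0))) (.cut .d 2516583 (.pos 91 .pp ⟨⟨0, 0, 0, 0, 0, 0, 0, 0, 0, ⟨0, 0⟩, 0⟩, 48673372,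 0⟩ 0 0) (.pos 91 .pp ⟨⟨0, 0, 0, 0, 0, 0, 78916258, 0, 0, ⟨0, 0⟩, 0⟩, 11967297, 0⟩ 0 0))) (.void 90 ⟨⟨0, 51465, 0, 0, 0, 0, 5525, 0, 0, ⟨0, 0⟩, 0⟩, 0, 43009⟩ 0 0)))),
    by decide +kernel⟩

theorem covers15 : cell.Covers Vale.Agent.P237.Petty.Cor.Grid.N10.table row15.1 :=
  ⟨(.cut .d 0 (.cut .v 16777216 (.cut .d (-8388608) (.void 1 ⟨⟨0, 0, 0, 0, 0, 100000, 0, 0, 0, ⟨0, 0⟩, 0⟩, 0, 0⟩ 0 0) (.cut .d (-4194304) (.void 1 ⟨⟨0, 0, 0, 0, 0, 100000, 0, 0, 0, ⟨0, 0⟩, 0⟩, 0, 0⟩ 0 0) (.cut .d (-2097152) (.void 1 ⟨⟨0, 0, 0, 0, 0, 100000, 0, 0, 0, ⟨0, 0⟩, 0⟩, 0, 0⟩ 0 0) (.cut .d (-1048576) (.void 1 ⟨⟨0, 0, 0, 0, 0, 100000, 0, 0, 0, ⟨0, 0⟩, 0⟩,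 0, 0⟩ 0 0) (.cut .d (-524288) (.void 1 ⟨⟨0, 0, 0, 0, 0, 100000, 0, 0, 0, ⟨0, 0⟩, 0⟩, 0, 0⟩ 0 0) (.cut .d (-262144) (.void 1 ⟨⟨0, 0, 0, 0, 0, 100000, 0, 0, 0, ⟨0, 0⟩, 0⟩, 0, 0⟩ 0 0) (.cut .d (-131072) (.void 1 ⟨⟨0, 0, 0, 0, 0, 100000, 0, 0, 0, ⟨0, 0⟩, 0⟩, 0, 0⟩ 0 0) (.cut .d (-65536) (.void 1 ⟨⟨0, 0, 0, 0, 0, 100000, 0, 0, 0, ⟨0, 0⟩, 0⟩, 0, 0⟩ 0 0) (.cut .v 8388608 (.cut .v 4194304 (.void 4 ⟨⟨0, 0, 100000, 0, 0, 0, 0, 0, 0, ⟨0, 0⟩, 0⟩, 0, 0⟩ 0 0) (.pos 5 .mm ⟨⟨0, 0, 2068882, 0, 0, 22488258, 0, 0, 0, ⟨0, 0⟩, 0⟩, 0, 0⟩ 0 0)) (.cut .s 11108352 (.pos 3 .mm ⟨⟨0, 0, 0, 0, 0, 94277201, 0, 0, 0, ⟨0, 0⟩, 0⟩, 0, 0⟩ 0 0) (.pos 3 .mm ⟨⟨0, 0,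 0, 0, 0, 112534460, 0, 0, 0, ⟨0, 0⟩, 0⟩, 0, 0⟩ 0 0))))))))))) (.cut .v 33554432 (.cut .v 25165824 (.cut .d (-8388608) (.void 23 ⟨⟨0, 0, 0, 0, 0, 100000, 0, 0, 0, ⟨0, 0⟩, 0⟩, 0, 0⟩ 0 0) (.cut .v 20971520 (.cut .d (-4194304) (.void 25 ⟨⟨100000, 0, 0, 0, 0, 0, 0, 0, 0, ⟨0, 0⟩, 0⟩, 0, 0⟩ 0 0) (.cut .v 18874368 (.cut .d (-2097152) (.void 27 ⟨⟨100000, 0, 0, 0, 0, 0, 0, 0, 0, ⟨0, 0⟩, 0⟩, 0, 0⟩ 0 0) (.cut .v 17825792 (.cut .d (-1048576) (.void 29 ⟨⟨100000, 0, 0, 0, 0, 0, 0, 0, 0, ⟨0, 0⟩, 0⟩, 0, 0⟩ 0 0) (.cut .v 17301504 (.cut .d (-524288) (.void 31 ⟨⟨100000, 0, 0, 0, 0, 0, 0, 0, 0, ⟨0, 0⟩, 0⟩, 0, 0⟩ 0 0) (.cut .d (-262144) (.void 31 ⟨⟨100000,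 0, 0, 0, 0, 0, 0, 0, 0, ⟨0, 0⟩, 0⟩, 0, 0⟩ 0 0) (.cut .d (-131072) (.void 31 ⟨⟨100000, 0, 0, 0, 0, 0, 0, 0, 0, ⟨0, 0⟩, 0⟩, 0, 0⟩ 0 0) (.cut .d (-65536) (.void 31 ⟨⟨0, 0, 0, 0, 0, 100000, 0, 0, 0, ⟨0, 0⟩, 0⟩, 0, 0⟩ 0 0) (.cut .v 17039360 (.cut .s 11108352 (.cut .s 10993664 (.cut .v 16908288 (.cut .d (-32768) (.cut .d (-49152) (.void 35 ⟨⟨0, 0, 0, 0, 0, 100000, 0, 0, 0, ⟨0, 0⟩, 0⟩, 0, 0⟩ 0 0) (.cut .v 16842752 (.pos 45 .mp ⟨⟨0, 0, 0, 0, 0, 104088646, 0, 0, 0, ⟨0, 0⟩, 0⟩, 0, 0⟩ 0 0) (.cut .d (-40960) (.pos 46 .mp ⟨⟨52181474, 0, 0, 0, 0, 16914159, 0, 0, 0, ⟨0, 0⟩, 0⟩, 0, 0⟩ 0 0) (.cut .v 16875520 (.cut .l 184549 (.void 96 ⟨⟨100000,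 0, 0, 0, 0, 0, 0, 0, 0, ⟨0, 0⟩, 0⟩, 0, 0⟩ 0 0) (.cut .l 276824 (.void 96 ⟨⟨0, 0, 0, 0, 0, 100000, 0, 0, 0, ⟨0, 0⟩, 0⟩, 0, 0⟩ 0 0) (.cut .s 10936320 (.pos 96 .mp ⟨⟨52605711, 0, 0, 0, 0, 9407140, 0, 0, 0, ⟨0, 0⟩, 0⟩, 0, 0⟩ 0 0) (.pos 96 .mp ⟨⟨54877011, 0, 0, 0, 0, 9728064, 0, 0, 0, ⟨0, 0⟩, 0⟩, 0, 0⟩ 0 0)))) (.pos 97 .mp ⟨⟨61528581, 0, 0, 0, 0, 0, 0, 0, 0, ⟨0, 0⟩, 0⟩, 0, 0⟩ 0 0))))) (.cut .s 10936320 (.cut .s 10907648 (.cut .v 16842752 (.cut .l 184549 (.cut .d (-16384) (.pos 45 .mp ⟨⟨49110985, 0, 0, 0, 0, 15295461, 0, 0, 0, ⟨0, 0⟩, 0⟩, 0, 0⟩ 0 0) (.cut .v 16809984 (.cut .s 10893312 (.pos 49 .mp ⟨⟨49468109, 0, 0, 0, 0, 12414791, 0,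 0, 0, ⟨0, 0⟩, 0⟩, 0, 0⟩ 0 0) (.cut .s 10900480 (.pos 49 .mp ⟨⟨50811973, 0, 0, 0, 0, 10955863, 0, 0, 0, ⟨0, 0⟩, 0⟩, 0, 0⟩ 0 0) (.pos 49 .mp ⟨⟨51067561, 0, 0, 0, 0, 11008697, 0, 0, 0, ⟨0, 0⟩, 0⟩, 0, 0⟩ 0 0))) (.pos 50 .mp ⟨⟨55385595, 0, 0, 0, 0, 3979432, 0, 0, 0, ⟨0, 0⟩, 0⟩, 0, 0⟩ 0 0))) (.pos 45 .mp ⟨⟨48410980, 0, 0, 0, 0, 14127588, 0, 0, 0, ⟨0, 0⟩, 0⟩, 0, 0⟩ 0 0)) (.pos 46 .mp ⟨⟨54935881, 0, 0, 0, 0, 4988973, 0, 0, 0, ⟨0, 0⟩, 0⟩, 0, 0⟩ 0 0)) (.cut .v 16842752 (.cut .l 184549 (.cut .d (-16384) (.pos 45 .mp ⟨⟨50157641, 0, 0, 0, 0, 15530473, 0, 0, 0, ⟨0, 0⟩, 0⟩, 0, 0⟩ 0 0) (.cut .v 16809984 (.cut .l 92274 (.cut .d (-8192) (.pos 49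 .mp ⟨⟨49964882, 0, 0, 0, 0, 15623621, 0, 0, 0, ⟨0, 0⟩, 0⟩, 0, 0⟩ 0 0) (.cut .s 10921984 (.pos 49 .mp ⟨⟨50856489, 0, 0, 0, 0, 11922248, 0, 0, 0, ⟨0, 0⟩, 0⟩, 0, 0⟩ 0 0) (.pos 49 .mp ⟨⟨51406367, 0, 0, 0, 0, 11983474, 0, 0, 0, ⟨0, 0⟩, 0⟩, 0, 0⟩ 0 0))) (.pos 49 .mp ⟨⟨49606238, 0, 0, 0, 0, 13719887, 0, 0, 0, ⟨0, 0⟩, 0⟩, 0, 0⟩ 0 0)) (.pos 50 .mp ⟨⟨56527740, 0, 0, 0, 0, 4016980, 0, 0, 0, ⟨0, 0⟩, 0⟩, 0, 0⟩ 0 0))) (.pos 45 .mp ⟨⟨49439268, 0, 0, 0, 0, 14372669, 0, 0, 0, ⟨0, 0⟩, 0⟩, 0, 0⟩ 0 0)) (.pos 46 .mp ⟨⟨56071110, 0, 0, 0, 0, 5045270, 0, 0, 0, ⟨0, 0⟩, 0⟩, 0, 0⟩ 0 0))) (.cut .s 10964992 (.cut .v 16842752 (.cut .l 184549 (.cut .d (-16384)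 (.pos 45 .mp ⟨⟨51225894, 0, 0, 0, 0, 15779739, 0, 0, 0, ⟨0, 0⟩, 0⟩, 0, 0⟩ 0 0) (.cut .v 16809984 (.cut .l 92274 (.cut .d (-8192) (.pos 49 .mp ⟨⟨51027318, 0, 0, 0, 0, 15878185, 0, 0, 0, ⟨0, 0⟩, 0⟩, 0, 0⟩ 0 0) (.cut .s 10950656 (.pos 49 .mp ⟨⟨51958695, 0, 0, 0, 0, 12053686, 0, 0, 0, ⟨0, 0⟩, 0⟩, 0, 0⟩ 0 0) (.pos 49 .mp ⟨⟨52507456, 0, 0, 0, 0, 12144250, 0, 0, 0, ⟨0, 0⟩, 0⟩, 0, 0⟩ 0 0))) (.pos 49 .mp ⟨⟨50659212, 0, 0, 0, 0, 13965879, 0, 0, 0, ⟨0, 0⟩, 0⟩, 0, 0⟩ 0 0)) (.pos 50 .mp ⟨⟨57690980, 0, 0, 0, 0, 4068751, 0, 0, 0, ⟨0, 0⟩, 0⟩, 0, 0⟩ 0 0))) (.pos 45 .mp ⟨⟨50488572, 0, 0, 0, 0, 14632634, 0, 0, 0, ⟨0, 0⟩, 0⟩, 0, 0⟩ 0 0)) (.pos 46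 .mp ⟨⟨57227109, 0, 0, 0, 0, 5116531, 0, 0, 0, ⟨0, 0⟩, 0⟩, 0, 0⟩ 0 0)) (.cut .v 16842752 (.cut .l 184549 (.cut .d (-16384) (.pos 45 .mp ⟨⟨52316029, 0, 0, 0, 0, 16043497, 0, 0, 0, ⟨0, 0⟩, 0⟩, 0, 0⟩ 0 0) (.cut .v 16809984 (.cut .l 92274 (.cut .d (-8192) (.pos 49 .mp ⟨⟨52111454, 0, 0, 0, 0, 16147459, 0, 0, 0, ⟨0, 0⟩, 0⟩, 0, 0⟩ 0 0) (.cut .s 10979328 (.pos 49 .mp ⟨⟨53061761, 0, 0, 0, 0, 12238056, 0, 0, 0, ⟨0, 0⟩, 0⟩, 0, 0⟩ 0 0) (.pos 49 .mp ⟨⟨53621648, 0, 0, 0, 0, 12335064, 0, 0, 0, ⟨0, 0⟩, 0⟩, 0, 0⟩ 0 0))) (.pos 49 .mp ⟨⟨51733591, 0, 0, 0, 0, 14225355, 0, 0, 0, ⟨0, 0⟩, 0⟩, 0, 0⟩ 0 0)) (.pos 50 .mp ⟨⟨58878496, 0, 0, 0, 0, 4129984, 0,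 0, 0, ⟨0, 0⟩, 0⟩, 0, 0⟩ 0 0))) (.cut .s 10979328 (.pos 45 .mp ⟨⟨51559171, 0, 0, 0, 0, 14519584, 0, 0, 0, ⟨0, 0⟩, 0⟩, 0, 0⟩ 0 0) (.pos 45 .mp ⟨⟨52102543, 0, 0, 0, 0, 14654910, 0, 0, 0, ⟨0, 0⟩, 0⟩, 0, 0⟩ 0 0))) (.pos 46 .mp ⟨⟨58407068, 0, 0, 0, 0, 5197988, 0, 0, 0, ⟨0, 0⟩, 0⟩, 0, 0⟩ 0 0))))) (.cut .s 10936320 (.pos 36 .mp ⟨⟨60525231, 0, 0, 0, 0, 0, 0, 0, 0, ⟨0, 0⟩, 0⟩, 0, 0⟩ 0 0) (.pos 36 .mp ⟨⟨62994410, 0, 0, 0, 0, 0, 0, 0, 0, ⟨0, 0⟩, 0⟩, 0, 0⟩ 0 0))) (.cut .v 16908288 (.cut .d (-32768) (.cut .d (-49152) (.void 35 ⟨⟨0, 0, 0, 0, 0, 100000, 0, 0, 0, ⟨0, 0⟩, 0⟩, 0, 0⟩ 0 0) (.cut .d (-40960) (.pos 35 .mp ⟨⟨54245149, 0, 0, 0, 0, 46186549,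 0, 0, 0, ⟨0, 0⟩, 0⟩, 0, 0⟩ 0 0) (.cut .v 16842752 (.pos 45 .mp ⟨⟨0, 0, 0, 0, 0, 113864830, 0, 0, 0, ⟨0, 0⟩, 0⟩, 0, 0⟩ 0 0) (.cut .v 16875520 (.cut .l 184549 (.void 96 ⟨⟨100000, 0, 0, 0, 0, 0, 0, 0, 0, ⟨0, 0⟩, 0⟩, 0, 0⟩ 0 0) (.cut .l 276824 (.void 96 ⟨⟨100000, 0, 0, 0, 0, 0, 0, 0, 0, ⟨0, 0⟩, 0⟩, 0, 0⟩ 0 0) (.cut .s 11051008 (.pos 96 .mp ⟨⟨57242009, 0, 0, 0, 0, 10088692, 0, 0, 0, ⟨0, 0⟩, 0⟩, 0, 0⟩ 0 0) (.pos 96 .mp ⟨⟨56406871, 0, 0, 0, 0, 16664980, 0, 0, 0, ⟨0, 0⟩, 0⟩, 0, 0⟩ 0 0)))) (.pos 97 .mp ⟨⟨66783730, 0, 0, 0, 0, 0, 0, 0, 0, ⟨0, 0⟩, 0⟩, 0, 0⟩ 0 0))))) (.cut .s 11051008 (.cut .s 11022336 (.cut .v 16842752 (.cut .l 184549 (.cut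 .d (-16384) (.pos 45 .mp ⟨⟨53428336, 0, 0, 0, 0, 16321992, 0, 0, 0, ⟨0, 0⟩, 0⟩, 0, 0⟩ 0 0) (.cut .v 16809984 (.cut .l 92274 (.cut .d (-8192) (.pos 49 .mp ⟨⟨53217577, 0, 0, 0, 0, 16431690, 0, 0, 0, ⟨0, 0⟩, 0⟩, 0, 0⟩ 0 0) (.cut .s 11008000 (.pos 49 .mp ⟨⟨54187153, 0, 0, 0, 0, 12435234, 0, 0, 0, ⟨0, 0⟩, 0⟩, 0, 0⟩ 0 0) (.pos 49 .mp ⟨⟨54758315, 0, 0, 0, 0, 12538524, 0, 0, 0, ⟨0, 0⟩, 0⟩, 0, 0⟩ 0 0))) (.pos 49 .mp ⟨⟨52829660, 0, 0, 0, 0, 14497347, 0, 0, 0, ⟨0, 0⟩, 0⟩, 0, 0⟩ 0 0)) (.pos 50 .mp ⟨⟨60093506, 0, 0, 0, 0, 4195832, 0, 0, 0, ⟨0, 0⟩, 0⟩, 0, 0⟩ 0 0))) (.cut .s 11008000 (.pos 45 .mp ⟨⟨52651345, 0, 0, 0, 0, 14793412, 0, 0, 0, ⟨0,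 0⟩, 0⟩, 0, 0⟩ 0 0) (.pos 45 .mp ⟨⟨53205613, 0, 0, 0, 0, 14934968, 0, 0, 0, ⟨0, 0⟩, 0⟩, 0, 0⟩ 0 0))) (.pos 46 .mp ⟨⟨59614216, 0, 0, 0, 0, 5284782, 0, 0, 0, ⟨0, 0⟩, 0⟩, 0, 0⟩ 0 0)) (.cut .v 16842752 (.cut .l 184549 (.cut .d (-16384) (.pos 45 .mp ⟨⟨54563110, 0, 0, 0, 0, 16615473, 0, 0, 0, ⟨0, 0⟩, 0⟩, 0, 0⟩ 0 0) (.cut .v 16809984 (.cut .l 92274 (.cut .d (-8192) (.pos 49 .mp ⟨⟨54345981, 0, 0, 0, 0, 16731131, 0, 0, 0, ⟨0, 0⟩, 0⟩, 0, 0⟩ 0 0) (.cut .s 11036672 (.pos 49 .mp ⟨⟨55335171, 0, 0, 0, 0, 12644892, 0, 0, 0, ⟨0, 0⟩, 0⟩, 0, 0⟩ 0 0) (.pos 49 .mp ⟨⟨55917760, 0, 0, 0, 0, 12754296, 0, 0, 0, ⟨0, 0⟩, 0⟩, 0, 0⟩ 0 0))) (.pos 49 .mp ⟨⟨53947708,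 0, 0, 0, 0, 14780875, 0, 0, 0, ⟨0, 0⟩, 0⟩, 0, 0⟩ 0 0)) (.pos 50 .mp ⟨⟨61339263, 0, 0, 0, 0, 4261359, 0, 0, 0, ⟨0, 0⟩, 0⟩, 0, 0⟩ 0 0))) (.cut .s 11036672 (.pos 45 .mp ⟨⟨53765384, 0, 0, 0, 0, 15079454, 0, 0, 0, ⟨0, 0⟩, 0⟩, 0, 0⟩ 0 0) (.pos 45 .mp ⟨⟨54330694, 0, 0, 0, 0, 15226747, 0, 0, 0, ⟨0, 0⟩, 0⟩, 0, 0⟩ 0 0))) (.pos 46 .mp ⟨⟨60851816, 0, 0, 0, 0, 5371968, 0, 0, 0, ⟨0, 0⟩, 0⟩, 0, 0⟩ 0 0))) (.cut .s 11079680 (.cut .v 16842752 (.cut .l 184549 (.cut .d (-16384) (.pos 45 .mp ⟨⟨55720655, 0, 0, 0, 0, 16924194, 0, 0, 0, ⟨0, 0⟩, 0⟩, 0, 0⟩ 0 0) (.cut .v 16809984 (.cut .l 92274 (.cut .d (-8192) (.pos 49 .mp ⟨⟨55496966, 0, 0, 0, 0, 17046041,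 0, 0, 0, ⟨0, 0⟩, 0⟩, 0, 0⟩ 0 0) (.cut .v 16793600 (.cut .s 11065344 (.pos 83 .mp ⟨⟨56107076, 0, 0, 0, 0, 13532930, 0, 0, 0, ⟨0, 0⟩, 0⟩, 0, 0⟩ 0 0) (.pos 83 .mp ⟨⟨56651306, 0, 0, 0, 0, 13734491, 0, 0, 0, ⟨0, 0⟩, 0⟩, 0, 0⟩ 0 0)) (.pos 84 .mp ⟨⟨62865566, 0, 0, 0, 0, 3757168, 0, 0, 0, ⟨0, 0⟩, 0⟩, 0, 0⟩ 0 0))) (.pos 49 .mp ⟨⟨55088033, 0, 0, 0, 0, 15074955, 0, 0, 0, ⟨0, 0⟩, 0⟩, 0, 0⟩ 0 0)) (.pos 50 .mp ⟨⟨62619062, 0, 0, 0, 0, 4321537, 0, 0, 0, ⟨0, 0⟩, 0⟩, 0, 0⟩ 0 0))) (.cut .s 11065344 (.pos 45 .mp ⟨⟨54901581, 0, 0, 0, 0, 15376722, 0, 0, 0, ⟨0, 0⟩, 0⟩, 0, 0⟩ 0 0) (.pos 45 .mp ⟨⟨55478083, 0, 0, 0, 0, 15529256, 0, 0, 0, ⟨0, 0⟩, 0⟩, 0,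 0⟩ 0 0))) (.pos 46 .mp ⟨⟨62123172, 0, 0, 0, 0, 5454509, 0, 0, 0, ⟨0, 0⟩, 0⟩, 0, 0⟩ 0 0)) (.cut .v 16842752 (.cut .l 184549 (.cut .d (-16384) (.pos 45 .mp ⟨⟨56901277, 0, 0, 0, 0, 17248414, 0, 0, 0, ⟨0, 0⟩, 0⟩, 0, 0⟩ 0 0) (.cut .v 16809984 (.cut .l 92274 (.cut .d (-8192) (.pos 49 .mp ⟨⟨56670837, 0, 0, 0, 0, 17376682, 0, 0, 0, ⟨0, 0⟩, 0⟩, 0, 0⟩ 0 0) (.cut .v 16793600 (.cut .s 11094016 (.pos 83 .mp ⟨⟨57207590, 0, 0, 0, 0, 13928376, 0, 0, 0, ⟨0, 0⟩, 0⟩, 0, 0⟩ 0 0) (.pos 83 .mp ⟨⟨57790127, 0, 0, 0, 0, 14090123, 0, 0, 0, ⟨0, 0⟩, 0⟩, 0, 0⟩ 0 0)) (.pos 84 .mp ⟨⟨64187070, 0, 0, 0, 0, 3795391, 0, 0, 0, ⟨0, 0⟩, 0⟩, 0, 0⟩ 0 0))) (.pos 49 .mp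 ⟨⟨56250935, 0, 0, 0, 0, 15378592, 0, 0, 0, ⟨0, 0⟩, 0⟩, 0, 0⟩ 0 0)) (.pos 50 .mp ⟨⟨63936233, 0, 0, 0, 0, 4371245, 0, 0, 0, ⟨0, 0⟩, 0⟩, 0, 0⟩ 0 0))) (.cut .s 11094016 (.pos 45 .mp ⟨⟨56060238, 0, 0, 0, 0, 15684222, 0, 0, 0, ⟨0, 0⟩, 0⟩, 0, 0⟩ 0 0) (.pos 45 .mp ⟨⟨56648084, 0, 0, 0, 0, 15841495, 0, 0, 0, ⟨0, 0⟩, 0⟩, 0, 0⟩ 0 0))) (.pos 46 .mp ⟨⟨63431624, 0, 0, 0, 0, 5527274, 0, 0, 0, ⟨0, 0⟩, 0⟩, 0, 0⟩ 0 0))))) (.cut .s 11051008 (.pos 36 .mp ⟨⟨65587323, 0, 0, 0, 0, 0, 0, 0, 0, ⟨0, 0⟩, 0⟩, 0, 0⟩ 0 0) (.pos 36 .mp ⟨⟨68299761, 0, 0, 0, 0, 0, 0, 0, 0, ⟨0, 0⟩, 0⟩, 0, 0⟩ 0 0)))) (.cut .s 11223040 (.cut .d (-32768) (.cut .v 16908288 (.cut .d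 (-49152) (.void 35 ⟨⟨0, 0, 0, 0, 0, 100000, 0, 0, 0, ⟨0, 0⟩, 0⟩, 0, 0⟩ 0 0) (.cut .d (-40960) (.void 35 ⟨⟨0, 0, 0, 0, 0, 100000, 0, 0, 0, ⟨0, 0⟩, 0⟩, 0, 0⟩ 0 0) (.cut .v 16842752 (.pos 45 .mp ⟨⟨0, 0, 0, 0, 0, 124646705, 0, 0, 0, ⟨0, 0⟩, 0⟩, 0, 0⟩ 0 0) (.cut .v 16875520 (.cut .l 184549 (.void 96 ⟨⟨100000, 0, 0, 0, 0, 0, 0, 0, 0, ⟨0, 0⟩, 0⟩, 0, 0⟩ 0 0) (.cut .l 276824 (.void 96 ⟨⟨100000, 0, 0, 0, 0, 0, 0, 0, 0, ⟨0, 0⟩, 0⟩, 0, 0⟩ 0 0) (.cut .s 11165696 (.pos 96 .mp ⟨⟨58828068, 0, 0, 0, 0, 17369495, 0, 0, 0, ⟨0, 0⟩, 0⟩, 0, 0⟩ 0 0) (.pos 96 .mp ⟨⟨61346050, 0, 0, 0, 0, 18114049, 0, 0, 0, ⟨0, 0⟩, 0⟩, 0, 0⟩ 0 0)))) (.pos 97 .mp ⟨⟨72533835,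 0, 0, 0, 0, 0, 0, 0, 0, ⟨0, 0⟩, 0⟩, 0, 0⟩ 0 0))))) (.pos 36 .mp ⟨⟨75475620, 0, 0, 0, 0, 0, 0, 0, 0, ⟨0, 0⟩, 0⟩, 0, 0⟩ 0 0)) (.cut .v 16908288 (.cut .s 11165696 (.cut .s 11137024 (.cut .v 16842752 (.cut .l 184549 (.cut .d (-16384) (.pos 45 .mp ⟨⟨58105293, 0, 0, 0, 0, 17588398, 0, 0, 0, ⟨0, 0⟩, 0⟩, 0, 0⟩ 0 0) (.cut .v 16809984 (.cut .l 92274 (.cut .d (-8192) (.pos 49 .mp ⟨⟨57867907, 0, 0, 0, 0, 17723322, 0, 0, 0, ⟨0, 0⟩, 0⟩, 0, 0⟩ 0 0) (.cut .v 16793600 (.cut .s 11122688 (.pos 83 .mp ⟨⟨58386795, 0, 0, 0, 0, 14240589, 0, 0, 0, ⟨0, 0⟩, 0⟩, 0, 0⟩ 0 0) (.pos 83 .mp ⟨⟨58992233, 0, 0, 0, 0, 14389020, 0, 0, 0, ⟨0, 0⟩, 0⟩, 0, 0⟩ 0 0)) (.pos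 84 .mp ⟨⟨65549452, 0, 0, 0, 0, 3817588, 0, 0, 0, ⟨0, 0⟩, 0⟩, 0, 0⟩ 0 0))) (.pos 49 .mp ⟨⟨57436723, 0, 0, 0, 0, 15690785, 0, 0, 0, ⟨0, 0⟩, 0⟩, 0, 0⟩ 0 0)) (.pos 50 .mp ⟨⟨65294151, 0, 0, 0, 0, 4405268, 0, 0, 0, ⟨0, 0⟩, 0⟩, 0, 0⟩ 0 0))) (.cut .s 11122688 (.pos 45 .mp ⟨⟨57241661, 0, 0, 0, 0, 16000949, 0, 0, 0, ⟨0, 0⟩, 0⟩, 0, 0⟩ 0 0) (.pos 45 .mp ⟨⟨57841007, 0, 0, 0, 0, 16162457, 0, 0, 0, ⟨0, 0⟩, 0⟩, 0, 0⟩ 0 0))) (.pos 46 .mp ⟨⟨64780558, 0, 0, 0, 0, 5585037, 0, 0, 0, ⟨0, 0⟩, 0⟩, 0, 0⟩ 0 0)) (.cut .v 16842752 (.cut .l 184549 (.cut .d (-16384) (.pos 45 .mp ⟨⟨59333022, 0, 0, 0, 0, 17944413, 0, 0, 0, ⟨0, 0⟩, 0⟩, 0, 0⟩ 0 0) (.cut .v 16809984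 (.cut .l 92274 (.cut .d (-8192) (.pos 49 .mp ⟨⟨59088495, 0, 0, 0, 0, 18086234, 0, 0, 0, ⟨0, 0⟩, 0⟩, 0, 0⟩ 0 0) (.cut .v 16793600 (.cut .s 11151360 (.pos 83 .mp ⟨⟨59606702, 0, 0, 0, 0, 14534980, 0, 0, 0, ⟨0, 0⟩, 0⟩, 0, 0⟩ 0 0) (.pos 83 .mp ⟨⟨60230464, 0, 0, 0, 0, 14678028, 0, 0, 0, ⟨0, 0⟩, 0⟩, 0, 0⟩ 0 0)) (.pos 84 .mp ⟨⟨66956122, 0, 0, 0, 0, 3818450, 0, 0, 0, ⟨0, 0⟩, 0⟩, 0, 0⟩ 0 0))) (.pos 49 .mp ⟨⟨58645711, 0, 0, 0, 0, 16010521, 0, 0, 0, ⟨0, 0⟩, 0⟩, 0, 0⟩ 0 0)) (.pos 50 .mp ⟨⟨66696229, 0, 0, 0, 0, 4418291, 0, 0, 0, ⟨0, 0⟩, 0⟩, 0, 0⟩ 0 0))) (.cut .s 11151360 (.pos 45 .mp ⟨⟨58446162, 0, 0, 0, 0, 16325892, 0, 0, 0, ⟨0, 0⟩, 0⟩, 0,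 0⟩ 0 0) (.pos 45 .mp ⟨⟨59057167, 0, 0, 0, 0, 16491125, 0, 0, 0, ⟨0, 0⟩, 0⟩, 0, 0⟩ 0 0))) (.pos 46 .mp ⟨⟨66173397, 0, 0, 0, 0, 5622475, 0, 0, 0, ⟨0, 0⟩, 0⟩, 0, 0⟩ 0 0))) (.cut .s 11194368 (.cut .v 16842752 (.cut .s 11180032 (.cut .l 184549 (.cut .d (-16384) (.pos 45 .mp ⟨⟨60584794, 0, 0, 0, 0, 17092727, 0, 0, 0, ⟨0, 0⟩, 0⟩, 0, 0⟩ 0 0) (.cut .s 11172864 (.pos 45 .mp ⟨⟨61821085, 0, 0, 0, 0, 13068288, 0, 0, 0, ⟨0, 0⟩, 0⟩, 0, 0⟩ 0 0) (.pos 45 .mp ⟨⟨62144090, 0, 0, 0, 0, 13130937, 0, 0, 0, ⟨0, 0⟩, 0⟩, 0, 0⟩ 0 0))) (.pos 45 .mp ⟨⟨59674062, 0, 0, 0, 0, 16658029, 0, 0, 0, ⟨0, 0⟩, 0⟩, 0, 0⟩ 0 0)) (.cut .l 184549 (.cut .d (-16384) (.pos 45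 .mp ⟨⟨61219800, 0, 0, 0, 0, 17268713, 0, 0, 0, ⟨0, 0⟩, 0⟩, 0, 0⟩ 0 0) (.cut .s 11187200 (.pos 45 .mp ⟨⟨62468656, 0, 0, 0, 0, 13194188, 0, 0, 0, ⟨0, 0⟩, 0⟩, 0, 0⟩ 0 0) (.pos 45 .mp ⟨⟨62794789, 0, 0, 0, 0, 13258034, 0, 0, 0, ⟨0, 0⟩, 0⟩, 0, 0⟩ 0 0))) (.pos 45 .mp ⟨⟨60296888, 0, 0, 0, 0, 16826473, 0, 0, 0, ⟨0, 0⟩, 0⟩, 0, 0⟩ 0 0))) (.pos 46 .mp ⟨⟨67613610, 0, 0, 0, 0, 5634161, 0, 0, 0, ⟨0, 0⟩, 0⟩, 0, 0⟩ 0 0)) (.cut .v 16842752 (.cut .s 11208704 (.cut .l 184549 (.cut .d (-16384) (.pos 45 .mp ⟨⟨61860943, 0, 0, 0, 0, 17448803, 0, 0, 0, ⟨0, 0⟩, 0⟩, 0, 0⟩ 0 0) (.cut .s 11201536 (.pos 45 .mp ⟨⟨63122492, 0, 0, 0, 0, 13322470, 0, 0, 0, ⟨0,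 0⟩, 0⟩, 0, 0⟩ 0 0) (.pos 45 .mp ⟨⟨63451773, 0, 0, 0, 0, 13387487, 0, 0, 0, ⟨0, 0⟩, 0⟩, 0, 0⟩ 0 0))) (.pos 45 .mp ⟨⟨60925687, 0, 0, 0, 0, 16996327, 0, 0, 0, ⟨0, 0⟩, 0⟩, 0, 0⟩ 0 0)) (.cut .l 184549 (.cut .d (-16384) (.pos 45 .mp ⟨⟨62508266, 0, 0, 0, 0, 17633032, 0, 0, 0, ⟨0, 0⟩, 0⟩, 0, 0⟩ 0 0) (.cut .s 11215872 (.pos 45 .mp ⟨⟨63782636, 0, 0, 0, 0, 13453080, 0, 0, 0, ⟨0, 0⟩, 0⟩, 0, 0⟩ 0 0) (.pos 45 .mp ⟨⟨64115088, 0, 0, 0, 0, 13519242, 0, 0, 0, ⟨0, 0⟩, 0⟩, 0, 0⟩ 0 0))) (.pos 45 .mp ⟨⟨61560500, 0, 0, 0, 0, 17167463, 0, 0, 0, ⟨0, 0⟩, 0⟩, 0, 0⟩ 0 0))) (.pos 46 .mp ⟨⟨69104711, 0, 0, 0, 0, 5614567, 0, 0, 0, ⟨0, 0⟩, 0⟩, 0, 0⟩ 0 0)))) (.pos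 36 .mp ⟨⟨71483047, 0, 0, 0, 0, 0, 0, 0, 0, ⟨0, 0⟩, 0⟩, 0, 0⟩ 0 0))) (.cut .d (-32768) (.cut .v 16908288 (.cut .d (-49152) (.void 35 ⟨⟨0, 0, 0, 0, 0, 100000, 0, 0, 0, ⟨0, 0⟩, 0⟩, 0, 0⟩ 0 0) (.cut .d (-40960) (.void 35 ⟨⟨0, 0, 0, 0, 0, 100000, 0, 0, 0, ⟨0, 0⟩, 0⟩, 0, 0⟩ 0 0) (.cut .v 16842752 (.pos 45 .mp ⟨⟨0, 0, 0, 0, 0, 136501268, 0, 0, 0, ⟨0, 0⟩, 0⟩, 0, 0⟩ 0 0) (.cut .s 11280384 (.cut .s 11251712 (.pos 46 .mp ⟨⟨64835625, 0, 0, 0, 0, 16598438, 0, 0, 0, ⟨0, 0⟩, 0⟩, 0, 0⟩ 0 0) (.pos 46 .mp ⟨⟨65580343, 0, 0, 0, 0, 18238764, 0, 0, 0, ⟨0, 0⟩, 0⟩, 0, 0⟩ 0 0)) (.pos 46 .mp ⟨⟨66958283, 0, 0, 0, 0, 21411313, 0, 0, 0, ⟨0, 0⟩, 0⟩, 0, 0⟩ 0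 0))))) (.pos 36 .mp ⟨⟨81828742, 0, 0, 0, 0, 0, 0, 0, 0, ⟨0, 0⟩, 0⟩, 0, 0⟩ 0 0)) (.cut .v 16908288 (.cut .s 11280384 (.cut .s 11251712 (.cut .v 16842752 (.cut .s 11237376 (.cut .d (-16384) (.pos 45 .mp ⟨⟨63299869, 0, 0, 0, 0, 16601312, 0, 0, 0, ⟨0, 0⟩, 0⟩, 0, 0⟩ 0 0) (.cut .s 11230208 (.pos 45 .mp ⟨⟨64449134, 0, 0, 0, 0, 13622266, 0, 0, 0, ⟨0, 0⟩, 0⟩, 0, 0⟩ 0 0) (.pos 45 .mp ⟨⟨64784778, 0, 0, 0, 0, 13691020, 0, 0, 0, ⟨0, 0⟩, 0⟩, 0, 0⟩ 0 0))) (.cut .d (-16384) (.pos 45 .mp ⟨⟨62863162, 0, 0, 0, 0, 19050490, 0, 0, 0, ⟨0, 0⟩, 0⟩, 0, 0⟩ 0 0) (.cut .s 11244544 (.pos 45 .mp ⟨⟨65122028, 0, 0, 0, 0, 13760461, 0, 0, 0, ⟨0, 0⟩, 0⟩, 0, 0⟩ 0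 0) (.pos 45 .mp ⟨⟨65460889, 0, 0, 0, 0, 13830585, 0, 0, 0, ⟨0, 0⟩, 0⟩, 0, 0⟩ 0 0)))) (.pos 46 .mp ⟨⟨70650259, 0, 0, 0, 0, 5558058, 0, 0, 0, ⟨0, 0⟩, 0⟩, 0, 0⟩ 0 0)) (.cut .v 16842752 (.cut .s 11266048 (.cut .d (-16384) (.pos 45 .mp ⟨⟨63519347, 0, 0, 0, 0, 19258054, 0, 0, 0, ⟨0, 0⟩, 0⟩, 0, 0⟩ 0 0) (.cut .s 11258880 (.pos 45 .mp ⟨⟨65801366, 0, 0, 0, 0, 13901389, 0, 0, 0, ⟨0, 0⟩, 0⟩, 0, 0⟩ 0 0) (.pos 45 .mp ⟨⟨66139583, 0, 0, 0, 0, 13980063, 0, 0, 0, ⟨0, 0⟩, 0⟩, 0, 0⟩ 0 0))) (.cut .d (-16384) (.pos 45 .mp ⟨⟨64181780, 0, 0, 0, 0, 19470089, 0, 0, 0, ⟨0, 0⟩, 0⟩, 0, 0⟩ 0 0) (.cut .s 11273216 (.pos 45 .mp ⟨⟨66474519, 0, 0, 0, 0, 14068515,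 0, 0, 0, ⟨0, 0⟩, 0⟩, 0, 0⟩ 0 0) (.pos 45 .mp ⟨⟨66810352, 0, 0, 0, 0, 14159012, 0, 0, 0, ⟨0, 0⟩, 0⟩, 0, 0⟩ 0 0)))) (.pos 46 .mp ⟨⟨72253863, 0, 0, 0, 0, 5458891, 0, 0, 0, ⟨0, 0⟩, 0⟩, 0, 0⟩ 0 0))) (.cut .s 11309056 (.cut .v 16842752 (.cut .s 11294720 (.cut .d (-16384) (.pos 45 .mp ⟨⟨64850504, 0, 0, 0, 0, 19686633, 0, 0, 0, ⟨0, 0⟩, 0⟩, 0, 0⟩ 0 0) (.cut .s 11287552 (.pos 45 .mp ⟨⟨67147069, 0, 0, 0, 0, 14251587, 0, 0, 0, ⟨0, 0⟩, 0⟩, 0, 0⟩ 0 0) (.pos 45 .mp ⟨⟨67484655, 0, 0, 0, 0, 14346278, 0, 0, 0, ⟨0, 0⟩, 0⟩, 0, 0⟩ 0 0))) (.cut .d (-16384) (.pos 45 .mp ⟨⟨65525564, 0, 0, 0, 0, 19907725, 0, 0, 0, ⟨0, 0⟩, 0⟩, 0, 0⟩ 0 0) (.cut .s 11301888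 (.pos 45 .mp ⟨⟨67823097, 0, 0, 0, 0, 14443117, 0, 0, 0, ⟨0, 0⟩, 0⟩, 0, 0⟩ 0 0) (.pos 45 .mp ⟨⟨68162379, 0, 0, 0, 0, 14542142, 0, 0, 0, ⟨0, 0⟩, 0⟩, 0, 0⟩ 0 0)))) (.pos 46 .mp ⟨⟨73919178, 0, 0, 0, 0, 5311210, 0, 0, 0, ⟨0, 0⟩, 0⟩, 0, 0⟩ 0 0)) (.cut .v 16842752 (.cut .s 11323392 (.cut .d (-16384) (.pos 45 .mp ⟨⟨66207006, 0, 0, 0, 0, 20133406, 0, 0, 0, ⟨0, 0⟩, 0⟩, 0, 0⟩ 0 0) (.cut .s 11316224 (.pos 45 .mp ⟨⟨68502488, 0, 0, 0, 0, 14643388, 0, 0, 0, ⟨0, 0⟩, 0⟩, 0, 0⟩ 0 0) (.pos 45 .mp ⟨⟨68843407, 0, 0, 0, 0, 14746892, 0, 0, 0, ⟨0, 0⟩, 0⟩, 0, 0⟩ 0 0))) (.cut .d (-16384) (.pos 45 .mp ⟨⟨66894876, 0, 0, 0, 0, 20363715, 0, 0, 0, ⟨0, 0⟩, 0⟩,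 0, 0⟩ 0 0) (.cut .s 11330560 (.pos 45 .mp ⟨⟨69185123, 0, 0, 0, 0, 14852690, 0, 0, 0, ⟨0, 0⟩, 0⟩, 0, 0⟩ 0 0) (.pos 45 .mp ⟨⟨69527620, 0, 0, 0, 0, 14960819, 0, 0, 0, ⟨0, 0⟩, 0⟩, 0, 0⟩ 0 0)))) (.pos 46 .mp ⟨⟨75649914, 0, 0, 0, 0, 5109043, 0, 0, 0, ⟨0, 0⟩, 0⟩, 0, 0⟩ 0 0)))) (.pos 36 .mp ⟨⟨77573409, 0, 0, 0, 0, 0, 0, 0, 0, ⟨0, 0⟩, 0⟩, 0, 0⟩ 0 0))))) (.cut .s 11108352 (.pos 34 .mp ⟨⟨67936113, 0, 0, 0, 0, 0, 0, 0, 0, ⟨0, 0⟩, 0⟩, 0, 0⟩ 0 0) (.pos 34 .mp ⟨⟨79813438, 0, 0, 0, 0, 0, 0, 0, 0, ⟨0, 0⟩, 0⟩, 0, 0⟩ 0 0))))))) (.void 32 ⟨⟨100000, 0, 0, 0, 0, 0, 0, 0, 0, ⟨0, 0⟩, 0⟩, 0, 0⟩ 0 0))) (.void 30 ⟨⟨100000, 0, 0, 0, 0, 0, 0, 0, 0, ⟨0, 0⟩,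 0⟩, 0, 0⟩ 0 0))) (.void 28 ⟨⟨100000, 0, 0, 0, 0, 0, 0, 0, 0, ⟨0, 0⟩, 0⟩, 0, 0⟩ 0 0))) (.void 26 ⟨⟨100000, 0, 0, 0, 0, 0, 0, 0, 0, ⟨0, 0⟩, 0⟩, 0, 0⟩ 0 0))) (.void 24 ⟨⟨100000, 0, 0, 0, 0, 0, 0, 0, 0, ⟨0, 0⟩, 0⟩, 0, 0⟩ 0 0)) (.void 91 ⟨⟨100000, 0, 0, 0, 0, 0, 0, 0, 0, ⟨0, 0⟩, 0⟩, 0, 0⟩ 0 0))) (.cut .v 16777216 (.cut .v 8388608 (.cut .v 4194304 (.void 4 ⟨⟨0, 0, 66667, 0, 0, 0, 0, 0, 0, ⟨0, 0⟩, 0⟩, 0, 33333⟩ 0 0) (.pos 5 .pm ⟨⟨0, 0, 2003815, 0, 0, 0, 0, 0, 0, ⟨0, 0⟩, 0⟩, 0, 2125520⟩ 0 0)) (.pos 3 .pm ⟨⟨0, 0, 0, 0, 0, 0, 0, 0, 0, ⟨0, 0⟩, 0⟩, 0, 676275⟩ 0 0)) (.cut .d 4548041 (.cut .v 33554432 (.cut .d 2274020 (.cut .v 25165824 (.cut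 .d 1137010 (.cut .v 20971520 (.cut .d 568505 (.cut .v 18874368 (.cut .d 284252 (.cut .v 17825792 (.cut .d 142126 (.cut .v 17301504 (.cut .d 71063 (.cut .s 11108352 (.cut .s 10993664 (.pos 31 .pp ⟨⟨54930411, 0, 0, 0, 0, 0, 0, 0, 0, ⟨0, 0⟩, 0⟩, 386560, 0⟩ 0 0) (.cut .s 11051008 (.pos 31 .pp ⟨⟨58505758, 0, 0, 0, 0, 0, 0, 0, 0, ⟨0, 0⟩, 0⟩, 340599, 0⟩ 0 0) (.pos 31 .pp ⟨⟨60800461, 0, 0, 0, 0, 0, 0, 0, 0, ⟨0, 0⟩, 0⟩, 387746, 0⟩ 0 0))) (.cut .v 17039360 (.cut .s 11223040 (.pos 33 .pp ⟨⟨63418148, 0, 0, 0, 0, 0, 0, 0, 0, ⟨0, 0⟩, 0⟩, 557501, 0⟩ 0 0) (.pos 33 .pp ⟨⟨68912379, 0, 0, 0, 0, 0, 0, 0, 0, ⟨0, 0⟩, 0⟩, 589000, 0⟩ 0 0)) (.pos 34 .pp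 ⟨⟨72682903, 0, 0, 0, 0, 0, 0, 0, 0, ⟨0, 0⟩, 0⟩, 0, 0⟩ 0 0))) (.pos 31 .pp ⟨⟨49048120, 0, 0, 0, 0, 0, 0, 0, 0, ⟨0, 0⟩, 0⟩, 0, 110295⟩ 0 0)) (.cut .d 71063 (.cut .s 11108352 (.pos 32 .pp ⟨⟨67425628, 0, 0, 0, 0, 0, 0, 0, 0, ⟨0, 0⟩, 0⟩, 0, 0⟩ 0 0) (.pos 32 .pp ⟨⟨78971383, 0, 0, 0, 0, 0, 0, 0, 0, ⟨0, 0⟩, 0⟩, 0, 0⟩ 0 0)) (.pos 32 .pp ⟨⟨64901339, 0, 0, 0, 0, 0, 0, 0, 0, ⟨0, 0⟩, 0⟩, 0, 0⟩ 0 0))) (.pos 29 .pp ⟨⟨49362864, 0, 0, 0, 0, 0, 0, 0, 0, ⟨0, 0⟩, 0⟩, 0, 105759⟩ 0 0)) (.cut .d 142126 (.pos 30 .pp ⟨⟨87590751, 0, 0, 0, 0, 0, 0, 0, 0, ⟨0, 0⟩, 0⟩, 0, 0⟩ 0 0) (.cut .s 11108352 (.pos 30 .pp ⟨⟨66688173, 0, 0, 0, 0, 0, 0, 0, 0, ⟨0, 0⟩, 0⟩,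 0, 0⟩ 0 0) (.pos 30 .pp ⟨⟨77359005, 0, 0, 0, 0, 0, 0, 0, 0, ⟨0, 0⟩, 0⟩, 0, 0⟩ 0 0)))) (.pos 27 .pp ⟨⟨48617315, 0, 0, 0, 0, 0, 0, 0, 0, ⟨0, 0⟩, 0⟩, 0, 222824⟩ 0 0)) (.cut .d 284252 (.cut .v 19922944 (.pos 53 .pp ⟨⟨99608304, 0, 0, 0, 0, 0, 0, 0, 0, ⟨0, 0⟩, 0⟩, 0, 0⟩ 0 0) (.void 54 ⟨⟨100000, 0, 0, 0, 0, 0, 0, 0, 0, ⟨0, 0⟩, 0⟩, 0, 0⟩ 0 0)) (.cut .v 19922944 (.pos 53 .pp ⟨⟨71555273, 0, 0, 0, 0, 0, 0, 0, 0, ⟨0, 0⟩, 0⟩, 0, 0⟩ 0 0) (.cut .d 426378 (.pos 54 .pp ⟨⟨100894122, 0, 0, 0, 0, 0, 0, 0, 0, ⟨0, 0⟩, 0⟩, 0, 0⟩ 0 0) (.pos 54 .pp ⟨⟨79394876, 0, 0, 0, 0, 0, 0, 0, 0, ⟨0, 0⟩, 0⟩, 0, 0⟩ 0 0))))) (.pos 25 .pp ⟨⟨0, 0, 0, 0, 0, 0, 0, 0, 0,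 ⟨0, 0⟩, 0⟩, 0, 907964⟩ 0 0)) (.cut .d 568505 (.cut .v 23068672 (.cut .v 22020096 (.cut .d 284252 (.void 57 ⟨⟨0, 0, 0, 0, 0, 0, 0, 0, 0, ⟨0, 0⟩, 0⟩, 100000, 0⟩ 0 0) (.cut .d 426378 (.void 57 ⟨⟨100000, 0, 0, 0, 0, 0, 0, 0, 0, ⟨0, 0⟩, 0⟩, 0, 0⟩ 0 0) (.pos 57 .pp ⟨⟨105890171, 0, 0, 0, 0, 0, 0, 0, 0, ⟨0, 0⟩, 0⟩, 0, 0⟩ 0 0))) (.pos 58 .pp ⟨⟨136325136, 0, 0, 0, 0, 0, 0, 0, 0, ⟨0, 0⟩, 0⟩, 0, 0⟩ 0 0)) (.void 56 ⟨⟨0, 0, 0, 0, 0, 0, 0, 0, 0, ⟨0, 0⟩, 0⟩, 100000, 0⟩ 0 0)) (.cut .v 23068672 (.cut .d 852757 (.cut .v 22020096 (.pos 57 .pp ⟨⟨80248105, 0, 0, 0, 0, 0, 264842, 0, 0, ⟨0, 0⟩, 0⟩, 0, 0⟩ 0 0) (.cut .d 710631 (.cut .s 11108352 (.pos 58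 .pp ⟨⟨102734992, 0, 0, 0, 0, 0, 0, 0, 0, ⟨0, 0⟩, 0⟩, 0, 0⟩ 0 0) (.cut .d 639568 (.pos 58 .pp ⟨⟨120720560, 0, 0, 0, 0, 0, 0, 0, 0, ⟨0, 0⟩, 0⟩, 0, 0⟩ 0 0) (.pos 58 .pp ⟨⟨108357258, 0, 0, 0, 0, 0, 0, 0, 0, ⟨0, 0⟩, 0⟩, 0, 0⟩ 0 0))) (.pos 58 .pp ⟨⟨84233445, 0, 0, 0, 0, 0, 293459, 0, 0, ⟨0, 0⟩, 0⟩, 0, 0⟩ 0 0))) (.pos 55 .pp ⟨⟨0, 0, 0, 0, 0, 0, 0, 0, 0, ⟨0, 0⟩, 0⟩, 0, 946194⟩ 0 0)) (.cut .d 852757 (.cut .v 24117248 (.cut .d 710631 (.cut .s 11108352 (.pos 61 .pp ⟨⟨110481255, 0, 0, 0, 0, 0, 0, 0, 0, ⟨0, 0⟩, 0⟩, 2016552, 0⟩ 0 0) (.cut .v 23592960 (.cut .d 639568 (.pos 63 .pp ⟨⟨146297842, 0, 0, 0, 0, 0, 0, 0, 0, ⟨0, 0⟩, 0⟩, 0, 0⟩ 0 0) (.cut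 .v 23330816 (.pos 102 .pp ⟨⟨119225579, 0, 0, 0, 0, 0, 0, 0, 0, ⟨0, 0⟩, 0⟩, 0, 0⟩ 0 0) (.pos 103 .pp ⟨⟨67320656, 0, 0, 0, 0, 0, 0, 0, 0, ⟨0, 0⟩, 0⟩, 8254694, 0⟩ 0 0))) (.pos 64 .pp ⟨⟨0, 0, 0, 0, 0, 0, 0, 0, 0, ⟨0, 0⟩, 0⟩, 20203426, 0⟩ 0 0))) (.cut .s 11108352 (.cut .v 23592960 (.cut .s 10993664 (.cut .d 781694 (.pos 63 .pp ⟨⟨92848439, 0, 0, 0, 0, 0, 0, 0, 0, ⟨0, 0⟩, 0⟩, 1416604, 0⟩ 0 0) (.pos 63 .pp ⟨⟨25670715, 0, 0, 0, 0, 0, 0, 0, 0, ⟨0, 0⟩, 0⟩, 8861293, 0⟩ 0 0)) (.pos 63 .pp ⟨⟨49972741, 0, 0, 0, 0, 0, 0, 0, 0, ⟨0, 0⟩, 0⟩, 7631554, 0⟩ 0 0)) (.pos 64 .pp ⟨⟨0, 0, 0, 0, 0, 0, 0, 0, 0, ⟨0, 0⟩, 0⟩, 15519079, 0⟩ 0 0)) (.pos 61 .pp ⟨⟨4558989,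 0, 0, 0, 0, 0, 0, 0, 0, ⟨0, 0⟩, 0⟩, 14139281, 0⟩ 0 0))) (.pos 62 .pp ⟨⟨0, 0, 0, 0, 0, 0, 0, 0, 0, ⟨0, 0⟩, 0⟩, 19678025, 0⟩ 0 0)) (.pos 56 .pp ⟨⟨0, 0, 0, 0, 0, 0, 74780, 0, 0, ⟨0, 0⟩, 0⟩, 12203750, 0⟩ 0 0))))) (.pos 23 .pp ⟨⟨0, 0, 0, 0, 0, 0, 2410996, 0, 0, ⟨0, 0⟩, 0⟩, 0, 0⟩ 0 0)) (.cut .d 1137010 (.cut .v 29360128 (.cut .d 568505 (.void 75 ⟨⟨0, 0, 0, 0, 0, 0, 0, 0, 0, ⟨0, 0⟩, 0⟩, 100000, 0⟩ 0 0) (.cut .d 852757 (.void 75 ⟨⟨0, 0, 0, 0, 0, 0, 0, 0, 0, ⟨0, 0⟩, 0⟩, 100000, 0⟩ 0 0) (.pos 75 .pp ⟨⟨0, 0, 0, 0, 0, 0, 0, 0, 0, ⟨0, 0⟩, 0⟩, 18298533, 0⟩ 0 0))) (.void 76 ⟨⟨0, 0, 0, 0, 0, 0, 0, 0, 0, ⟨0, 0⟩, 0⟩, 100000, 0⟩ 0 0)) (.cut .v 29360128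 (.pos 75 .pp ⟨⟨0, 0, 0, 0, 0, 0, 0, 0, 0, ⟨0, 0⟩, 0⟩, 12825589, 0⟩ 0 0) (.pos 76 .pp ⟨⟨0, 0, 0, 0, 0, 0, 0, 0, 0, ⟨0, 0⟩, 0⟩, 21684908, 0⟩ 0 0)))) (.cut .v 25165824 (.pos 23 .pp ⟨⟨0, 0, 0, 0, 0, 0, 0, 0, 0, ⟨0, 0⟩, 0⟩, 0, 817168⟩ 0 0) (.pos 24 .pp ⟨⟨0, 0, 0, 0, 0, 0, 2415422, 0, 0, ⟨0, 0⟩, 0⟩, 3140390, 0⟩ 0 0))) (.cut .d 2274020 (.pos 91 .pp ⟨⟨0, 0, 0, 0, 0, 0, 0, 0, 0, ⟨0, 0⟩, 0⟩, 62414388, 0⟩ 0 0) (.pos 91 .pp ⟨⟨0, 0, 0, 0, 0, 0, 0, 0, 0, ⟨0, 0⟩, 0⟩, 20761336, 0⟩ 0 0))) (.pos 90 .pp ⟨⟨0, 0, 0, 0, 0, 0, 0, 0, 0, ⟨0, 0⟩, 0⟩, 0, 118735737⟩ 0 0)))),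
    by decide +kernel⟩

theorem covers16 : cell.Covers Vale.Agent.P237.Petty.Cor.Grid.N10.table row16.1 :=
  ⟨(.cut .d 0 (.cut .v 16777216 (.cut .d (-8388608) (.void 1 ⟨⟨0, 0, 0, 0, 0, 100000, 0, 0, 0, ⟨0, 0⟩, 0⟩, 0, 0⟩ 0 0) (.cut .d (-4194304) (.void 1 ⟨⟨0, 0, 0, 0, 0, 100000, 0, 0, 0, ⟨0, 0⟩, 0⟩, 0, 0⟩ 0 0) (.cut .d (-2097152) (.void 1 ⟨⟨0, 0, 0, 0, 0, 100000, 0, 0, 0, ⟨0, 0⟩, 0⟩, 0, 0⟩ 0 0) (.cut .d (-1048576) (.void 1 ⟨⟨0, 0, 0, 0, 0, 100000, 0, 0, 0, ⟨0, 0⟩, 0⟩, 0, 0⟩ 0 0) (.cut .d (-524288) (.void 1 ⟨⟨0, 0, 0, 0, 0, 100000, 0, 0, 0, ⟨0, 0⟩, 0⟩, 0, 0⟩ 0 0) (.cut .d (-262144) (.void 1 ⟨⟨0, 0, 0, 0, 0, 100000, 0, 0, 0, ⟨0, 0⟩,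 0⟩, 0, 0⟩ 0 0) (.cut .d (-131072) (.void 1 ⟨⟨0, 0, 0, 0, 0, 100000, 0, 0, 0, ⟨0, 0⟩, 0⟩, 0, 0⟩ 0 0) (.cut .d (-65536) (.void 1 ⟨⟨0, 0, 0, 0, 0, 100000, 0, 0, 0, ⟨0, 0⟩, 0⟩, 0, 0⟩ 0 0) (.cut .v 8388608 (.cut .v 4194304 (.void 4 ⟨⟨0, 0, 100000, 0, 0, 0, 0, 0, 0, ⟨0, 0⟩, 0⟩, 0, 0⟩ 0 0) (.pos 5 .mm ⟨⟨0, 0, 3307290, 0, 0, 32968127, 0, 0, 0, ⟨0, 0⟩, 0⟩, 0, 0⟩ 0 0)) (.cut .s 11534336 (.pos 3 .mm ⟨⟨0, 0, 0, 0, 0, 133085620, 0, 0, 0, ⟨0, 0⟩, 0⟩, 0, 0⟩ 0 0) (.pos 3 .mm ⟨⟨0, 0, 0, 0, 0, 154710675, 0, 0, 0, ⟨0, 0⟩, 0⟩, 0, 0⟩ 0 0))))))))))) (.cut .v 33554432 (.cut .v 25165824 (.cut .d (-8388608) (.void 23 ⟨⟨100000, 0, 0, 0, 0, 0, 0, 0, 0, ⟨0,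 0⟩, 0⟩, 0, 0⟩ 0 0) (.cut .v 20971520 (.cut .d (-4194304) (.void 25 ⟨⟨100000, 0, 0, 0, 0, 0, 0, 0, 0, ⟨0, 0⟩, 0⟩, 0, 0⟩ 0 0) (.cut .v 18874368 (.cut .d (-2097152) (.void 27 ⟨⟨100000, 0, 0, 0, 0, 0, 0, 0, 0, ⟨0, 0⟩, 0⟩, 0, 0⟩ 0 0) (.cut .v 17825792 (.cut .d (-1048576) (.void 29 ⟨⟨100000, 0, 0, 0, 0, 0, 0, 0, 0, ⟨0, 0⟩, 0⟩, 0, 0⟩ 0 0) (.cut .v 17301504 (.cut .d (-524288) (.void 31 ⟨⟨100000, 0, 0, 0, 0, 0, 0, 0, 0, ⟨0, 0⟩, 0⟩, 0, 0⟩ 0 0) (.cut .d (-262144) (.void 31 ⟨⟨100000, 0, 0, 0, 0, 0, 0, 0, 0, ⟨0, 0⟩, 0⟩, 0, 0⟩ 0 0) (.cut .d (-131072) (.void 31 ⟨⟨100000, 0, 0, 0, 0, 0, 0, 0, 0, ⟨0, 0⟩, 0⟩, 0, 0⟩ 0 0) (.cut .d (-65536) (.void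 31 ⟨⟨0, 0, 0, 0, 0, 100000, 0, 0, 0, ⟨0, 0⟩, 0⟩, 0, 0⟩ 0 0) (.cut .v 17039360 (.cut .s 11534336 (.cut .d (-32768) (.cut .v 16908288 (.cut .d (-49152) (.void 35 ⟨⟨0, 0, 0, 0, 0, 100000, 0, 0, 0, ⟨0, 0⟩, 0⟩, 0, 0⟩ 0 0) (.cut .d (-40960) (.void 35 ⟨⟨0, 0, 0, 0, 0, 100000, 0, 0, 0, ⟨0, 0⟩, 0⟩, 0, 0⟩ 0 0) (.cut .d (-36864) (.pos 35 .mp ⟨⟨69492744, 0, 0, 0, 0, 73606979, 0, 0, 0, ⟨0, 0⟩, 0⟩, 0, 0⟩ 0 0) (.cut .v 16842752 (.pos 45 .mp ⟨⟨0, 0, 0, 0, 0, 157651646, 0, 0, 0, ⟨0, 0⟩, 0⟩, 0, 0⟩ 0 0) (.cut .v 16875520 (.cut .l 184549 (.void 96 ⟨⟨100000, 0, 0, 0, 0, 0, 0, 0, 0, ⟨0, 0⟩, 0⟩, 0, 0⟩ 0 0) (.cut .l 276824 (.void 96 ⟨⟨100000, 0, 0, 0,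 0, 0, 0, 0, 0, ⟨0, 0⟩, 0⟩, 0, 0⟩ 0 0) (.cut .s 11436032 (.pos 96 .mp ⟨⟨69766138, 0, 0, 0, 0, 24104219, 0, 0, 0, ⟨0, 0⟩, 0⟩, 0, 0⟩ 0 0) (.cut .s 11485184 (.pos 96 .mp ⟨⟨74628935, 0, 0, 0, 0, 22178668, 0, 0, 0, ⟨0, 0⟩, 0⟩, 0, 0⟩ 0 0) (.pos 96 .mp ⟨⟨77326488, 0, 0, 0, 0, 23004425, 0, 0, 0, ⟨0, 0⟩, 0⟩, 0, 0⟩ 0 0))))) (.pos 97 .mp ⟨⟨90319798, 0, 0, 0, 0, 0, 0, 0, 0, ⟨0, 0⟩, 0⟩, 0, 0⟩ 0 0)))))) (.void 36 ⟨⟨100000, 0, 0, 0, 0, 0, 0, 0, 0, ⟨0, 0⟩, 0⟩, 0, 0⟩ 0 0)) (.cut .s 11436032 (.cut .v 16908288 (.cut .s 11386880 (.cut .v 16842752 (.cut .s 11362304 (.cut .l 184549 (.cut .d (-16384) (.pos 45 .mp ⟨⟨68720752, 0, 0, 0, 0, 20270387, 0, 0,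 0, ⟨0, 0⟩, 0⟩, 0, 0⟩ 0 0) (.cut .v 16809984 (.cut .s 11350016 (.pos 49 .mp ⟨⟨69353534, 0, 0, 0, 0, 16056806, 0, 0, 0, ⟨0, 0⟩, 0⟩, 0, 0⟩ 0 0) (.pos 49 .mp ⟨⟨69814023, 0, 0, 0, 0, 16431409, 0, 0, 0, ⟨0, 0⟩, 0⟩, 0, 0⟩ 0 0)) (.pos 50 .mp ⟨⟨77264115, 0, 0, 0, 0, 4502373, 0, 0, 0, ⟨0, 0⟩, 0⟩, 0, 0⟩ 0 0))) (.pos 45 .mp ⟨⟨67550159, 0, 0, 0, 0, 19222734, 0, 0, 0, ⟨0, 0⟩, 0⟩, 0, 0⟩ 0 0)) (.cut .l 184549 (.cut .d (-16384) (.pos 45 .mp ⟨⟨69966179, 0, 0, 0, 0, 20498116, 0, 0, 0, ⟨0, 0⟩, 0⟩, 0, 0⟩ 0 0) (.cut .v 16809984 (.cut .s 11374592 (.pos 49 .mp ⟨⟨70280862, 0, 0, 0, 0, 16808309, 0, 0, 0, ⟨0, 0⟩, 0⟩, 0, 0⟩ 0 0) (.pos 49 .mp ⟨⟨70817688, 0,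 0, 0, 0, 17076545, 0, 0, 0, ⟨0, 0⟩, 0⟩, 0, 0⟩ 0 0)) (.pos 50 .mp ⟨⟨78507645, 0, 0, 0, 0, 4707398, 0, 0, 0, ⟨0, 0⟩, 0⟩, 0, 0⟩ 0 0))) (.pos 45 .mp ⟨⟨68751911, 0, 0, 0, 0, 19553581, 0, 0, 0, ⟨0, 0⟩, 0⟩, 0, 0⟩ 0 0))) (.cut .s 11362304 (.pos 46 .mp ⟨⟨76666215, 0, 0, 0, 0, 5900447, 0, 0, 0, ⟨0, 0⟩, 0⟩, 0, 0⟩ 0 0) (.pos 46 .mp ⟨⟨77899611, 0, 0, 0, 0, 6131545, 0, 0, 0, ⟨0, 0⟩, 0⟩, 0, 0⟩ 0 0))) (.cut .v 16842752 (.cut .s 11411456 (.cut .s 11399168 (.cut .d (-16384) (.pos 45 .mp ⟨⟨70026586, 0, 0, 0, 0, 21032934, 0, 0, 0, ⟨0, 0⟩, 0⟩, 0, 0⟩ 0 0) (.cut .s 11393024 (.pos 45 .mp ⟨⟨72380639, 0, 0, 0, 0, 15412946, 0, 0, 0, ⟨0, 0⟩, 0⟩, 0, 0⟩ 0 0)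 (.pos 45 .mp ⟨⟨72717426, 0, 0, 0, 0, 15432450, 0, 0, 0, ⟨0, 0⟩, 0⟩, 0, 0⟩ 0 0))) (.cut .d (-16384) (.pos 45 .mp ⟨⟨70649633, 0, 0, 0, 0, 21175189, 0, 0, 0, ⟨0, 0⟩, 0⟩, 0, 0⟩ 0 0) (.cut .s 11405312 (.pos 45 .mp ⟨⟨73055573, 0, 0, 0, 0, 15452878, 0, 0, 0, ⟨0, 0⟩, 0⟩, 0, 0⟩ 0 0) (.pos 45 .mp ⟨⟨73395070, 0, 0, 0, 0, 15474254, 0, 0, 0, ⟨0, 0⟩, 0⟩, 0, 0⟩ 0 0)))) (.cut .s 11423744 (.cut .d (-16384) (.pos 45 .mp ⟨⟨71278080, 0, 0, 0, 0, 21321570, 0, 0, 0, ⟨0, 0⟩, 0⟩, 0, 0⟩ 0 0) (.cut .s 11417600 (.pos 45 .mp ⟨⟨73735908, 0, 0, 0, 0, 15496601, 0, 0, 0, ⟨0, 0⟩, 0⟩, 0, 0⟩ 0 0) (.pos 45 .mp ⟨⟨74078077, 0, 0, 0, 0, 15519944, 0, 0, 0, ⟨0, 0⟩, 0⟩,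 0, 0⟩ 0 0))) (.cut .d (-16384) (.pos 45 .mp ⟨⟨71911961, 0, 0, 0, 0, 21472110, 0, 0, 0, ⟨0, 0⟩, 0⟩, 0, 0⟩ 0 0) (.cut .s 11429888 (.pos 45 .mp ⟨⟨74421567, 0, 0, 0, 0, 15544308, 0, 0, 0, ⟨0, 0⟩, 0⟩, 0, 0⟩ 0 0) (.pos 45 .mp ⟨⟨74762028, 0, 0, 0, 0, 15577821, 0, 0, 0, ⟨0, 0⟩, 0⟩, 0, 0⟩ 0 0))))) (.cut .s 11411456 (.pos 46 .mp ⟨⟨79157089, 0, 0, 0, 0, 6373855, 0, 0, 0, ⟨0, 0⟩, 0⟩, 0, 0⟩ 0 0) (.pos 46 .mp ⟨⟨80441614, 0, 0, 0, 0, 6622810, 0, 0, 0, ⟨0, 0⟩, 0⟩, 0, 0⟩ 0 0)))) (.pos 36 .mp ⟨⟨83622943, 0, 0, 0, 0, 0, 0, 0, 0, ⟨0, 0⟩, 0⟩, 0, 0⟩ 0 0)) (.cut .v 16908288 (.cut .s 11485184 (.cut .v 16842752 (.cut .s 11460608 (.cut .s 11448320 (.cut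 .d (-16384) (.pos 45 .mp ⟨⟨72551309, 0, 0, 0, 0, 21626841, 0, 0, 0, ⟨0, 0⟩, 0⟩, 0, 0⟩ 0 0) (.cut .s 11442176 (.pos 45 .mp ⟨⟨75093234, 0, 0, 0, 0, 15632128, 0, 0, 0, ⟨0, 0⟩, 0⟩, 0, 0⟩ 0 0) (.pos 45 .mp ⟨⟨75425871, 0, 0, 0, 0, 15687286, 0, 0, 0, ⟨0, 0⟩, 0⟩, 0, 0⟩ 0 0))) (.cut .d (-16384) (.pos 45 .mp ⟨⟨73196161, 0, 0, 0, 0, 21785797, 0, 0, 0, ⟨0, 0⟩, 0⟩, 0, 0⟩ 0 0) (.cut .s 11454464 (.pos 45 .mp ⟨⟨75759941, 0, 0, 0, 0, 15743295, 0, 0, 0, ⟨0, 0⟩, 0⟩, 0, 0⟩ 0 0) (.pos 45 .mp ⟨⟨76095449, 0, 0, 0, 0, 15800152, 0, 0, 0, ⟨0, 0⟩, 0⟩, 0, 0⟩ 0 0)))) (.cut .d (-16384) (.cut .s 11472896 (.pos 45 .mp ⟨⟨73846549, 0, 0, 0, 0, 21949009, 0, 0, 0,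 ⟨0, 0⟩, 0⟩, 0, 0⟩ 0 0) (.pos 45 .mp ⟨⟨74502510, 0, 0, 0, 0, 22116511, 0, 0, 0, ⟨0, 0⟩, 0⟩, 0, 0⟩ 0 0)) (.cut .l 184549 (.cut .v 16809984 (.cut .l 92274 (.cut .d (-8192) (.pos 49 .mp ⟨⟨74810401, 0, 0, 0, 0, 21845789, 0, 0, 0, ⟨0, 0⟩, 0⟩, 0, 0⟩ 0 0) (.cut .s 11472896 (.pos 49 .mp ⟨⟨75854084, 0, 0, 0, 0, 16936718, 0, 0, 0, ⟨0, 0⟩, 0⟩, 0, 0⟩ 0 0) (.pos 49 .mp ⟨⟨76525711, 0, 0, 0, 0, 17073403, 0, 0, 0, ⟨0, 0⟩, 0⟩, 0, 0⟩ 0 0))) (.pos 49 .mp ⟨⟨74027632, 0, 0, 0, 0, 20021833, 0, 0, 0, ⟨0, 0⟩, 0⟩, 0, 0⟩ 0 0)) (.pos 50 .mp ⟨⟨83755916, 0, 0, 0, 0, 5585202, 0, 0, 0, ⟨0, 0⟩, 0⟩, 0, 0⟩ 0 0)) (.pos 45 .mp ⟨⟨75407839, 0, 0, 0, 0, 0, 0, 0, 0, ⟨0,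 0⟩, 0⟩, 0, 0⟩ 0 0)))) (.cut .s 11460608 (.pos 46 .mp ⟨⟨81756181, 0, 0, 0, 0, 6873764, 0, 0, 0, ⟨0, 0⟩, 0⟩, 0, 0⟩ 0 0) (.pos 46 .mp ⟨⟨83103821, 0, 0, 0, 0, 7121992, 0, 0, 0, ⟨0, 0⟩, 0⟩, 0, 0⟩ 0 0))) (.cut .s 11509760 (.cut .v 16842752 (.cut .d (-16384) (.cut .s 11497472 (.pos 45 .mp ⟨⟨75164079, 0, 0, 0, 0, 22288337, 0, 0, 0, ⟨0, 0⟩, 0⟩, 0, 0⟩ 0 0) (.pos 45 .mp ⟨⟨75831292, 0, 0, 0, 0, 22464521, 0, 0, 0, ⟨0, 0⟩, 0⟩, 0, 0⟩ 0 0)) (.cut .l 184549 (.cut .v 16809984 (.cut .l 92274 (.cut .d (-8192) (.pos 49 .mp ⟨⟨76154695, 0, 0, 0, 0, 22170997, 0, 0, 0, ⟨0, 0⟩, 0⟩, 0, 0⟩ 0 0) (.cut .v 16793600 (.cut .s 11497472 (.pos 83 .mp ⟨⟨76679968,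 0, 0, 0, 0, 18104210, 0, 0, 0, ⟨0, 0⟩, 0⟩, 0, 0⟩ 0 0) (.pos 83 .mp ⟨⟨77257492, 0, 0, 0, 0, 18432847, 0, 0, 0, ⟨0, 0⟩, 0⟩, 0, 0⟩ 0 0)) (.pos 84 .mp ⟨⟨85481619, 0, 0, 0, 0, 5015061, 0, 0, 0, ⟨0, 0⟩, 0⟩, 0, 0⟩ 0 0))) (.pos 49 .mp ⟨⟨75341475, 0, 0, 0, 0, 20400698, 0, 0, 0, ⟨0, 0⟩, 0⟩, 0, 0⟩ 0 0)) (.pos 50 .mp ⟨⟨85151544, 0, 0, 0, 0, 5795697, 0, 0, 0, ⟨0, 0⟩, 0⟩, 0, 0⟩ 0 0)) (.pos 45 .mp ⟨⟨76765766, 0, 0, 0, 0, 0, 0, 0, 0, ⟨0, 0⟩, 0⟩, 0, 0⟩ 0 0))) (.pos 46 .mp ⟨⟨84487599, 0, 0, 0, 0, 7362689, 0, 0, 0, ⟨0, 0⟩, 0⟩, 0, 0⟩ 0 0)) (.cut .v 16842752 (.cut .d (-16384) (.cut .s 11522048 (.pos 45 .mp ⟨⟨76504184, 0, 0, 0, 0, 22645096, 0, 0, 0,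 ⟨0, 0⟩, 0⟩, 0, 0⟩ 0 0) (.pos 45 .mp ⟨⟨77182793, 0, 0, 0, 0, 22830098, 0, 0, 0, ⟨0, 0⟩, 0⟩, 0, 0⟩ 0 0)) (.cut .l 184549 (.cut .v 16809984 (.cut .l 92274 (.cut .d (-8192) (.pos 49 .mp ⟨⟨77521225, 0, 0, 0, 0, 22514704, 0, 0, 0, ⟨0, 0⟩, 0⟩, 0, 0⟩ 0 0) (.cut .v 16793600 (.cut .s 11522048 (.pos 83 .mp ⟨⟨77847415, 0, 0, 0, 0, 18753301, 0, 0, 0, ⟨0, 0⟩, 0⟩, 0, 0⟩ 0 0) (.pos 83 .mp ⟨⟨78496106, 0, 0, 0, 0, 18984196, 0, 0, 0, ⟨0, 0⟩, 0⟩, 0, 0⟩ 0 0)) (.pos 84 .mp ⟨⟨86922851, 0, 0, 0, 0, 5196893, 0, 0, 0, ⟨0, 0⟩, 0⟩, 0, 0⟩ 0 0))) (.pos 49 .mp ⟨⟨76677716, 0, 0, 0, 0, 20789956, 0, 0, 0, ⟨0, 0⟩, 0⟩, 0, 0⟩ 0 0)) (.pos 50 .mp ⟨⟨86586728, 0, 0, 0,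 0, 5992974, 0, 0, 0, ⟨0, 0⟩, 0⟩, 0, 0⟩ 0 0)) (.pos 45 .mp ⟨⟨78146392, 0, 0, 0, 0, 0, 0, 0, 0, ⟨0, 0⟩, 0⟩, 0, 0⟩ 0 0))) (.pos 46 .mp ⟨⟨85910618, 0, 0, 0, 0, 7590966, 0, 0, 0, ⟨0, 0⟩, 0⟩, 0, 0⟩ 0 0)))) (.pos 36 .mp ⟨⟨89579288, 0, 0, 0, 0, 0, 0, 0, 0, ⟨0, 0⟩, 0⟩, 0, 0⟩ 0 0)))) (.cut .d (-32768) (.cut .v 16908288 (.cut .d (-49152) (.void 35 ⟨⟨0, 0, 0, 0, 0, 100000, 0, 0, 0, ⟨0, 0⟩, 0⟩, 0, 0⟩ 0 0) (.cut .d (-40960) (.void 35 ⟨⟨0, 0, 0, 0, 0, 100000, 0, 0, 0, ⟨0, 0⟩, 0⟩, 0, 0⟩ 0 0) (.cut .d (-36864) (.void 35 ⟨⟨0, 0, 0, 0, 0, 100000, 0, 0, 0, ⟨0, 0⟩, 0⟩, 0, 0⟩ 0 0) (.cut .d (-34816) (.pos 35 .mp ⟨⟨79958175, 0, 0, 0, 0, 76022887, 0, 0,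 0, ⟨0, 0⟩, 0⟩, 0, 0⟩ 0 0) (.cut .v 16842752 (.pos 45 .mp ⟨⟨0, 0, 0, 0, 0, 184166112, 0, 0, 0, ⟨0, 0⟩, 0⟩, 0, 0⟩ 0 0) (.cut .s 11632640 (.cut .s 11583488 (.pos 46 .mp ⟨⟨81466507, 0, 0, 0, 0, 22371266, 0, 0, 0, ⟨0, 0⟩, 0⟩, 0, 0⟩ 0 0) (.pos 46 .mp ⟨⟨84484940, 0, 0, 0, 0, 23006510, 0, 0, 0, ⟨0, 0⟩, 0⟩, 0, 0⟩ 0 0)) (.pos 46 .mp ⟨⟨88598946, 0, 0, 0, 0, 28529216, 0, 0, 0, ⟨0, 0⟩, 0⟩, 0, 0⟩ 0 0))))))) (.void 36 ⟨⟨100000, 0, 0, 0, 0, 0, 0, 0, 0, ⟨0, 0⟩, 0⟩, 0, 0⟩ 0 0)) (.cut .s 11632640 (.cut .v 16908288 (.cut .s 11583488 (.cut .s 11558912 (.cut .v 16842752 (.cut .d (-16384) (.cut .s 11546624 (.pos 45 .mp ⟨⟨77867155, 0, 0, 0, 0, 23019560,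 0, 0, 0, ⟨0, 0⟩, 0⟩, 0, 0⟩ 0 0) (.pos 45 .mp ⟨⟨78557308, 0, 0, 0, 0, 23213519, 0, 0, 0, ⟨0, 0⟩, 0⟩, 0, 0⟩ 0 0)) (.cut .l 184549 (.cut .v 16809984 (.cut .l 92274 (.cut .d (-8192) (.pos 49 .mp ⟨⟨78910270, 0, 0, 0, 0, 22877223, 0, 0, 0, ⟨0, 0⟩, 0⟩, 0, 0⟩ 0 0) (.cut .v 16793600 (.cut .l 46137 (.cut .d (-4096) (.pos 83 .mp ⟨⟨78720923, 0, 0, 0, 0, 23026159, 0, 0, 0, ⟨0, 0⟩, 0⟩, 0, 0⟩ 0 0) (.cut .s 11546624 (.pos 83 .mp ⟨⟨79467599, 0, 0, 0, 0, 18582287, 0, 0, 0, ⟨0, 0⟩, 0⟩, 0, 0⟩ 0 0) (.pos 83 .mp ⟨⟨80182145, 0, 0, 0, 0, 18721185, 0, 0, 0, ⟨0, 0⟩, 0⟩, 0, 0⟩ 0 0))) (.pos 83 .mp ⟨⟨78172721, 0, 0, 0, 0, 20659227, 0, 0, 0, ⟨0, 0⟩, 0⟩, 0,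 0⟩ 0 0)) (.pos 84 .mp ⟨⟨88406923, 0, 0, 0, 0, 5360150, 0, 0, 0, ⟨0, 0⟩, 0⟩, 0, 0⟩ 0 0))) (.pos 49 .mp ⟨⟨78036644, 0, 0, 0, 0, 21188702, 0, 0, 0, ⟨0, 0⟩, 0⟩, 0, 0⟩ 0 0)) (.pos 50 .mp ⟨⟨88064598, 0, 0, 0, 0, 6172068, 0, 0, 0, ⟨0, 0⟩, 0⟩, 0, 0⟩ 0 0)) (.pos 45 .mp ⟨⟨79550005, 0, 0, 0, 0, 0, 0, 0, 0, ⟨0, 0⟩, 0⟩, 0, 0⟩ 0 0))) (.pos 46 .mp ⟨⟨87376018, 0, 0, 0, 0, 7801848, 0, 0, 0, ⟨0, 0⟩, 0⟩, 0, 0⟩ 0 0)) (.cut .v 16842752 (.cut .d (-16384) (.cut .s 11571200 (.pos 45 .mp ⟨⟨79253289, 0, 0, 0, 0, 23412009, 0, 0, 0, ⟨0, 0⟩, 0⟩, 0, 0⟩ 0 0) (.pos 45 .mp ⟨⟨79955135, 0, 0, 0, 0, 23615066, 0, 0, 0, ⟨0, 0⟩, 0⟩, 0, 0⟩ 0 0)) (.cut .l 184549 (.cut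 .v 16809984 (.cut .s 11571200 (.cut .s 11565056 (.pos 49 .mp ⟨⟨81106289, 0, 0, 0, 0, 18447686, 0, 0, 0, ⟨0, 0⟩, 0⟩, 0, 0⟩ 0 0) (.pos 49 .mp ⟨⟨81436621, 0, 0, 0, 0, 18576970, 0, 0, 0, ⟨0, 0⟩, 0⟩, 0, 0⟩ 0 0)) (.cut .s 11577344 (.pos 49 .mp ⟨⟨81770653, 0, 0, 0, 0, 18703158, 0, 0, 0, ⟨0, 0⟩, 0⟩, 0, 0⟩ 0 0) (.pos 49 .mp ⟨⟨82108445, 0, 0, 0, 0, 18826145, 0, 0, 0, ⟨0, 0⟩, 0⟩, 0, 0⟩ 0 0))) (.pos 50 .mp ⟨⟨89588325, 0, 0, 0, 0, 6327930, 0, 0, 0, ⟨0, 0⟩, 0⟩, 0, 0⟩ 0 0)) (.pos 45 .mp ⟨⟨80976896, 0, 0, 0, 0, 0, 0, 0, 0, ⟨0, 0⟩, 0⟩, 0, 0⟩ 0 0))) (.pos 46 .mp ⟨⟨88886978, 0, 0, 0, 0, 7990276, 0, 0, 0, ⟨0, 0⟩, 0⟩, 0, 0⟩ 0 0))) (.cut .s 11608064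 (.cut .v 16842752 (.cut .d (-16384) (.cut .s 11595776 (.pos 45 .mp ⟨⟨80662885, 0, 0, 0, 0, 23822727, 0, 0, 0, ⟨0, 0⟩, 0⟩, 0, 0⟩ 0 0) (.pos 45 .mp ⟨⟨81376579, 0, 0, 0, 0, 24035028, 0, 0, 0, ⟨0, 0⟩, 0⟩, 0, 0⟩ 0 0)) (.cut .l 184549 (.cut .v 16809984 (.cut .s 11595776 (.cut .s 11589632 (.pos 49 .mp ⟨⟨82450058, 0, 0, 0, 0, 18945825, 0, 0, 0, ⟨0, 0⟩, 0⟩, 0, 0⟩ 0 0) (.pos 49 .mp ⟨⟨82795550, 0, 0, 0, 0, 19062091, 0, 0, 0, ⟨0, 0⟩, 0⟩, 0, 0⟩ 0 0)) (.cut .s 11601920 (.pos 49 .mp ⟨⟨83144984, 0, 0, 0, 0, 19174838, 0, 0, 0, ⟨0, 0⟩, 0⟩, 0, 0⟩ 0 0) (.pos 49 .mp ⟨⟨83498417, 0, 0, 0, 0, 19283958, 0, 0, 0, ⟨0, 0⟩, 0⟩, 0, 0⟩ 0 0))) (.pos 50 .mp ⟨⟨91161116,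 0, 0, 0, 0, 6455417, 0, 0, 0, ⟨0, 0⟩, 0⟩, 0, 0⟩ 0 0)) (.pos 45 .mp ⟨⟨82427362, 0, 0, 0, 0, 0, 0, 0, 0, ⟨0, 0⟩, 0⟩, 0, 0⟩ 0 0))) (.pos 46 .mp ⟨⟨90446715, 0, 0, 0, 0, 8151099, 0, 0, 0, ⟨0, 0⟩, 0⟩, 0, 0⟩ 0 0)) (.cut .v 16842752 (.cut .d (-16384) (.cut .s 11620352 (.pos 45 .mp ⟨⟨82096254, 0, 0, 0, 0, 24252005, 0, 0, 0, ⟨0, 0⟩, 0⟩, 0, 0⟩ 0 0) (.pos 45 .mp ⟨⟨82821950, 0, 0, 0, 0, 24473695, 0, 0, 0, ⟨0, 0⟩, 0⟩, 0, 0⟩ 0 0)) (.cut .l 184549 (.cut .v 16809984 (.cut .s 11620352 (.cut .s 11614208 (.pos 49 .mp ⟨⟨83855911, 0, 0, 0, 0, 19389348, 0, 0, 0, ⟨0, 0⟩, 0⟩, 0, 0⟩ 0 0) (.pos 49 .mp ⟨⟨84217524, 0, 0, 0, 0, 19490899, 0, 0, 0, ⟨0, 0⟩, 0⟩,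 0, 0⟩ 0 0)) (.cut .s 11626496 (.pos 49 .mp ⟨⟨84583318, 0, 0, 0, 0, 19588506, 0, 0, 0, ⟨0, 0⟩, 0⟩, 0, 0⟩ 0 0) (.pos 49 .mp ⟨⟨84953351, 0, 0, 0, 0, 19682063, 0, 0, 0, ⟨0, 0⟩, 0⟩, 0, 0⟩ 0 0))) (.pos 50 .mp ⟨⟨92786219, 0, 0, 0, 0, 6549299, 0, 0, 0, ⟨0, 0⟩, 0⟩, 0, 0⟩ 0 0)) (.pos 45 .mp ⟨⟨83901705, 0, 0, 0, 0, 0, 0, 0, 0, ⟨0, 0⟩, 0⟩, 0, 0⟩ 0 0))) (.pos 46 .mp ⟨⟨92058487, 0, 0, 0, 0, 8279076, 0, 0, 0, ⟨0, 0⟩, 0⟩, 0, 0⟩ 0 0)))) (.pos 36 .mp ⟨⟨96032708, 0, 0, 0, 0, 0, 0, 0, 0, ⟨0, 0⟩, 0⟩, 0, 0⟩ 0 0)) (.cut .v 16908288 (.cut .s 11681792 (.cut .s 11657216 (.cut .v 16842752 (.cut .d (-16384) (.cut .s 11644928 (.pos 45 .mp ⟨⟨83553707, 0, 0,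 0, 0, 24700137, 0, 0, 0, ⟨0, 0⟩, 0⟩, 0, 0⟩ 0 0) (.pos 45 .mp ⟨⟨84291566, 0, 0, 0, 0, 24931367, 0, 0, 0, ⟨0, 0⟩, 0⟩, 0, 0⟩ 0 0)) (.cut .l 184549 (.cut .v 16809984 (.cut .s 11644928 (.cut .s 11638784 (.pos 49 .mp ⟨⟨85327683, 0, 0, 0, 0, 19771464, 0, 0, 0, ⟨0, 0⟩, 0⟩, 0, 0⟩ 0 0) (.pos 49 .mp ⟨⟨85706374, 0, 0, 0, 0, 19856601, 0, 0, 0, ⟨0, 0⟩, 0⟩, 0, 0⟩ 0 0)) (.cut .s 11651072 (.pos 49 .mp ⟨⟨86089484, 0, 0, 0, 0, 19937370, 0, 0, 0, ⟨0, 0⟩, 0⟩, 0, 0⟩ 0 0) (.pos 49 .mp ⟨⟨86477072, 0, 0, 0, 0, 20013664, 0, 0, 0, ⟨0, 0⟩, 0⟩, 0, 0⟩ 0 0))) (.pos 50 .mp ⟨⟨94466927, 0, 0, 0, 0, 6604252, 0, 0, 0, ⟨0, 0⟩, 0⟩, 0, 0⟩ 0 0)) (.pos 45 .mp ⟨⟨85400235,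 0, 0, 0, 0, 0, 0, 0, 0, ⟨0, 0⟩, 0⟩, 0, 0⟩ 0 0))) (.pos 46 .mp ⟨⟨93725596, 0, 0, 0, 0, 8368871, 0, 0, 0, ⟨0, 0⟩, 0⟩, 0, 0⟩ 0 0)) (.cut .v 16842752 (.cut .d (-16384) (.cut .s 11669504 (.pos 45 .mp ⟨⟨85035566, 0, 0, 0, 0, 25167425, 0, 0, 0, ⟨0, 0⟩, 0⟩, 0, 0⟩ 0 0) (.pos 45 .mp ⟨⟨85785748, 0, 0, 0, 0, 25408348, 0, 0, 0, ⟨0, 0⟩, 0⟩, 0, 0⟩ 0 0)) (.cut .l 184549 (.cut .v 16809984 (.cut .s 11669504 (.cut .s 11663360 (.pos 49 .mp ⟨⟨86869198, 0, 0, 0, 0, 20085375, 0, 0, 0, ⟨0, 0⟩, 0⟩, 0, 0⟩ 0 0) (.pos 49 .mp ⟨⟨87265922, 0, 0, 0, 0, 20152399, 0, 0, 0, ⟨0, 0⟩, 0⟩, 0, 0⟩ 0 0)) (.cut .s 11675648 (.pos 49 .mp ⟨⟨87667302, 0, 0, 0, 0, 20214627,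 0, 0, 0, ⟨0, 0⟩, 0⟩, 0, 0⟩ 0 0) (.pos 49 .mp ⟨⟨88073400, 0, 0, 0, 0, 20271954, 0, 0, 0, ⟨0, 0⟩, 0⟩, 0, 0⟩ 0 0))) (.pos 50 .mp ⟨⟨96206573, 0, 0, 0, 0, 6614853, 0, 0, 0, ⟨0, 0⟩, 0⟩, 0, 0⟩ 0 0)) (.pos 45 .mp ⟨⟨86923266, 0, 0, 0, 0, 0, 0, 0, 0, ⟨0, 0⟩, 0⟩, 0, 0⟩ 0 0))) (.pos 46 .mp ⟨⟨95451384, 0, 0, 0, 0, 8415055, 0, 0, 0, ⟨0, 0⟩, 0⟩, 0, 0⟩ 0 0))) (.cut .s 11706368 (.cut .v 16842752 (.cut .d (-16384) (.cut .s 11694080 (.pos 45 .mp ⟨⟨86542155, 0, 0, 0, 0, 25654175, 0, 0, 0, ⟨0, 0⟩, 0⟩, 0, 0⟩ 0 0) (.pos 45 .mp ⟨⟨87304827, 0, 0, 0, 0, 25904946, 0, 0, 0, ⟨0, 0⟩, 0⟩, 0, 0⟩ 0 0)) (.cut .l 184549 (.cut .v 16809984 (.cut .s 11694080 (.cut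 .s 11687936 (.pos 49 .mp ⟨⟨88484273, 0, 0, 0, 0, 20324273, 0, 0, 0, ⟨0, 0⟩, 0⟩, 0, 0⟩ 0 0) (.pos 49 .mp ⟨⟨88899983, 0, 0, 0, 0, 20371477, 0, 0, 0, ⟨0, 0⟩, 0⟩, 0, 0⟩ 0 0)) (.cut .s 11700224 (.pos 49 .mp ⟨⟨89320588, 0, 0, 0, 0, 20413460, 0, 0, 0, ⟨0, 0⟩, 0⟩, 0, 0⟩ 0 0) (.pos 49 .mp ⟨⟨89746147, 0, 0, 0, 0, 20450114, 0, 0, 0, ⟨0, 0⟩, 0⟩, 0, 0⟩ 0 0))) (.pos 50 .mp ⟨⟨98008535, 0, 0, 0, 0, 6575586, 0, 0, 0, ⟨0, 0⟩, 0⟩, 0, 0⟩ 0 0)) (.pos 45 .mp ⟨⟨88471119, 0, 0, 0, 0, 0, 0, 0, 0, ⟨0, 0⟩, 0⟩, 0, 0⟩ 0 0))) (.pos 46 .mp ⟨⟨97239241, 0, 0, 0, 0, 8412097, 0, 0, 0, ⟨0, 0⟩, 0⟩, 0, 0⟩ 0 0)) (.cut .v 16842752 (.cut .d (-16384) (.cut .s 11718656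 (.pos 45 .mp ⟨⟨88073807, 0, 0, 0, 0, 26160699, 0, 0, 0, ⟨0, 0⟩, 0⟩, 0, 0⟩ 0 0) (.pos 45 .mp ⟨⟨88849138, 0, 0, 0, 0, 26421476, 0, 0, 0, ⟨0, 0⟩, 0⟩, 0, 0⟩ 0 0)) (.cut .l 184549 (.cut .v 16809984 (.cut .l 92274 (.cut .d (-8192) (.pos 49 .mp ⟨⟨89288448, 0, 0, 0, 0, 25969302, 0, 0, 0, ⟨0, 0⟩, 0⟩, 0, 0⟩ 0 0) (.cut .v 16793600 (.cut .s 11718656 (.cut .s 11712512 (.pos 83 .mp ⟨⟨90630037, 0, 0, 0, 0, 19605576, 0, 0, 0, ⟨0, 0⟩, 0⟩, 0, 0⟩ 0 0) (.pos 83 .mp ⟨⟨91044819, 0, 0, 0, 0, 19670963, 0, 0, 0, ⟨0, 0⟩, 0⟩, 0, 0⟩ 0 0)) (.pos 83 .mp ⟨⟨90290293, 0, 0, 0, 0, 22037571, 0, 0, 0, ⟨0, 0⟩, 0⟩, 0, 0⟩ 0 0)) (.pos 84 .mp ⟨⟨100265823, 0, 0, 0, 0,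 5547470, 0, 0, 0, ⟨0, 0⟩, 0⟩, 0, 0⟩ 0 0))) (.pos 49 .mp ⟨⟨88209789, 0, 0, 0, 0, 24167838, 0, 0, 0, ⟨0, 0⟩, 0⟩, 0, 0⟩ 0 0)) (.pos 50 .mp ⟨⟨99876237, 0, 0, 0, 0, 6480830, 0, 0, 0, ⟨0, 0⟩, 0⟩, 0, 0⟩ 0 0)) (.pos 45 .mp ⟨⟨90044120, 0, 0, 0, 0, 0, 0, 0, 0, ⟨0, 0⟩, 0⟩, 0, 0⟩ 0 0))) (.pos 46 .mp ⟨⟨99092598, 0, 0, 0, 0, 8354370, 0, 0, 0, ⟨0, 0⟩, 0⟩, 0, 0⟩ 0 0)))) (.pos 36 .mp ⟨⟨102986121, 0, 0, 0, 0, 0, 0, 0, 0, ⟨0, 0⟩, 0⟩, 0, 0⟩ 0 0))))) (.cut .s 11534336 (.pos 34 .mp ⟨⟨92510457, 0, 0, 0, 0, 0, 0, 0, 0, ⟨0, 0⟩, 0⟩, 0, 0⟩ 0 0) (.pos 34 .mp ⟨⟨106177608, 0, 0, 0, 0, 0, 0, 0, 0, ⟨0, 0⟩, 0⟩, 0, 0⟩ 0 0))))))) (.void 32 ⟨⟨100000, 0, 0, 0, 0,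 0, 0, 0, 0, ⟨0, 0⟩, 0⟩, 0, 0⟩ 0 0))) (.void 30 ⟨⟨100000, 0, 0, 0, 0, 0, 0, 0, 0, ⟨0, 0⟩, 0⟩, 0, 0⟩ 0 0))) (.void 28 ⟨⟨100000, 0, 0, 0, 0, 0, 0, 0, 0, ⟨0, 0⟩, 0⟩, 0, 0⟩ 0 0))) (.void 26 ⟨⟨100000, 0, 0, 0, 0, 0, 0, 0, 0, ⟨0, 0⟩, 0⟩, 0, 0⟩ 0 0))) (.void 24 ⟨⟨100000, 0, 0, 0, 0, 0, 0, 0, 0, ⟨0, 0⟩, 0⟩, 0, 0⟩ 0 0)) (.void 91 ⟨⟨100000, 0, 0, 0, 0, 0, 0, 0, 0, ⟨0, 0⟩, 0⟩, 0, 0⟩ 0 0))) (.cut .v 16777216 (.cut .v 8388608 (.cut .v 4194304 (.void 4 ⟨⟨0, 0, 66667, 0, 0, 0, 0, 0, 0, ⟨0, 0⟩, 0⟩, 0, 33333⟩ 0 0) (.pos 5 .pm ⟨⟨0, 0, 1546120, 0, 0, 0, 0, 0, 0, ⟨0, 0⟩, 0⟩, 0, 435178⟩ 0 0)) (.pos 3 .pm ⟨⟨0, 0, 0, 0, 0, 0, 0, 0, 0, ⟨0, 0⟩, 0⟩, 0, 0⟩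 0 0)) (.cut .d 4024593 (.cut .v 33554432 (.cut .d 2012296 (.cut .v 25165824 (.cut .d 1006148 (.cut .v 20971520 (.cut .d 503074 (.cut .v 18874368 (.cut .d 251537 (.cut .v 17825792 (.cut .d 125768 (.cut .v 17301504 (.cut .d 62884 (.cut .s 11534336 (.cut .s 11436032 (.pos 31 .pp ⟨⟨75706750, 0, 0, 0, 0, 0, 0, 0, 0, ⟨0, 0⟩, 0⟩, 530184, 0⟩ 0 0) (.pos 31 .pp ⟨⟨80817347, 0, 0, 0, 0, 0, 0, 0, 0, ⟨0, 0⟩, 0⟩, 628849, 0⟩ 0 0)) (.cut .s 11632640 (.pos 31 .pp ⟨⟨86373077, 0, 0, 0, 0, 0, 0, 0, 0, ⟨0, 0⟩, 0⟩, 725065, 0⟩ 0 0) (.pos 31 .pp ⟨⟨92503513, 0, 0, 0, 0, 0, 0, 0, 0, ⟨0, 0⟩, 0⟩, 795549, 0⟩ 0 0))) (.pos 31 .pp ⟨⟨68416518, 0, 0, 0, 0, 0, 0,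 0, 0, ⟨0, 0⟩, 0⟩, 0, 101003⟩ 0 0)) (.cut .s 11534336 (.pos 32 .pp ⟨⟨89120344, 0, 0, 0, 0, 0, 0, 0, 0, ⟨0, 0⟩, 0⟩, 0, 0⟩ 0 0) (.cut .s 11632640 (.pos 32 .pp ⟨⟨98353275, 0, 0, 0, 0, 0, 0, 0, 0, ⟨0, 0⟩, 0⟩, 0, 0⟩ 0 0) (.pos 32 .pp ⟨⟨105332021, 0, 0, 0, 0, 0, 0, 0, 0, ⟨0, 0⟩, 0⟩, 0, 0⟩ 0 0)))) (.pos 29 .pp ⟨⟨68795402, 0, 0, 0, 0, 0, 0, 0, 0, ⟨0, 0⟩, 0⟩, 0, 97194⟩ 0 0)) (.cut .d 125768 (.pos 30 .pp ⟨⟨115417448, 0, 0, 0, 0, 0, 0, 0, 0, ⟨0, 0⟩, 0⟩, 0, 0⟩ 0 0) (.cut .v 18350080 (.pos 59 .pp ⟨⟨88689155, 0, 0, 0, 0, 0, 0, 0, 0, ⟨0, 0⟩, 0⟩, 0, 0⟩ 0 0) (.pos 60 .pp ⟨⟨102676190, 0, 0, 0, 0, 0, 0, 0, 0, ⟨0, 0⟩, 0⟩, 0, 0⟩ 0 0)))) (.pos 27 .pp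 ⟨⟨67566718, 0, 0, 0, 0, 0, 0, 0, 0, ⟨0, 0⟩, 0⟩, 0, 212425⟩ 0 0)) (.cut .d 251537 (.pos 28 .pp ⟨⟨143406689, 0, 0, 0, 0, 0, 0, 0, 0, ⟨0, 0⟩, 0⟩, 0, 0⟩ 0 0) (.cut .v 19922944 (.pos 53 .pp ⟨⟨97403119, 0, 0, 0, 0, 0, 0, 0, 0, ⟨0, 0⟩, 0⟩, 0, 0⟩ 0 0) (.cut .d 377305 (.pos 54 .pp ⟨⟨132560153, 0, 0, 0, 0, 0, 0, 0, 0, ⟨0, 0⟩, 0⟩, 0, 0⟩ 0 0) (.pos 54 .pp ⟨⟨107416511, 0, 0, 0, 0, 0, 0, 0, 0, ⟨0, 0⟩, 0⟩, 0, 0⟩ 0 0))))) (.pos 25 .pp ⟨⟨0, 0, 0, 0, 0, 0, 0, 0, 0, ⟨0, 0⟩, 0⟩, 0, 876495⟩ 0 0)) (.cut .d 503074 (.cut .v 23068672 (.cut .v 22020096 (.cut .d 251537 (.void 57 ⟨⟨0, 0, 0, 0, 0, 0, 0, 0, 0, ⟨0, 0⟩, 0⟩, 100000, 0⟩ 0 0) (.cut .d 377305 (.void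 57 ⟨⟨100000, 0, 0, 0, 0, 0, 0, 0, 0, ⟨0, 0⟩, 0⟩, 0, 0⟩ 0 0) (.pos 57 .pp ⟨⟨139162691, 0, 0, 0, 0, 0, 0, 0, 0, ⟨0, 0⟩, 0⟩, 0, 0⟩ 0 0))) (.pos 58 .pp ⟨⟨176894811, 0, 0, 0, 0, 0, 0, 0, 0, ⟨0, 0⟩, 0⟩, 0, 0⟩ 0 0)) (.void 56 ⟨⟨0, 0, 0, 0, 0, 0, 0, 0, 0, ⟨0, 0⟩, 0⟩, 100000, 0⟩ 0 0)) (.cut .d 754611 (.cut .v 23068672 (.cut .v 22020096 (.pos 57 .pp ⟨⟨109381105, 0, 0, 0, 0, 0, 241433, 0, 0, ⟨0, 0⟩, 0⟩, 0, 0⟩ 0 0) (.cut .d 628842 (.cut .d 565958 (.pos 58 .pp ⟨⟨151958416, 0, 0, 0, 0, 0, 0, 0, 0, ⟨0, 0⟩, 0⟩, 0, 0⟩ 0 0) (.cut .s 11534336 (.pos 58 .pp ⟨⟨132043006, 0, 0, 0, 0, 0, 0, 0, 0, ⟨0, 0⟩, 0⟩, 0, 0⟩ 0 0) (.pos 58 .pp ⟨⟨143736419, 0, 0,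 0, 0, 0, 0, 0, 0, ⟨0, 0⟩, 0⟩, 0, 0⟩ 0 0))) (.pos 58 .pp ⟨⟨108390258, 0, 0, 0, 0, 0, 137211, 0, 0, ⟨0, 0⟩, 0⟩, 0, 0⟩ 0 0))) (.cut .v 24117248 (.cut .d 628842 (.cut .d 565958 (.pos 61 .pp ⟨⟨119749821, 0, 0, 0, 0, 0, 0, 0, 0, ⟨0, 0⟩, 0⟩, 9237633, 0⟩ 0 0) (.cut .s 11534336 (.cut .v 23592960 (.pos 63 .pp ⟨⟨141228095, 0, 0, 0, 0, 0, 0, 0, 0, ⟨0, 0⟩, 0⟩, 1636218, 0⟩ 0 0) (.void 64 ⟨⟨0, 0, 0, 0, 0, 0, 0, 0, 0, ⟨0, 0⟩, 0⟩, 100000, 0⟩ 0 0)) (.pos 61 .pp ⟨⟨28830272, 0, 0, 0, 0, 0, 0, 0, 0, ⟨0, 0⟩, 0⟩, 18363748, 0⟩ 0 0))) (.cut .s 11534336 (.cut .v 23592960 (.pos 63 .pp ⟨⟨53472921, 0, 0, 0, 0, 0, 0, 0, 0, ⟨0, 0⟩, 0⟩, 11363386, 0⟩ 0 0) (.pos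 64 .pp ⟨⟨0, 0, 0, 0, 0, 0, 0, 0, 0, ⟨0, 0⟩, 0⟩, 21107526, 0⟩ 0 0)) (.pos 61 .pp ⟨⟨0, 0, 0, 0, 0, 0, 92566, 0, 0, ⟨0, 0⟩, 0⟩, 19130601, 0⟩ 0 0))) (.pos 62 .pp ⟨⟨0, 0, 0, 0, 0, 0, 0, 0, 0, ⟨0, 0⟩, 0⟩, 26124555, 0⟩ 0 0))) (.pos 26 .pp ⟨⟨0, 0, 0, 0, 0, 0, 306296, 0, 0, ⟨0, 0⟩, 0⟩, 14733318, 0⟩ 0 0)))) (.pos 23 .pp ⟨⟨0, 0, 0, 0, 0, 0, 2339927, 0, 0, ⟨0, 0⟩, 0⟩, 0, 0⟩ 0 0)) (.cut .d 1006148 (.cut .v 29360128 (.cut .d 503074 (.void 75 ⟨⟨0, 0, 0, 0, 0, 0, 0, 0, 0, ⟨0, 0⟩, 0⟩, 100000, 0⟩ 0 0) (.pos 75 .pp ⟨⟨0, 0, 0, 0, 0, 0, 0, 0, 0, ⟨0, 0⟩, 0⟩, 28979446, 0⟩ 0 0)) (.void 76 ⟨⟨0, 0, 0, 0, 0, 0, 0, 0, 0, ⟨0, 0⟩, 0⟩, 100000, 0⟩ 0 0)) (.pos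 24 .pp ⟨⟨0, 0, 0, 0, 0, 0, 0, 0, 0, ⟨0, 0⟩, 0⟩, 20985534, 0⟩ 0 0))) (.pos 22 .pp ⟨⟨0, 0, 0, 0, 0, 0, 1893072, 0, 0, ⟨0, 0⟩, 0⟩, 6873178, 0⟩ 0 0)) (.cut .d 2012296 (.pos 91 .pp ⟨⟨0, 0, 0, 0, 0, 0, 0, 0, 0, ⟨0, 0⟩, 0⟩, 78019196, 0⟩ 0 0) (.pos 91 .pp ⟨⟨0, 0, 0, 0, 0, 0, 0, 0, 0, ⟨0, 0⟩, 0⟩, 26510777, 0⟩ 0 0))) (.pos 90 .pp ⟨⟨0, 0, 0, 0, 0, 0, 0, 0, 0, ⟨0, 0⟩, 0⟩, 0, 59011814⟩ 0 0)))),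
    by decide +kernel⟩

theorem covers17 : cell.Covers Vale.Agent.P237.Petty.Cor.Grid.N10.table row17.1 :=
  ⟨(.cut .d 0 (.cut .v 16777216 (.cut .d (-8388608) (.void 1 ⟨⟨0, 0, 0, 0, 0, 100000, 0, 0, 0, ⟨0, 0⟩, 0⟩, 0, 0⟩ 0 0) (.cut .d (-4194304) (.void 1 ⟨⟨0, 0, 0, 0, 0, 100000, 0, 0, 0, ⟨0, 0⟩, 0⟩, 0, 0⟩ 0 0) (.cut .d (-2097152) (.void 1 ⟨⟨0, 0, 0, 0, 0, 100000, 0, 0, 0, ⟨0, 0⟩, 0⟩, 0, 0⟩ 0 0) (.cut .d (-1048576) (.void 1 ⟨⟨0, 0, 0, 0, 0, 100000, 0, 0, 0, ⟨0, 0⟩, 0⟩, 0, 0⟩ 0 0) (.cut .d (-524288) (.void 1 ⟨⟨0, 0, 0, 0, 0, 100000, 0, 0, 0, ⟨0, 0⟩, 0⟩, 0, 0⟩ 0 0) (.cut .d (-262144) (.void 1 ⟨⟨0, 0, 0, 0, 0, 100000, 0, 0, 0, ⟨0, 0⟩,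 0⟩, 0, 0⟩ 0 0) (.cut .v 8388608 (.cut .v 4194304 (.void 4 ⟨⟨0, 0, 100000, 0, 0, 0, 0, 0, 0, ⟨0, 0⟩, 0⟩, 0, 0⟩ 0 0) (.pos 5 .mm ⟨⟨0, 0, 4693081, 0, 0, 47351141, 0, 0, 0, ⟨0, 0⟩, 0⟩, 0, 0⟩ 0 0)) (.pos 3 .mm ⟨⟨0, 0, 0, 0, 0, 186830945, 0, 0, 0, ⟨0, 0⟩, 0⟩, 0, 0⟩ 0 0)))))))) (.cut .v 67108864 (.cut .v 33554432 (.cut .v 25165824 (.cut .d (-8388608) (.void 23 ⟨⟨100000, 0, 0, 0, 0, 0, 0, 0, 0, ⟨0, 0⟩, 0⟩, 0, 0⟩ 0 0) (.cut .v 20971520 (.cut .d (-4194304) (.void 25 ⟨⟨100000, 0, 0, 0, 0, 0, 0, 0, 0, ⟨0, 0⟩, 0⟩, 0, 0⟩ 0 0) (.cut .v 18874368 (.cut .d (-2097152) (.void 27 ⟨⟨100000, 0, 0, 0, 0, 0, 0, 0, 0, ⟨0, 0⟩, 0⟩, 0, 0⟩ 0 0) (.cut .v 17825792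 (.cut .d (-1048576) (.void 29 ⟨⟨100000, 0, 0, 0, 0, 0, 0, 0, 0, ⟨0, 0⟩, 0⟩, 0, 0⟩ 0 0) (.cut .v 17301504 (.cut .d (-524288) (.void 31 ⟨⟨100000, 0, 0, 0, 0, 0, 0, 0, 0, ⟨0, 0⟩, 0⟩, 0, 0⟩ 0 0) (.cut .d (-262144) (.void 31 ⟨⟨100000, 0, 0, 0, 0, 0, 0, 0, 0, ⟨0, 0⟩, 0⟩, 0, 0⟩ 0 0) (.cut .d (-131072) (.void 31 ⟨⟨100000, 0, 0, 0, 0, 0, 0, 0, 0, ⟨0, 0⟩, 0⟩, 0, 0⟩ 0 0) (.cut .d (-65536) (.void 31 ⟨⟨0, 0, 0, 0, 0, 100000, 0, 0, 0, ⟨0, 0⟩, 0⟩, 0, 0⟩ 0 0) (.cut .v 17039360 (.cut .d (-32768) (.cut .v 16908288 (.pos 35 .mp ⟨⟨91907376, 0, 0, 0, 0, 101513472, 0, 0, 0, ⟨0, 0⟩, 0⟩, 0, 0⟩ 0 0) (.void 36 ⟨⟨100000, 0, 0, 0, 0, 0, 0, 0, 0, ⟨0, 0⟩, 0⟩,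 0, 0⟩ 0 0)) (.cut .s 11862016 (.cut .s 11796480 (.cut .v 16908288 (.cut .s 11763712 (.cut .v 16842752 (.cut .s 11747328 (.cut .d (-16384) (.cut .s 11739136 (.pos 45 .mp ⟨⟨89627832, 0, 0, 0, 0, 26405297, 0, 0, 0, ⟨0, 0⟩, 0⟩, 0, 0⟩ 0 0) (.pos 45 .mp ⟨⟨90153590, 0, 0, 0, 0, 26541878, 0, 0, 0, ⟨0, 0⟩, 0⟩, 0, 0⟩ 0 0)) (.cut .l 184549 (.cut .v 16809984 (.cut .s 11739136 (.pos 49 .mp ⟨⟨91306192, 0, 0, 0, 0, 21813912, 0, 0, 0, ⟨0, 0⟩, 0⟩, 0, 0⟩ 0 0) (.pos 49 .mp ⟨⟨91758480, 0, 0, 0, 0, 22079541, 0, 0, 0, ⟨0, 0⟩, 0⟩, 0, 0⟩ 0 0)) (.pos 50 .mp ⟨⟨99456254, 0, 0, 0, 0, 9592367, 0, 0, 0, ⟨0, 0⟩, 0⟩, 0, 0⟩ 0 0)) (.pos 45 .mp ⟨⟨91563568, 0, 0,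 0, 0, 0, 0, 0, 0, ⟨0, 0⟩, 0⟩, 0, 0⟩ 0 0))) (.cut .d (-16384) (.cut .s 11755520 (.pos 45 .mp ⟨⟨90682409, 0, 0, 0, 0, 26681060, 0, 0, 0, ⟨0, 0⟩, 0⟩, 0, 0⟩ 0 0) (.pos 45 .mp ⟨⟨91214304, 0, 0, 0, 0, 26822858, 0, 0, 0, ⟨0, 0⟩, 0⟩, 0, 0⟩ 0 0)) (.cut .l 184549 (.cut .v 16809984 (.cut .s 11755520 (.pos 49 .mp ⟨⟨92215924, 0, 0, 0, 0, 22343832, 0, 0, 0, ⟨0, 0⟩, 0⟩, 0, 0⟩ 0 0) (.pos 49 .mp ⟨⟨92692324, 0, 0, 0, 0, 22582340, 0, 0, 0, ⟨0, 0⟩, 0⟩, 0, 0⟩ 0 0)) (.pos 50 .mp ⟨⟨100550033, 0, 0, 0, 0, 9801457, 0, 0, 0, ⟨0, 0⟩, 0⟩, 0, 0⟩ 0 0)) (.pos 45 .mp ⟨⟨92650944, 0, 0, 0, 0, 0, 0, 0, 0, ⟨0, 0⟩, 0⟩, 0, 0⟩ 0 0)))) (.cut .s 11747328 (.pos 46 .mp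 ⟨⟨98645191, 0, 0, 0, 0, 11519830, 0, 0, 0, ⟨0, 0⟩, 0⟩, 0, 0⟩ 0 0) (.pos 46 .mp ⟨⟨99728436, 0, 0, 0, 0, 11755374, 0, 0, 0, ⟨0, 0⟩, 0⟩, 0, 0⟩ 0 0))) (.cut .v 16842752 (.cut .s 11780096 (.cut .d (-16384) (.cut .s 11771904 (.pos 45 .mp ⟨⟨91749288, 0, 0, 0, 0, 26967287, 0, 0, 0, ⟨0, 0⟩, 0⟩, 0, 0⟩ 0 0) (.pos 45 .mp ⟨⟨92287375, 0, 0, 0, 0, 27114360, 0, 0, 0, ⟨0, 0⟩, 0⟩, 0, 0⟩ 0 0)) (.cut .l 184549 (.cut .v 16809984 (.cut .s 11771904 (.pos 49 .mp ⟨⟨93202387, 0, 0, 0, 0, 22768992, 0, 0, 0, ⟨0, 0⟩, 0⟩, 0, 0⟩ 0 0) (.pos 49 .mp ⟨⟨93716581, 0, 0, 0, 0, 22956084, 0, 0, 0, ⟨0, 0⟩, 0⟩, 0, 0⟩ 0 0)) (.pos 50 .mp ⟨⟨101662742, 0, 0, 0, 0, 10008874,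 0, 0, 0, ⟨0, 0⟩, 0⟩, 0, 0⟩ 0 0)) (.pos 45 .mp ⟨⟨93586504, 0, 0, 0, 0, 20815927, 0, 0, 0, ⟨0, 0⟩, 0⟩, 0, 0⟩ 0 0))) (.cut .d (-16384) (.cut .s 11788288 (.pos 45 .mp ⟨⟨92828579, 0, 0, 0, 0, 27264093, 0, 0, 0, ⟨0, 0⟩, 0⟩, 0, 0⟩ 0 0) (.pos 45 .mp ⟨⟨93372915, 0, 0, 0, 0, 27416500, 0, 0, 0, ⟨0, 0⟩, 0⟩, 0, 0⟩ 0 0)) (.cut .l 184549 (.cut .v 16809984 (.cut .s 11788288 (.pos 49 .mp ⟨⟨94235000, 0, 0, 0, 0, 23143461, 0, 0, 0, ⟨0, 0⟩, 0⟩, 0, 0⟩ 0 0) (.pos 49 .mp ⟨⟨94757736, 0, 0, 0, 0, 23330965, 0, 0, 0, ⟨0, 0⟩, 0⟩, 0, 0⟩ 0 0)) (.pos 50 .mp ⟨⟨102795604, 0, 0, 0, 0, 10212667, 0, 0, 0, ⟨0, 0⟩, 0⟩, 0, 0⟩ 0 0)) (.pos 45 .mp ⟨⟨94696644, 0, 0, 0,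 0, 21061462, 0, 0, 0, ⟨0, 0⟩, 0⟩, 0, 0⟩ 0 0)))) (.cut .s 11780096 (.pos 46 .mp ⟨⟨100830398, 0, 0, 0, 0, 11989762, 0, 0, 0, ⟨0, 0⟩, 0⟩, 0, 0⟩ 0 0) (.pos 46 .mp ⟨⟨101952306, 0, 0, 0, 0, 12221038, 0, 0, 0, ⟨0, 0⟩, 0⟩, 0, 0⟩ 0 0)))) (.pos 36 .mp ⟨⟨108879033, 0, 0, 0, 0, 0, 0, 0, 0, ⟨0, 0⟩, 0⟩, 0, 0⟩ 0 0)) (.cut .v 16908288 (.cut .s 11829248 (.cut .v 16842752 (.cut .s 11812864 (.cut .d (-16384) (.cut .s 11804672 (.pos 45 .mp ⟨⟨93920397, 0, 0, 0, 0, 27571595, 0, 0, 0, ⟨0, 0⟩, 0⟩, 0, 0⟩ 0 0) (.pos 45 .mp ⟨⟨94471039, 0, 0, 0, 0, 27729393, 0, 0, 0, ⟨0, 0⟩, 0⟩, 0, 0⟩ 0 0)) (.cut .l 184549 (.cut .v 16809984 (.cut .d (-8192) (.pos 49 .mp ⟨⟨94141084,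 0, 0, 0, 0, 27358152, 0, 0, 0, ⟨0, 0⟩, 0⟩, 0, 0⟩ 0 0) (.cut .s 11804672 (.pos 49 .mp ⟨⟨96042882, 0, 0, 0, 0, 22028481, 0, 0, 0, ⟨0, 0⟩, 0⟩, 0, 0⟩ 0 0) (.pos 49 .mp ⟨⟨96619862, 0, 0, 0, 0, 22128718, 0, 0, 0, ⟨0, 0⟩, 0⟩, 0, 0⟩ 0 0))) (.pos 50 .mp ⟨⟨103949855, 0, 0, 0, 0, 10410860, 0, 0, 0, ⟨0, 0⟩, 0⟩, 0, 0⟩ 0 0)) (.pos 45 .mp ⟨⟨95819395, 0, 0, 0, 0, 21313746, 0, 0, 0, ⟨0, 0⟩, 0⟩, 0, 0⟩ 0 0))) (.cut .d (-16384) (.cut .s 11821056 (.pos 45 .mp ⟨⟨95024856, 0, 0, 0, 0, 27889910, 0, 0, 0, ⟨0, 0⟩, 0⟩, 0, 0⟩ 0 0) (.pos 45 .mp ⟨⟨95581861, 0, 0, 0, 0, 28053160, 0, 0, 0, ⟨0, 0⟩, 0⟩, 0, 0⟩ 0 0)) (.cut .l 184549 (.cut .v 16809984 (.cut .d (-8192)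 (.pos 49 .mp ⟨⟨95245037, 0, 0, 0, 0, 27682501, 0, 0, 0, ⟨0, 0⟩, 0⟩, 0, 0⟩ 0 0) (.cut .s 11821056 (.pos 49 .mp ⟨⟨97199272, 0, 0, 0, 0, 22232656, 0, 0, 0, ⟨0, 0⟩, 0⟩, 0, 0⟩ 0 0) (.pos 49 .mp ⟨⟨97781071, 0, 0, 0, 0, 22340392, 0, 0, 0, ⟨0, 0⟩, 0⟩, 0, 0⟩ 0 0))) (.pos 50 .mp ⟨⟨105126743, 0, 0, 0, 0, 10601453, 0, 0, 0, ⟨0, 0⟩, 0⟩, 0, 0⟩ 0 0)) (.pos 45 .mp ⟨⟨96954876, 0, 0, 0, 0, 21572422, 0, 0, 0, ⟨0, 0⟩, 0⟩, 0, 0⟩ 0 0)))) (.cut .s 11812864 (.pos 46 .mp ⟨⟨103095399, 0, 0, 0, 0, 12447223, 0, 0, 0, ⟨0, 0⟩, 0⟩, 0, 0⟩ 0 0) (.pos 46 .mp ⟨⟨104260929, 0, 0, 0, 0, 12666311, 0, 0, 0, ⟨0, 0⟩, 0⟩, 0, 0⟩ 0 0))) (.cut .v 16842752 (.cut .s 11845632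 (.cut .d (-16384) (.cut .s 11837440 (.pos 45 .mp ⟨⟨96142071, 0, 0, 0, 0, 28219157, 0, 0, 0, ⟨0, 0⟩, 0⟩, 0, 0⟩ 0 0) (.pos 45 .mp ⟨⟨96705500, 0, 0, 0, 0, 28387919, 0, 0, 0, ⟨0, 0⟩, 0⟩, 0, 0⟩ 0 0)) (.cut .l 184549 (.cut .v 16809984 (.cut .d (-8192) (.pos 49 .mp ⟨⟨96361715, 0, 0, 0, 0, 28017826, 0, 0, 0, ⟨0, 0⟩, 0⟩, 0, 0⟩ 0 0) (.cut .s 11837440 (.pos 49 .mp ⟨⟨98365219, 0, 0, 0, 0, 22452028, 0, 0, 0, ⟨0, 0⟩, 0⟩, 0, 0⟩ 0 0) (.pos 49 .mp ⟨⟨98951674, 0, 0, 0, 0, 22567665, 0, 0, 0, ⟨0, 0⟩, 0⟩, 0, 0⟩ 0 0))) (.pos 50 .mp ⟨⟨106327524, 0, 0, 0, 0, 10782421, 0, 0, 0, ⟨0, 0⟩, 0⟩, 0, 0⟩ 0 0)) (.pos 45 .mp ⟨⟨98103204, 0, 0, 0, 0, 21837128, 0, 0,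 0, ⟨0, 0⟩, 0⟩, 0, 0⟩ 0 0))) (.cut .d (-16384) (.cut .s 11853824 (.pos 45 .mp ⟨⟨97272162, 0, 0, 0, 0, 28559458, 0, 0, 0, ⟨0, 0⟩, 0⟩, 0, 0⟩ 0 0) (.pos 45 .mp ⟨⟨97842072, 0, 0, 0, 0, 28733792, 0, 0, 0, ⟨0, 0⟩, 0⟩, 0, 0⟩ 0 0)) (.cut .l 184549 (.cut .v 16809984 (.cut .d (-8192) (.pos 49 .mp ⟨⟨97491236, 0, 0, 0, 0, 28364250, 0, 0, 0, ⟨0, 0⟩, 0⟩, 0, 0⟩ 0 0) (.cut .s 11853824 (.pos 49 .mp ⟨⟨99540393, 0, 0, 0, 0, 22687408, 0, 0, 0, ⟨0, 0⟩, 0⟩, 0, 0⟩ 0 0) (.pos 49 .mp ⟨⟨100126156, 0, 0, 0, 0, 22821208, 0, 0, 0, ⟨0, 0⟩, 0⟩, 0, 0⟩ 0 0))) (.pos 50 .mp ⟨⟨107553469, 0, 0, 0, 0, 10951713, 0, 0, 0, ⟨0, 0⟩, 0⟩, 0, 0⟩ 0 0)) (.pos 45 .mp ⟨⟨99264500,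 0, 0, 0, 0, 22107501, 0, 0, 0, ⟨0, 0⟩, 0⟩, 0, 0⟩ 0 0)))) (.cut .s 11845632 (.pos 46 .mp ⟨⟨105450155, 0, 0, 0, 0, 12876275, 0, 0, 0, ⟨0, 0⟩, 0⟩, 0, 0⟩ 0 0) (.pos 46 .mp ⟨⟨106664352, 0, 0, 0, 0, 13075061, 0, 0, 0, ⟨0, 0⟩, 0⟩, 0, 0⟩ 0 0)))) (.pos 36 .mp ⟨⟨114047250, 0, 0, 0, 0, 0, 0, 0, 0, ⟨0, 0⟩, 0⟩, 0, 0⟩ 0 0))) (.cut .s 11927552 (.cut .v 16908288 (.cut .s 11894784 (.cut .v 16842752 (.cut .s 11878400 (.cut .d (-16384) (.cut .s 11870208 (.pos 45 .mp ⟨⟨98415246, 0, 0, 0, 0, 28910935, 0, 0, 0, ⟨0, 0⟩, 0⟩, 0, 0⟩ 0 0) (.pos 45 .mp ⟨⟨98991699, 0, 0, 0, 0, 29090903, 0, 0, 0, ⟨0, 0⟩, 0⟩, 0, 0⟩ 0 0)) (.cut .l 184549 (.cut .v 16809984 (.cut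 .d (-8192) (.pos 49 .mp ⟨⟨98633719, 0, 0, 0, 0, 28721894, 0, 0, 0, ⟨0, 0⟩, 0⟩, 0, 0⟩ 0 0) (.cut .s 11870208 (.pos 49 .mp ⟨⟨100710997, 0, 0, 0, 0, 22965230, 0, 0, 0, ⟨0, 0⟩, 0⟩, 0, 0⟩ 0 0) (.pos 49 .mp ⟨⟨101299184, 0, 0, 0, 0, 23111376, 0, 0, 0, ⟨0, 0⟩, 0⟩, 0, 0⟩ 0 0))) (.pos 50 .mp ⟨⟨108805857, 0, 0, 0, 0, 11107255, 0, 0, 0, ⟨0, 0⟩, 0⟩, 0, 0⟩ 0 0)) (.pos 45 .mp ⟨⟨100438884, 0, 0, 0, 0, 22383176, 0, 0, 0, ⟨0, 0⟩, 0⟩, 0, 0⟩ 0 0))) (.cut .d (-16384) (.cut .s 11886592 (.pos 45 .mp ⟨⟨99571446, 0, 0, 0, 0, 29273711, 0, 0, 0, ⟨0, 0⟩, 0⟩, 0, 0⟩ 0 0) (.pos 45 .mp ⟨⟨100154502, 0, 0, 0, 0, 29459376, 0, 0, 0, ⟨0, 0⟩, 0⟩, 0, 0⟩ 0 0)) (.cut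 .l 184549 (.cut .v 16809984 (.cut .d (-8192) (.pos 49 .mp ⟨⟨99789284, 0, 0, 0, 0, 29090884, 0, 0, 0, ⟨0, 0⟩, 0⟩, 0, 0⟩ 0 0) (.cut .s 11886592 (.pos 49 .mp ⟨⟨101890733, 0, 0, 0, 0, 23259639, 0, 0, 0, ⟨0, 0⟩, 0⟩, 0, 0⟩ 0 0) (.pos 49 .mp ⟨⟨102485659, 0, 0, 0, 0, 23410008, 0, 0, 0, ⟨0, 0⟩, 0⟩, 0, 0⟩ 0 0))) (.pos 50 .mp ⟨⟨110085982, 0, 0, 0, 0, 11246944, 0, 0, 0, ⟨0, 0⟩, 0⟩, 0, 0⟩ 0 0)) (.pos 45 .mp ⟨⟨101626482, 0, 0, 0, 0, 22663784, 0, 0, 0, ⟨0, 0⟩, 0⟩, 0, 0⟩ 0 0)))) (.cut .s 11878400 (.pos 46 .mp ⟨⟨107904804, 0, 0, 0, 0, 13260588, 0, 0, 0, ⟨0, 0⟩, 0⟩, 0, 0⟩ 0 0) (.pos 46 .mp ⟨⟨109172806, 0, 0, 0, 0, 13430752, 0, 0, 0, ⟨0, 0⟩, 0⟩,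 0, 0⟩ 0 0))) (.cut .v 16842752 (.cut .s 11911168 (.cut .d (-16384) (.cut .s 11902976 (.pos 45 .mp ⟨⟨100740883, 0, 0, 0, 0, 29647913, 0, 0, 0, ⟨0, 0⟩, 0⟩, 0, 0⟩ 0 0) (.pos 45 .mp ⟨⟨101330605, 0, 0, 0, 0, 29839338, 0, 0, 0, ⟨0, 0⟩, 0⟩, 0, 0⟩ 0 0)) (.cut .l 184549 (.cut .v 16809984 (.cut .d (-8192) (.pos 49 .mp ⟨⟨100958055, 0, 0, 0, 0, 29471344, 0, 0, 0, ⟨0, 0⟩, 0⟩, 0, 0⟩ 0 0) (.cut .s 11902976 (.pos 49 .mp ⟨⟨103083978, 0, 0, 0, 0, 23562475, 0, 0, 0, ⟨0, 0⟩, 0⟩, 0, 0⟩ 0 0) (.pos 49 .mp ⟨⟨103685706, 0, 0, 0, 0, 23717029, 0, 0, 0, ⟨0, 0⟩, 0⟩, 0, 0⟩ 0 0))) (.pos 50 .mp ⟨⟨111395148, 0, 0, 0, 0, 11368652, 0, 0, 0, ⟨0, 0⟩, 0⟩, 0, 0⟩ 0 0))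 (.pos 45 .mp ⟨⟨102827416, 0, 0, 0, 0, 22948955, 0, 0, 0, ⟨0, 0⟩, 0⟩, 0, 0⟩ 0 0))) (.cut .d (-16384) (.cut .s 11919360 (.pos 45 .mp ⟨⟨101923683, 0, 0, 0, 0, 30033667, 0, 0, 0, ⟨0, 0⟩, 0⟩, 0, 0⟩ 0 0) (.pos 45 .mp ⟨⟨102520133, 0, 0, 0, 0, 30230916, 0, 0, 0, ⟨0, 0⟩, 0⟩, 0, 0⟩ 0 0)) (.cut .l 184549 (.cut .v 16809984 (.cut .d (-8192) (.pos 49 .mp ⟨⟨102140154, 0, 0, 0, 0, 29863402, 0, 0, 0, ⟨0, 0⟩, 0⟩, 0, 0⟩ 0 0) (.cut .s 11919360 (.pos 49 .mp ⟨⟨104290859, 0, 0, 0, 0, 23873663, 0, 0, 0, ⟨0, 0⟩, 0⟩, 0, 0⟩ 0 0) (.pos 49 .mp ⟨⟨104899454, 0, 0, 0, 0, 24032366, 0, 0, 0, ⟨0, 0⟩, 0⟩, 0, 0⟩ 0 0))) (.pos 50 .mp ⟨⟨112734671, 0, 0, 0, 0, 11470224,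 0, 0, 0, ⟨0, 0⟩, 0⟩, 0, 0⟩ 0 0)) (.pos 45 .mp ⟨⟨104041814, 0, 0, 0, 0, 23238315, 0, 0, 0, ⟨0, 0⟩, 0⟩, 0, 0⟩ 0 0)))) (.cut .s 11911168 (.pos 46 .mp ⟨⟨110469669, 0, 0, 0, 0, 13583419, 0, 0, 0, ⟨0, 0⟩, 0⟩, 0, 0⟩ 0 0) (.pos 46 .mp ⟨⟨111796711, 0, 0, 0, 0, 13716431, 0, 0, 0, ⟨0, 0⟩, 0⟩, 0, 0⟩ 0 0)))) (.pos 36 .mp ⟨⟨119501667, 0, 0, 0, 0, 0, 0, 0, 0, ⟨0, 0⟩, 0⟩, 0, 0⟩ 0 0)) (.cut .v 16908288 (.cut .s 11960320 (.cut .v 16842752 (.cut .s 11943936 (.cut .d (-16384) (.cut .s 11935744 (.pos 45 .mp ⟨⟨103119971, 0, 0, 0, 0, 30431103, 0, 0, 0, ⟨0, 0⟩, 0⟩, 0, 0⟩ 0 0) (.pos 45 .mp ⟨⟨103723212, 0, 0, 0, 0, 30634242, 0, 0, 0, ⟨0, 0⟩, 0⟩, 0, 0⟩ 0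 0)) (.cut .l 184549 (.cut .v 16809984 (.cut .d (-8192) (.pos 49 .mp ⟨⟨103335707, 0, 0, 0, 0, 30267188, 0, 0, 0, ⟨0, 0⟩, 0⟩, 0, 0⟩ 0 0) (.cut .s 11935744 (.pos 49 .mp ⟨⟨105511506, 0, 0, 0, 0, 24193128, 0, 0, 0, ⟨0, 0⟩, 0⟩, 0, 0⟩ 0 0) (.pos 49 .mp ⟨⟨106127032, 0, 0, 0, 0, 24355940, 0, 0, 0, ⟨0, 0⟩, 0⟩, 0, 0⟩ 0 0))) (.pos 50 .mp ⟨⟨114105880, 0, 0, 0, 0, 11549478, 0, 0, 0, ⟨0, 0⟩, 0⟩, 0, 0⟩ 0 0)) (.pos 45 .mp ⟨⟨105269804, 0, 0, 0, 0, 23531488, 0, 0, 0, ⟨0, 0⟩, 0⟩, 0, 0⟩ 0 0))) (.cut .d (-16384) (.cut .s 11952128 (.pos 45 .mp ⟨⟨104329874, 0, 0, 0, 0, 30840351, 0, 0, 0, ⟨0, 0⟩, 0⟩, 0, 0⟩ 0 0) (.pos 45 .mp ⟨⟨104939972, 0, 0, 0, 0, 31049446,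 0, 0, 0, ⟨0, 0⟩, 0⟩, 0, 0⟩ 0 0)) (.cut .l 184549 (.cut .v 16809984 (.cut .d (-8192) (.pos 49 .mp ⟨⟨104544843, 0, 0, 0, 0, 30682833, 0, 0, 0, ⟨0, 0⟩, 0⟩, 0, 0⟩ 0 0) (.cut .s 11952128 (.pos 49 .mp ⟨⟨106746049, 0, 0, 0, 0, 24520791, 0, 0, 0, ⟨0, 0⟩, 0⟩, 0, 0⟩ 0 0) (.pos 49 .mp ⟨⟨107368573, 0, 0, 0, 0, 24687671, 0, 0, 0, ⟨0, 0⟩, 0⟩, 0, 0⟩ 0 0))) (.pos 50 .mp ⟨⟨115510118, 0, 0, 0, 0, 11604204, 0, 0, 0, ⟨0, 0⟩, 0⟩, 0, 0⟩ 0 0)) (.pos 45 .mp ⟨⟨106511516, 0, 0, 0, 0, 23828093, 0, 0, 0, ⟨0, 0⟩, 0⟩, 0, 0⟩ 0 0)))) (.cut .s 11943936 (.pos 46 .mp ⟨⟨113155265, 0, 0, 0, 0, 13827602, 0, 0, 0, ⟨0, 0⟩, 0⟩, 0, 0⟩ 0 0) (.pos 46 .mp ⟨⟨114546679, 0,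 0, 0, 0, 13914717, 0, 0, 0, ⟨0, 0⟩, 0⟩, 0, 0⟩ 0 0))) (.cut .v 16842752 (.cut .s 11976704 (.cut .d (-16384) (.cut .s 11968512 (.pos 45 .mp ⟨⟨105553523, 0, 0, 0, 0, 31261543, 0, 0, 0, ⟨0, 0⟩, 0⟩, 0, 0⟩ 0 0) (.pos 45 .mp ⟨⟨106170542, 0, 0, 0, 0, 31476661, 0, 0, 0, ⟨0, 0⟩, 0⟩, 0, 0⟩ 0 0)) (.cut .l 184549 (.cut .v 16809984 (.cut .d (-8192) (.pos 49 .mp ⟨⟨105767689, 0, 0, 0, 0, 31110469, 0, 0, 0, ⟨0, 0⟩, 0⟩, 0, 0⟩ 0 0) (.cut .s 11968512 (.pos 49 .mp ⟨⟨107994620, 0, 0, 0, 0, 24856569, 0, 0, 0, ⟨0, 0⟩, 0⟩, 0, 0⟩ 0 0) (.pos 49 .mp ⟨⟨108612161, 0, 0, 0, 0, 25050505, 0, 0, 0, ⟨0, 0⟩, 0⟩, 0, 0⟩ 0 0))) (.pos 50 .mp ⟨⟨116948739, 0, 0, 0, 0,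 11632163, 0, 0, 0, ⟨0, 0⟩, 0⟩, 0, 0⟩ 0 0)) (.pos 45 .mp ⟨⟨107767081, 0, 0, 0, 0, 24127749, 0, 0, 0, ⟨0, 0⟩, 0⟩, 0, 0⟩ 0 0))) (.cut .d (-16384) (.cut .s 11984896 (.pos 45 .mp ⟨⟨106791048, 0, 0, 0, 0, 31694815, 0, 0, 0, ⟨0, 0⟩, 0⟩, 0, 0⟩ 0 0) (.pos 45 .mp ⟨⟨107415056, 0, 0, 0, 0, 31916023, 0, 0, 0, ⟨0, 0⟩, 0⟩, 0, 0⟩ 0 0)) (.cut .l 184549 (.cut .v 16809984 (.cut .d (-8192) (.pos 49 .mp ⟨⟨107004378, 0, 0, 0, 0, 31550231, 0, 0, 0, ⟨0, 0⟩, 0⟩, 0, 0⟩ 0 0) (.cut .s 11984896 (.pos 49 .mp ⟨⟨109230834, 0, 0, 0, 0, 25251092, 0, 0, 0, ⟨0, 0⟩, 0⟩, 0, 0⟩ 0 0) (.pos 49 .mp ⟨⟨109850954, 0, 0, 0, 0, 25457753, 0, 0, 0, ⟨0, 0⟩, 0⟩, 0, 0⟩ 0 0))) (.pos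 50 .mp ⟨⟨118423111, 0, 0, 0, 0, 11631088, 0, 0, 0, ⟨0, 0⟩, 0⟩, 0, 0⟩ 0 0)) (.pos 45 .mp ⟨⟨109036634, 0, 0, 0, 0, 24430071, 0, 0, 0, ⟨0, 0⟩, 0⟩, 0, 0⟩ 0 0)))) (.cut .s 11976704 (.pos 46 .mp ⟨⟨115972309, 0, 0, 0, 0, 13975534, 0, 0, 0, ⟨0, 0⟩, 0⟩, 0, 0⟩ 0 0) (.pos 46 .mp ⟨⟨117433529, 0, 0, 0, 0, 14007781, 0, 0, 0, ⟨0, 0⟩, 0⟩, 0, 0⟩ 0 0)))) (.pos 36 .mp ⟨⟨125243446, 0, 0, 0, 0, 0, 0, 0, 0, ⟨0, 0⟩, 0⟩, 0, 0⟩ 0 0))))) (.pos 34 .mp ⟨⟨127032619, 0, 0, 0, 0, 0, 0, 0, 0, ⟨0, 0⟩, 0⟩, 0, 0⟩ 0 0)))))) (.void 32 ⟨⟨100000, 0, 0, 0, 0, 0, 0, 0, 0, ⟨0, 0⟩, 0⟩, 0, 0⟩ 0 0))) (.void 30 ⟨⟨100000, 0, 0, 0, 0, 0, 0, 0, 0, ⟨0, 0⟩, 0⟩, 0, 0⟩ 0 0))) (.void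 28 ⟨⟨100000, 0, 0, 0, 0, 0, 0, 0, 0, ⟨0, 0⟩, 0⟩, 0, 0⟩ 0 0))) (.void 26 ⟨⟨100000, 0, 0, 0, 0, 0, 0, 0, 0, ⟨0, 0⟩, 0⟩, 0, 0⟩ 0 0))) (.void 24 ⟨⟨100000, 0, 0, 0, 0, 0, 0, 0, 0, ⟨0, 0⟩, 0⟩, 0, 0⟩ 0 0)) (.void 91 ⟨⟨100000, 0, 0, 0, 0, 0, 0, 0, 0, ⟨0, 0⟩, 0⟩, 0, 0⟩ 0 0)) (.void 112 ⟨⟨100000, 0, 0, 0, 0, 0, 0, 0, 0, ⟨0, 0⟩, 0⟩, 0, 0⟩ 0 0))) (.cut .v 16777216 (.cut .v 8388608 (.cut .v 4194304 (.void 4 ⟨⟨0, 0, 66667, 0, 0, 0, 0, 0, 0, ⟨0, 0⟩, 0⟩, 0, 33333⟩ 0 0) (.pos 5 .pm ⟨⟨0, 0, 2769199, 0, 0, 0, 0, 0, 0, ⟨0, 0⟩, 0⟩, 0, 369991⟩ 0 0)) (.pos 3 .pm ⟨⟨0, 0, 0, 0, 0, 0, 0, 0, 0, ⟨0, 0⟩, 0⟩, 0, 0⟩ 0 0)) (.cut .v 67108864 (.cut .d 3608508 (.cut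 .v 33554432 (.cut .d 1804254 (.cut .v 25165824 (.cut .d 902127 (.cut .v 20971520 (.cut .d 451063 (.cut .v 18874368 (.cut .d 225531 (.cut .v 17825792 (.cut .d 112765 (.cut .d 56382 (.cut .v 17301504 (.cut .d 28191 (.cut .v 17039360 (.cut .s 11862016 (.pos 33 .pp ⟨⟨100075438, 0, 0, 0, 0, 0, 0, 0, 0, ⟨0, 0⟩, 0⟩, 606896, 0⟩ 0 0) (.pos 33 .pp ⟨⟨109113547, 0, 0, 0, 0, 0, 0, 0, 0, ⟨0, 0⟩, 0⟩, 802534, 0⟩ 0 0)) (.pos 34 .pp ⟨⟨115863026, 0, 0, 0, 0, 0, 0, 0, 0, ⟨0, 0⟩, 0⟩, 0, 0⟩ 0 0)) (.pos 31 .pp ⟨⟨100792100, 0, 0, 0, 0, 0, 0, 0, 0, ⟨0, 0⟩, 0⟩, 0, 18325⟩ 0 0)) (.pos 32 .pp ⟨⟨124437808, 0, 0, 0, 0, 0, 0, 0, 0, ⟨0, 0⟩, 0⟩, 0, 0⟩ 0 0)) (.pos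 29 .pp ⟨⟨103923248, 0, 0, 0, 0, 0, 0, 0, 0, ⟨0, 0⟩, 0⟩, 0, 0⟩ 0 0)) (.pos 29 .pp ⟨⟨88433900, 0, 0, 0, 0, 0, 0, 0, 0, ⟨0, 0⟩, 0⟩, 0, 156635⟩ 0 0)) (.cut .d 112765 (.pos 30 .pp ⟨⟨140104071, 0, 0, 0, 0, 0, 0, 0, 0, ⟨0, 0⟩, 0⟩, 0, 0⟩ 0 0) (.pos 30 .pp ⟨⟨121302680, 0, 0, 0, 0, 0, 0, 0, 0, ⟨0, 0⟩, 0⟩, 0, 0⟩ 0 0))) (.pos 27 .pp ⟨⟨0, 0, 0, 0, 0, 0, 0, 0, 0, ⟨0, 0⟩, 0⟩, 0, 783510⟩ 0 0)) (.cut .d 225531 (.pos 28 .pp ⟨⟨172478953, 0, 0, 0, 0, 0, 0, 0, 0, ⟨0, 0⟩, 0⟩, 0, 0⟩ 0 0) (.cut .v 19922944 (.pos 53 .pp ⟨⟨126261332, 0, 0, 0, 0, 0, 0, 0, 0, ⟨0, 0⟩, 0⟩, 0, 0⟩ 0 0) (.cut .d 338297 (.pos 54 .pp ⟨⟨161782557, 0, 0, 0, 0, 0, 0, 0, 0, ⟨0, 0⟩,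 0⟩, 0, 0⟩ 0 0) (.pos 54 .pp ⟨⟨138159056, 0, 0, 0, 0, 0, 0, 0, 0, ⟨0, 0⟩, 0⟩, 0, 0⟩ 0 0))))) (.pos 25 .pp ⟨⟨0, 0, 0, 0, 0, 0, 0, 0, 0, ⟨0, 0⟩, 0⟩, 0, 822202⟩ 0 0)) (.cut .d 451063 (.cut .v 23068672 (.cut .v 22020096 (.cut .d 225531 (.void 57 ⟨⟨0, 0, 0, 0, 0, 0, 0, 0, 0, ⟨0, 0⟩, 0⟩, 100000, 0⟩ 0 0) (.pos 57 .pp ⟨⟨179381274, 0, 0, 0, 0, 0, 0, 0, 0, ⟨0, 0⟩, 0⟩, 0, 0⟩ 0 0)) (.pos 58 .pp ⟨⟨213741233, 0, 0, 0, 0, 0, 0, 0, 0, ⟨0, 0⟩, 0⟩, 0, 0⟩ 0 0)) (.void 56 ⟨⟨0, 0, 0, 0, 0, 0, 0, 0, 0, ⟨0, 0⟩, 0⟩, 100000, 0⟩ 0 0)) (.cut .d 676595 (.cut .v 23068672 (.cut .v 22020096 (.pos 57 .pp ⟨⟨143946622, 0, 0, 0, 0, 0, 0, 0, 0, ⟨0, 0⟩, 0⟩, 0, 0⟩ 0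 0) (.cut .d 563829 (.cut .d 507446 (.pos 58 .pp ⟨⟨191335226, 0, 0, 0, 0, 0, 0, 0, 0, ⟨0, 0⟩, 0⟩, 0, 0⟩ 0 0) (.pos 58 .pp ⟨⟨171907056, 0, 0, 0, 0, 0, 0, 0, 0, ⟨0, 0⟩, 0⟩, 0, 0⟩ 0 0)) (.pos 58 .pp ⟨⟨150876070, 0, 0, 0, 0, 0, 21884, 0, 0, ⟨0, 0⟩, 0⟩, 0, 0⟩ 0 0))) (.cut .d 563829 (.cut .v 24117248 (.cut .d 507446 (.pos 61 .pp ⟨⟨111608991, 0, 0, 0, 0, 0, 0, 0, 0, ⟨0, 0⟩, 0⟩, 15301196, 0⟩ 0 0) (.pos 61 .pp ⟨⟨53326846, 0, 0, 0, 0, 0, 0, 0, 0, ⟨0, 0⟩, 0⟩, 20023073, 0⟩ 0 0)) (.void 62 ⟨⟨0, 0, 0, 0, 0, 0, 0, 0, 0, ⟨0, 0⟩, 0⟩, 100000, 0⟩ 0 0)) (.pos 56 .pp ⟨⟨0, 0, 0, 0, 0, 0, 0, 0, 0, ⟨0, 0⟩, 0⟩, 25042609, 0⟩ 0 0))) (.pos 26 .pp ⟨⟨0, 0, 0,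 0, 0, 0, 309203, 0, 0, ⟨0, 0⟩, 0⟩, 19144750, 0⟩ 0 0)))) (.pos 23 .pp ⟨⟨0, 0, 0, 0, 0, 0, 2202549, 0, 0, ⟨0, 0⟩, 0⟩, 0, 0⟩ 0 0)) (.cut .d 902127 (.cut .v 29360128 (.cut .d 451063 (.void 75 ⟨⟨0, 0, 0, 0, 0, 0, 0, 0, 0, ⟨0, 0⟩, 0⟩, 100000, 0⟩ 0 0) (.pos 75 .pp ⟨⟨0, 0, 0, 0, 0, 0, 0, 0, 0, ⟨0, 0⟩, 0⟩, 35165034, 0⟩ 0 0)) (.void 76 ⟨⟨0, 0, 0, 0, 0, 0, 0, 0, 0, ⟨0, 0⟩, 0⟩, 100000, 0⟩ 0 0)) (.pos 24 .pp ⟨⟨0, 0, 0, 0, 0, 0, 0, 0, 0, ⟨0, 0⟩, 0⟩, 26614051, 0⟩ 0 0))) (.pos 22 .pp ⟨⟨0, 0, 0, 0, 0, 0, 1834603, 0, 0, ⟨0, 0⟩, 0⟩, 8640430, 0⟩ 0 0)) (.cut .d 1804254 (.pos 91 .pp ⟨⟨0, 0, 0, 0, 0, 0, 0, 0, 0, ⟨0, 0⟩, 0⟩, 91071334, 0⟩ 0 0) (.pos 91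 .pp ⟨⟨0, 0, 0, 0, 0, 0, 0, 0, 0, ⟨0, 0⟩, 0⟩, 33155395, 0⟩ 0 0))) (.pos 90 .pp ⟨⟨0, 0, 0, 0, 0, 0, 0, 0, 0, ⟨0, 0⟩, 0⟩, 0, 739982⟩ 0 0)) (.void 112 ⟨⟨0, 0, 0, 45712, 0, 0, 0, 0, 0, ⟨0, 0⟩, 0⟩, 54288, 0⟩ 0 0)))),
    by decide +kernel⟩

theorem covers18 : cell.Covers Vale.Agent.P237.Petty.Cor.Grid.N10.table row18.1 :=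
  ⟨(.cut .d 0 (.cut .v 16777216 (.cut .v 8388608 (.pos 2 .mm ⟨⟨0, 0, 251871996, 0, 0, 11009737, 0, 0, 0, ⟨0, 0⟩, 0⟩, 0, 0⟩ 0 0) (.cut .d (-8388608) (.void 3 ⟨⟨0, 0, 0, 0, 0, 100000, 0, 0, 0, ⟨0, 0⟩, 0⟩, 0, 0⟩ 0 0) (.cut .d (-4194304) (.void 3 ⟨⟨0, 0, 0, 0, 0, 100000, 0, 0, 0, ⟨0, 0⟩, 0⟩, 0, 0⟩ 0 0) (.cut .d (-2097152) (.void 3 ⟨⟨0, 0, 0, 0, 0, 100000, 0, 0, 0, ⟨0, 0⟩, 0⟩, 0, 0⟩ 0 0) (.cut .d (-1048576) (.void 3 ⟨⟨0, 0, 0, 0, 0, 100000, 0, 0, 0, ⟨0, 0⟩, 0⟩, 0, 0⟩ 0 0) (.cut .s 12124160 (.pos 3 .mm ⟨⟨0, 0, 0, 0, 0, 223500109, 0, 0, 0, ⟨0, 0⟩, 0⟩, 0, 0⟩ 0 0) (.pos 3 .mm ⟨⟨0, 0, 0, 0, 0, 248879422, 0, 0, 0, ⟨0, 0⟩, 0⟩, 0, 0⟩ 0 0)))))))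 (.cut .v 67108864 (.cut .v 33554432 (.cut .v 25165824 (.cut .d (-8388608) (.void 23 ⟨⟨100000, 0, 0, 0, 0, 0, 0, 0, 0, ⟨0, 0⟩, 0⟩, 0, 0⟩ 0 0) (.cut .v 20971520 (.cut .d (-4194304) (.void 25 ⟨⟨100000, 0, 0, 0, 0, 0, 0, 0, 0, ⟨0, 0⟩, 0⟩, 0, 0⟩ 0 0) (.cut .v 18874368 (.cut .d (-2097152) (.void 27 ⟨⟨100000, 0, 0, 0, 0, 0, 0, 0, 0, ⟨0, 0⟩, 0⟩, 0, 0⟩ 0 0) (.cut .v 17825792 (.cut .d (-1048576) (.void 29 ⟨⟨100000, 0, 0, 0, 0, 0, 0, 0, 0, ⟨0, 0⟩, 0⟩, 0, 0⟩ 0 0) (.cut .v 17301504 (.cut .d (-524288) (.void 31 ⟨⟨100000, 0, 0, 0, 0, 0, 0, 0, 0, ⟨0, 0⟩, 0⟩, 0, 0⟩ 0 0) (.cut .d (-262144) (.void 31 ⟨⟨100000, 0, 0, 0, 0, 0, 0, 0, 0, ⟨0, 0⟩, 0⟩,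 0, 0⟩ 0 0) (.cut .d (-131072) (.void 31 ⟨⟨100000, 0, 0, 0, 0, 0, 0, 0, 0, ⟨0, 0⟩, 0⟩, 0, 0⟩ 0 0) (.cut .d (-65536) (.void 31 ⟨⟨100000, 0, 0, 0, 0, 0, 0, 0, 0, ⟨0, 0⟩, 0⟩, 0, 0⟩ 0 0) (.cut .d (-32768) (.void 31 ⟨⟨0, 0, 0, 0, 0, 100000, 0, 0, 0, ⟨0, 0⟩, 0⟩, 0, 0⟩ 0 0) (.cut .v 17039360 (.cut .s 12124160 (.cut .s 12058624 (.cut .v 16908288 (.cut .s 12025856 (.cut .v 16842752 (.cut .s 12009472 (.cut .d (-16384) (.pos 45 .mp ⟨⟨108042795, 0, 0, 0, 0, 32934917, 0, 0, 0, ⟨0, 0⟩, 0⟩, 0, 0⟩ 0 0) (.cut .l 184549 (.cut .v 16809984 (.cut .d (-8192) (.pos 49 .mp ⟨⟨108255226, 0, 0, 0, 0, 32001578, 0, 0, 0, ⟨0, 0⟩, 0⟩, 0, 0⟩ 0 0) (.cut .s 12001280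 (.pos 49 .mp ⟨⟨110478744, 0, 0, 0, 0, 25659387, 0, 0, 0, ⟨0, 0⟩, 0⟩, 0, 0⟩ 0 0) (.pos 49 .mp ⟨⟨111149608, 0, 0, 0, 0, 25754322, 0, 0, 0, ⟨0, 0⟩, 0⟩, 0, 0⟩ 0 0))) (.pos 50 .mp ⟨⟨119503517, 0, 0, 0, 0, 12304649, 0, 0, 0, ⟨0, 0⟩, 0⟩, 0, 0⟩ 0 0)) (.pos 45 .mp ⟨⟨110479573, 0, 0, 0, 0, 24512217, 0, 0, 0, ⟨0, 0⟩, 0⟩, 0, 0⟩ 0 0))) (.cut .d (-16384) (.cut .s 12017664 (.pos 45 .mp ⟨⟨109309964, 0, 0, 0, 0, 32494037, 0, 0, 0, ⟨0, 0⟩, 0⟩, 0, 0⟩ 0 0) (.pos 45 .mp ⟨⟨109949163, 0, 0, 0, 0, 32677092, 0, 0, 0, ⟨0, 0⟩, 0⟩, 0, 0⟩ 0 0)) (.cut .l 184549 (.cut .v 16809984 (.cut .d (-8192) (.pos 49 .mp ⟨⟨109520876, 0, 0, 0, 0, 32367843, 0, 0, 0, ⟨0, 0⟩,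 0⟩, 0, 0⟩ 0 0) (.cut .s 12017664 (.pos 49 .mp ⟨⟨111823652, 0, 0, 0, 0, 25853355, 0, 0, 0, ⟨0, 0⟩, 0⟩, 0, 0⟩ 0 0) (.pos 49 .mp ⟨⟨112478482, 0, 0, 0, 0, 25999410, 0, 0, 0, ⟨0, 0⟩, 0⟩, 0, 0⟩ 0 0))) (.pos 50 .mp ⟨⟨120782025, 0, 0, 0, 0, 12639430, 0, 0, 0, ⟨0, 0⟩, 0⟩, 0, 0⟩ 0 0)) (.pos 45 .mp ⟨⟨111789373, 0, 0, 0, 0, 24803599, 0, 0, 0, ⟨0, 0⟩, 0⟩, 0, 0⟩ 0 0)))) (.cut .s 12009472 (.pos 46 .mp ⟨⟨118467956, 0, 0, 0, 0, 14768067, 0, 0, 0, ⟨0, 0⟩, 0⟩, 0, 0⟩ 0 0) (.pos 46 .mp ⟨⟨119731708, 0, 0, 0, 0, 15138975, 0, 0, 0, ⟨0, 0⟩, 0⟩, 0, 0⟩ 0 0))) (.cut .v 16842752 (.cut .s 12042240 (.cut .d (-16384) (.cut .s 12034048 (.pos 45 .mp ⟨⟨110592129,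 0, 0, 0, 0, 32863629, 0, 0, 0, ⟨0, 0⟩, 0⟩, 0, 0⟩ 0 0) (.pos 45 .mp ⟨⟨111238879, 0, 0, 0, 0, 33053667, 0, 0, 0, ⟨0, 0⟩, 0⟩, 0, 0⟩ 0 0)) (.cut .l 184549 (.cut .v 16809984 (.cut .d (-8192) (.pos 49 .mp ⟨⟨110801466, 0, 0, 0, 0, 32748055, 0, 0, 0, ⟨0, 0⟩, 0⟩, 0, 0⟩ 0 0) (.cut .s 12034048 (.pos 49 .mp ⟨⟨113134097, 0, 0, 0, 0, 26154233, 0, 0, 0, ⟨0, 0⟩, 0⟩, 0, 0⟩ 0 0) (.pos 49 .mp ⟨⟨113793573, 0, 0, 0, 0, 26311965, 0, 0, 0, ⟨0, 0⟩, 0⟩, 0, 0⟩ 0 0))) (.pos 50 .mp ⟨⟨122086023, 0, 0, 0, 0, 12968849, 0, 0, 0, ⟨0, 0⟩, 0⟩, 0, 0⟩ 0 0)) (.pos 45 .mp ⟨⟨113114293, 0, 0, 0, 0, 25104491, 0, 0, 0, ⟨0, 0⟩, 0⟩, 0, 0⟩ 0 0))) (.cut .d (-16384) (.cut .s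 12050432 (.pos 45 .mp ⟨⟨111889432, 0, 0, 0, 0, 33247227, 0, 0, 0, ⟨0, 0⟩, 0⟩, 0, 0⟩ 0 0) (.pos 45 .mp ⟨⟨112543806, 0, 0, 0, 0, 33444329, 0, 0, 0, ⟨0, 0⟩, 0⟩, 0, 0⟩ 0 0)) (.cut .l 184549 (.cut .v 16809984 (.cut .d (-8192) (.pos 49 .mp ⟨⟨112097140, 0, 0, 0, 0, 33142376, 0, 0, 0, ⟨0, 0⟩, 0⟩, 0, 0⟩ 0 0) (.cut .s 12050432 (.pos 49 .mp ⟨⟨114456927, 0, 0, 0, 0, 26472597, 0, 0, 0, ⟨0, 0⟩, 0⟩, 0, 0⟩ 0 0) (.pos 49 .mp ⟨⟨115124178, 0, 0, 0, 0, 26636118, 0, 0, 0, ⟨0, 0⟩, 0⟩, 0, 0⟩ 0 0))) (.pos 50 .mp ⟨⟨123417109, 0, 0, 0, 0, 13290319, 0, 0, 0, ⟨0, 0⟩, 0⟩, 0, 0⟩ 0 0)) (.pos 45 .mp ⟨⟨114454480, 0, 0, 0, 0, 25414446, 0, 0, 0, ⟨0, 0⟩, 0⟩, 0, 0⟩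 0 0)))) (.cut .s 12042240 (.pos 46 .mp ⟨⟨121020675, 0, 0, 0, 0, 15505203, 0, 0, 0, ⟨0, 0⟩, 0⟩, 0, 0⟩ 0 0) (.pos 46 .mp ⟨⟨122336460, 0, 0, 0, 0, 15864156, 0, 0, 0, ⟨0, 0⟩, 0⟩, 0, 0⟩ 0 0)))) (.pos 36 .mp ⟨⟨131296367, 0, 0, 0, 0, 0, 0, 0, 0, ⟨0, 0⟩, 0⟩, 0, 0⟩ 0 0)) (.cut .v 16908288 (.cut .s 12091392 (.cut .v 16842752 (.cut .s 12075008 (.cut .d (-16384) (.cut .s 12066816 (.pos 45 .mp ⟨⟨113202021, 0, 0, 0, 0, 33644994, 0, 0, 0, ⟨0, 0⟩, 0⟩, 0, 0⟩ 0 0) (.pos 45 .mp ⟨⟨113864094, 0, 0, 0, 0, 33849241, 0, 0, 0, ⟨0, 0⟩, 0⟩, 0, 0⟩ 0 0)) (.cut .l 184549 (.cut .v 16809984 (.cut .d (-8192) (.pos 49 .mp ⟨⟨113408044, 0, 0, 0, 0, 33550967, 0, 0,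 0, ⟨0, 0⟩, 0⟩, 0, 0⟩ 0 0) (.cut .s 12066816 (.pos 49 .mp ⟨⟨115795346, 0, 0, 0, 0, 26802519, 0, 0, 0, ⟨0, 0⟩, 0⟩, 0, 0⟩ 0 0) (.pos 49 .mp ⟨⟨116470450, 0, 0, 0, 0, 26971789, 0, 0, 0, ⟨0, 0⟩, 0⟩, 0, 0⟩ 0 0))) (.pos 50 .mp ⟨⟨124776894, 0, 0, 0, 0, 13601215, 0, 0, 0, ⟨0, 0⟩, 0⟩, 0, 0⟩ 0 0)) (.pos 45 .mp ⟨⟨115810083, 0, 0, 0, 0, 25733009, 0, 0, 0, ⟨0, 0⟩, 0⟩, 0, 0⟩ 0 0))) (.cut .d (-16384) (.cut .s 12083200 (.pos 45 .mp ⟨⟨114530045, 0, 0, 0, 0, 34057092, 0, 0, 0, ⟨0, 0⟩, 0⟩, 0, 0⟩ 0 0) (.pos 45 .mp ⟨⟨115199892, 0, 0, 0, 0, 34268567, 0, 0, 0, ⟨0, 0⟩, 0⟩, 0, 0⟩ 0 0)) (.cut .l 184549 (.cut .v 16809984 (.cut .d (-8192) (.pos 49 .mp ⟨⟨114734326,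 0, 0, 0, 0, 33973993, 0, 0, 0, ⟨0, 0⟩, 0⟩, 0, 0⟩ 0 0) (.cut .s 12083200 (.pos 49 .mp ⟨⟨117149508, 0, 0, 0, 0, 27143917, 0, 0, 0, ⟨0, 0⟩, 0⟩, 0, 0⟩ 0 0) (.pos 49 .mp ⟨⟨117832540, 0, 0, 0, 0, 27318894, 0, 0, 0, ⟨0, 0⟩, 0⟩, 0, 0⟩ 0 0))) (.pos 50 .mp ⟨⟨126167008, 0, 0, 0, 0, 13898881, 0, 0, 0, ⟨0, 0⟩, 0⟩, 0, 0⟩ 0 0)) (.pos 45 .mp ⟨⟨117181256, 0, 0, 0, 0, 26059727, 0, 0, 0, ⟨0, 0⟩, 0⟩, 0, 0⟩ 0 0)))) (.cut .s 12075008 (.pos 46 .mp ⟨⟨123680678, 0, 0, 0, 0, 16213208, 0, 0, 0, ⟨0, 0⟩, 0⟩, 0, 0⟩ 0 0) (.pos 46 .mp ⟨⟨125054963, 0, 0, 0, 0, 16549696, 0, 0, 0, ⟨0, 0⟩, 0⟩, 0, 0⟩ 0 0))) (.cut .v 16842752 (.cut .s 12107776 (.cut .d (-16384) (.cut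 .s 12099584 (.pos 45 .mp ⟨⟨115873655, 0, 0, 0, 0, 34483687, 0, 0, 0, ⟨0, 0⟩, 0⟩, 0, 0⟩ 0 0) (.pos 45 .mp ⟨⟨116551353, 0, 0, 0, 0, 34702474, 0, 0, 0, ⟨0, 0⟩, 0⟩, 0, 0⟩ 0 0)) (.cut .l 184549 (.cut .v 16809984 (.cut .d (-8192) (.pos 49 .mp ⟨⟨116076138, 0, 0, 0, 0, 34411619, 0, 0, 0, ⟨0, 0⟩, 0⟩, 0, 0⟩ 0 0) (.cut .s 12099584 (.pos 49 .mp ⟨⟨118519566, 0, 0, 0, 0, 27496707, 0, 0, 0, ⟨0, 0⟩, 0⟩, 0, 0⟩ 0 0) (.pos 49 .mp ⟨⟨119210606, 0, 0, 0, 0, 27677346, 0, 0, 0, ⟨0, 0⟩, 0⟩, 0, 0⟩ 0 0))) (.pos 50 .mp ⟨⟨127589094, 0, 0, 0, 0, 14180624, 0, 0, 0, ⟨0, 0⟩, 0⟩, 0, 0⟩ 0 0)) (.pos 45 .mp ⟨⟨118568153, 0, 0, 0, 0, 26394139, 0, 0, 0, ⟨0, 0⟩, 0⟩, 0,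 0⟩ 0 0))) (.cut .d (-16384) (.cut .s 12115968 (.pos 45 .mp ⟨⟨117233005, 0, 0, 0, 0, 34924948, 0, 0, 0, ⟨0, 0⟩, 0⟩, 0, 0⟩ 0 0) (.pos 45 .mp ⟨⟨117918631, 0, 0, 0, 0, 35151131, 0, 0, 0, ⟨0, 0⟩, 0⟩, 0, 0⟩ 0 0)) (.cut .l 184549 (.cut .v 16809984 (.cut .d (-8192) (.pos 49 .mp ⟨⟨117433632, 0, 0, 0, 0, 34864015, 0, 0, 0, ⟨0, 0⟩, 0⟩, 0, 0⟩ 0 0) (.cut .s 12115968 (.pos 49 .mp ⟨⟨119905679, 0, 0, 0, 0, 27860800, 0, 0, 0, ⟨0, 0⟩, 0⟩, 0, 0⟩ 0 0) (.pos 49 .mp ⟨⟨120604804, 0, 0, 0, 0, 28047057, 0, 0, 0, ⟨0, 0⟩, 0⟩, 0, 0⟩ 0 0))) (.pos 50 .mp ⟨⟨129044813, 0, 0, 0, 0, 14443714, 0, 0, 0, ⟨0, 0⟩, 0⟩, 0, 0⟩ 0 0)) (.pos 45 .mp ⟨⟨119970929, 0, 0, 0, 0,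 26735783, 0, 0, 0, ⟨0, 0⟩, 0⟩, 0, 0⟩ 0 0)))) (.cut .s 12107776 (.pos 46 .mp ⟨⟨126460964, 0, 0, 0, 0, 16870921, 0, 0, 0, ⟨0, 0⟩, 0⟩, 0, 0⟩ 0 0) (.pos 46 .mp ⟨⟨127900348, 0, 0, 0, 0, 17174151, 0, 0, 0, ⟨0, 0⟩, 0⟩, 0, 0⟩ 0 0)))) (.pos 36 .mp ⟨⟨137571700, 0, 0, 0, 0, 0, 0, 0, 0, ⟨0, 0⟩, 0⟩, 0, 0⟩ 0 0))) (.cut .s 12189696 (.cut .v 16908288 (.cut .s 12156928 (.cut .v 16842752 (.cut .s 12140544 (.cut .d (-16384) (.cut .s 12132352 (.pos 45 .mp ⟨⟨118608250, 0, 0, 0, 0, 35381044, 0, 0, 0, ⟨0, 0⟩, 0⟩, 0, 0⟩ 0 0) (.pos 45 .mp ⟨⟨119301882, 0, 0, 0, 0, 35614709, 0, 0, 0, ⟨0, 0⟩, 0⟩, 0, 0⟩ 0 0)) (.cut .l 184549 (.cut .v 16809984 (.cut .d (-8192)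 (.pos 49 .mp ⟨⟨118806963, 0, 0, 0, 0, 35331352, 0, 0, 0, ⟨0, 0⟩, 0⟩, 0, 0⟩ 0 0) (.cut .s 12132352 (.pos 49 .mp ⟨⟨121308003, 0, 0, 0, 0, 28236106, 0, 0, 0, ⟨0, 0⟩, 0⟩, 0, 0⟩ 0 0) (.pos 49 .mp ⟨⟨122015295, 0, 0, 0, 0, 28427934, 0, 0, 0, ⟨0, 0⟩, 0⟩, 0, 0⟩ 0 0))) (.pos 50 .mp ⟨⟨130535843, 0, 0, 0, 0, 14685388, 0, 0, 0, ⟨0, 0⟩, 0⟩, 0, 0⟩ 0 0)) (.pos 45 .mp ⟨⟨121389744, 0, 0, 0, 0, 27084192, 0, 0, 0, ⟨0, 0⟩, 0⟩, 0, 0⟩ 0 0))) (.cut .d (-16384) (.cut .s 12148736 (.pos 45 .mp ⟨⟨119999548, 0, 0, 0, 0, 35852148, 0, 0, 0, ⟨0, 0⟩, 0⟩, 0, 0⟩ 0 0) (.pos 45 .mp ⟨⟨120701266, 0, 0, 0, 0, 36093382, 0, 0, 0, ⟨0, 0⟩, 0⟩, 0, 0⟩ 0 0)) (.cut .l 184549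 (.cut .v 16809984 (.cut .d (-8192) (.pos 49 .mp ⟨⟨120196288, 0, 0, 0, 0, 35813803, 0, 0, 0, ⟨0, 0⟩, 0⟩, 0, 0⟩ 0 0) (.cut .s 12148736 (.pos 49 .mp ⟨⟨122726701, 0, 0, 0, 0, 28622530, 0, 0, 0, ⟨0, 0⟩, 0⟩, 0, 0⟩ 0 0) (.pos 49 .mp ⟨⟨123442242, 0, 0, 0, 0, 28819881, 0, 0, 0, ⟨0, 0⟩, 0⟩, 0, 0⟩ 0 0))) (.pos 50 .mp ⟨⟨132063879, 0, 0, 0, 0, 14902842, 0, 0, 0, ⟨0, 0⟩, 0⟩, 0, 0⟩ 0 0)) (.pos 45 .mp ⟨⟨122824757, 0, 0, 0, 0, 27438898, 0, 0, 0, ⟨0, 0⟩, 0⟩, 0, 0⟩ 0 0)))) (.cut .s 12140544 (.pos 46 .mp ⟨⟨129374796, 0, 0, 0, 0, 17456615, 0, 0, 0, ⟨0, 0⟩, 0⟩, 0, 0⟩ 0 0) (.pos 46 .mp ⟨⟨130886008, 0, 0, 0, 0, 17715506, 0, 0, 0, ⟨0, 0⟩, 0⟩, 0, 0⟩ 0 0)))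 (.cut .v 16842752 (.cut .s 12173312 (.cut .d (-16384) (.cut .s 12165120 (.pos 45 .mp ⟨⟨121407058, 0, 0, 0, 0, 36338434, 0, 0, 0, ⟨0, 0⟩, 0⟩, 0, 0⟩ 0 0) (.pos 45 .mp ⟨⟨122116944, 0, 0, 0, 0, 36587327, 0, 0, 0, ⟨0, 0⟩, 0⟩, 0, 0⟩ 0 0)) (.cut .l 184549 (.cut .v 16809984 (.cut .d (-8192) (.pos 49 .mp ⟨⟨121601767, 0, 0, 0, 0, 36311545, 0, 0, 0, ⟨0, 0⟩, 0⟩, 0, 0⟩ 0 0) (.cut .s 12165120 (.pos 49 .mp ⟨⟨124161937, 0, 0, 0, 0, 29019974, 0, 0, 0, ⟨0, 0⟩, 0⟩, 0, 0⟩ 0 0) (.pos 49 .mp ⟨⟨124885808, 0, 0, 0, 0, 29222798, 0, 0, 0, ⟨0, 0⟩, 0⟩, 0, 0⟩ 0 0))) (.pos 50 .mp ⟨⟨133630633, 0, 0, 0, 0, 15093236, 0, 0, 0, ⟨0, 0⟩, 0⟩, 0, 0⟩ 0 0)) (.pos 45 .mp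 ⟨⟨124276134, 0, 0, 0, 0, 27799425, 0, 0, 0, ⟨0, 0⟩, 0⟩, 0, 0⟩ 0 0))) (.cut .d (-16384) (.cut .s 12181504 (.pos 45 .mp ⟨⟨122830944, 0, 0, 0, 0, 36840082, 0, 0, 0, ⟨0, 0⟩, 0⟩, 0, 0⟩ 0 0) (.pos 45 .mp ⟨⟨123549078, 0, 0, 0, 0, 37096722, 0, 0, 0, ⟨0, 0⟩, 0⟩, 0, 0⟩ 0 0)) (.cut .l 184549 (.cut .v 16809984 (.cut .d (-8192) (.pos 49 .mp ⟨⟨123023561, 0, 0, 0, 0, 36824756, 0, 0, 0, ⟨0, 0⟩, 0⟩, 0, 0⟩ 0 0) (.cut .s 12181504 (.pos 49 .mp ⟨⟨125613875, 0, 0, 0, 0, 29428339, 0, 0, 0, ⟨0, 0⟩, 0⟩, 0, 0⟩ 0 0) (.pos 49 .mp ⟨⟨126346160, 0, 0, 0, 0, 29636584, 0, 0, 0, ⟨0, 0⟩, 0⟩, 0, 0⟩ 0 0))) (.pos 50 .mp ⟨⟨135237836, 0, 0, 0, 0, 15253690, 0, 0, 0, ⟨0,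 0⟩, 0⟩, 0, 0⟩ 0 0)) (.pos 45 .mp ⟨⟨125744037, 0, 0, 0, 0, 28165297, 0, 0, 0, ⟨0, 0⟩, 0⟩, 0, 0⟩ 0 0)))) (.cut .s 12173312 (.pos 46 .mp ⟨⟨132435702, 0, 0, 0, 0, 17947977, 0, 0, 0, ⟨0, 0⟩, 0⟩, 0, 0⟩ 0 0) (.pos 46 .mp ⟨⟨134025613, 0, 0, 0, 0, 18151144, 0, 0, 0, ⟨0, 0⟩, 0⟩, 0, 0⟩ 0 0)))) (.pos 36 .mp ⟨⟨144201245, 0, 0, 0, 0, 0, 0, 0, 0, ⟨0, 0⟩, 0⟩, 0, 0⟩ 0 0)) (.cut .v 16908288 (.cut .s 12222464 (.cut .v 16842752 (.cut .s 12206080 (.cut .d (-16384) (.cut .s 12197888 (.pos 45 .mp ⟨⟨124271369, 0, 0, 0, 0, 37357270, 0, 0, 0, ⟨0, 0⟩, 0⟩, 0, 0⟩ 0 0) (.pos 45 .mp ⟨⟨124997836, 0, 0, 0, 0, 37621748, 0, 0, 0, ⟨0, 0⟩, 0⟩, 0, 0⟩ 0 0)) (.cut .l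 184549 (.cut .v 16809984 (.cut .d (-8192) (.pos 49 .mp ⟨⟨124461835, 0, 0, 0, 0, 37353617, 0, 0, 0, ⟨0, 0⟩, 0⟩, 0, 0⟩ 0 0) (.cut .s 12197888 (.pos 49 .mp ⟨⟨127082685, 0, 0, 0, 0, 29847519, 0, 0, 0, ⟨0, 0⟩, 0⟩, 0, 0⟩ 0 0) (.pos 49 .mp ⟨⟨127823470, 0, 0, 0, 0, 30061132, 0, 0, 0, ⟨0, 0⟩, 0⟩, 0, 0⟩ 0 0))) (.pos 50 .mp ⟨⟨136887236, 0, 0, 0, 0, 15381287, 0, 0, 0, ⟨0, 0⟩, 0⟩, 0, 0⟩ 0 0)) (.pos 45 .mp ⟨⟨127228637, 0, 0, 0, 0, 28536031, 0, 0, 0, ⟨0, 0⟩, 0⟩, 0, 0⟩ 0 0))) (.cut .d (-16384) (.cut .s 12214272 (.pos 45 .mp ⟨⟨125728500, 0, 0, 0, 0, 37890180, 0, 0, 0, ⟨0, 0⟩, 0⟩, 0, 0⟩ 0 0) (.pos 45 .mp ⟨⟨126463384, 0, 0, 0, 0, 38162589, 0, 0,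 0, ⟨0, 0⟩, 0⟩, 0, 0⟩ 0 0)) (.cut .l 184549 (.cut .v 16809984 (.cut .d (-8192) (.pos 49 .mp ⟨⟨125916755, 0, 0, 0, 0, 37898311, 0, 0, 0, ⟨0, 0⟩, 0⟩, 0, 0⟩ 0 0) (.cut .s 12214272 (.pos 49 .mp ⟨⟨128568536, 0, 0, 0, 0, 30277408, 0, 0, 0, ⟨0, 0⟩, 0⟩, 0, 0⟩ 0 0) (.pos 49 .mp ⟨⟨129317907, 0, 0, 0, 0, 30496332, 0, 0, 0, ⟨0, 0⟩, 0⟩, 0, 0⟩ 0 0))) (.pos 50 .mp ⟨⟨138580601, 0, 0, 0, 0, 15473068, 0, 0, 0, ⟨0, 0⟩, 0⟩, 0, 0⟩ 0 0)) (.pos 45 .mp ⟨⟨128730102, 0, 0, 0, 0, 28911143, 0, 0, 0, ⟨0, 0⟩, 0⟩, 0, 0⟩ 0 0)))) (.cut .s 12206080 (.pos 46 .mp ⟨⟨135657495, 0, 0, 0, 0, 18322083, 0, 0, 0, ⟨0, 0⟩, 0⟩, 0, 0⟩ 0 0) (.pos 46 .mp ⟨⟨137333119, 0, 0, 0,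 0, 18457832, 0, 0, 0, ⟨0, 0⟩, 0⟩, 0, 0⟩ 0 0))) (.cut .v 16842752 (.cut .s 12238848 (.cut .d (-16384) (.pos 45 .mp ⟨⟨127202508, 0, 0, 0, 0, 39454413, 0, 0, 0, ⟨0, 0⟩, 0⟩, 0, 0⟩ 0 0) (.cut .l 184549 (.cut .v 16809984 (.cut .d (-8192) (.pos 49 .mp ⟨⟨127388490, 0, 0, 0, 0, 38459024, 0, 0, 0, ⟨0, 0⟩, 0⟩, 0, 0⟩ 0 0) (.cut .s 12230656 (.pos 49 .mp ⟨⟨130071603, 0, 0, 0, 0, 30717892, 0, 0, 0, ⟨0, 0⟩, 0⟩, 0, 0⟩ 0 0) (.pos 49 .mp ⟨⟨130829647, 0, 0, 0, 0, 30942073, 0, 0, 0, ⟨0, 0⟩, 0⟩, 0, 0⟩ 0 0))) (.pos 50 .mp ⟨⟨140319716, 0, 0, 0, 0, 15526033, 0, 0, 0, ⟨0, 0⟩, 0⟩, 0, 0⟩ 0 0)) (.pos 45 .mp ⟨⟨130248606, 0, 0, 0, 0, 29290142, 0, 0, 0, ⟨0, 0⟩,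 0⟩, 0, 0⟩ 0 0))) (.cut .d (-16384) (.pos 45 .mp ⟨⟨128693564, 0, 0, 0, 0, 40035746, 0, 0, 0, ⟨0, 0⟩, 0⟩, 0, 0⟩ 0 0) (.cut .l 184549 (.cut .v 16809984 (.cut .d (-8192) (.pos 49 .mp ⟨⟨128877210, 0, 0, 0, 0, 39035944, 0, 0, 0, ⟨0, 0⟩, 0⟩, 0, 0⟩ 0 0) (.cut .s 12247040 (.pos 49 .mp ⟨⟨131592061, 0, 0, 0, 0, 31168859, 0, 0, 0, ⟨0, 0⟩, 0⟩, 0, 0⟩ 0 0) (.pos 49 .mp ⟨⟨132358867, 0, 0, 0, 0, 31398235, 0, 0, 0, ⟨0, 0⟩, 0⟩, 0, 0⟩ 0 0))) (.pos 50 .mp ⟨⟨142106387, 0, 0, 0, 0, 15537143, 0, 0, 0, ⟨0, 0⟩, 0⟩, 0, 0⟩ 0 0)) (.pos 45 .mp ⟨⟨131784324, 0, 0, 0, 0, 29672534, 0, 0, 0, ⟨0, 0⟩, 0⟩, 0, 0⟩ 0 0)))) (.cut .s 12238848 (.pos 46 .mp ⟨⟨139054277, 0,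 0, 0, 0, 18555385, 0, 0, 0, ⟨0, 0⟩, 0⟩, 0, 0⟩ 0 0) (.pos 46 .mp ⟨⟨140822780, 0, 0, 0, 0, 18611696, 0, 0, 0, ⟨0, 0⟩, 0⟩, 0, 0⟩ 0 0)))) (.pos 36 .mp ⟨⟨151186477, 0, 0, 0, 0, 0, 0, 0, 0, ⟨0, 0⟩, 0⟩, 0, 0⟩ 0 0)))) (.pos 34 .mp ⟨⟨150288679, 0, 0, 0, 0, 0, 0, 0, 0, ⟨0, 0⟩, 0⟩, 0, 0⟩ 0 0))))))) (.void 32 ⟨⟨100000, 0, 0, 0, 0, 0, 0, 0, 0, ⟨0, 0⟩, 0⟩, 0, 0⟩ 0 0))) (.void 30 ⟨⟨100000, 0, 0, 0, 0, 0, 0, 0, 0, ⟨0, 0⟩, 0⟩, 0, 0⟩ 0 0))) (.void 28 ⟨⟨100000, 0, 0, 0, 0, 0, 0, 0, 0, ⟨0, 0⟩, 0⟩, 0, 0⟩ 0 0))) (.void 26 ⟨⟨100000, 0, 0, 0, 0, 0, 0, 0, 0, ⟨0, 0⟩, 0⟩, 0, 0⟩ 0 0))) (.void 24 ⟨⟨100000, 0, 0, 0, 0, 0, 0, 0, 0, ⟨0, 0⟩, 0⟩, 0, 0⟩ 0 0)) (.void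 91 ⟨⟨100000, 0, 0, 0, 0, 0, 0, 0, 0, ⟨0, 0⟩, 0⟩, 0, 0⟩ 0 0)) (.void 112 ⟨⟨100000, 0, 0, 0, 0, 0, 0, 0, 0, ⟨0, 0⟩, 0⟩, 0, 0⟩ 0 0))) (.cut .v 16777216 (.cut .v 8388608 (.cut .v 4194304 (.cut .v 2097152 (.void 113 ⟨⟨0, 0, 66667, 0, 0, 0, 0, 0, 0, ⟨0, 0⟩, 0⟩, 0, 33333⟩ 0 0) (.pos 114 .pm ⟨⟨0, 0, 5187807, 0, 0, 0, 0, 0, 0, ⟨0, 0⟩, 0⟩, 0, 278961⟩ 0 0)) (.pos 5 .pm ⟨⟨0, 0, 2843442, 0, 0, 0, 0, 0, 0, ⟨0, 0⟩, 0⟩, 0, 348701⟩ 0 0)) (.pos 3 .pm ⟨⟨0, 0, 0, 0, 0, 0, 0, 0, 0, ⟨0, 0⟩, 0⟩, 0, 0⟩ 0 0)) (.cut .v 67108864 (.cut .d 3346276 (.cut .v 33554432 (.cut .d 1673138 (.cut .v 25165824 (.cut .d 836569 (.cut .v 20971520 (.cut .d 418284 (.cut .v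 18874368 (.cut .d 209142 (.cut .v 17825792 (.cut .d 104571 (.cut .d 52285 (.cut .v 17301504 (.cut .d 26142 (.cut .v 17039360 (.cut .s 12124160 (.pos 33 .pp ⟨⟨120344499, 0, 0, 0, 0, 0, 0, 0, 0, ⟨0, 0⟩, 0⟩, 756584, 0⟩ 0 0) (.pos 33 .pp ⟨⟨131381607, 0, 0, 0, 0, 0, 0, 0, 0, ⟨0, 0⟩, 0⟩, 966000, 0⟩ 0 0)) (.pos 34 .pp ⟨⟨139381397, 0, 0, 0, 0, 0, 0, 0, 0, ⟨0, 0⟩, 0⟩, 0, 0⟩ 0 0)) (.pos 31 .pp ⟨⟨120918502, 0, 0, 0, 0, 0, 0, 0, 0, ⟨0, 0⟩, 0⟩, 0, 19698⟩ 0 0)) (.pos 32 .pp ⟨⟨149541101, 0, 0, 0, 0, 0, 0, 0, 0, ⟨0, 0⟩, 0⟩, 0, 0⟩ 0 0)) (.pos 29 .pp ⟨⟨124870274, 0, 0, 0, 0, 0, 0, 0, 0, ⟨0, 0⟩, 0⟩, 0, 0⟩ 0 0)) (.pos 29 .pp ⟨⟨106405172, 0, 0, 0,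 0, 0, 0, 0, 0, ⟨0, 0⟩, 0⟩, 0, 147983⟩ 0 0)) (.cut .d 104571 (.pos 30 .pp ⟨⟨168025213, 0, 0, 0, 0, 0, 0, 0, 0, ⟨0, 0⟩, 0⟩, 0, 0⟩ 0 0) (.pos 30 .pp ⟨⟨145382503, 0, 0, 0, 0, 0, 0, 0, 0, ⟨0, 0⟩, 0⟩, 0, 0⟩ 0 0))) (.pos 27 .pp ⟨⟨0, 0, 0, 0, 0, 0, 0, 0, 0, ⟨0, 0⟩, 0⟩, 0, 738425⟩ 0 0)) (.cut .d 209142 (.pos 28 .pp ⟨⟨205909428, 0, 0, 0, 0, 0, 0, 0, 0, ⟨0, 0⟩, 0⟩, 0, 0⟩ 0 0) (.cut .v 19922944 (.pos 53 .pp ⟨⟨151091608, 0, 0, 0, 0, 0, 0, 0, 0, ⟨0, 0⟩, 0⟩, 0, 0⟩ 0 0) (.cut .d 313713 (.pos 54 .pp ⟨⟨192867396, 0, 0, 0, 0, 0, 0, 0, 0, ⟨0, 0⟩, 0⟩, 0, 0⟩ 0 0) (.pos 54 .pp ⟨⟨165139670, 0, 0, 0, 0, 0, 0, 0, 0, ⟨0, 0⟩, 0⟩, 0, 0⟩ 0 0))))) (.pos 25 .pp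 ⟨⟨0, 0, 0, 0, 0, 0, 0, 0, 0, ⟨0, 0⟩, 0⟩, 0, 774890⟩ 0 0)) (.cut .d 418284 (.cut .v 23068672 (.cut .v 22020096 (.cut .d 209142 (.void 57 ⟨⟨0, 0, 0, 0, 0, 0, 0, 0, 0, ⟨0, 0⟩, 0⟩, 100000, 0⟩ 0 0) (.pos 57 .pp ⟨⟨213350735, 0, 0, 0, 0, 0, 0, 0, 0, ⟨0, 0⟩, 0⟩, 0, 0⟩ 0 0)) (.pos 58 .pp ⟨⟨252750975, 0, 0, 0, 0, 0, 0, 0, 0, ⟨0, 0⟩, 0⟩, 0, 0⟩ 0 0)) (.void 56 ⟨⟨0, 0, 0, 0, 0, 0, 0, 0, 0, ⟨0, 0⟩, 0⟩, 100000, 0⟩ 0 0)) (.cut .d 627426 (.cut .v 23068672 (.cut .v 22020096 (.pos 57 .pp ⟨⟨171979970, 0, 0, 0, 0, 0, 0, 0, 0, ⟨0, 0⟩, 0⟩, 0, 0⟩ 0 0) (.cut .d 522855 (.cut .d 470569 (.pos 58 .pp ⟨⟨226396327, 0, 0, 0, 0, 0, 0, 0, 0, ⟨0, 0⟩, 0⟩, 0, 0⟩ 0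 0) (.pos 58 .pp ⟨⟨203783987, 0, 0, 0, 0, 0, 0, 0, 0, ⟨0, 0⟩, 0⟩, 0, 0⟩ 0 0)) (.pos 58 .pp ⟨⟨116264946, 0, 0, 0, 0, 0, 8877, 0, 0, ⟨0, 0⟩, 0⟩, 10041030, 0⟩ 0 0))) (.cut .d 522855 (.pos 56 .pp ⟨⟨0, 0, 0, 0, 0, 0, 0, 0, 0, ⟨0, 0⟩, 0⟩, 35046800, 0⟩ 0 0) (.pos 56 .pp ⟨⟨0, 0, 0, 0, 0, 0, 0, 0, 0, ⟨0, 0⟩, 0⟩, 29534150, 0⟩ 0 0))) (.pos 26 .pp ⟨⟨0, 0, 0, 0, 0, 0, 306449, 0, 0, ⟨0, 0⟩, 0⟩, 22817721, 0⟩ 0 0)))) (.pos 23 .pp ⟨⟨0, 0, 0, 0, 0, 0, 2079552, 0, 0, ⟨0, 0⟩, 0⟩, 0, 0⟩ 0 0)) (.cut .d 836569 (.cut .v 29360128 (.cut .d 418284 (.void 75 ⟨⟨0, 0, 0, 0, 0, 0, 0, 0, 0, ⟨0, 0⟩, 0⟩, 100000, 0⟩ 0 0) (.pos 75 .pp ⟨⟨0, 0, 0, 0, 0, 0, 0, 0, 0,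 ⟨0, 0⟩, 0⟩, 41693379, 0⟩ 0 0)) (.void 76 ⟨⟨0, 0, 0, 0, 0, 0, 0, 0, 0, ⟨0, 0⟩, 0⟩, 100000, 0⟩ 0 0)) (.pos 24 .pp ⟨⟨0, 0, 0, 0, 0, 0, 0, 0, 0, ⟨0, 0⟩, 0⟩, 31395450, 0⟩ 0 0))) (.pos 22 .pp ⟨⟨0, 0, 0, 0, 0, 0, 1762729, 0, 0, ⟨0, 0⟩, 0⟩, 10097212, 0⟩ 0 0)) (.cut .d 1673138 (.pos 91 .pp ⟨⟨0, 0, 0, 0, 0, 0, 0, 0, 0, ⟨0, 0⟩, 0⟩, 106138465, 0⟩ 0 0) (.pos 91 .pp ⟨⟨0, 0, 0, 0, 0, 0, 0, 0, 0, ⟨0, 0⟩, 0⟩, 38855205, 0⟩ 0 0))) (.pos 90 .pp ⟨⟨0, 0, 0, 0, 0, 0, 0, 0, 0, ⟨0, 0⟩, 0⟩, 0, 697401⟩ 0 0)) (.void 112 ⟨⟨0, 0, 0, 46089, 0, 0, 0, 0, 0, ⟨0, 0⟩, 0⟩, 53911, 0⟩ 0 0)))),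
    by decide +kernel⟩

theorem covers19 : cell.Covers Vale.Agent.P237.Petty.Cor.Grid.N10.table row19.1 :=
  ⟨(.cut .d 0 (.cut .v 16777216 (.cut .v 8388608 (.pos 2 .mm ⟨⟨0, 0, 276730456, 0, 0, 70281965, 0, 0, 0, ⟨0, 0⟩, 0⟩, 0, 0⟩ 0 0) (.cut .d (-8388608) (.void 3 ⟨⟨0, 0, 0, 0, 0, 100000, 0, 0, 0, ⟨0, 0⟩, 0⟩, 0, 0⟩ 0 0) (.cut .d (-4194304) (.void 3 ⟨⟨0, 0, 0, 0, 0, 100000, 0, 0, 0, ⟨0, 0⟩, 0⟩, 0, 0⟩ 0 0) (.cut .d (-2097152) (.void 3 ⟨⟨0, 0, 0, 0, 0, 100000, 0, 0, 0, ⟨0, 0⟩, 0⟩, 0, 0⟩ 0 0) (.cut .d (-1048576) (.void 3 ⟨⟨0, 0, 0, 0, 0, 100000, 0, 0, 0, ⟨0, 0⟩, 0⟩, 0, 0⟩ 0 0) (.cut .s 12386304 (.pos 3 .mm ⟨⟨0, 0, 0, 0, 0, 277328962,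 0, 0, 0, ⟨0, 0⟩, 0⟩, 0, 0⟩ 0 0) (.pos 3 .mm ⟨⟨0, 0, 0, 0, 0, 309194784, 0, 0, 0, ⟨0, 0⟩, 0⟩, 0, 0⟩ 0 0))))))) (.cut .v 67108864 (.cut .v 33554432 (.cut .v 25165824 (.cut .d (-8388608) (.void 23 ⟨⟨100000, 0, 0, 0, 0, 0, 0, 0, 0, ⟨0, 0⟩, 0⟩, 0, 0⟩ 0 0) (.cut .v 20971520 (.cut .d (-4194304) (.void 25 ⟨⟨100000, 0, 0, 0, 0, 0, 0, 0, 0, ⟨0, 0⟩, 0⟩, 0, 0⟩ 0 0) (.cut .v 18874368 (.cut .d (-2097152) (.void 27 ⟨⟨100000, 0, 0, 0, 0, 0, 0, 0, 0, ⟨0, 0⟩, 0⟩, 0, 0⟩ 0 0) (.cut .v 17825792 (.cut .d (-1048576) (.void 29 ⟨⟨100000, 0, 0, 0, 0, 0, 0, 0, 0, ⟨0, 0⟩, 0⟩, 0, 0⟩ 0 0) (.cut .v 17301504 (.cut .d (-524288) (.void 31 ⟨⟨100000, 0, 0, 0, 0,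 0, 0, 0, 0, ⟨0, 0⟩, 0⟩, 0, 0⟩ 0 0) (.cut .d (-262144) (.void 31 ⟨⟨100000, 0, 0, 0, 0, 0, 0, 0, 0, ⟨0, 0⟩, 0⟩, 0, 0⟩ 0 0) (.cut .d (-131072) (.void 31 ⟨⟨100000, 0, 0, 0, 0, 0, 0, 0, 0, ⟨0, 0⟩, 0⟩, 0, 0⟩ 0 0) (.cut .d (-65536) (.void 31 ⟨⟨100000, 0, 0, 0, 0, 0, 0, 0, 0, ⟨0, 0⟩, 0⟩, 0, 0⟩ 0 0) (.cut .d (-32768) (.void 31 ⟨⟨0, 0, 0, 0, 0, 100000, 0, 0, 0, ⟨0, 0⟩, 0⟩, 0, 0⟩ 0 0) (.cut .v 17039360 (.cut .s 12386304 (.cut .s 12320768 (.cut .v 16908288 (.cut .s 12288000 (.cut .v 16842752 (.cut .d (-16384) (.cut .s 12271616 (.pos 45 .mp ⟨⟨130202135, 0, 0, 0, 0, 40632578, 0, 0, 0, ⟨0, 0⟩, 0⟩, 0, 0⟩ 0 0) (.pos 45 .mp ⟨⟨131729932, 0, 0, 0,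 0, 41096192, 0, 0, 0, ⟨0, 0⟩, 0⟩, 0, 0⟩ 0 0)) (.cut .l 184549 (.cut .s 12271616 (.cut .v 16809984 (.cut .d (-8192) (.pos 49 .mp ⟨⟨130383347, 0, 0, 0, 0, 39628435, 0, 0, 0, ⟨0, 0⟩, 0⟩, 0, 0⟩ 0 0) (.cut .s 12263424 (.pos 49 .mp ⟨⟨133130384, 0, 0, 0, 0, 31630868, 0, 0, 0, ⟨0, 0⟩, 0⟩, 0, 0⟩ 0 0) (.pos 49 .mp ⟨⟨133906304, 0, 0, 0, 0, 31817417, 0, 0, 0, ⟨0, 0⟩, 0⟩, 0, 0⟩ 0 0))) (.pos 50 .mp ⟨⟨143236566, 0, 0, 0, 0, 16674153, 0, 0, 0, ⟨0, 0⟩, 0⟩, 0, 0⟩ 0 0)) (.cut .v 16809984 (.cut .d (-8192) (.pos 49 .mp ⟨⟨131907774, 0, 0, 0, 0, 40089619, 0, 0, 0, ⟨0, 0⟩, 0⟩, 0, 0⟩ 0 0) (.cut .s 12279808 (.pos 49 .mp ⟨⟨134686894, 0, 0, 0, 0, 32007826,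 0, 0, 0, ⟨0, 0⟩, 0⟩, 0, 0⟩ 0 0) (.pos 49 .mp ⟨⟨135472180, 0, 0, 0, 0, 32202080, 0, 0, 0, ⟨0, 0⟩, 0⟩, 0, 0⟩ 0 0))) (.pos 50 .mp ⟨⟨144738755, 0, 0, 0, 0, 17167593, 0, 0, 0, ⟨0, 0⟩, 0⟩, 0, 0⟩ 0 0))) (.pos 45 .mp ⟨⟨135026875, 0, 0, 0, 0, 27597648, 0, 0, 0, ⟨0, 0⟩, 0⟩, 0, 0⟩ 0 0))) (.cut .s 12271616 (.pos 46 .mp ⟨⟨141932934, 0, 0, 0, 0, 19796736, 0, 0, 0, ⟨0, 0⟩, 0⟩, 0, 0⟩ 0 0) (.pos 46 .mp ⟨⟨143415561, 0, 0, 0, 0, 20337839, 0, 0, 0, ⟨0, 0⟩, 0⟩, 0, 0⟩ 0 0))) (.cut .v 16842752 (.cut .d (-16384) (.cut .s 12304384 (.pos 45 .mp ⟨⟨133276156, 0, 0, 0, 0, 41578278, 0, 0, 0, ⟨0, 0⟩, 0⟩, 0, 0⟩ 0 0) (.pos 45 .mp ⟨⟨134840998, 0, 0, 0, 0, 42079057,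 0, 0, 0, ⟨0, 0⟩, 0⟩, 0, 0⟩ 0 0)) (.cut .l 184549 (.cut .s 12304384 (.cut .v 16809984 (.cut .d (-8192) (.pos 49 .mp ⟨⟨133450538, 0, 0, 0, 0, 40569327, 0, 0, 0, ⟨0, 0⟩, 0⟩, 0, 0⟩ 0 0) (.cut .s 12296192 (.pos 49 .mp ⟨⟨136262186, 0, 0, 0, 0, 32400167, 0, 0, 0, ⟨0, 0⟩, 0⟩, 0, 0⟩ 0 0) (.pos 49 .mp ⟨⟨137056935, 0, 0, 0, 0, 32602075, 0, 0, 0, ⟨0, 0⟩, 0⟩, 0, 0⟩ 0 0))) (.pos 50 .mp ⟨⟨146274153, 0, 0, 0, 0, 17651998, 0, 0, 0, ⟨0, 0⟩, 0⟩, 0, 0⟩ 0 0)) (.cut .v 16809984 (.cut .d (-8192) (.pos 49 .mp ⟨⟨135011826, 0, 0, 0, 0, 41067781, 0, 0, 0, ⟨0, 0⟩, 0⟩, 0, 0⟩ 0 0) (.cut .s 12312576 (.pos 49 .mp ⟨⟨137856452, 0, 0, 0, 0, 32807789, 0, 0, 0, ⟨0,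 0⟩, 0⟩, 0, 0⟩ 0 0) (.pos 49 .mp ⟨⟨138660762, 0, 0, 0, 0, 33017296, 0, 0, 0, ⟨0, 0⟩, 0⟩, 0, 0⟩ 0 0))) (.pos 50 .mp ⟨⟨147844856, 0, 0, 0, 0, 18123919, 0, 0, 0, ⟨0, 0⟩, 0⟩, 0, 0⟩ 0 0))) (.pos 45 .mp ⟨⟨138293902, 0, 0, 0, 0, 28227238, 0, 0, 0, ⟨0, 0⟩, 0⟩, 0, 0⟩ 0 0))) (.cut .d (-16384) (.cut .s 12304384 (.pos 46 .mp ⟨⟨143272520, 0, 0, 0, 0, 24167043, 0, 0, 0, ⟨0, 0⟩, 0⟩, 0, 0⟩ 0 0) (.pos 46 .mp ⟨⟨144859986, 0, 0, 0, 0, 24658894, 0, 0, 0, ⟨0, 0⟩, 0⟩, 0, 0⟩ 0 0)) (.pos 46 .mp ⟨⟨156564337, 0, 0, 0, 0, 0, 0, 0, 0, ⟨0, 0⟩, 0⟩, 0, 0⟩ 0 0)))) (.pos 36 .mp ⟨⟨158558297, 0, 0, 0, 0, 0, 0, 0, 0, ⟨0, 0⟩, 0⟩, 0, 0⟩ 0 0)) (.cut .v 16908288 (.cut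 .s 12353536 (.cut .v 16842752 (.cut .d (-16384) (.cut .l 184549 (.void 45 ⟨⟨0, 0, 0, 0, 0, 100000, 0, 0, 0, ⟨0, 0⟩, 0⟩, 0, 0⟩ 0 0) (.cut .s 12337152 (.pos 45 .mp ⟨⟨134885210, 0, 0, 0, 0, 44244551, 0, 0, 0, ⟨0, 0⟩, 0⟩, 0, 0⟩ 0 0) (.pos 45 .mp ⟨⟨136339310, 0, 0, 0, 0, 45049685, 0, 0, 0, ⟨0, 0⟩, 0⟩, 0, 0⟩ 0 0))) (.cut .l 184549 (.cut .s 12337152 (.cut .v 16809984 (.cut .d (-8192) (.pos 49 .mp ⟨⟨136591831, 0, 0, 0, 0, 41585208, 0, 0, 0, ⟨0, 0⟩, 0⟩, 0, 0⟩ 0 0) (.cut .l 92274 (.cut .d (-4096) (.pos 49 .mp ⟨⟨138941668, 0, 0, 0, 0, 36355083, 0, 0, 0, ⟨0, 0⟩, 0⟩, 0, 0⟩ 0 0) (.cut .s 12328960 (.pos 49 .mp ⟨⟨138710144, 0, 0, 0, 0, 34527127,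 0, 0, 0, ⟨0, 0⟩, 0⟩, 0, 0⟩ 0 0) (.pos 49 .mp ⟨⟨139529596, 0, 0, 0, 0, 34730134, 0, 0, 0, ⟨0, 0⟩, 0⟩, 0, 0⟩ 0 0))) (.pos 49 .mp ⟨⟨139151892, 0, 0, 0, 0, 32295684, 0, 0, 0, ⟨0, 0⟩, 0⟩, 0, 0⟩ 0 0))) (.pos 50 .mp ⟨⟨149452981, 0, 0, 0, 0, 18579856, 0, 0, 0, ⟨0, 0⟩, 0⟩, 0, 0⟩ 0 0)) (.cut .v 16809984 (.cut .d (-8192) (.pos 49 .mp ⟨⟨138190748, 0, 0, 0, 0, 42121839, 0, 0, 0, ⟨0, 0⟩, 0⟩, 0, 0⟩ 0 0) (.cut .l 92274 (.cut .d (-4096) (.pos 49 .mp ⟨⟨140524558, 0, 0, 0, 0, 36934296, 0, 0, 0, ⟨0, 0⟩, 0⟩, 0, 0⟩ 0 0) (.cut .s 12345344 (.pos 49 .mp ⟨⟨140353086, 0, 0, 0, 0, 34938646, 0, 0, 0, ⟨0, 0⟩, 0⟩, 0, 0⟩ 0 0) (.pos 49 .mp ⟨⟨141180594, 0, 0, 0,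 0, 35152748, 0, 0, 0, ⟨0, 0⟩, 0⟩, 0, 0⟩ 0 0))) (.pos 49 .mp ⟨⟨140798748, 0, 0, 0, 0, 32727544, 0, 0, 0, ⟨0, 0⟩, 0⟩, 0, 0⟩ 0 0))) (.pos 50 .mp ⟨⟨151100669, 0, 0, 0, 0, 19016263, 0, 0, 0, ⟨0, 0⟩, 0⟩, 0, 0⟩ 0 0))) (.pos 45 .mp ⟨⟨141635585, 0, 0, 0, 0, 28903482, 0, 0, 0, ⟨0, 0⟩, 0⟩, 0, 0⟩ 0 0))) (.cut .d (-16384) (.cut .s 12337152 (.pos 46 .mp ⟨⟨146477552, 0, 0, 0, 0, 25145645, 0, 0, 0, ⟨0, 0⟩, 0⟩, 0, 0⟩ 0 0) (.pos 46 .mp ⟨⟨148126497, 0, 0, 0, 0, 25625061, 0, 0, 0, ⟨0, 0⟩, 0⟩, 0, 0⟩ 0 0)) (.pos 46 .mp ⟨⟨160250532, 0, 0, 0, 0, 0, 0, 0, 0, ⟨0, 0⟩, 0⟩, 0, 0⟩ 0 0))) (.cut .v 16842752 (.cut .d (-16384) (.cut .l 184549 (.void 45 ⟨⟨0, 0,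 0, 0, 0, 100000, 0, 0, 0, ⟨0, 0⟩, 0⟩, 0, 0⟩ 0 0) (.cut .s 12369920 (.pos 45 .mp ⟨⟨137832601, 0, 0, 0, 0, 45836691, 0, 0, 0, ⟨0, 0⟩, 0⟩, 0, 0⟩ 0 0) (.pos 45 .mp ⟨⟨139367264, 0, 0, 0, 0, 46601946, 0, 0, 0, ⟨0, 0⟩, 0⟩, 0, 0⟩ 0 0))) (.cut .l 184549 (.cut .s 12369920 (.cut .v 16809984 (.cut .d (-8192) (.pos 49 .mp ⟨⟨139808775, 0, 0, 0, 0, 42677905, 0, 0, 0, ⟨0, 0⟩, 0⟩, 0, 0⟩ 0 0) (.cut .l 92274 (.cut .d (-4096) (.pos 49 .mp ⟨⟨142135004, 0, 0, 0, 0, 37511502, 0, 0, 0, ⟨0, 0⟩, 0⟩, 0, 0⟩ 0 0) (.cut .s 12361728 (.pos 49 .mp ⟨⟨142012097, 0, 0, 0, 0, 35372526, 0, 0, 0, ⟨0, 0⟩, 0⟩, 0, 0⟩ 0 0) (.pos 49 .mp ⟨⟨142847576, 0, 0, 0, 0, 35598066,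 0, 0, 0, ⟨0, 0⟩, 0⟩, 0, 0⟩ 0 0))) (.pos 49 .mp ⟨⟨142464743, 0, 0, 0, 0, 33169617, 0, 0, 0, ⟨0, 0⟩, 0⟩, 0, 0⟩ 0 0))) (.pos 50 .mp ⟨⟨152790085, 0, 0, 0, 0, 19429541, 0, 0, 0, ⟨0, 0⟩, 0⟩, 0, 0⟩ 0 0)) (.cut .v 16809984 (.cut .d (-8192) (.pos 49 .mp ⟨⟨141446113, 0, 0, 0, 0, 43253643, 0, 0, 0, ⟨0, 0⟩, 0⟩, 0, 0⟩ 0 0) (.cut .l 92274 (.cut .d (-4096) (.pos 49 .mp ⟨⟨143773954, 0, 0, 0, 0, 38084967, 0, 0, 0, ⟨0, 0⟩, 0⟩, 0, 0⟩ 0 0) (.cut .s 12378112 (.pos 49 .mp ⟨⟨143687008, 0, 0, 0, 0, 35829457, 0, 0, 0, ⟨0, 0⟩, 0⟩, 0, 0⟩ 0 0) (.pos 49 .mp ⟨⟨144530373, 0, 0, 0, 0, 36066787, 0, 0, 0, ⟨0, 0⟩, 0⟩, 0, 0⟩ 0 0))) (.pos 49 .mp ⟨⟨144150081, 0, 0,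 0, 0, 33621312, 0, 0, 0, ⟨0, 0⟩, 0⟩, 0, 0⟩ 0 0))) (.pos 50 .mp ⟨⟨154523418, 0, 0, 0, 0, 19816043, 0, 0, 0, ⟨0, 0⟩, 0⟩, 0, 0⟩ 0 0))) (.pos 45 .mp ⟨⟨145053519, 0, 0, 0, 0, 29621712, 0, 0, 0, ⟨0, 0⟩, 0⟩, 0, 0⟩ 0 0))) (.cut .d (-16384) (.cut .s 12369920 (.pos 46 .mp ⟨⟨149808109, 0, 0, 0, 0, 26094881, 0, 0, 0, ⟨0, 0⟩, 0⟩, 0, 0⟩ 0 0) (.pos 46 .mp ⟨⟨151523692, 0, 0, 0, 0, 26552817, 0, 0, 0, ⟨0, 0⟩, 0⟩, 0, 0⟩ 0 0)) (.pos 46 .mp ⟨⟨164051722, 0, 0, 0, 0, 0, 0, 0, 0, ⟨0, 0⟩, 0⟩, 0, 0⟩ 0 0)))) (.pos 36 .mp ⟨⟨166200448, 0, 0, 0, 0, 0, 0, 0, 0, ⟨0, 0⟩, 0⟩, 0, 0⟩ 0 0))) (.cut .s 12451840 (.cut .v 16908288 (.cut .s 12419072 (.cut .d (-16384) (.cut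 .l 184549 (.void 35 ⟨⟨0, 0, 0, 0, 0, 100000, 0, 0, 0, ⟨0, 0⟩, 0⟩, 0, 0⟩ 0 0) (.cut .v 16842752 (.cut .s 12402688 (.pos 45 .mp ⟨⟨140945506, 0, 0, 0, 0, 47341771, 0, 0, 0, ⟨0, 0⟩, 0⟩, 0, 0⟩ 0 0) (.pos 45 .mp ⟨⟨142569555, 0, 0, 0, 0, 48052439, 0, 0, 0, ⟨0, 0⟩, 0⟩, 0, 0⟩ 0 0)) (.cut .s 12402688 (.pos 46 .mp ⟨⟨152084346, 0, 0, 0, 0, 28821922, 0, 0, 0, ⟨0, 0⟩, 0⟩, 0, 0⟩ 0 0) (.pos 46 .mp ⟨⟨153884611, 0, 0, 0, 0, 29223979, 0, 0, 0, ⟨0, 0⟩, 0⟩, 0, 0⟩ 0 0)))) (.cut .v 16842752 (.cut .l 184549 (.cut .s 12402688 (.cut .v 16809984 (.cut .d (-8192) (.pos 49 .mp ⟨⟨143102965, 0, 0, 0, 0, 43849294, 0, 0, 0, ⟨0, 0⟩, 0⟩, 0, 0⟩ 0 0) (.cut .l 92274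 (.cut .d (-4096) (.pos 49 .mp ⟨⟨145442361, 0, 0, 0, 0, 38652935, 0, 0, 0, ⟨0, 0⟩, 0⟩, 0, 0⟩ 0 0) (.cut .s 12394496 (.pos 49 .mp ⟨⟨145377647, 0, 0, 0, 0, 36310146, 0, 0, 0, ⟨0, 0⟩, 0⟩, 0, 0⟩ 0 0) (.pos 49 .mp ⟨⟨146228808, 0, 0, 0, 0, 36559626, 0, 0, 0, ⟨0, 0⟩, 0⟩, 0, 0⟩ 0 0))) (.pos 49 .mp ⟨⟨145854968, 0, 0, 0, 0, 34082036, 0, 0, 0, ⟨0, 0⟩, 0⟩, 0, 0⟩ 0 0))) (.pos 50 .mp ⟨⟨156302879, 0, 0, 0, 0, 20172067, 0, 0, 0, ⟨0, 0⟩, 0⟩, 0, 0⟩ 0 0)) (.cut .v 16809984 (.cut .d (-8192) (.pos 49 .mp ⟨⟨144779538, 0, 0, 0, 0, 44465101, 0, 0, 0, ⟨0, 0⟩, 0⟩, 0, 0⟩ 0 0) (.cut .l 92274 (.cut .d (-4096) (.pos 49 .mp ⟨⟨147141190, 0, 0, 0, 0, 39213631,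 0, 0, 0, ⟨0, 0⟩, 0⟩, 0, 0⟩ 0 0) (.cut .s 12410880 (.pos 49 .mp ⟨⟨147083833, 0, 0, 0, 0, 36815318, 0, 0, 0, ⟨0, 0⟩, 0⟩, 0, 0⟩ 0 0) (.pos 49 .mp ⟨⟨147942699, 0, 0, 0, 0, 37077315, 0, 0, 0, ⟨0, 0⟩, 0⟩, 0, 0⟩ 0 0))) (.pos 49 .mp ⟨⟨147579614, 0, 0, 0, 0, 34551186, 0, 0, 0, ⟨0, 0⟩, 0⟩, 0, 0⟩ 0 0))) (.pos 50 .mp ⟨⟨158130705, 0, 0, 0, 0, 20493860, 0, 0, 0, ⟨0, 0⟩, 0⟩, 0, 0⟩ 0 0))) (.pos 45 .mp ⟨⟨148548759, 0, 0, 0, 0, 30378369, 0, 0, 0, ⟨0, 0⟩, 0⟩, 0, 0⟩ 0 0)) (.pos 46 .mp ⟨⟨167970273, 0, 0, 0, 0, 0, 0, 0, 0, ⟨0, 0⟩, 0⟩, 0, 0⟩ 0 0))) (.cut .d (-16384) (.cut .l 184549 (.void 35 ⟨⟨0, 0, 0, 0, 0, 100000, 0, 0, 0, ⟨0, 0⟩, 0⟩, 0, 0⟩ 0 0) (.cut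 .v 16842752 (.cut .s 12435456 (.pos 45 .mp ⟨⟨144241665, 0, 0, 0, 0, 48730169, 0, 0, 0, ⟨0, 0⟩, 0⟩, 0, 0⟩ 0 0) (.pos 45 .mp ⟨⟨145964115, 0, 0, 0, 0, 49371126, 0, 0, 0, ⟨0, 0⟩, 0⟩, 0, 0⟩ 0 0)) (.cut .s 12435456 (.pos 46 .mp ⟨⟨155706623, 0, 0, 0, 0, 29636443, 0, 0, 0, ⟨0, 0⟩, 0⟩, 0, 0⟩ 0 0) (.pos 46 .mp ⟨⟨157550616, 0, 0, 0, 0, 30058998, 0, 0, 0, ⟨0, 0⟩, 0⟩, 0, 0⟩ 0 0)))) (.cut .v 16842752 (.cut .l 184549 (.cut .s 12435456 (.cut .v 16809984 (.cut .d (-8192) (.pos 49 .mp ⟨⟨146476043, 0, 0, 0, 0, 45101310, 0, 0, 0, ⟨0, 0⟩, 0⟩, 0, 0⟩ 0 0) (.cut .l 92274 (.cut .d (-4096) (.pos 49 .mp ⟨⟨146834493, 0, 0, 0, 0, 44994340, 0, 0, 0, ⟨0, 0⟩,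 0⟩, 0, 0⟩ 0 0) (.cut .s 12427264 (.pos 49 .mp ⟨⟨148805383, 0, 0, 0, 0, 37345711, 0, 0, 0, ⟨0, 0⟩, 0⟩, 0, 0⟩ 0 0) (.pos 49 .mp ⟨⟨149671859, 0, 0, 0, 0, 37620603, 0, 0, 0, ⟨0, 0⟩, 0⟩, 0, 0⟩ 0 0))) (.pos 49 .mp ⟨⟨149314309, 0, 0, 0, 0, 35048204, 0, 0, 0, ⟨0, 0⟩, 0⟩, 0, 0⟩ 0 0))) (.pos 50 .mp ⟨⟨160009159, 0, 0, 0, 0, 20777613, 0, 0, 0, ⟨0, 0⟩, 0⟩, 0, 0⟩ 0 0)) (.cut .v 16809984 (.cut .d (-8192) (.pos 49 .mp ⟨⟨148192692, 0, 0, 0, 0, 45758173, 0, 0, 0, ⟨0, 0⟩, 0⟩, 0, 0⟩ 0 0) (.cut .l 92274 (.cut .d (-4096) (.pos 49 .mp ⟨⟨148552108, 0, 0, 0, 0, 45656020, 0, 0, 0, ⟨0, 0⟩, 0⟩, 0, 0⟩ 0 0) (.cut .s 12443648 (.pos 49 .mp ⟨⟨150542103, 0, 0,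 0, 0, 37902085, 0, 0, 0, ⟨0, 0⟩, 0⟩, 0, 0⟩ 0 0) (.pos 49 .mp ⟨⟨151416091, 0, 0, 0, 0, 38190256, 0, 0, 0, ⟨0, 0⟩, 0⟩, 0, 0⟩ 0 0))) (.pos 49 .mp ⟨⟨151064707, 0, 0, 0, 0, 35561483, 0, 0, 0, ⟨0, 0⟩, 0⟩, 0, 0⟩ 0 0))) (.pos 50 .mp ⟨⟨161940529, 0, 0, 0, 0, 21019465, 0, 0, 0, ⟨0, 0⟩, 0⟩, 0, 0⟩ 0 0))) (.cut .s 12435456 (.pos 45 .mp ⟨⟨150296129, 0, 0, 0, 0, 33877726, 0, 0, 0, ⟨0, 0⟩, 0⟩, 0, 0⟩ 0 0) (.pos 45 .mp ⟨⟨152064349, 0, 0, 0, 0, 34367501, 0, 0, 0, ⟨0, 0⟩, 0⟩, 0, 0⟩ 0 0))) (.pos 46 .mp ⟨⟨172008621, 0, 0, 0, 0, 0, 0, 0, 0, ⟨0, 0⟩, 0⟩, 0, 0⟩ 0 0)))) (.pos 36 .mp ⟨⟨174274393, 0, 0, 0, 0, 0, 0, 0, 0, ⟨0, 0⟩, 0⟩, 0, 0⟩ 0 0)) (.cut .v 16908288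 (.cut .d (-16384) (.cut .l 184549 (.void 35 ⟨⟨0, 0, 0, 0, 0, 100000, 0, 0, 0, ⟨0, 0⟩, 0⟩, 0, 0⟩ 0 0) (.cut .s 12484608 (.cut .d (-24576) (.pos 35 .mp ⟨⟨153083814, 0, 0, 0, 0, 48257117, 0, 0, 0, ⟨0, 0⟩, 0⟩, 0, 0⟩ 0 0) (.cut .v 16842752 (.cut .s 12468224 (.pos 45 .mp ⟨⟨149795179, 0, 0, 0, 0, 46283343, 0, 0, 0, ⟨0, 0⟩, 0⟩, 0, 0⟩ 0 0) (.pos 45 .mp ⟨⟨151557303, 0, 0, 0, 0, 46952063, 0, 0, 0, ⟨0, 0⟩, 0⟩, 0, 0⟩ 0 0)) (.cut .s 12468224 (.pos 46 .mp ⟨⟨161032748, 0, 0, 0, 0, 26741823, 0, 0, 0, ⟨0, 0⟩, 0⟩, 0, 0⟩ 0 0) (.pos 46 .mp ⟨⟨163059901, 0, 0, 0, 0, 26933569, 0, 0, 0, ⟨0, 0⟩, 0⟩, 0, 0⟩ 0 0)))) (.cut .d (-24576) (.pos 35 .mp ⟨⟨156736889,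 0, 0, 0, 0, 49674352, 0, 0, 0, ⟨0, 0⟩, 0⟩, 0, 0⟩ 0 0) (.cut .v 16842752 (.cut .s 12500992 (.pos 45 .mp ⟨⟨153340334, 0, 0, 0, 0, 47635755, 0, 0, 0, ⟨0, 0⟩, 0⟩, 0, 0⟩ 0 0) (.pos 45 .mp ⟨⟨155144501, 0, 0, 0, 0, 48334270, 0, 0, 0, ⟨0, 0⟩, 0⟩, 0, 0⟩ 0 0)) (.pos 46 .mp ⟨⟨173281450, 0, 0, 0, 0, 14980668, 0, 0, 0, ⟨0, 0⟩, 0⟩, 0, 0⟩ 0 0))))) (.cut .l 184549 (.cut .v 16842752 (.cut .s 12484608 (.cut .s 12468224 (.cut .v 16809984 (.cut .d (-8192) (.pos 49 .mp ⟨⟨149929703, 0, 0, 0, 0, 46435943, 0, 0, 0, ⟨0, 0⟩, 0⟩, 0, 0⟩ 0 0) (.cut .l 92274 (.cut .d (-4096) (.pos 49 .mp ⟨⟨150290071, 0, 0, 0, 0, 46338719, 0, 0, 0, ⟨0, 0⟩, 0⟩, 0, 0⟩ 0 0) (.cut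 .s 12460032 (.pos 49 .mp ⟨⟨152293796, 0, 0, 0, 0, 38485214, 0, 0, 0, ⟨0, 0⟩, 0⟩, 0, 0⟩ 0 0) (.pos 49 .mp ⟨⟨153175194, 0, 0, 0, 0, 38787059, 0, 0, 0, ⟨0, 0⟩, 0⟩, 0, 0⟩ 0 0))) (.pos 49 .mp ⟨⟨152835881, 0, 0, 0, 0, 36080595, 0, 0, 0, ⟨0, 0⟩, 0⟩, 0, 0⟩ 0 0))) (.pos 50 .mp ⟨⟨163927129, 0, 0, 0, 0, 21215497, 0, 0, 0, ⟨0, 0⟩, 0⟩, 0, 0⟩ 0 0)) (.cut .v 16809984 (.cut .d (-8192) (.pos 49 .mp ⟨⟨151687295, 0, 0, 0, 0, 47134880, 0, 0, 0, ⟨0, 0⟩, 0⟩, 0, 0⟩ 0 0) (.cut .l 92274 (.cut .d (-4096) (.pos 49 .mp ⟨⟨152048599, 0, 0, 0, 0, 47042696, 0, 0, 0, ⟨0, 0⟩, 0⟩, 0, 0⟩ 0 0) (.cut .s 12476416 (.pos 49 .mp ⟨⟨154060257, 0, 0, 0, 0, 39095892, 0, 0,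 0, ⟨0, 0⟩, 0⟩, 0, 0⟩ 0 0) (.pos 49 .mp ⟨⟨154948960, 0, 0, 0, 0, 39411814, 0, 0, 0, ⟨0, 0⟩, 0⟩, 0, 0⟩ 0 0))) (.pos 49 .mp ⟨⟨154628057, 0, 0, 0, 0, 36604911, 0, 0, 0, ⟨0, 0⟩, 0⟩, 0, 0⟩ 0 0))) (.pos 50 .mp ⟨⟨165971301, 0, 0, 0, 0, 21361732, 0, 0, 0, ⟨0, 0⟩, 0⟩, 0, 0⟩ 0 0))) (.cut .s 12500992 (.cut .v 16809984 (.cut .d (-8192) (.pos 49 .mp ⟨⟨153465691, 0, 0, 0, 0, 47855245, 0, 0, 0, ⟨0, 0⟩, 0⟩, 0, 0⟩ 0 0) (.cut .l 92274 (.cut .d (-4096) (.pos 49 .mp ⟨⟨153827918, 0, 0, 0, 0, 47768215, 0, 0, 0, ⟨0, 0⟩, 0⟩, 0, 0⟩ 0 0) (.cut .s 12492800 (.pos 49 .mp ⟨⟨155841275, 0, 0, 0, 0, 39734930, 0, 0, 0, ⟨0, 0⟩, 0⟩, 0, 0⟩ 0 0) (.pos 49 .mp ⟨⟨156737174,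 0, 0, 0, 0, 40065343, 0, 0, 0, ⟨0, 0⟩, 0⟩, 0, 0⟩ 0 0))) (.pos 49 .mp ⟨⟨156441463, 0, 0, 0, 0, 37133799, 0, 0, 0, ⟨0, 0⟩, 0⟩, 0, 0⟩ 0 0))) (.pos 50 .mp ⟨⟨168075413, 0, 0, 0, 0, 21454137, 0, 0, 0, ⟨0, 0⟩, 0⟩, 0, 0⟩ 0 0)) (.cut .v 16809984 (.cut .d (-8192) (.pos 49 .mp ⟨⟨155265118, 0, 0, 0, 0, 48597304, 0, 0, 0, ⟨0, 0⟩, 0⟩, 0, 0⟩ 0 0) (.cut .l 92274 (.cut .d (-4096) (.pos 49 .mp ⟨⟨155628252, 0, 0, 0, 0, 48515544, 0, 0, 0, ⟨0, 0⟩, 0⟩, 0, 0⟩ 0 0) (.cut .s 12509184 (.pos 49 .mp ⟨⟨157636629, 0, 0, 0, 0, 40403159, 0, 0, 0, ⟨0, 0⟩, 0⟩, 0, 0⟩ 0 0) (.pos 49 .mp ⟨⟨158539613, 0, 0, 0, 0, 40748486, 0, 0, 0, ⟨0, 0⟩, 0⟩, 0, 0⟩ 0 0))) (.pos 49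 .mp ⟨⟨158276332, 0, 0, 0, 0, 37666617, 0, 0, 0, ⟨0, 0⟩, 0⟩, 0, 0⟩ 0 0))) (.pos 50 .mp ⟨⟨170241863, 0, 0, 0, 0, 21488616, 0, 0, 0, ⟨0, 0⟩, 0⟩, 0, 0⟩ 0 0)))) (.pos 46 .mp ⟨⟨181545292, 0, 0, 0, 0, 0, 0, 0, 0, ⟨0, 0⟩, 0⟩, 0, 0⟩ 0 0)) (.cut .d (-8192) (.cut .d (-12288) (.cut .v 16842752 (.cut .s 12484608 (.cut .s 12468224 (.pos 45 .mp ⟨⟨153696549, 0, 0, 0, 0, 35920725, 0, 0, 0, ⟨0, 0⟩, 0⟩, 0, 0⟩ 0 0) (.pos 45 .mp ⟨⟨155501474, 0, 0, 0, 0, 36468414, 0, 0, 0, ⟨0, 0⟩, 0⟩, 0, 0⟩ 0 0)) (.pos 45 .mp ⟨⟨159137339, 0, 0, 0, 0, 33841956, 0, 0, 0, ⟨0, 0⟩, 0⟩, 0, 0⟩ 0 0)) (.pos 46 .mp ⟨⟨176144348, 0, 0, 0, 0, 0, 0, 0, 0, ⟨0, 0⟩, 0⟩, 0, 0⟩ 0 0))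 (.pos 35 .mp ⟨⟨157358785, 0, 0, 0, 0, 0, 0, 0, 0, ⟨0, 0⟩, 0⟩, 0, 0⟩ 0 0)) (.pos 35 .mp ⟨⟨153513621, 0, 0, 0, 0, 0, 0, 0, 0, ⟨0, 0⟩, 0⟩, 0, 0⟩ 0 0)))) (.pos 36 .mp ⟨⟨182768759, 0, 0, 0, 0, 0, 0, 0, 0, ⟨0, 0⟩, 0⟩, 0, 0⟩ 0 0)))) (.pos 34 .mp ⟨⟨181762021, 0, 0, 0, 0, 0, 0, 0, 0, ⟨0, 0⟩, 0⟩, 0, 0⟩ 0 0))))))) (.void 32 ⟨⟨100000, 0, 0, 0, 0, 0, 0, 0, 0, ⟨0, 0⟩, 0⟩, 0, 0⟩ 0 0))) (.void 30 ⟨⟨100000, 0, 0, 0, 0, 0, 0, 0, 0, ⟨0, 0⟩, 0⟩, 0, 0⟩ 0 0))) (.void 28 ⟨⟨100000, 0, 0, 0, 0, 0, 0, 0, 0, ⟨0, 0⟩, 0⟩, 0, 0⟩ 0 0))) (.void 26 ⟨⟨100000, 0, 0, 0, 0, 0, 0, 0, 0, ⟨0, 0⟩, 0⟩, 0, 0⟩ 0 0))) (.void 24 ⟨⟨100000, 0, 0, 0, 0, 0, 0, 0, 0, ⟨0, 0⟩, 0⟩,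 0, 0⟩ 0 0)) (.void 91 ⟨⟨100000, 0, 0, 0, 0, 0, 0, 0, 0, ⟨0, 0⟩, 0⟩, 0, 0⟩ 0 0)) (.void 112 ⟨⟨100000, 0, 0, 0, 0, 0, 0, 0, 0, ⟨0, 0⟩, 0⟩, 0, 0⟩ 0 0))) (.cut .v 16777216 (.cut .v 8388608 (.cut .v 4194304 (.cut .v 2097152 (.void 113 ⟨⟨0, 0, 66667, 0, 0, 0, 0, 0, 0, ⟨0, 0⟩, 0⟩, 0, 33333⟩ 0 0) (.pos 114 .pm ⟨⟨0, 0, 5294152, 0, 0, 0, 0, 0, 0, ⟨0, 0⟩, 0⟩, 0, 236153⟩ 0 0)) (.pos 5 .pm ⟨⟨0, 0, 3133116, 0, 0, 0, 0, 0, 0, ⟨0, 0⟩, 0⟩, 0, 295191⟩ 0 0)) (.pos 3 .pm ⟨⟨0, 0, 0, 0, 0, 0, 0, 0, 0, ⟨0, 0⟩, 0⟩, 0, 0⟩ 0 0)) (.cut .v 67108864 (.cut .d 3095263 (.cut .v 33554432 (.cut .d 1547631 (.cut .v 25165824 (.cut .d 773815 (.cut .v 20971520 (.cut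 .d 386907 (.cut .v 18874368 (.cut .d 193453 (.cut .v 17825792 (.cut .d 96726 (.cut .d 48363 (.cut .v 17301504 (.cut .d 24181 (.cut .v 17039360 (.cut .s 12386304 (.pos 33 .pp ⟨⟨145281065, 0, 0, 0, 0, 0, 0, 0, 0, ⟨0, 0⟩, 0⟩, 844596, 0⟩ 0 0) (.pos 33 .pp ⟨⟨158482719, 0, 0, 0, 0, 0, 0, 0, 0, ⟨0, 0⟩, 0⟩, 1128540, 0⟩ 0 0)) (.pos 34 .pp ⟨⟨167869859, 0, 0, 0, 0, 0, 0, 0, 0, ⟨0, 0⟩, 0⟩, 0, 0⟩ 0 0)) (.pos 31 .pp ⟨⟨145042606, 0, 0, 0, 0, 0, 0, 0, 0, ⟨0, 0⟩, 0⟩, 0, 21490⟩ 0 0)) (.pos 32 .pp ⟨⟨179916948, 0, 0, 0, 0, 0, 0, 0, 0, ⟨0, 0⟩, 0⟩, 0, 0⟩ 0 0)) (.pos 29 .pp ⟨⟨149918145, 0, 0, 0, 0, 0, 0, 0, 0, ⟨0, 0⟩, 0⟩, 0, 453⟩ 0 0)) (.pos 29 .pp ⟨⟨127981804,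 0, 0, 0, 0, 0, 0, 0, 0, ⟨0, 0⟩, 0⟩, 0, 138617⟩ 0 0)) (.cut .d 96726 (.pos 30 .pp ⟨⟨201756948, 0, 0, 0, 0, 0, 0, 0, 0, ⟨0, 0⟩, 0⟩, 0, 0⟩ 0 0) (.pos 30 .pp ⟨⟨174391120, 0, 0, 0, 0, 0, 0, 0, 0, ⟨0, 0⟩, 0⟩, 0, 0⟩ 0 0))) (.pos 27 .pp ⟨⟨0, 0, 0, 0, 0, 0, 0, 0, 0, ⟨0, 0⟩, 0⟩, 0, 685383⟩ 0 0)) (.cut .d 193453 (.pos 28 .pp ⟨⟨246171314, 0, 0, 0, 0, 0, 0, 0, 0, ⟨0, 0⟩, 0⟩, 0, 0⟩ 0 0) (.cut .v 19922944 (.pos 53 .pp ⟨⟨180940641, 0, 0, 0, 0, 0, 0, 0, 0, ⟨0, 0⟩, 0⟩, 0, 0⟩ 0 0) (.cut .d 290180 (.pos 54 .pp ⟨⟨230221136, 0, 0, 0, 0, 0, 0, 0, 0, ⟨0, 0⟩, 0⟩, 0, 0⟩ 0 0) (.pos 54 .pp ⟨⟨197560603, 0, 0, 0, 0, 0, 0, 0, 0, ⟨0, 0⟩, 0⟩, 0, 0⟩ 0 0))))) (.pos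 25 .pp ⟨⟨0, 0, 0, 0, 0, 0, 0, 0, 0, ⟨0, 0⟩, 0⟩, 0, 719229⟩ 0 0)) (.cut .d 386907 (.cut .v 23068672 (.cut .v 22020096 (.cut .d 193453 (.void 57 ⟨⟨0, 0, 0, 0, 0, 0, 0, 0, 0, ⟨0, 0⟩, 0⟩, 100000, 0⟩ 0 0) (.cut .d 290180 (.pos 57 .pp ⟨⟨282535295, 0, 0, 0, 0, 0, 0, 0, 0, ⟨0, 0⟩, 0⟩, 0, 0⟩ 0 0) (.pos 57 .pp ⟨⟨242249961, 0, 0, 0, 0, 0, 0, 0, 0, ⟨0, 0⟩, 0⟩, 0, 0⟩ 0 0))) (.pos 58 .pp ⟨⟨300155112, 0, 0, 0, 0, 0, 0, 0, 0, ⟨0, 0⟩, 0⟩, 0, 0⟩ 0 0)) (.void 56 ⟨⟨0, 0, 0, 0, 0, 0, 0, 0, 0, ⟨0, 0⟩, 0⟩, 100000, 0⟩ 0 0)) (.cut .d 580361 (.cut .v 23068672 (.cut .v 22020096 (.pos 57 .pp ⟨⟨205614025, 0, 0, 0, 0, 0, 0, 0, 0, ⟨0, 0⟩, 0⟩, 0, 0⟩ 0 0) (.cut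 .d 483634 (.cut .d 435270 (.pos 58 .pp ⟨⟨267086127, 0, 0, 0, 0, 0, 0, 0, 0, ⟨0, 0⟩, 0⟩, 0, 0⟩ 0 0) (.pos 58 .pp ⟨⟨241944769, 0, 0, 0, 0, 0, 0, 0, 0, ⟨0, 0⟩, 0⟩, 0, 0⟩ 0 0)) (.pos 58 .pp ⟨⟨0, 0, 0, 0, 0, 0, 222536, 0, 0, ⟨0, 0⟩, 0⟩, 29023033, 0⟩ 0 0))) (.cut .d 483634 (.pos 56 .pp ⟨⟨0, 0, 0, 0, 0, 0, 0, 0, 0, ⟨0, 0⟩, 0⟩, 41607197, 0⟩ 0 0) (.pos 56 .pp ⟨⟨0, 0, 0, 0, 0, 0, 0, 0, 0, ⟨0, 0⟩, 0⟩, 34893312, 0⟩ 0 0))) (.pos 26 .pp ⟨⟨0, 0, 0, 0, 0, 0, 298224, 0, 0, ⟨0, 0⟩, 0⟩, 27232873, 0⟩ 0 0)))) (.pos 23 .pp ⟨⟨0, 0, 0, 0, 0, 0, 1933005, 0, 0, ⟨0, 0⟩, 0⟩, 0, 0⟩ 0 0)) (.cut .d 773815 (.cut .v 29360128 (.pos 75 .pp ⟨⟨0, 0, 0, 0, 0, 0, 0,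 0, 0, ⟨0, 0⟩, 0⟩, 57717987, 0⟩ 0 0) (.void 76 ⟨⟨0, 0, 0, 0, 0, 0, 0, 0, 0, ⟨0, 0⟩, 0⟩, 100000, 0⟩ 0 0)) (.pos 24 .pp ⟨⟨0, 0, 0, 0, 0, 0, 0, 0, 0, ⟨0, 0⟩, 0⟩, 37161797, 0⟩ 0 0))) (.pos 22 .pp ⟨⟨0, 0, 0, 0, 0, 0, 1703151, 0, 0, ⟨0, 0⟩, 0⟩, 11335528, 0⟩ 0 0)) (.cut .d 1547631 (.pos 91 .pp ⟨⟨0, 0, 0, 0, 0, 0, 0, 0, 0, ⟨0, 0⟩, 0⟩, 124082979, 0⟩ 0 0) (.pos 91 .pp ⟨⟨0, 0, 0, 0, 0, 0, 0, 0, 0, ⟨0, 0⟩, 0⟩, 45896891, 0⟩ 0 0))) (.pos 90 .pp ⟨⟨0, 0, 0, 0, 0, 0, 0, 0, 0, ⟨0, 0⟩, 0⟩, 0, 647306⟩ 0 0)) (.void 112 ⟨⟨0, 0, 0, 46465, 0, 0, 0, 0, 0, ⟨0, 0⟩, 0⟩, 53535, 0⟩ 0 0)))),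
    by decide +kernel⟩

theorem covers20 : cell.Covers Vale.Agent.P237.Petty.Cor.Grid.N10.table row20.1 :=
  ⟨(.cut .d 0 (.cut .v 16777216 (.cut .v 8388608 (.pos 2 .mm ⟨⟨0, 0, 301181219, 0, 0, 127526587, 0, 0, 0, ⟨0, 0⟩, 0⟩, 0, 0⟩ 0 0) (.cut .d (-8388608) (.void 3 ⟨⟨0, 0, 0, 0, 0, 100000, 0, 0, 0, ⟨0, 0⟩, 0⟩, 0, 0⟩ 0 0) (.cut .d (-4194304) (.void 3 ⟨⟨0, 0, 0, 0, 0, 100000, 0, 0, 0, ⟨0, 0⟩, 0⟩, 0, 0⟩ 0 0) (.cut .d (-2097152) (.void 3 ⟨⟨0, 0, 0, 0, 0, 100000, 0, 0, 0, ⟨0, 0⟩, 0⟩, 0, 0⟩ 0 0) (.cut .d (-1048576) (.void 3 ⟨⟨0, 0, 0, 0, 0, 100000, 0, 0, 0, ⟨0, 0⟩, 0⟩, 0, 0⟩ 0 0) (.cut .s 12615680 (.pos 3 .mm ⟨⟨0, 0, 0, 0, 0, 335826801,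 0, 0, 0, ⟨0, 0⟩, 0⟩, 0, 0⟩ 0 0) (.pos 3 .mm ⟨⟨0, 0, 0, 0, 0, 364665545, 0, 0, 0, ⟨0, 0⟩, 0⟩, 0, 0⟩ 0 0))))))) (.cut .v 67108864 (.cut .v 33554432 (.cut .v 25165824 (.cut .d (-8388608) (.void 23 ⟨⟨100000, 0, 0, 0, 0, 0, 0, 0, 0, ⟨0, 0⟩, 0⟩, 0, 0⟩ 0 0) (.cut .v 20971520 (.cut .d (-4194304) (.void 25 ⟨⟨100000, 0, 0, 0, 0, 0, 0, 0, 0, ⟨0, 0⟩, 0⟩, 0, 0⟩ 0 0) (.cut .v 18874368 (.cut .d (-2097152) (.void 27 ⟨⟨100000, 0, 0, 0, 0, 0, 0, 0, 0, ⟨0, 0⟩, 0⟩, 0, 0⟩ 0 0) (.cut .d (-1048576) (.void 27 ⟨⟨100000, 0, 0, 0, 0, 0, 0, 0, 0, ⟨0, 0⟩, 0⟩, 0, 0⟩ 0 0) (.cut .v 17825792 (.cut .v 17301504 (.cut .d (-524288) (.void 31 ⟨⟨100000, 0, 0, 0, 0,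 0, 0, 0, 0, ⟨0, 0⟩, 0⟩, 0, 0⟩ 0 0) (.cut .d (-262144) (.void 31 ⟨⟨100000, 0, 0, 0, 0, 0, 0, 0, 0, ⟨0, 0⟩, 0⟩, 0, 0⟩ 0 0) (.cut .v 17039360 (.cut .d (-131072) (.void 33 ⟨⟨100000, 0, 0, 0, 0, 0, 0, 0, 0, ⟨0, 0⟩, 0⟩, 0, 0⟩ 0 0) (.cut .d (-65536) (.void 33 ⟨⟨100000, 0, 0, 0, 0, 0, 0, 0, 0, ⟨0, 0⟩, 0⟩, 0, 0⟩ 0 0) (.cut .d (-32768) (.void 33 ⟨⟨0, 0, 0, 0, 0, 100000, 0, 0, 0, ⟨0, 0⟩, 0⟩, 0, 0⟩ 0 0) (.cut .s 12615680 (.cut .v 16908288 (.cut .s 12566528 (.cut .d (-16384) (.cut .l 184549 (.void 35 ⟨⟨0, 0, 0, 0, 0, 100000, 0, 0, 0, ⟨0, 0⟩, 0⟩, 0, 0⟩ 0 0) (.cut .s 12541952 (.cut .v 16842752 (.pos 45 .mp ⟨⟨153563262, 0, 0, 0, 0, 56369641, 0,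 0, 0, ⟨0, 0⟩, 0⟩, 0, 0⟩ 0 0) (.cut .s 12529664 (.pos 46 .mp ⟨⟨166113089, 0, 0, 0, 0, 33570718, 0, 0, 0, ⟨0, 0⟩, 0⟩, 0, 0⟩ 0 0) (.pos 46 .mp ⟨⟨167515010, 0, 0, 0, 0, 34032802, 0, 0, 0, ⟨0, 0⟩, 0⟩, 0, 0⟩ 0 0))) (.cut .v 16842752 (.pos 45 .mp ⟨⟨155956336, 0, 0, 0, 0, 58048651, 0, 0, 0, ⟨0, 0⟩, 0⟩, 0, 0⟩ 0 0) (.cut .s 12554240 (.pos 46 .mp ⟨⟨168935435, 0, 0, 0, 0, 34494577, 0, 0, 0, ⟨0, 0⟩, 0⟩, 0, 0⟩ 0 0) (.pos 46 .mp ⟨⟨170374870, 0, 0, 0, 0, 34955112, 0, 0, 0, ⟨0, 0⟩, 0⟩, 0, 0⟩ 0 0))))) (.cut .v 16842752 (.cut .l 184549 (.cut .s 12541952 (.cut .v 16809984 (.cut .d (-8192) (.pos 49 .mp ⟨⟨157084683, 0, 0, 0, 0, 50779471, 0, 0, 0, ⟨0,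 0⟩, 0⟩, 0, 0⟩ 0 0) (.cut .l 92274 (.cut .v 16793600 (.cut .d (-4096) (.pos 83 .mp ⟨⟨157144895, 0, 0, 0, 0, 50253984, 0, 0, 0, ⟨0, 0⟩, 0⟩, 0, 0⟩ 0 0) (.cut .l 46137 (.cut .d (-2048) (.pos 83 .mp ⟨⟨157327370, 0, 0, 0, 0, 50834806, 0, 0, 0, ⟨0, 0⟩, 0⟩, 0, 0⟩ 0 0) (.cut .v 16785408 (.cut .l 23068 (.cut .d (-1024) (.pos 85 .mp ⟨⟨157266911, 0, 0, 0, 0, 50745139, 0, 0, 0, ⟨0, 0⟩, 0⟩, 0, 0⟩ 0 0) (.cut .s 12529664 (.pos 85 .mp ⟨⟨158930836, 0, 0, 0, 0, 42238971, 0, 0, 0, ⟨0, 0⟩, 0⟩, 0, 0⟩ 0 0) (.pos 85 .mp ⟨⟨160337984, 0, 0, 0, 0, 42618241, 0, 0, 0, ⟨0, 0⟩, 0⟩, 0, 0⟩ 0 0))) (.pos 85 .mp ⟨⟨160246395, 0, 0, 0, 0, 38048021, 0, 0, 0, ⟨0, 0⟩,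 0⟩, 0, 0⟩ 0 0)) (.pos 86 .mp ⟨⟨183365396, 0, 0, 0, 0, 0, 0, 0, 0, ⟨0, 0⟩, 0⟩, 0, 0⟩ 0 0))) (.pos 83 .mp ⟨⟨160520856, 0, 0, 0, 0, 37716765, 0, 0, 0, ⟨0, 0⟩, 0⟩, 0, 0⟩ 0 0))) (.pos 84 .mp ⟨⟨176606633, 0, 0, 0, 0, 15018847, 0, 0, 0, ⟨0, 0⟩, 0⟩, 0, 0⟩ 0 0)) (.pos 49 .mp ⟨⟨161070781, 0, 0, 0, 0, 37053108, 0, 0, 0, ⟨0, 0⟩, 0⟩, 0, 0⟩ 0 0))) (.cut .s 12529664 (.pos 50 .mp ⟨⟨169689167, 0, 0, 0, 0, 25582427, 0, 0, 0, ⟨0, 0⟩, 0⟩, 0, 0⟩ 0 0) (.pos 50 .mp ⟨⟨171026059, 0, 0, 0, 0, 26102138, 0, 0, 0, ⟨0, 0⟩, 0⟩, 0, 0⟩ 0 0))) (.cut .d (-8192) (.cut .s 12554240 (.pos 45 .mp ⟨⟨160478120, 0, 0, 0, 0, 49701488, 0, 0, 0, ⟨0, 0⟩, 0⟩, 0, 0⟩ 0 0) (.pos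 45 .mp ⟨⟨161889659, 0, 0, 0, 0, 50175237, 0, 0, 0, ⟨0, 0⟩, 0⟩, 0, 0⟩ 0 0)) (.cut .v 16809984 (.cut .l 92274 (.cut .v 16793600 (.cut .d (-4096) (.pos 83 .mp ⟨⟨159915053, 0, 0, 0, 0, 51217644, 0, 0, 0, ⟨0, 0⟩, 0⟩, 0, 0⟩ 0 0) (.cut .l 46137 (.cut .d (-2048) (.pos 83 .mp ⟨⟨160097776, 0, 0, 0, 0, 51815904, 0, 0, 0, ⟨0, 0⟩, 0⟩, 0, 0⟩ 0 0) (.cut .v 16785408 (.cut .l 23068 (.cut .d (-1024) (.pos 85 .mp ⟨⟨160034942, 0, 0, 0, 0, 51727005, 0, 0, 0, ⟨0, 0⟩, 0⟩, 0, 0⟩ 0 0) (.cut .v 16781312 (.cut .l 11534 (.cut .d (-512) (.pos 87 .mp ⟨⟨160003545, 0, 0, 0, 0, 51682466, 0, 0, 0, ⟨0, 0⟩, 0⟩, 0, 0⟩ 0 0) (.cut .s 12554240 (.pos 87 .mp ⟨⟨161551089,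 0, 0, 0, 0, 43371563, 0, 0, 0, ⟨0, 0⟩, 0⟩, 0, 0⟩ 0 0) (.cut .s 12560384 (.pos 87 .mp ⟨⟨163352901, 0, 0, 0, 0, 42781755, 0, 0, 0, ⟨0, 0⟩, 0⟩, 0, 0⟩ 0 0) (.pos 87 .mp ⟨⟨164048083, 0, 0, 0, 0, 43029661, 0, 0, 0, ⟨0, 0⟩, 0⟩, 0, 0⟩ 0 0)))) (.pos 87 .mp ⟨⟨162929533, 0, 0, 0, 0, 39070805, 0, 0, 0, ⟨0, 0⟩, 0⟩, 0, 0⟩ 0 0)) (.pos 88 .mp ⟨⟨186540728, 0, 0, 0, 0, 0, 0, 0, 0, ⟨0, 0⟩, 0⟩, 0, 0⟩ 0 0))) (.pos 85 .mp ⟨⟨163070514, 0, 0, 0, 0, 38900215, 0, 0, 0, ⟨0, 0⟩, 0⟩, 0, 0⟩ 0 0)) (.pos 86 .mp ⟨⟨186597652, 0, 0, 0, 0, 0, 0, 0, 0, ⟨0, 0⟩, 0⟩, 0, 0⟩ 0 0))) (.pos 83 .mp ⟨⟨163352649, 0, 0, 0, 0, 38558710, 0, 0, 0, ⟨0, 0⟩, 0⟩, 0, 0⟩ 0 0))) (.pos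 84 .mp ⟨⟨179469788, 0, 0, 0, 0, 15786701, 0, 0, 0, ⟨0, 0⟩, 0⟩, 0, 0⟩ 0 0)) (.pos 49 .mp ⟨⟨163917944, 0, 0, 0, 0, 37874526, 0, 0, 0, ⟨0, 0⟩, 0⟩, 0, 0⟩ 0 0)) (.pos 50 .mp ⟨⟨186935511, 0, 0, 0, 0, 0, 0, 0, 0, ⟨0, 0⟩, 0⟩, 0, 0⟩ 0 0)))) (.cut .s 12541952 (.pos 45 .mp ⟨⟨162174656, 0, 0, 0, 0, 35720352, 0, 0, 0, ⟨0, 0⟩, 0⟩, 0, 0⟩ 0 0) (.pos 45 .mp ⟨⟨165052654, 0, 0, 0, 0, 36500581, 0, 0, 0, ⟨0, 0⟩, 0⟩, 0, 0⟩ 0 0))) (.pos 46 .mp ⟨⟨186389364, 0, 0, 0, 0, 0, 0, 0, 0, ⟨0, 0⟩, 0⟩, 0, 0⟩ 0 0))) (.cut .d (-16384) (.cut .l 184549 (.void 35 ⟨⟨0, 0, 0, 0, 0, 100000, 0, 0, 0, ⟨0, 0⟩, 0⟩, 0, 0⟩ 0 0) (.cut .s 12591104 (.cut .v 16842752 (.pos 45 .mp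 ⟨⟨158453399, 0, 0, 0, 0, 59683516, 0, 0, 0, ⟨0, 0⟩, 0⟩, 0, 0⟩ 0 0) (.cut .s 12578816 (.pos 46 .mp ⟨⟨171833824, 0, 0, 0, 0, 35413472, 0, 0, 0, ⟨0, 0⟩, 0⟩, 0, 0⟩ 0 0) (.pos 46 .mp ⟨⟨173312811, 0, 0, 0, 0, 35868709, 0, 0, 0, ⟨0, 0⟩, 0⟩, 0, 0⟩ 0 0))) (.cut .d (-24576) (.pos 35 .mp ⟨⟨169603879, 0, 0, 0, 0, 50776752, 0, 0, 0, ⟨0, 0⟩, 0⟩, 0, 0⟩ 0 0) (.cut .v 16842752 (.pos 45 .mp ⟨⟨165475422, 0, 0, 0, 0, 53400293, 0, 0, 0, ⟨0, 0⟩, 0⟩, 0, 0⟩ 0 0) (.pos 46 .mp ⟨⟨183669039, 0, 0, 0, 0, 21548538, 0, 0, 0, ⟨0, 0⟩, 0⟩, 0, 0⟩ 0 0))))) (.cut .v 16842752 (.cut .l 184549 (.cut .s 12591104 (.cut .d (-8192) (.cut .s 12578816 (.pos 45 .mp ⟨⟨163314126,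 0, 0, 0, 0, 50662948, 0, 0, 0, ⟨0, 0⟩, 0⟩, 0, 0⟩ 0 0) (.pos 45 .mp ⟨⟨164751630, 0, 0, 0, 0, 51164753, 0, 0, 0, ⟨0, 0⟩, 0⟩, 0, 0⟩ 0 0)) (.cut .v 16809984 (.cut .l 92274 (.cut .s 12578816 (.cut .s 12572672 (.pos 49 .mp ⟨⟨165879120, 0, 0, 0, 0, 41204147, 0, 0, 0, ⟨0, 0⟩, 0⟩, 0, 0⟩ 0 0) (.pos 49 .mp ⟨⟨166607832, 0, 0, 0, 0, 41416898, 0, 0, 0, ⟨0, 0⟩, 0⟩, 0, 0⟩ 0 0)) (.cut .s 12584960 (.pos 49 .mp ⟨⟨167339882, 0, 0, 0, 0, 41632038, 0, 0, 0, ⟨0, 0⟩, 0⟩, 0, 0⟩ 0 0) (.pos 49 .mp ⟨⟨168075284, 0, 0, 0, 0, 41849549, 0, 0, 0, ⟨0, 0⟩, 0⟩, 0, 0⟩ 0 0))) (.pos 49 .mp ⟨⟨166817573, 0, 0, 0, 0, 38724248, 0, 0, 0, ⟨0, 0⟩, 0⟩, 0, 0⟩ 0 0)) (.pos 50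 .mp ⟨⟨190252532, 0, 0, 0, 0, 0, 0, 0, 0, ⟨0, 0⟩, 0⟩, 0, 0⟩ 0 0))) (.cut .d (-8192) (.cut .s 12603392 (.pos 45 .mp ⟨⟨166202280, 0, 0, 0, 0, 51680788, 0, 0, 0, ⟨0, 0⟩, 0⟩, 0, 0⟩ 0 0) (.pos 45 .mp ⟨⟨167666185, 0, 0, 0, 0, 52211188, 0, 0, 0, ⟨0, 0⟩, 0⟩, 0, 0⟩ 0 0)) (.cut .l 92274 (.cut .v 16809984 (.cut .s 12603392 (.cut .s 12597248 (.pos 49 .mp ⟨⟨168814052, 0, 0, 0, 0, 42069414, 0, 0, 0, ⟨0, 0⟩, 0⟩, 0, 0⟩ 0 0) (.pos 49 .mp ⟨⟨169556201, 0, 0, 0, 0, 42291612, 0, 0, 0, ⟨0, 0⟩, 0⟩, 0, 0⟩ 0 0)) (.cut .s 12609536 (.pos 49 .mp ⟨⟨170301743, 0, 0, 0, 0, 42516127, 0, 0, 0, ⟨0, 0⟩, 0⟩, 0, 0⟩ 0 0) (.pos 49 .mp ⟨⟨171050695, 0, 0, 0, 0, 42742939,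 0, 0, 0, ⟨0, 0⟩, 0⟩, 0, 0⟩ 0 0))) (.pos 50 .mp ⟨⟨197775162, 0, 0, 0, 0, 0, 0, 0, 0, ⟨0, 0⟩, 0⟩, 0, 0⟩ 0 0)) (.pos 45 .mp ⟨⟨170422558, 0, 0, 0, 0, 38619540, 0, 0, 0, ⟨0, 0⟩, 0⟩, 0, 0⟩ 0 0)))) (.cut .s 12591104 (.pos 45 .mp ⟨⟨167983946, 0, 0, 0, 0, 37307934, 0, 0, 0, ⟨0, 0⟩, 0⟩, 0, 0⟩ 0 0) (.cut .s 12603392 (.pos 45 .mp ⟨⟨169469857, 0, 0, 0, 0, 40178773, 0, 0, 0, ⟨0, 0⟩, 0⟩, 0, 0⟩ 0 0) (.pos 45 .mp ⟨⟨170969430, 0, 0, 0, 0, 40618679, 0, 0, 0, ⟨0, 0⟩, 0⟩, 0, 0⟩ 0 0)))) (.pos 46 .mp ⟨⟨193082419, 0, 0, 0, 0, 0, 0, 0, 0, ⟨0, 0⟩, 0⟩, 0, 0⟩ 0 0)))) (.pos 36 .mp ⟨⟨194905823, 0, 0, 0, 0, 0, 0, 0, 0, ⟨0, 0⟩, 0⟩, 0, 0⟩ 0 0)) (.cut .v 16908288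 (.cut .s 12664832 (.cut .d (-16384) (.cut .d (-24576) (.pos 35 .mp ⟨⟨171550779, 0, 0, 0, 0, 145601227, 0, 0, 0, ⟨0, 0⟩, 0⟩, 0, 0⟩ 0 0) (.cut .l 184549 (.void 35 ⟨⟨0, 0, 0, 0, 0, 100000, 0, 0, 0, ⟨0, 0⟩, 0⟩, 0, 0⟩ 0 0) (.cut .v 16842752 (.cut .s 12640256 (.pos 45 .mp ⟨⟨168416133, 0, 0, 0, 0, 54522402, 0, 0, 0, ⟨0, 0⟩, 0⟩, 0, 0⟩ 0 0) (.pos 45 .mp ⟨⟨171410914, 0, 0, 0, 0, 55688935, 0, 0, 0, ⟨0, 0⟩, 0⟩, 0, 0⟩ 0 0)) (.cut .s 12640256 (.pos 46 .mp ⟨⟨186959695, 0, 0, 0, 0, 22019351, 0, 0, 0, ⟨0, 0⟩, 0⟩, 0, 0⟩ 0 0) (.pos 46 .mp ⟨⟨190383039, 0, 0, 0, 0, 22395238, 0, 0, 0, ⟨0, 0⟩, 0⟩, 0, 0⟩ 0 0))))) (.cut .v 16842752 (.cut .l 184549 (.cut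 .s 12640256 (.cut .d (-8192) (.cut .s 12627968 (.pos 45 .mp ⟨⟨169143458, 0, 0, 0, 0, 52756093, 0, 0, 0, ⟨0, 0⟩, 0⟩, 0, 0⟩ 0 0) (.pos 45 .mp ⟨⟨170634210, 0, 0, 0, 0, 53315641, 0, 0, 0, ⟨0, 0⟩, 0⟩, 0, 0⟩ 0 0)) (.cut .l 92274 (.cut .v 16809984 (.cut .s 12627968 (.cut .s 12621824 (.pos 49 .mp ⟨⟨171803069, 0, 0, 0, 0, 42972029, 0, 0, 0, ⟨0, 0⟩, 0⟩, 0, 0⟩ 0 0) (.pos 49 .mp ⟨⟨172558881, 0, 0, 0, 0, 43203378, 0, 0, 0, ⟨0, 0⟩, 0⟩, 0, 0⟩ 0 0)) (.cut .s 12634112 (.pos 49 .mp ⟨⟨173318144, 0, 0, 0, 0, 43436967, 0, 0, 0, ⟨0, 0⟩, 0⟩, 0, 0⟩ 0 0) (.pos 49 .mp ⟨⟨174080875, 0, 0, 0, 0, 43672775, 0, 0, 0, ⟨0, 0⟩, 0⟩, 0, 0⟩ 0 0))) (.pos 50 .mp ⟨⟨201347480,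 0, 0, 0, 0, 0, 0, 0, 0, ⟨0, 0⟩, 0⟩, 0, 0⟩ 0 0)) (.pos 45 .mp ⟨⟨173440590, 0, 0, 0, 0, 39500128, 0, 0, 0, ⟨0, 0⟩, 0⟩, 0, 0⟩ 0 0))) (.cut .d (-8192) (.cut .s 12652544 (.pos 45 .mp ⟨⟨172138556, 0, 0, 0, 0, 53889974, 0, 0, 0, ⟨0, 0⟩, 0⟩, 0, 0⟩ 0 0) (.pos 45 .mp ⟨⟨173656612, 0, 0, 0, 0, 54479236, 0, 0, 0, ⟨0, 0⟩, 0⟩, 0, 0⟩ 0 0)) (.cut .l 92274 (.cut .v 16809984 (.cut .s 12652544 (.cut .s 12646400 (.pos 49 .mp ⟨⟨174847086, 0, 0, 0, 0, 43910785, 0, 0, 0, ⟨0, 0⟩, 0⟩, 0, 0⟩ 0 0) (.pos 49 .mp ⟨⟨175616794, 0, 0, 0, 0, 44150975, 0, 0, 0, ⟨0, 0⟩, 0⟩, 0, 0⟩ 0 0)) (.cut .s 12658688 (.pos 49 .mp ⟨⟨176390013, 0, 0, 0, 0, 44393325, 0, 0, 0, ⟨0,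 0⟩, 0⟩, 0, 0⟩ 0 0) (.pos 49 .mp ⟨⟨177166758, 0, 0, 0, 0, 44637816, 0, 0, 0, ⟨0, 0⟩, 0⟩, 0, 0⟩ 0 0))) (.pos 50 .mp ⟨⟨204986762, 0, 0, 0, 0, 0, 0, 0, 0, ⟨0, 0⟩, 0⟩, 0, 0⟩ 0 0)) (.pos 45 .mp ⟨⟨176513989, 0, 0, 0, 0, 40401040, 0, 0, 0, ⟨0, 0⟩, 0⟩, 0, 0⟩ 0 0)))) (.cut .v 16809984 (.pos 49 .mp ⟨⟨0, 0, 0, 0, 0, 304063677, 0, 0, 0, ⟨0, 0⟩, 0⟩, 0, 0⟩ 0 0) (.cut .s 12640256 (.pos 50 .mp ⟨⟨174674185, 0, 0, 0, 0, 39156901, 0, 0, 0, ⟨0, 0⟩, 0⟩, 0, 0⟩ 0 0) (.pos 50 .mp ⟨⟨177781874, 0, 0, 0, 0, 40010008, 0, 0, 0, ⟨0, 0⟩, 0⟩, 0, 0⟩ 0 0)))) (.cut .s 12640256 (.pos 46 .mp ⟨⟨197602975, 0, 0, 0, 0, 0, 0, 0, 0, ⟨0, 0⟩, 0⟩, 0, 0⟩ 0 0) (.pos 46 .mp ⟨⟨201173047,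 0, 0, 0, 0, 0, 0, 0, 0, ⟨0, 0⟩, 0⟩, 0, 0⟩ 0 0)))) (.cut .d (-16384) (.cut .d (-24576) (.void 35 ⟨⟨0, 0, 0, 0, 0, 100000, 0, 0, 0, ⟨0, 0⟩, 0⟩, 0, 0⟩ 0 0) (.cut .l 184549 (.void 35 ⟨⟨0, 0, 0, 0, 0, 100000, 0, 0, 0, ⟨0, 0⟩, 0⟩, 0, 0⟩ 0 0) (.cut .v 16842752 (.cut .s 12689408 (.pos 45 .mp ⟨⟨174460686, 0, 0, 0, 0, 56899311, 0, 0, 0, ⟨0, 0⟩, 0⟩, 0, 0⟩ 0 0) (.pos 45 .mp ⟨⟨177566393, 0, 0, 0, 0, 58152910, 0, 0, 0, ⟨0, 0⟩, 0⟩, 0, 0⟩ 0 0)) (.cut .s 12689408 (.pos 46 .mp ⟨⟨193948857, 0, 0, 0, 0, 22659556, 0, 0, 0, ⟨0, 0⟩, 0⟩, 0, 0⟩ 0 0) (.pos 46 .mp ⟨⟨197667114, 0, 0, 0, 0, 22795283, 0, 0, 0, ⟨0, 0⟩, 0⟩, 0, 0⟩ 0 0))))) (.cut .v 16842752 (.cut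 .l 184549 (.cut .s 12689408 (.cut .d (-8192) (.cut .s 12677120 (.pos 45 .mp ⟨⟨175188495, 0, 0, 0, 0, 55083570, 0, 0, 0, ⟨0, 0⟩, 0⟩, 0, 0⟩ 0 0) (.pos 45 .mp ⟨⟨176734323, 0, 0, 0, 0, 55703123, 0, 0, 0, ⟨0, 0⟩, 0⟩, 0, 0⟩ 0 0)) (.cut .l 92274 (.cut .v 16809984 (.cut .s 12677120 (.cut .s 12670976 (.pos 49 .mp ⟨⟨177947044, 0, 0, 0, 0, 44884427, 0, 0, 0, ⟨0, 0⟩, 0⟩, 0, 0⟩ 0 0) (.pos 49 .mp ⟨⟨178730886, 0, 0, 0, 0, 45133138, 0, 0, 0, ⟨0, 0⟩, 0⟩, 0, 0⟩ 0 0)) (.cut .s 12683264 (.pos 49 .mp ⟨⟨179518299, 0, 0, 0, 0, 45383928, 0, 0, 0, ⟨0, 0⟩, 0⟩, 0, 0⟩ 0 0) (.pos 49 .mp ⟨⟨180309300, 0, 0, 0, 0, 45636776, 0, 0, 0, ⟨0, 0⟩, 0⟩, 0, 0⟩ 0 0))) (.pos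 50 .mp ⟨⟨208692151, 0, 0, 0, 0, 0, 0, 0, 0, ⟨0, 0⟩, 0⟩, 0, 0⟩ 0 0)) (.pos 45 .mp ⟨⟨179643706, 0, 0, 0, 0, 41319650, 0, 0, 0, ⟨0, 0⟩, 0⟩, 0, 0⟩ 0 0))) (.cut .d (-8192) (.cut .s 12701696 (.pos 45 .mp ⟨⟨178294215, 0, 0, 0, 0, 56338044, 0, 0, 0, ⟨0, 0⟩, 0⟩, 0, 0⟩ 0 0) (.pos 45 .mp ⟨⟨179868293, 0, 0, 0, 0, 56988483, 0, 0, 0, ⟨0, 0⟩, 0⟩, 0, 0⟩ 0 0)) (.cut .l 92274 (.cut .v 16809984 (.cut .s 12701696 (.cut .s 12695552 (.pos 49 .mp ⟨⟨181103902, 0, 0, 0, 0, 45891660, 0, 0, 0, ⟨0, 0⟩, 0⟩, 0, 0⟩ 0 0) (.pos 49 .mp ⟨⟨181902122, 0, 0, 0, 0, 46148561, 0, 0, 0, ⟨0, 0⟩, 0⟩, 0, 0⟩ 0 0)) (.cut .s 12707840 (.pos 49 .mp ⟨⟨182703976, 0, 0, 0, 0, 46407455,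 0, 0, 0, ⟨0, 0⟩, 0⟩, 0, 0⟩ 0 0) (.pos 49 .mp ⟨⟨183509479, 0, 0, 0, 0, 46668323, 0, 0, 0, ⟨0, 0⟩, 0⟩, 0, 0⟩ 0 0))) (.pos 50 .mp ⟨⟨212462801, 0, 0, 0, 0, 0, 0, 0, 0, ⟨0, 0⟩, 0⟩, 0, 0⟩ 0 0)) (.pos 45 .mp ⟨⟨182830714, 0, 0, 0, 0, 42253291, 0, 0, 0, ⟨0, 0⟩, 0⟩, 0, 0⟩ 0 0)))) (.cut .v 16809984 (.pos 49 .mp ⟨⟨0, 0, 0, 0, 0, 316427393, 0, 0, 0, ⟨0, 0⟩, 0⟩, 0, 0⟩ 0 0) (.cut .s 12689408 (.pos 50 .mp ⟨⟨180946768, 0, 0, 0, 0, 40895626, 0, 0, 0, ⟨0, 0⟩, 0⟩, 0, 0⟩ 0 0) (.pos 50 .mp ⟨⟨184169855, 0, 0, 0, 0, 41812404, 0, 0, 0, ⟨0, 0⟩, 0⟩, 0, 0⟩ 0 0)))) (.cut .s 12689408 (.pos 46 .mp ⟨⟨204827508, 0, 0, 0, 0, 0, 0, 0, 0, ⟨0, 0⟩, 0⟩, 0, 0⟩ 0 0) (.pos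 46 .mp ⟨⟨208567775, 0, 0, 0, 0, 0, 0, 0, 0, ⟨0, 0⟩, 0⟩, 0, 0⟩ 0 0))))) (.pos 36 .mp ⟨⟨209385221, 0, 0, 0, 0, 0, 0, 0, 0, ⟨0, 0⟩, 0⟩, 0, 0⟩ 0 0)))))) (.pos 34 .mp ⟨⟨229078227, 0, 0, 0, 0, 0, 0, 0, 0, ⟨0, 0⟩, 0⟩, 0, 0⟩ 0 0)))) (.void 32 ⟨⟨100000, 0, 0, 0, 0, 0, 0, 0, 0, ⟨0, 0⟩, 0⟩, 0, 0⟩ 0 0)) (.void 30 ⟨⟨100000, 0, 0, 0, 0, 0, 0, 0, 0, ⟨0, 0⟩, 0⟩, 0, 0⟩ 0 0)))) (.void 28 ⟨⟨100000, 0, 0, 0, 0, 0, 0, 0, 0, ⟨0, 0⟩, 0⟩, 0, 0⟩ 0 0))) (.void 26 ⟨⟨100000, 0, 0, 0, 0, 0, 0, 0, 0, ⟨0, 0⟩, 0⟩, 0, 0⟩ 0 0))) (.void 24 ⟨⟨100000, 0, 0, 0, 0, 0, 0, 0, 0, ⟨0, 0⟩, 0⟩, 0, 0⟩ 0 0)) (.void 91 ⟨⟨100000, 0, 0, 0, 0, 0, 0, 0, 0, ⟨0, 0⟩, 0⟩, 0, 0⟩ 0 0))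 (.void 112 ⟨⟨100000, 0, 0, 0, 0, 0, 0, 0, 0, ⟨0, 0⟩, 0⟩, 0, 0⟩ 0 0))) (.cut .v 16777216 (.cut .v 8388608 (.cut .v 4194304 (.cut .v 2097152 (.cut .v 1048576 (.void 117 ⟨⟨0, 0, 19122, 0, 0, 0, 0, 0, 80878, ⟨0, 0⟩, 1983364⟩, 0, 0⟩ 0 0) (.pos 118 .pm ⟨⟨0, 0, 10725731, 0, 0, 0, 0, 0, 0, ⟨0, 0⟩, 0⟩, 0, 120900⟩ 0 0)) (.pos 114 .pm ⟨⟨0, 0, 6541853, 0, 0, 0, 0, 0, 0, ⟨0, 0⟩, 0⟩, 0, 217620⟩ 0 0)) (.pos 5 .pm ⟨⟨0, 0, 4839275, 0, 0, 0, 0, 0, 0, ⟨0, 0⟩, 0⟩, 0, 236174⟩ 0 0)) (.pos 3 .pm ⟨⟨0, 0, 0, 0, 0, 0, 0, 0, 0, ⟨0, 0⟩, 0⟩, 0, 0⟩ 0 0)) (.cut .v 67108864 (.cut .d 2854763 (.cut .v 33554432 (.cut .d 1427381 (.cut .v 25165824 (.cut .d 713690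 (.cut .v 20971520 (.cut .d 356845 (.cut .v 18874368 (.cut .d 178422 (.cut .v 17825792 (.cut .d 89211 (.cut .v 17301504 (.cut .s 12615680 (.pos 31 .pp ⟨⟨173069500, 0, 0, 0, 0, 0, 0, 0, 0, ⟨0, 0⟩, 0⟩, 1504456, 0⟩ 0 0) (.pos 31 .pp ⟨⟨185005277, 0, 0, 0, 0, 0, 0, 0, 0, ⟨0, 0⟩, 0⟩, 1743543, 0⟩ 0 0)) (.pos 32 .pp ⟨⟨204616694, 0, 0, 0, 0, 0, 0, 0, 0, ⟨0, 0⟩, 0⟩, 0, 0⟩ 0 0)) (.pos 29 .pp ⟨⟨0, 0, 0, 0, 0, 0, 0, 0, 0, ⟨0, 0⟩, 0⟩, 0, 608327⟩ 0 0)) (.cut .d 89211 (.pos 30 .pp ⟨⟨233626510, 0, 0, 0, 0, 0, 0, 0, 0, ⟨0, 0⟩, 0⟩, 0, 0⟩ 0 0) (.pos 30 .pp ⟨⟨206717428, 0, 0, 0, 0, 0, 0, 0, 0, ⟨0, 0⟩, 0⟩, 0, 0⟩ 0 0))) (.pos 27 .pp ⟨⟨0, 0, 0, 0, 0, 0,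 0, 0, 0, ⟨0, 0⟩, 0⟩, 0, 625166⟩ 0 0)) (.cut .d 178422 (.pos 28 .pp ⟨⟨283426873, 0, 0, 0, 0, 0, 0, 0, 0, ⟨0, 0⟩, 0⟩, 0, 0⟩ 0 0) (.cut .v 19922944 (.pos 53 .pp ⟨⟨216359626, 0, 0, 0, 0, 0, 0, 0, 0, ⟨0, 0⟩, 0⟩, 0, 0⟩ 0 0) (.pos 54 .pp ⟨⟨253636648, 0, 0, 0, 0, 0, 0, 0, 0, ⟨0, 0⟩, 0⟩, 0, 0⟩ 0 0)))) (.pos 25 .pp ⟨⟨0, 0, 0, 0, 0, 0, 0, 0, 0, ⟨0, 0⟩, 0⟩, 0, 656039⟩ 0 0)) (.cut .d 356845 (.cut .v 23068672 (.cut .v 22020096 (.cut .d 178422 (.void 57 ⟨⟨0, 0, 0, 0, 0, 0, 0, 0, 0, ⟨0, 0⟩, 0⟩, 100000, 0⟩ 0 0) (.pos 57 .pp ⟨⟨294500591, 0, 0, 0, 0, 0, 0, 0, 0, ⟨0, 0⟩, 0⟩, 0, 0⟩ 0 0)) (.pos 58 .pp ⟨⟨347198885, 0, 0, 0, 0, 0, 0, 0, 0, ⟨0, 0⟩, 0⟩,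 0, 0⟩ 0 0)) (.void 56 ⟨⟨0, 0, 0, 0, 0, 0, 0, 0, 0, ⟨0, 0⟩, 0⟩, 100000, 0⟩ 0 0)) (.cut .d 535267 (.cut .v 23068672 (.cut .v 22020096 (.pos 57 .pp ⟨⟨245918250, 0, 0, 0, 0, 0, 0, 0, 0, ⟨0, 0⟩, 0⟩, 0, 0⟩ 0 0) (.cut .v 22544384 (.pos 100 .pp ⟨⟨269034878, 0, 0, 0, 0, 0, 0, 0, 0, ⟨0, 0⟩, 0⟩, 0, 0⟩ 0 0) (.pos 101 .pp ⟨⟨18070551, 0, 0, 0, 0, 0, 0, 0, 0, ⟨0, 0⟩, 0⟩, 40762051, 0⟩ 0 0))) (.pos 56 .pp ⟨⟨0, 0, 0, 0, 0, 0, 0, 0, 0, ⟨0, 0⟩, 0⟩, 47246484, 0⟩ 0 0)) (.pos 26 .pp ⟨⟨0, 0, 0, 0, 0, 0, 283323, 0, 0, ⟨0, 0⟩, 0⟩, 32568041, 0⟩ 0 0)))) (.pos 23 .pp ⟨⟨0, 0, 0, 0, 0, 0, 1765243, 0, 0, ⟨0, 0⟩, 0⟩, 0, 0⟩ 0 0)) (.cut .d 713690 (.cut .v 29360128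 (.pos 75 .pp ⟨⟨0, 0, 0, 0, 0, 0, 0, 0, 0, ⟨0, 0⟩, 0⟩, 66145574, 0⟩ 0 0) (.void 76 ⟨⟨0, 0, 0, 0, 0, 0, 0, 0, 0, ⟨0, 0⟩, 0⟩, 100000, 0⟩ 0 0)) (.pos 24 .pp ⟨⟨0, 0, 0, 0, 0, 0, 0, 0, 0, ⟨0, 0⟩, 0⟩, 43833802, 0⟩ 0 0))) (.pos 22 .pp ⟨⟨0, 0, 0, 0, 0, 0, 1599862, 0, 0, ⟨0, 0⟩, 0⟩, 12918553, 0⟩ 0 0)) (.cut .d 1427381 (.pos 91 .pp ⟨⟨0, 0, 0, 0, 0, 0, 0, 0, 0, ⟨0, 0⟩, 0⟩, 140143071, 0⟩ 0 0) (.pos 91 .pp ⟨⟨0, 0, 0, 0, 0, 0, 0, 0, 0, ⟨0, 0⟩, 0⟩, 54518463, 0⟩ 0 0))) (.pos 90 .pp ⟨⟨0, 0, 0, 0, 0, 0, 0, 0, 0, ⟨0, 0⟩, 0⟩, 0, 590435⟩ 0 0)) (.void 112 ⟨⟨0, 0, 0, 46745, 0, 0, 0, 0, 0, ⟨0, 0⟩, 0⟩, 53255, 0⟩ 0 0)))),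
    by decide +kernel⟩

theorem covers21 : cell.Covers Vale.Agent.P237.Petty.Cor.Grid.N10.table row21.1 :=
  ⟨(.cut .d 0 (.cut .v 16777216 (.cut .v 8388608 (.pos 2 .mm ⟨⟨0, 0, 367115625, 0, 0, 201649316, 0, 0, 0, ⟨0, 0⟩, 0⟩, 0, 0⟩ 0 0) (.cut .d (-8388608) (.void 3 ⟨⟨0, 0, 0, 0, 0, 100000, 0, 0, 0, ⟨0, 0⟩, 0⟩, 0, 0⟩ 0 0) (.cut .d (-4194304) (.void 3 ⟨⟨0, 0, 0, 0, 0, 100000, 0, 0, 0, ⟨0, 0⟩, 0⟩, 0, 0⟩ 0 0) (.cut .d (-2097152) (.void 3 ⟨⟨0, 0, 0, 0, 0, 100000, 0, 0, 0, ⟨0, 0⟩, 0⟩, 0, 0⟩ 0 0) (.cut .d (-1048576) (.void 3 ⟨⟨0, 0, 0, 0, 0, 100000, 0, 0, 0, ⟨0, 0⟩, 0⟩, 0, 0⟩ 0 0) (.cut .d (-524288) (.void 3 ⟨⟨0, 0, 0, 0, 0, 100000, 0,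 0, 0, ⟨0, 0⟩, 0⟩, 0, 0⟩ 0 0) (.cut .s 12845056 (.pos 3 .mm ⟨⟨0, 0, 0, 0, 0, 384768569, 0, 0, 0, ⟨0, 0⟩, 0⟩, 0, 0⟩ 0 0) (.pos 3 .mm ⟨⟨0, 0, 0, 0, 0, 429055029, 0, 0, 0, ⟨0, 0⟩, 0⟩, 0, 0⟩ 0 0)))))))) (.cut .v 67108864 (.cut .v 33554432 (.cut .v 25165824 (.cut .d (-8388608) (.void 23 ⟨⟨100000, 0, 0, 0, 0, 0, 0, 0, 0, ⟨0, 0⟩, 0⟩, 0, 0⟩ 0 0) (.cut .v 20971520 (.cut .d (-4194304) (.void 25 ⟨⟨100000, 0, 0, 0, 0, 0, 0, 0, 0, ⟨0, 0⟩, 0⟩, 0, 0⟩ 0 0) (.cut .d (-2097152) (.void 25 ⟨⟨100000, 0, 0, 0, 0, 0, 0, 0, 0, ⟨0, 0⟩, 0⟩, 0, 0⟩ 0 0) (.cut .v 18874368 (.cut .d (-1048576) (.void 27 ⟨⟨100000, 0, 0, 0, 0, 0, 0, 0, 0, ⟨0, 0⟩, 0⟩, 0, 0⟩ 0 0)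 (.cut .v 17825792 (.cut .v 17301504 (.cut .d (-524288) (.void 31 ⟨⟨100000, 0, 0, 0, 0, 0, 0, 0, 0, ⟨0, 0⟩, 0⟩, 0, 0⟩ 0 0) (.cut .d (-262144) (.void 31 ⟨⟨100000, 0, 0, 0, 0, 0, 0, 0, 0, ⟨0, 0⟩, 0⟩, 0, 0⟩ 0 0) (.cut .d (-131072) (.void 31 ⟨⟨100000, 0, 0, 0, 0, 0, 0, 0, 0, ⟨0, 0⟩, 0⟩, 0, 0⟩ 0 0) (.cut .d (-65536) (.void 31 ⟨⟨100000, 0, 0, 0, 0, 0, 0, 0, 0, ⟨0, 0⟩, 0⟩, 0, 0⟩ 0 0) (.cut .d (-32768) (.void 31 ⟨⟨0, 0, 0, 0, 0, 100000, 0, 0, 0, ⟨0, 0⟩, 0⟩, 0, 0⟩ 0 0) (.cut .v 17039360 (.cut .s 12845056 (.cut .s 12779520 (.cut .v 16908288 (.cut .d (-16384) (.cut .l 184549 (.void 35 ⟨⟨0, 0, 0, 0, 0, 100000, 0, 0, 0, ⟨0, 0⟩, 0⟩, 0, 0⟩ 0 0)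 (.cut .d (-24576) (.void 35 ⟨⟨0, 0, 0, 0, 0, 100000, 0, 0, 0, ⟨0, 0⟩, 0⟩, 0, 0⟩ 0 0) (.cut .s 12746752 (.cut .v 16842752 (.cut .s 12730368 (.pos 45 .mp ⟨⟨180731062, 0, 0, 0, 0, 58153094, 0, 0, 0, ⟨0, 0⟩, 0⟩, 0, 0⟩ 0 0) (.pos 45 .mp ⟨⟨182873430, 0, 0, 0, 0, 58915663, 0, 0, 0, ⟨0, 0⟩, 0⟩, 0, 0⟩ 0 0)) (.cut .s 12730368 (.pos 46 .mp ⟨⟨195660413, 0, 0, 0, 0, 31860401, 0, 0, 0, ⟨0, 0⟩, 0⟩, 0, 0⟩ 0 0) (.pos 46 .mp ⟨⟨197698716, 0, 0, 0, 0, 32785890, 0, 0, 0, ⟨0, 0⟩, 0⟩, 0, 0⟩ 0 0))) (.cut .v 16842752 (.cut .s 12763136 (.pos 45 .mp ⟨⟨185042884, 0, 0, 0, 0, 59705027, 0, 0, 0, ⟨0, 0⟩, 0⟩, 0, 0⟩ 0 0) (.pos 45 .mp ⟨⟨187239740, 0, 0, 0, 0, 60521013,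 0, 0, 0, ⟨0, 0⟩, 0⟩, 0, 0⟩ 0 0)) (.cut .s 12763136 (.pos 46 .mp ⟨⟨199793784, 0, 0, 0, 0, 33686135, 0, 0, 0, ⟨0, 0⟩, 0⟩, 0, 0⟩ 0 0) (.pos 46 .mp ⟨⟨201949123, 0, 0, 0, 0, 34555210, 0, 0, 0, ⟨0, 0⟩, 0⟩, 0, 0⟩ 0 0)))))) (.cut .s 12746752 (.cut .v 16842752 (.cut .l 184549 (.cut .d (-8192) (.cut .s 12730368 (.pos 45 .mp ⟨⟨181458537, 0, 0, 0, 0, 58684046, 0, 0, 0, ⟨0, 0⟩, 0⟩, 0, 0⟩ 0 0) (.pos 45 .mp ⟨⟨183599659, 0, 0, 0, 0, 59431689, 0, 0, 0, ⟨0, 0⟩, 0⟩, 0, 0⟩ 0 0)) (.cut .v 16809984 (.cut .s 12730368 (.cut .l 92274 (.cut .d (-4096) (.pos 49 .mp ⟨⟨181130142, 0, 0, 0, 0, 58366448, 0, 0, 0, ⟨0, 0⟩, 0⟩, 0, 0⟩ 0 0) (.cut .s 12722176 (.pos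 49 .mp ⟨⟨183575148, 0, 0, 0, 0, 48421390, 0, 0, 0, ⟨0, 0⟩, 0⟩, 0, 0⟩ 0 0) (.pos 49 .mp ⟨⟨184652993, 0, 0, 0, 0, 48737506, 0, 0, 0, ⟨0, 0⟩, 0⟩, 0, 0⟩ 0 0))) (.pos 49 .mp ⟨⟨184285674, 0, 0, 0, 0, 45892016, 0, 0, 0, ⟨0, 0⟩, 0⟩, 0, 0⟩ 0 0)) (.cut .l 92274 (.cut .d (-4096) (.pos 49 .mp ⟨⟨183262983, 0, 0, 0, 0, 59118508, 0, 0, 0, ⟨0, 0⟩, 0⟩, 0, 0⟩ 0 0) (.cut .s 12738560 (.pos 49 .mp ⟨⟨185737609, 0, 0, 0, 0, 49060108, 0, 0, 0, ⟨0, 0⟩, 0⟩, 0, 0⟩ 0 0) (.pos 49 .mp ⟨⟨186829038, 0, 0, 0, 0, 49389176, 0, 0, 0, ⟨0, 0⟩, 0⟩, 0, 0⟩ 0 0))) (.pos 49 .mp ⟨⟨186462354, 0, 0, 0, 0, 46561355, 0, 0, 0, ⟨0, 0⟩, 0⟩, 0, 0⟩ 0 0))) (.pos 50 .mp ⟨⟨212787427,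 0, 0, 0, 0, 0, 0, 0, 0, ⟨0, 0⟩, 0⟩, 0, 0⟩ 0 0))) (.cut .s 12730368 (.pos 45 .mp ⟨⟨185648503, 0, 0, 0, 0, 44211507, 0, 0, 0, ⟨0, 0⟩, 0⟩, 0, 0⟩ 0 0) (.pos 45 .mp ⟨⟨187850696, 0, 0, 0, 0, 44846154, 0, 0, 0, ⟨0, 0⟩, 0⟩, 0, 0⟩ 0 0))) (.pos 46 .mp ⟨⟨213301781, 0, 0, 0, 0, 0, 0, 0, 0, ⟨0, 0⟩, 0⟩, 0, 0⟩ 0 0)) (.cut .v 16842752 (.cut .l 184549 (.cut .d (-8192) (.cut .s 12763136 (.pos 45 .mp ⟨⟨185767754, 0, 0, 0, 0, 60210939, 0, 0, 0, ⟨0, 0⟩, 0⟩, 0, 0⟩ 0 0) (.pos 45 .mp ⟨⟨187963137, 0, 0, 0, 0, 61022217, 0, 0, 0, ⟨0, 0⟩, 0⟩, 0, 0⟩ 0 0)) (.cut .v 16809984 (.cut .s 12763136 (.cut .l 92274 (.cut .d (-4096) (.pos 49 .mp ⟨⟨185422647, 0, 0, 0,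 0, 59902293, 0, 0, 0, ⟨0, 0⟩, 0⟩, 0, 0⟩ 0 0) (.cut .s 12754944 (.pos 49 .mp ⟨⟨187927317, 0, 0, 0, 0, 49724685, 0, 0, 0, ⟨0, 0⟩, 0⟩, 0, 0⟩ 0 0) (.pos 49 .mp ⟨⟨189032487, 0, 0, 0, 0, 50066612, 0, 0, 0, ⟨0, 0⟩, 0⟩, 0, 0⟩ 0 0))) (.pos 49 .mp ⟨⟨188666496, 0, 0, 0, 0, 47249433, 0, 0, 0, ⟨0, 0⟩, 0⟩, 0, 0⟩ 0 0)) (.cut .l 92274 (.cut .d (-4096) (.pos 49 .mp ⟨⟨187609447, 0, 0, 0, 0, 60718223, 0, 0, 0, ⟨0, 0⟩, 0⟩, 0, 0⟩ 0 0) (.cut .s 12771328 (.pos 49 .mp ⟨⟨190144588, 0, 0, 0, 0, 50414935, 0, 0, 0, ⟨0, 0⟩, 0⟩, 0, 0⟩ 0 0) (.cut .s 12775424 (.pos 49 .mp ⟨⟨190742276, 0, 0, 0, 0, 51397607, 0, 0, 0, ⟨0, 0⟩, 0⟩, 0, 0⟩ 0 0) (.pos 49 .mp ⟨⟨191291552,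 0, 0, 0, 0, 51597058, 0, 0, 0, ⟨0, 0⟩, 0⟩, 0, 0⟩ 0 0)))) (.pos 49 .mp ⟨⟨190898419, 0, 0, 0, 0, 47955336, 0, 0, 0, ⟨0, 0⟩, 0⟩, 0, 0⟩ 0 0))) (.pos 50 .mp ⟨⟨217873331, 0, 0, 0, 0, 0, 0, 0, 0, ⟨0, 0⟩, 0⟩, 0, 0⟩ 0 0))) (.cut .s 12763136 (.pos 45 .mp ⟨⟨190080827, 0, 0, 0, 0, 45498857, 0, 0, 0, ⟨0, 0⟩, 0⟩, 0, 0⟩ 0 0) (.cut .s 12771328 (.pos 45 .mp ⟨⟨191206472, 0, 0, 0, 0, 47609860, 0, 0, 0, ⟨0, 0⟩, 0⟩, 0, 0⟩ 0 0) (.pos 45 .mp ⟨⟨192339224, 0, 0, 0, 0, 47957648, 0, 0, 0, ⟨0, 0⟩, 0⟩, 0, 0⟩ 0 0)))) (.pos 46 .mp ⟨⟨218400121, 0, 0, 0, 0, 0, 0, 0, 0, ⟨0, 0⟩, 0⟩, 0, 0⟩ 0 0)))) (.pos 36 .mp ⟨⟨222000546, 0, 0, 0, 0, 0, 0, 0, 0, ⟨0, 0⟩, 0⟩, 0, 0⟩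 0 0)) (.cut .v 16908288 (.cut .d (-16384) (.cut .l 184549 (.void 35 ⟨⟨0, 0, 0, 0, 0, 100000, 0, 0, 0, ⟨0, 0⟩, 0⟩, 0, 0⟩ 0 0) (.cut .d (-24576) (.void 35 ⟨⟨0, 0, 0, 0, 0, 100000, 0, 0, 0, ⟨0, 0⟩, 0⟩, 0, 0⟩ 0 0) (.cut .s 12812288 (.cut .v 16842752 (.cut .s 12795904 (.pos 45 .mp ⟨⟨187911922, 0, 0, 0, 0, 64105894, 0, 0, 0, ⟨0, 0⟩, 0⟩, 0, 0⟩ 0 0) (.pos 45 .mp ⟨⟨190037200, 0, 0, 0, 0, 65201826, 0, 0, 0, ⟨0, 0⟩, 0⟩, 0, 0⟩ 0 0)) (.cut .s 12795904 (.pos 46 .mp ⟨⟨199797633, 0, 0, 0, 0, 43108276, 0, 0, 0, ⟨0, 0⟩, 0⟩, 0, 0⟩ 0 0) (.pos 46 .mp ⟨⟨202183693, 0, 0, 0, 0, 43726924, 0, 0, 0, ⟨0, 0⟩, 0⟩, 0, 0⟩ 0 0))) (.cut .v 16842752 (.cut .s 12828672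 (.pos 45 .mp ⟨⟨192228581, 0, 0, 0, 0, 66257405, 0, 0, 0, ⟨0, 0⟩, 0⟩, 0, 0⟩ 0 0) (.pos 45 .mp ⟨⟨194489730, 0, 0, 0, 0, 67266373, 0, 0, 0, ⟨0, 0⟩, 0⟩, 0, 0⟩ 0 0)) (.cut .s 12828672 (.pos 46 .mp ⟨⟨204600125, 0, 0, 0, 0, 44367747, 0, 0, 0, ⟨0, 0⟩, 0⟩, 0, 0⟩ 0 0) (.pos 46 .mp ⟨⟨207047291, 0, 0, 0, 0, 45030487, 0, 0, 0, ⟨0, 0⟩, 0⟩, 0, 0⟩ 0 0)))))) (.cut .s 12812288 (.cut .v 16842752 (.cut .l 184549 (.cut .d (-8192) (.cut .d (-12288) (.void 45 ⟨⟨0, 0, 0, 0, 0, 100000, 0, 0, 0, ⟨0, 0⟩, 0⟩, 0, 0⟩ 0 0) (.cut .d (-10240) (.pos 45 .mp ⟨⟨190945956, 0, 0, 0, 0, 66302208, 0, 0, 0, ⟨0, 0⟩, 0⟩, 0, 0⟩ 0 0) (.cut .v 16809984 (.cut .s 12795904 (.pos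 49 .mp ⟨⟨189460648, 0, 0, 0, 0, 61507688, 0, 0, 0, ⟨0, 0⟩, 0⟩, 0, 0⟩ 0 0) (.pos 49 .mp ⟨⟨191703504, 0, 0, 0, 0, 62378020, 0, 0, 0, ⟨0, 0⟩, 0⟩, 0, 0⟩ 0 0)) (.pos 50 .mp ⟨⟨217003863, 0, 0, 0, 0, 13362390, 0, 0, 0, ⟨0, 0⟩, 0⟩, 0, 0⟩ 0 0)))) (.cut .v 16809984 (.cut .s 12795904 (.cut .l 92274 (.cut .d (-4096) (.pos 49 .mp ⟨⟨189823700, 0, 0, 0, 0, 61566726, 0, 0, 0, ⟨0, 0⟩, 0⟩, 0, 0⟩ 0 0) (.cut .v 16793600 (.cut .s 12787712 (.pos 83 .mp ⟨⟨192024459, 0, 0, 0, 0, 51776751, 0, 0, 0, ⟨0, 0⟩, 0⟩, 0, 0⟩ 0 0) (.pos 83 .mp ⟨⟨193155574, 0, 0, 0, 0, 52147943, 0, 0, 0, ⟨0, 0⟩, 0⟩, 0, 0⟩ 0 0)) (.pos 84 .mp ⟨⟨220912050, 0, 0, 0, 0, 0, 0, 0, 0, ⟨0,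 0⟩, 0⟩, 0, 0⟩ 0 0))) (.pos 49 .mp ⟨⟨193158450, 0, 0, 0, 0, 48678139, 0, 0, 0, ⟨0, 0⟩, 0⟩, 0, 0⟩ 0 0)) (.cut .l 92274 (.cut .d (-4096) (.pos 49 .mp ⟨⟨192065730, 0, 0, 0, 0, 62448236, 0, 0, 0, ⟨0, 0⟩, 0⟩, 0, 0⟩ 0 0) (.cut .v 16793600 (.cut .s 12804096 (.pos 83 .mp ⟨⟨194293773, 0, 0, 0, 0, 52525457, 0, 0, 0, ⟨0, 0⟩, 0⟩, 0, 0⟩ 0 0) (.pos 83 .mp ⟨⟨195439096, 0, 0, 0, 0, 52909264, 0, 0, 0, ⟨0, 0⟩, 0⟩, 0, 0⟩ 0 0)) (.pos 84 .mp ⟨⟨223568260, 0, 0, 0, 0, 0, 0, 0, 0, ⟨0, 0⟩, 0⟩, 0, 0⟩ 0 0))) (.pos 49 .mp ⟨⟨195446923, 0, 0, 0, 0, 49416910, 0, 0, 0, ⟨0, 0⟩, 0⟩, 0, 0⟩ 0 0))) (.pos 50 .mp ⟨⟨223131772, 0, 0, 0, 0, 0, 0, 0, 0, ⟨0, 0⟩, 0⟩, 0, 0⟩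 0 0))) (.cut .d (-8192) (.cut .s 12795904 (.pos 45 .mp ⟨⟨194626217, 0, 0, 0, 0, 47208372, 0, 0, 0, ⟨0, 0⟩, 0⟩, 0, 0⟩ 0 0) (.cut .s 12804096 (.pos 45 .mp ⟨⟨195780543, 0, 0, 0, 0, 49687731, 0, 0, 0, ⟨0, 0⟩, 0⟩, 0, 0⟩ 0 0) (.pos 45 .mp ⟨⟨196942146, 0, 0, 0, 0, 50042761, 0, 0, 0, ⟨0, 0⟩, 0⟩, 0, 0⟩ 0 0))) (.pos 45 .mp ⟨⟨0, 0, 0, 0, 0, 0, 0, 0, 0, ⟨0, 0⟩, 0⟩, 0, 0⟩ 0 0))) (.pos 46 .mp ⟨⟨223671414, 0, 0, 0, 0, 0, 0, 0, 0, ⟨0, 0⟩, 0⟩, 0, 0⟩ 0 0)) (.cut .v 16842752 (.cut .l 184549 (.cut .d (-8192) (.cut .s 12828672 (.cut .s 12820480 (.pos 45 .mp ⟨⟨194716234, 0, 0, 0, 0, 61308421, 0, 0, 0, ⟨0, 0⟩, 0⟩, 0, 0⟩ 0 0) (.pos 45 .mp ⟨⟨195866529,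 0, 0, 0, 0, 61754841, 0, 0, 0, ⟨0, 0⟩, 0⟩, 0, 0⟩ 0 0)) (.pos 45 .mp ⟨⟨197024016, 0, 0, 0, 0, 64596229, 0, 0, 0, ⟨0, 0⟩, 0⟩, 0, 0⟩ 0 0)) (.cut .v 16809984 (.cut .s 12828672 (.cut .l 92274 (.cut .d (-4096) (.pos 49 .mp ⟨⟨194335866, 0, 0, 0, 0, 63363196, 0, 0, 0, ⟨0, 0⟩, 0⟩, 0, 0⟩ 0 0) (.cut .v 16793600 (.cut .s 12820480 (.pos 83 .mp ⟨⟨196591587, 0, 0, 0, 0, 53299339, 0, 0, 0, ⟨0, 0⟩, 0⟩, 0, 0⟩ 0 0) (.cut .s 12824576 (.pos 83 .mp ⟨⟨198268621, 0, 0, 0, 0, 52403378, 0, 0, 0, ⟨0, 0⟩, 0⟩, 0, 0⟩ 0 0) (.pos 83 .mp ⟨⟨198850055, 0, 0, 0, 0, 52603550, 0, 0, 0, ⟨0, 0⟩, 0⟩, 0, 0⟩ 0 0))) (.pos 84 .mp ⟨⟨226268828, 0, 0, 0, 0, 0, 0, 0, 0, ⟨0, 0⟩,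 0⟩, 0, 0⟩ 0 0))) (.pos 49 .mp ⟨⟨197764174, 0, 0, 0, 0, 50170704, 0, 0, 0, ⟨0, 0⟩, 0⟩, 0, 0⟩ 0 0)) (.cut .l 92274 (.cut .d (-4096) (.pos 49 .mp ⟨⟨196634440, 0, 0, 0, 0, 64312056, 0, 0, 0, ⟨0, 0⟩, 0⟩, 0, 0⟩ 0 0) (.cut .v 16793600 (.cut .l 46137 (.cut .d (-2048) (.pos 83 .mp ⟨⟨196440858, 0, 0, 0, 0, 64167717, 0, 0, 0, ⟨0, 0⟩, 0⟩, 0, 0⟩ 0 0) (.cut .s 12836864 (.pos 83 .mp ⟨⟨198279503, 0, 0, 0, 0, 55213095, 0, 0, 0, ⟨0, 0⟩, 0⟩, 0, 0⟩ 0 0) (.pos 83 .mp ⟨⟨199448980, 0, 0, 0, 0, 55630209, 0, 0, 0, ⟨0, 0⟩, 0⟩, 0, 0⟩ 0 0))) (.pos 83 .mp ⟨⟨199337427, 0, 0, 0, 0, 51903918, 0, 0, 0, ⟨0, 0⟩, 0⟩, 0, 0⟩ 0 0)) (.pos 84 .mp ⟨⟨229014267, 0, 0, 0,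 0, 0, 0, 0, 0, ⟨0, 0⟩, 0⟩, 0, 0⟩ 0 0))) (.pos 49 .mp ⟨⟨200110547, 0, 0, 0, 0, 50938568, 0, 0, 0, ⟨0, 0⟩, 0⟩, 0, 0⟩ 0 0))) (.pos 50 .mp ⟨⟨228566722, 0, 0, 0, 0, 0, 0, 0, 0, ⟨0, 0⟩, 0⟩, 0, 0⟩ 0 0))) (.cut .v 16809984 (.pos 49 .mp ⟨⟨0, 0, 0, 0, 0, 355781082, 0, 0, 0, ⟨0, 0⟩, 0⟩, 0, 0⟩ 0 0) (.cut .s 12828672 (.pos 50 .mp ⟨⟨200041571, 0, 0, 0, 0, 48286972, 0, 0, 0, ⟨0, 0⟩, 0⟩, 0, 0⟩ 0 0) (.pos 50 .mp ⟨⟨202424848, 0, 0, 0, 0, 49002442, 0, 0, 0, ⟨0, 0⟩, 0⟩, 0, 0⟩ 0 0)))) (.pos 46 .mp ⟨⟨229119641, 0, 0, 0, 0, 0, 0, 0, 0, ⟨0, 0⟩, 0⟩, 0, 0⟩ 0 0)))) (.pos 36 .mp ⟨⟨232947577, 0, 0, 0, 0, 0, 0, 0, 0, ⟨0, 0⟩, 0⟩, 0, 0⟩ 0 0))) (.cut .s 12910592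 (.cut .v 16908288 (.cut .d (-16384) (.cut .l 184549 (.void 35 ⟨⟨0, 0, 0, 0, 0, 100000, 0, 0, 0, ⟨0, 0⟩, 0⟩, 0, 0⟩ 0 0) (.cut .d (-24576) (.void 35 ⟨⟨0, 0, 0, 0, 0, 100000, 0, 0, 0, ⟨0, 0⟩, 0⟩, 0, 0⟩ 0 0) (.cut .s 12877824 (.cut .v 16842752 (.cut .s 12861440 (.pos 45 .mp ⟨⟨196824360, 0, 0, 0, 0, 68222374, 0, 0, 0, ⟨0, 0⟩, 0⟩, 0, 0⟩ 0 0) (.pos 45 .mp ⟨⟨199236231, 0, 0, 0, 0, 69118952, 0, 0, 0, ⟨0, 0⟩, 0⟩, 0, 0⟩ 0 0)) (.cut .s 12861440 (.pos 46 .mp ⟨⟨209525558, 0, 0, 0, 0, 45714874, 0, 0, 0, ⟨0, 0⟩, 0⟩, 0, 0⟩ 0 0) (.pos 46 .mp ⟨⟨212035303, 0, 0, 0, 0, 46420632, 0, 0, 0, ⟨0, 0⟩, 0⟩, 0, 0⟩ 0 0))) (.cut .l 276824 (.pos 35 .mp ⟨⟨208636220,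 0, 0, 0, 0, 67554331, 0, 0, 0, ⟨0, 0⟩, 0⟩, 0, 0⟩ 0 0) (.cut .v 16842752 (.pos 45 .mp ⟨⟨185196302, 0, 0, 0, 0, 99528049, 0, 0, 0, ⟨0, 0⟩, 0⟩, 0, 0⟩ 0 0) (.cut .s 12894208 (.pos 46 .mp ⟨⟨212998218, 0, 0, 0, 0, 49518509, 0, 0, 0, ⟨0, 0⟩, 0⟩, 0, 0⟩ 0 0) (.pos 46 .mp ⟨⟨215552672, 0, 0, 0, 0, 50287460, 0, 0, 0, ⟨0, 0⟩, 0⟩, 0, 0⟩ 0 0))))))) (.cut .s 12877824 (.cut .v 16842752 (.cut .l 184549 (.cut .d (-8192) (.cut .s 12861440 (.pos 45 .mp ⟨⟨199360738, 0, 0, 0, 0, 65574178, 0, 0, 0, ⟨0, 0⟩, 0⟩, 0, 0⟩ 0 0) (.pos 45 .mp ⟨⟨201726746, 0, 0, 0, 0, 66586818, 0, 0, 0, ⟨0, 0⟩, 0⟩, 0, 0⟩ 0 0)) (.cut .v 16809984 (.cut .s 12861440 (.cut .l 92274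 (.cut .d (-4096) (.pos 49 .mp ⟨⟨198961793, 0, 0, 0, 0, 65295270, 0, 0, 0, ⟨0, 0⟩, 0⟩, 0, 0⟩ 0 0) (.cut .v 16793600 (.cut .s 12853248 (.cut .s 12849152 (.pos 83 .mp ⟨⟨201805187, 0, 0, 0, 0, 53592445, 0, 0, 0, ⟨0, 0⟩, 0⟩, 0, 0⟩ 0 0) (.pos 83 .mp ⟨⟨202406037, 0, 0, 0, 0, 53787466, 0, 0, 0, ⟨0, 0⟩, 0⟩, 0, 0⟩ 0 0)) (.pos 83 .mp ⟨⟨202463055, 0, 0, 0, 0, 55342767, 0, 0, 0, ⟨0, 0⟩, 0⟩, 0, 0⟩ 0 0)) (.pos 84 .mp ⟨⟨231805100, 0, 0, 0, 0, 0, 0, 0, 0, ⟨0, 0⟩, 0⟩, 0, 0⟩ 0 0))) (.pos 49 .mp ⟨⟨202486391, 0, 0, 0, 0, 51719538, 0, 0, 0, ⟨0, 0⟩, 0⟩, 0, 0⟩ 0 0)) (.cut .l 92274 (.cut .d (-4096) (.pos 49 .mp ⟨⟨201318269, 0, 0, 0, 0, 66313304, 0, 0,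 0, ⟨0, 0⟩, 0⟩, 0, 0⟩ 0 0) (.cut .v 16793600 (.cut .s 12869632 (.pos 83 .mp ⟨⟨203659457, 0, 0, 0, 0, 55769863, 0, 0, 0, ⟨0, 0⟩, 0⟩, 0, 0⟩ 0 0) (.pos 83 .mp ⟨⟨204863332, 0, 0, 0, 0, 56203027, 0, 0, 0, ⟨0, 0⟩, 0⟩, 0, 0⟩ 0 0)) (.pos 84 .mp ⟨⟨234641859, 0, 0, 0, 0, 0, 0, 0, 0, ⟨0, 0⟩, 0⟩, 0, 0⟩ 0 0))) (.pos 49 .mp ⟨⟨204892061, 0, 0, 0, 0, 52512641, 0, 0, 0, ⟨0, 0⟩, 0⟩, 0, 0⟩ 0 0))) (.pos 50 .mp ⟨⟨234182284, 0, 0, 0, 0, 0, 0, 0, 0, ⟨0, 0⟩, 0⟩, 0, 0⟩ 0 0))) (.cut .v 16809984 (.pos 49 .mp ⟨⟨0, 0, 0, 0, 0, 365440175, 0, 0, 0, ⟨0, 0⟩, 0⟩, 0, 0⟩ 0 0) (.cut .s 12861440 (.pos 50 .mp ⟨⟨204838212, 0, 0, 0, 0, 49737918, 0, 0, 0, ⟨0, 0⟩, 0⟩, 0,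 0⟩ 0 0) (.pos 50 .mp ⟨⟨207282025, 0, 0, 0, 0, 50492905, 0, 0, 0, ⟨0, 0⟩, 0⟩, 0, 0⟩ 0 0)))) (.pos 46 .mp ⟨⟨234748915, 0, 0, 0, 0, 0, 0, 0, 0, ⟨0, 0⟩, 0⟩, 0, 0⟩ 0 0)) (.cut .v 16842752 (.cut .l 184549 (.cut .d (-8192) (.cut .s 12894208 (.pos 45 .mp ⟨⟨204122393, 0, 0, 0, 0, 67634620, 0, 0, 0, ⟨0, 0⟩, 0⟩, 0, 0⟩ 0 0) (.pos 45 .mp ⟨⟨206548038, 0, 0, 0, 0, 68718061, 0, 0, 0, ⟨0, 0⟩, 0⟩, 0, 0⟩ 0 0)) (.cut .v 16809984 (.cut .s 12894208 (.cut .l 92274 (.cut .d (-4096) (.pos 49 .mp ⟨⟨203704220, 0, 0, 0, 0, 67366629, 0, 0, 0, ⟨0, 0⟩, 0⟩, 0, 0⟩ 0 0) (.cut .v 16793600 (.cut .s 12886016 (.pos 83 .mp ⟨⟨206074726, 0, 0, 0, 0, 56642227, 0, 0, 0,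 ⟨0, 0⟩, 0⟩, 0, 0⟩ 0 0) (.pos 83 .mp ⟨⟨207293683, 0, 0, 0, 0, 57087431, 0, 0, 0, ⟨0, 0⟩, 0⟩, 0, 0⟩ 0 0)) (.pos 84 .mp ⟨⟨237525085, 0, 0, 0, 0, 0, 0, 0, 0, ⟨0, 0⟩, 0⟩, 0, 0⟩ 0 0))) (.pos 49 .mp ⟨⟨207327919, 0, 0, 0, 0, 53316891, 0, 0, 0, ⟨0, 0⟩, 0⟩, 0, 0⟩ 0 0)) (.cut .l 92274 (.cut .d (-4096) (.pos 49 .mp ⟨⟨206120003, 0, 0, 0, 0, 68455725, 0, 0, 0, ⟨0, 0⟩, 0⟩, 0, 0⟩ 0 0) (.cut .s 12902400 (.cut .s 12898304 (.pos 49 .mp ⟨⟨208366306, 0, 0, 0, 0, 57469348, 0, 0, 0, ⟨0, 0⟩, 0⟩, 0, 0⟩ 0 0) (.pos 49 .mp ⟨⟨208998333, 0, 0, 0, 0, 57669429, 0, 0, 0, ⟨0, 0⟩, 0⟩, 0, 0⟩ 0 0)) (.pos 49 .mp ⟨⟨210151468, 0, 0, 0, 0, 57289536, 0, 0, 0, ⟨0, 0⟩, 0⟩,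 0, 0⟩ 0 0))) (.pos 49 .mp ⟨⟨209794332, 0, 0, 0, 0, 54131293, 0, 0, 0, ⟨0, 0⟩, 0⟩, 0, 0⟩ 0 0))) (.pos 50 .mp ⟨⟨239982701, 0, 0, 0, 0, 0, 0, 0, 0, ⟨0, 0⟩, 0⟩, 0, 0⟩ 0 0))) (.cut .d (-8192) (.cut .s 12894208 (.pos 45 .mp ⟨⟨201038623, 0, 0, 0, 0, 68843162, 0, 0, 0, ⟨0, 0⟩, 0⟩, 0, 0⟩ 0 0) (.pos 45 .mp ⟨⟨203426567, 0, 0, 0, 0, 69898105, 0, 0, 0, ⟨0, 0⟩, 0⟩, 0, 0⟩ 0 0)) (.pos 45 .mp ⟨⟨0, 0, 0, 0, 0, 0, 0, 0, 0, ⟨0, 0⟩, 0⟩, 0, 0⟩ 0 0))) (.pos 46 .mp ⟨⟨240563490, 0, 0, 0, 0, 0, 0, 0, 0, ⟨0, 0⟩, 0⟩, 0, 0⟩ 0 0)))) (.pos 36 .mp ⟨⟨244494920, 0, 0, 0, 0, 0, 0, 0, 0, ⟨0, 0⟩, 0⟩, 0, 0⟩ 0 0)) (.cut .v 16908288 (.cut .d (-16384) (.cut .l 184549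 (.void 35 ⟨⟨0, 0, 0, 0, 0, 100000, 0, 0, 0, ⟨0, 0⟩, 0⟩, 0, 0⟩ 0 0) (.cut .d (-24576) (.void 35 ⟨⟨0, 0, 0, 0, 0, 100000, 0, 0, 0, ⟨0, 0⟩, 0⟩, 0, 0⟩ 0 0) (.cut .s 12943360 (.cut .l 276824 (.pos 35 .mp ⟨⟨213667685, 0, 0, 0, 0, 69732097, 0, 0, 0, ⟨0, 0⟩, 0⟩, 0, 0⟩ 0 0) (.cut .v 16842752 (.pos 45 .mp ⟨⟨189797594, 0, 0, 0, 0, 102176178, 0, 0, 0, ⟨0, 0⟩, 0⟩, 0, 0⟩ 0 0) (.pos 46 .mp ⟨⟨220758979, 0, 0, 0, 0, 49349492, 0, 0, 0, ⟨0, 0⟩, 0⟩, 0, 0⟩ 0 0))) (.cut .v 16842752 (.pos 45 .mp ⟨⟨207579633, 0, 0, 0, 0, 85184247, 0, 0, 0, ⟨0, 0⟩, 0⟩, 0, 0⟩ 0 0) (.cut .s 12959744 (.pos 46 .mp ⟨⟨225069728, 0, 0, 0, 0, 50259542, 0, 0, 0, ⟨0, 0⟩, 0⟩, 0,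 0⟩ 0 0) (.pos 46 .mp ⟨⟨227776559, 0, 0, 0, 0, 51087119, 0, 0, 0, ⟨0, 0⟩, 0⟩, 0, 0⟩ 0 0)))))) (.cut .s 12943360 (.cut .v 16842752 (.cut .l 184549 (.cut .d (-8192) (.cut .s 12926976 (.pos 45 .mp ⟨⟨209004047, 0, 0, 0, 0, 69837628, 0, 0, 0, ⟨0, 0⟩, 0⟩, 0, 0⟩ 0 0) (.pos 45 .mp ⟨⟨211490790, 0, 0, 0, 0, 70993815, 0, 0, 0, ⟨0, 0⟩, 0⟩, 0, 0⟩ 0 0)) (.cut .v 16809984 (.cut .s 12926976 (.cut .l 92274 (.cut .d (-4096) (.pos 49 .mp ⟨⟨208565981, 0, 0, 0, 0, 69581079, 0, 0, 0, ⟨0, 0⟩, 0⟩, 0, 0⟩ 0 0) (.cut .s 12918784 (.pos 49 .mp ⟨⟨211395613, 0, 0, 0, 0, 57748347, 0, 0, 0, ⟨0, 0⟩, 0⟩, 0, 0⟩ 0 0) (.pos 49 .mp ⟨⟨212647521, 0, 0, 0, 0, 58213005,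 0, 0, 0, ⟨0, 0⟩, 0⟩, 0, 0⟩ 0 0))) (.pos 49 .mp ⟨⟨212291673, 0, 0, 0, 0, 54954839, 0, 0, 0, ⟨0, 0⟩, 0⟩, 0, 0⟩ 0 0)) (.cut .l 92274 (.cut .d (-4096) (.pos 49 .mp ⟨⟨211042523, 0, 0, 0, 0, 70743187, 0, 0, 0, ⟨0, 0⟩, 0⟩, 0, 0⟩ 0 0) (.cut .s 12935168 (.pos 49 .mp ⟨⟨213907240, 0, 0, 0, 0, 58683474, 0, 0, 0, ⟨0, 0⟩, 0⟩, 0, 0⟩ 0 0) (.pos 49 .mp ⟨⟨215174819, 0, 0, 0, 0, 59159720, 0, 0, 0, ⟨0, 0⟩, 0⟩, 0, 0⟩ 0 0))) (.pos 49 .mp ⟨⟨214820322, 0, 0, 0, 0, 55786511, 0, 0, 0, ⟨0, 0⟩, 0⟩, 0, 0⟩ 0 0))) (.pos 50 .mp ⟨⟨245972363, 0, 0, 0, 0, 0, 0, 0, 0, ⟨0, 0⟩, 0⟩, 0, 0⟩ 0 0))) (.cut .d (-8192) (.cut .s 12926976 (.pos 45 .mp ⟨⟨205844281, 0, 0, 0, 0,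 70978867, 0, 0, 0, ⟨0, 0⟩, 0⟩, 0, 0⟩ 0 0) (.pos 45 .mp ⟨⟨208292127, 0, 0, 0, 0, 72085203, 0, 0, 0, ⟨0, 0⟩, 0⟩, 0, 0⟩ 0 0)) (.pos 45 .mp ⟨⟨0, 0, 0, 0, 0, 0, 0, 0, 0, ⟨0, 0⟩, 0⟩, 0, 0⟩ 0 0))) (.pos 46 .mp ⟨⟨246567765, 0, 0, 0, 0, 0, 0, 0, 0, ⟨0, 0⟩, 0⟩, 0, 0⟩ 0 0)) (.cut .v 16842752 (.cut .l 184549 (.cut .d (-8192) (.cut .s 12959744 (.pos 45 .mp ⟨⟨214008645, 0, 0, 0, 0, 72187123, 0, 0, 0, ⟨0, 0⟩, 0⟩, 0, 0⟩ 0 0) (.pos 45 .mp ⟨⟨216557997, 0, 0, 0, 0, 73418063, 0, 0, 0, ⟨0, 0⟩, 0⟩, 0, 0⟩ 0 0)) (.cut .v 16809984 (.cut .s 12959744 (.cut .l 92274 (.cut .d (-4096) (.pos 49 .mp ⟨⟨213550004, 0, 0, 0, 0, 71942553, 0, 0, 0, ⟨0, 0⟩, 0⟩, 0, 0⟩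 0 0) (.cut .s 12951552 (.pos 49 .mp ⟨⟨216450305, 0, 0, 0, 0, 59641707, 0, 0, 0, ⟨0, 0⟩, 0⟩, 0, 0⟩ 0 0) (.pos 49 .mp ⟨⟨217733748, 0, 0, 0, 0, 60129398, 0, 0, 0, ⟨0, 0⟩, 0⟩, 0, 0⟩ 0 0))) (.pos 49 .mp ⟨⟨217380666, 0, 0, 0, 0, 56625278, 0, 0, 0, ⟨0, 0⟩, 0⟩, 0, 0⟩ 0 0)) (.cut .l 92274 (.cut .d (-4096) (.pos 49 .mp ⟨⟨216088808, 0, 0, 0, 0, 73179691, 0, 0, 0, ⟨0, 0⟩, 0⟩, 0, 0⟩ 0 0) (.cut .s 12967936 (.pos 49 .mp ⟨⟨219004008, 0, 0, 0, 0, 60668937, 0, 0, 0, ⟨0, 0⟩, 0⟩, 0, 0⟩ 0 0) (.pos 49 .mp ⟨⟨220259775, 0, 0, 0, 0, 61263277, 0, 0, 0, ⟨0, 0⟩, 0⟩, 0, 0⟩ 0 0))) (.pos 49 .mp ⟨⟨219973099, 0, 0, 0, 0, 57470097, 0, 0, 0, ⟨0, 0⟩, 0⟩, 0, 0⟩ 0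 0))) (.pos 50 .mp ⟨⟨252155807, 0, 0, 0, 0, 0, 0, 0, 0, ⟨0, 0⟩, 0⟩, 0, 0⟩ 0 0))) (.cut .s 12959744 (.pos 45 .mp ⟨⟨219146216, 0, 0, 0, 0, 54392474, 0, 0, 0, ⟨0, 0⟩, 0⟩, 0, 0⟩ 0 0) (.pos 45 .mp ⟨⟨221771379, 0, 0, 0, 0, 55191915, 0, 0, 0, ⟨0, 0⟩, 0⟩, 0, 0⟩ 0 0))) (.pos 46 .mp ⟨⟨252766289, 0, 0, 0, 0, 0, 0, 0, 0, ⟨0, 0⟩, 0⟩, 0, 0⟩ 0 0)))) (.pos 36 .mp ⟨⟨256622840, 0, 0, 0, 0, 0, 0, 0, 0, ⟨0, 0⟩, 0⟩, 0, 0⟩ 0 0)))) (.pos 34 .mp ⟨⟨254796234, 0, 0, 0, 0, 0, 0, 0, 0, ⟨0, 0⟩, 0⟩, 0, 0⟩ 0 0))))))) (.void 32 ⟨⟨100000, 0, 0, 0, 0, 0, 0, 0, 0, ⟨0, 0⟩, 0⟩, 0, 0⟩ 0 0)) (.void 30 ⟨⟨100000, 0, 0, 0, 0, 0, 0, 0, 0, ⟨0, 0⟩, 0⟩, 0, 0⟩ 0 0))) (.void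 28 ⟨⟨100000, 0, 0, 0, 0, 0, 0, 0, 0, ⟨0, 0⟩, 0⟩, 0, 0⟩ 0 0)))) (.void 26 ⟨⟨100000, 0, 0, 0, 0, 0, 0, 0, 0, ⟨0, 0⟩, 0⟩, 0, 0⟩ 0 0))) (.void 24 ⟨⟨100000, 0, 0, 0, 0, 0, 0, 0, 0, ⟨0, 0⟩, 0⟩, 0, 0⟩ 0 0)) (.void 91 ⟨⟨100000, 0, 0, 0, 0, 0, 0, 0, 0, ⟨0, 0⟩, 0⟩, 0, 0⟩ 0 0)) (.void 112 ⟨⟨100000, 0, 0, 0, 0, 0, 0, 0, 0, ⟨0, 0⟩, 0⟩, 0, 0⟩ 0 0))) (.cut .v 16777216 (.cut .v 8388608 (.cut .v 4194304 (.cut .v 2097152 (.cut .v 1048576 (.pos 117 .pm ⟨⟨0, 0, 23565864, 0, 0, 0, 0, 0, 35261562, ⟨0, 0⟩, 1983364⟩, 0, 0⟩ 0 0) (.pos 118 .pm ⟨⟨0, 0, 9991392, 0, 0, 0, 0, 0, 0, ⟨0, 0⟩, 0⟩, 0, 106597⟩ 0 0)) (.pos 114 .pm ⟨⟨0, 0, 6578367, 0, 0, 0, 0, 0, 0,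 ⟨0, 0⟩, 0⟩, 0, 165410⟩ 0 0)) (.pos 5 .pm ⟨⟨0, 0, 5544762, 0, 0, 0, 0, 0, 0, ⟨0, 0⟩, 0⟩, 0, 217559⟩ 0 0)) (.pos 3 .pm ⟨⟨0, 0, 0, 0, 0, 0, 0, 0, 0, ⟨0, 0⟩, 0⟩, 0, 0⟩ 0 0)) (.cut .v 67108864 (.cut .d 2680896 (.cut .v 33554432 (.cut .d 1340448 (.cut .v 25165824 (.cut .d 670224 (.cut .v 20971520 (.cut .d 335112 (.cut .v 18874368 (.cut .d 167556 (.cut .v 17825792 (.cut .d 83778 (.cut .d 41889 (.cut .v 17301504 (.cut .d 20944 (.cut .v 17039360 (.cut .s 12845056 (.pos 33 .pp ⟨⟨201790873, 0, 0, 0, 0, 0, 0, 0, 0, ⟨0, 0⟩, 0⟩, 1187365, 0⟩ 0 0) (.pos 33 .pp ⟨⟨220708813, 0, 0, 0, 0, 0, 0, 0, 0, ⟨0, 0⟩, 0⟩, 1559915, 0⟩ 0 0)) (.pos 34 .pp ⟨⟨233306938,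 0, 0, 0, 0, 0, 0, 0, 0, ⟨0, 0⟩, 0⟩, 0, 0⟩ 0 0)) (.pos 31 .pp ⟨⟨199752566, 0, 0, 0, 0, 0, 0, 0, 0, ⟨0, 0⟩, 0⟩, 0, 23293⟩ 0 0)) (.pos 32 .pp ⟨⟨249676184, 0, 0, 0, 0, 0, 0, 0, 0, ⟨0, 0⟩, 0⟩, 0, 0⟩ 0 0)) (.pos 29 .pp ⟨⟨206243397, 0, 0, 0, 0, 0, 0, 0, 0, ⟨0, 0⟩, 0⟩, 0, 6377⟩ 0 0)) (.pos 29 .pp ⟨⟨0, 0, 0, 0, 0, 0, 0, 0, 0, ⟨0, 0⟩, 0⟩, 0, 560378⟩ 0 0)) (.cut .d 83778 (.pos 30 .pp ⟨⟨279129333, 0, 0, 0, 0, 0, 0, 0, 0, ⟨0, 0⟩, 0⟩, 0, 0⟩ 0 0) (.pos 30 .pp ⟨⟨240613908, 0, 0, 0, 0, 0, 0, 0, 0, ⟨0, 0⟩, 0⟩, 0, 0⟩ 0 0))) (.pos 27 .pp ⟨⟨0, 0, 0, 0, 0, 0, 0, 0, 0, ⟨0, 0⟩, 0⟩, 0, 575890⟩ 0 0)) (.cut .d 167556 (.pos 28 .pp ⟨⟨338143091, 0, 0, 0, 0,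 0, 0, 0, 0, ⟨0, 0⟩, 0⟩, 0, 0⟩ 0 0) (.cut .v 19922944 (.pos 53 .pp ⟨⟨248919335, 0, 0, 0, 0, 0, 0, 0, 0, ⟨0, 0⟩, 0⟩, 0, 0⟩ 0 0) (.cut .d 251334 (.pos 54 .pp ⟨⟨315290443, 0, 0, 0, 0, 0, 0, 0, 0, ⟨0, 0⟩, 0⟩, 0, 0⟩ 0 0) (.pos 54 .pp ⟨⟨271361662, 0, 0, 0, 0, 0, 0, 0, 0, ⟨0, 0⟩, 0⟩, 0, 0⟩ 0 0))))) (.pos 25 .pp ⟨⟨0, 0, 0, 0, 0, 0, 0, 0, 0, ⟨0, 0⟩, 0⟩, 0, 604329⟩ 0 0)) (.cut .d 335112 (.cut .v 23068672 (.cut .v 22020096 (.cut .d 167556 (.void 57 ⟨⟨0, 0, 0, 0, 0, 0, 0, 0, 0, ⟨0, 0⟩, 0⟩, 100000, 0⟩ 0 0) (.cut .d 251334 (.pos 57 .pp ⟨⟨393543178, 0, 0, 0, 0, 0, 0, 0, 0, ⟨0, 0⟩, 0⟩, 0, 0⟩ 0 0) (.pos 57 .pp ⟨⟨330124308, 0, 0, 0, 0, 0, 0, 0, 0,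 ⟨0, 0⟩, 0⟩, 0, 0⟩ 0 0))) (.pos 58 .pp ⟨⟨410241882, 0, 0, 0, 0, 0, 0, 0, 0, ⟨0, 0⟩, 0⟩, 0, 0⟩ 0 0)) (.void 56 ⟨⟨0, 0, 0, 0, 0, 0, 0, 0, 0, ⟨0, 0⟩, 0⟩, 100000, 0⟩ 0 0)) (.cut .d 502668 (.cut .v 23068672 (.cut .v 22020096 (.pos 57 .pp ⟨⟨282084440, 0, 0, 0, 0, 0, 0, 0, 0, ⟨0, 0⟩, 0⟩, 0, 0⟩ 0 0) (.cut .v 22544384 (.pos 100 .pp ⟨⟨309721932, 0, 0, 0, 0, 0, 0, 0, 0, ⟨0, 0⟩, 0⟩, 0, 0⟩ 0 0) (.pos 101 .pp ⟨⟨46333888, 0, 0, 0, 0, 0, 0, 0, 0, ⟨0, 0⟩, 0⟩, 42897469, 0⟩ 0 0))) (.pos 56 .pp ⟨⟨0, 0, 0, 0, 0, 0, 0, 0, 0, ⟨0, 0⟩, 0⟩, 55151477, 0⟩ 0 0)) (.pos 26 .pp ⟨⟨0, 0, 0, 0, 0, 0, 267587, 0, 0, ⟨0, 0⟩, 0⟩, 37315587, 0⟩ 0 0)))) (.pos 23 .pp ⟨⟨0,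 0, 0, 0, 0, 0, 0, 0, 0, ⟨0, 0⟩, 0⟩, 0, 652676⟩ 0 0)) (.cut .d 670224 (.cut .v 29360128 (.pos 75 .pp ⟨⟨0, 0, 0, 0, 0, 0, 0, 0, 0, ⟨0, 0⟩, 0⟩, 78533573, 0⟩ 0 0) (.void 76 ⟨⟨0, 0, 0, 0, 0, 0, 0, 0, 0, ⟨0, 0⟩, 0⟩, 100000, 0⟩ 0 0)) (.pos 24 .pp ⟨⟨0, 0, 0, 0, 0, 0, 0, 0, 0, ⟨0, 0⟩, 0⟩, 50414756, 0⟩ 0 0))) (.pos 22 .pp ⟨⟨0, 0, 0, 0, 0, 0, 2169695, 0, 0, ⟨0, 0⟩, 0⟩, 0, 0⟩ 0 0)) (.cut .d 1340448 (.pos 91 .pp ⟨⟨0, 0, 0, 0, 0, 0, 0, 0, 0, ⟨0, 0⟩, 0⟩, 164541025, 0⟩ 0 0) (.pos 91 .pp ⟨⟨0, 0, 0, 0, 0, 0, 0, 0, 0, ⟨0, 0⟩, 0⟩, 62723820, 0⟩ 0 0))) (.pos 90 .pp ⟨⟨0, 0, 0, 0, 0, 0, 0, 0, 0, ⟨0, 0⟩, 0⟩, 0, 543897⟩ 0 0)) (.void 112 ⟨⟨0, 0, 0, 47117,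 0, 0, 0, 0, 0, ⟨0, 0⟩, 0⟩, 52883, 0⟩ 0 0)))),
    by decide +kernel⟩

theorem covers22 : cell.Covers Vale.Agent.P237.Petty.Cor.Grid.N10.table row22.1 :=
  ⟨(.cut .d 0 (.cut .v 16777216 (.cut .v 8388608 (.void 2 ⟨⟨0, 0, 100000, 0, 0, 0, 0, 0, 0, ⟨0, 0⟩, 0⟩, 0, 0⟩ 0 0) (.cut .d (-8388608) (.void 3 ⟨⟨0, 0, 0, 0, 0, 100000, 0, 0, 0, ⟨0, 0⟩, 0⟩, 0, 0⟩ 0 0) (.cut .d (-4194304) (.void 3 ⟨⟨77024, 0, 22976, 0, 0, 0, 0, 0, 0, ⟨0, 0⟩, 0⟩, 0, 0⟩ 0 0) (.cut .d (-2097152) (.void 3 ⟨⟨0, 0, 0, 0, 0, 100000, 0, 0, 0, ⟨0, 0⟩, 0⟩, 0, 0⟩ 0 0) (.cut .d (-1048576) (.void 3 ⟨⟨0, 0, 0, 0, 0, 100000, 0, 0, 0, ⟨0, 0⟩, 0⟩, 0, 0⟩ 0 0) (.cut .d (-524288) (.void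 3 ⟨⟨0, 0, 0, 0, 0, 100000, 0, 0, 0, ⟨0, 0⟩, 0⟩, 0, 0⟩ 0 0) (.cut .s 13107200 (.pos 3 .mm ⟨⟨0, 0, 0, 0, 0, 478900068, 0, 0, 0, ⟨0, 0⟩, 0⟩, 0, 0⟩ 0 0) (.pos 3 .mm ⟨⟨0, 0, 0, 0, 0, 534912727, 0, 0, 0, ⟨0, 0⟩, 0⟩, 0, 0⟩ 0 0)))))))) (.cut .v 268435456 (.cut .v 67108864 (.cut .v 33554432 (.cut .v 25165824 (.cut .d (-8388608) (.void 23 ⟨⟨100000, 0, 0, 0, 0, 0, 0, 0, 0, ⟨0, 0⟩, 0⟩, 0, 0⟩ 0 0) (.cut .d (-4194304) (.void 23 ⟨⟨100000, 0, 0, 0, 0, 0, 0, 0, 0, ⟨0, 0⟩, 0⟩, 0, 0⟩ 0 0) (.cut .v 20971520 (.cut .d (-2097152) (.void 25 ⟨⟨100000, 0, 0, 0, 0, 0, 0, 0, 0, ⟨0, 0⟩, 0⟩, 0, 0⟩ 0 0) (.cut .v 18874368 (.cut .d (-1048576) (.void 27 ⟨⟨100000,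 0, 0, 0, 0, 0, 0, 0, 0, ⟨0, 0⟩, 0⟩, 0, 0⟩ 0 0) (.cut .v 17825792 (.cut .d (-524288) (.void 29 ⟨⟨100000, 0, 0, 0, 0, 0, 0, 0, 0, ⟨0, 0⟩, 0⟩, 0, 0⟩ 0 0) (.cut .v 17301504 (.cut .d (-262144) (.void 31 ⟨⟨100000, 0, 0, 0, 0, 0, 0, 0, 0, ⟨0, 0⟩, 0⟩, 0, 0⟩ 0 0) (.cut .d (-131072) (.void 31 ⟨⟨100000, 0, 0, 0, 0, 0, 0, 0, 0, ⟨0, 0⟩, 0⟩, 0, 0⟩ 0 0) (.cut .d (-65536) (.void 31 ⟨⟨100000, 0, 0, 0, 0, 0, 0, 0, 0, ⟨0, 0⟩, 0⟩, 0, 0⟩ 0 0) (.cut .d (-32768) (.void 31 ⟨⟨0, 0, 0, 0, 0, 100000, 0, 0, 0, ⟨0, 0⟩, 0⟩, 0, 0⟩ 0 0) (.cut .v 17039360 (.cut .s 13107200 (.cut .s 13041664 (.cut .v 16908288 (.cut .d (-16384) (.cut .d (-24576) (.void 35 ⟨⟨0, 0,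 0, 0, 0, 100000, 0, 0, 0, ⟨0, 0⟩, 0⟩, 0, 0⟩ 0 0) (.cut .l 184549 (.void 35 ⟨⟨0, 0, 0, 0, 0, 100000, 0, 0, 0, ⟨0, 0⟩, 0⟩, 0, 0⟩ 0 0) (.cut .l 276824 (.void 35 ⟨⟨0, 0, 0, 0, 0, 100000, 0, 0, 0, ⟨0, 0⟩, 0⟩, 0, 0⟩ 0 0) (.cut .v 16842752 (.pos 45 .mp ⟨⟨182314350, 0, 0, 0, 0, 145167300, 0, 0, 0, ⟨0, 0⟩, 0⟩, 0, 0⟩ 0 0) (.cut .s 13008896 (.pos 46 .mp ⟨⟨231583484, 0, 0, 0, 0, 53656455, 0, 0, 0, ⟨0, 0⟩, 0⟩, 0, 0⟩ 0 0) (.pos 46 .mp ⟨⟨237214472, 0, 0, 0, 0, 55134748, 0, 0, 0, ⟨0, 0⟩, 0⟩, 0, 0⟩ 0 0)))))) (.cut .s 13008896 (.cut .v 16842752 (.cut .s 12992512 (.cut .l 184549 (.cut .d (-8192) (.pos 45 .mp ⟨⟨219139859, 0, 0, 0, 0, 74684203, 0,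 0, 0, ⟨0, 0⟩, 0⟩, 0, 0⟩ 0 0) (.cut .v 16809984 (.cut .l 92274 (.cut .d (-4096) (.pos 49 .mp ⟨⟨218659891, 0, 0, 0, 0, 74452269, 0, 0, 0, ⟨0, 0⟩, 0⟩, 0, 0⟩ 0 0) (.cut .s 12984320 (.pos 49 .mp ⟨⟨221530517, 0, 0, 0, 0, 61852083, 0, 0, 0, ⟨0, 0⟩, 0⟩, 0, 0⟩ 0 0) (.pos 49 .mp ⟨⟨222901853, 0, 0, 0, 0, 62118288, 0, 0, 0, ⟨0, 0⟩, 0⟩, 0, 0⟩ 0 0))) (.pos 49 .mp ⟨⟨222600328, 0, 0, 0, 0, 58625593, 0, 0, 0, ⟨0, 0⟩, 0⟩, 0, 0⟩ 0 0)) (.pos 50 .mp ⟨⟨256138492, 0, 0, 0, 0, 0, 0, 0, 0, ⟨0, 0⟩, 0⟩, 0, 0⟩ 0 0))) (.pos 45 .mp ⟨⟨224433245, 0, 0, 0, 0, 56299140, 0, 0, 0, ⟨0, 0⟩, 0⟩, 0, 0⟩ 0 0)) (.cut .l 184549 (.cut .d (-8192) (.pos 45 .mp ⟨⟨221756317,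 0, 0, 0, 0, 75566018, 0, 0, 0, ⟨0, 0⟩, 0⟩, 0, 0⟩ 0 0) (.cut .v 16809984 (.cut .l 92274 (.cut .d (-4096) (.pos 49 .mp ⟨⟨221264202, 0, 0, 0, 0, 75343793, 0, 0, 0, ⟨0, 0⟩, 0⟩, 0, 0⟩ 0 0) (.cut .s 13000704 (.pos 49 .mp ⟨⟨224273830, 0, 0, 0, 0, 62410386, 0, 0, 0, ⟨0, 0⟩, 0⟩, 0, 0⟩ 0 0) (.pos 49 .mp ⟨⟨225607189, 0, 0, 0, 0, 62814112, 0, 0, 0, ⟨0, 0⟩, 0⟩, 0, 0⟩ 0 0))) (.pos 49 .mp ⟨⟨225261318, 0, 0, 0, 0, 59496298, 0, 0, 0, ⟨0, 0⟩, 0⟩, 0, 0⟩ 0 0)) (.pos 50 .mp ⟨⟨259153098, 0, 0, 0, 0, 0, 0, 0, 0, ⟨0, 0⟩, 0⟩, 0, 0⟩ 0 0))) (.cut .s 13000704 (.pos 45 .mp ⟨⟨225776943, 0, 0, 0, 0, 58648890, 0, 0, 0, ⟨0, 0⟩, 0⟩, 0, 0⟩ 0 0) (.pos 45 .mp ⟨⟨227129453,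 0, 0, 0, 0, 59075590, 0, 0, 0, ⟨0, 0⟩, 0⟩, 0, 0⟩ 0 0)))) (.pos 46 .mp ⟨⟨259174325, 0, 0, 0, 0, 0, 0, 0, 0, ⟨0, 0⟩, 0⟩, 0, 0⟩ 0 0)) (.cut .v 16842752 (.cut .s 13025280 (.cut .l 184549 (.cut .d (-8192) (.pos 45 .mp ⟨⟨224406920, 0, 0, 0, 0, 76490231, 0, 0, 0, ⟨0, 0⟩, 0⟩, 0, 0⟩ 0 0) (.cut .v 16809984 (.cut .l 92274 (.cut .d (-4096) (.pos 49 .mp ⟨⟨223902434, 0, 0, 0, 0, 76277935, 0, 0, 0, ⟨0, 0⟩, 0⟩, 0, 0⟩ 0 0) (.cut .s 13017088 (.pos 49 .mp ⟨⟨226949220, 0, 0, 0, 0, 63226421, 0, 0, 0, ⟨0, 0⟩, 0⟩, 0, 0⟩ 0 0) (.pos 49 .mp ⟨⟨228299978, 0, 0, 0, 0, 63647281, 0, 0, 0, ⟨0, 0⟩, 0⟩, 0, 0⟩ 0 0))) (.pos 49 .mp ⟨⟨227957104, 0, 0, 0, 0, 60391718,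 0, 0, 0, ⟨0, 0⟩, 0⟩, 0, 0⟩ 0 0)) (.pos 50 .mp ⟨⟨262222389, 0, 0, 0, 0, 0, 0, 0, 0, ⟨0, 0⟩, 0⟩, 0, 0⟩ 0 0))) (.cut .s 13017088 (.pos 45 .mp ⟨⟨228490833, 0, 0, 0, 0, 59508236, 0, 0, 0, ⟨0, 0⟩, 0⟩, 0, 0⟩ 0 0) (.pos 45 .mp ⟨⟨229861137, 0, 0, 0, 0, 59946676, 0, 0, 0, ⟨0, 0⟩, 0⟩, 0, 0⟩ 0 0))) (.cut .l 184549 (.cut .d (-8192) (.pos 45 .mp ⟨⟨227092095, 0, 0, 0, 0, 77457442, 0, 0, 0, ⟨0, 0⟩, 0⟩, 0, 0⟩ 0 0) (.cut .v 16809984 (.cut .l 92274 (.cut .d (-4096) (.pos 49 .mp ⟨⟨226575012, 0, 0, 0, 0, 77255297, 0, 0, 0, ⟨0, 0⟩, 0⟩, 0, 0⟩ 0 0) (.cut .s 13033472 (.pos 49 .mp ⟨⟨229659519, 0, 0, 0, 0, 64076657, 0, 0, 0, ⟨0, 0⟩, 0⟩, 0, 0⟩ 0 0) (.cut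 .s 13037568 (.pos 49 .mp ⟨⟨230449758, 0, 0, 0, 0, 65141022, 0, 0, 0, ⟨0, 0⟩, 0⟩, 0, 0⟩ 0 0) (.pos 49 .mp ⟨⟨231102993, 0, 0, 0, 0, 65417988, 0, 0, 0, ⟨0, 0⟩, 0⟩, 0, 0⟩ 0 0)))) (.pos 49 .mp ⟨⟨230688126, 0, 0, 0, 0, 61310632, 0, 0, 0, ⟨0, 0⟩, 0⟩, 0, 0⟩ 0 0)) (.pos 50 .mp ⟨⟨265347035, 0, 0, 0, 0, 0, 0, 0, 0, ⟨0, 0⟩, 0⟩, 0, 0⟩ 0 0))) (.cut .s 13033472 (.pos 45 .mp ⟨⟨231240422, 0, 0, 0, 0, 60390753, 0, 0, 0, ⟨0, 0⟩, 0⟩, 0, 0⟩ 0 0) (.pos 45 .mp ⟨⟨232628744, 0, 0, 0, 0, 60840312, 0, 0, 0, ⟨0, 0⟩, 0⟩, 0, 0⟩ 0 0)))) (.pos 46 .mp ⟨⟨265370626, 0, 0, 0, 0, 0, 0, 0, 0, ⟨0, 0⟩, 0⟩, 0, 0⟩ 0 0)))) (.pos 36 .mp ⟨⟨270148675, 0, 0, 0, 0, 0, 0, 0,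 0, ⟨0, 0⟩, 0⟩, 0, 0⟩ 0 0)) (.cut .v 16908288 (.cut .d (-16384) (.cut .d (-24576) (.void 35 ⟨⟨0, 0, 0, 0, 0, 100000, 0, 0, 0, ⟨0, 0⟩, 0⟩, 0, 0⟩ 0 0) (.cut .l 184549 (.void 35 ⟨⟨0, 0, 0, 0, 0, 100000, 0, 0, 0, ⟨0, 0⟩, 0⟩, 0, 0⟩ 0 0) (.cut .l 276824 (.void 35 ⟨⟨0, 0, 0, 0, 0, 100000, 0, 0, 0, ⟨0, 0⟩, 0⟩, 0, 0⟩ 0 0) (.cut .v 16842752 (.cut .s 13074432 (.pos 45 .mp ⟨⟨211899764, 0, 0, 0, 0, 110117547, 0, 0, 0, ⟨0, 0⟩, 0⟩, 0, 0⟩ 0 0) (.pos 45 .mp ⟨⟨216483652, 0, 0, 0, 0, 114210310, 0, 0, 0, ⟨0, 0⟩, 0⟩, 0, 0⟩ 0 0)) (.cut .d (-20480) (.pos 46 .mp ⟨⟨241839760, 0, 0, 0, 0, 77617176, 0, 0, 0, ⟨0, 0⟩, 0⟩, 0, 0⟩ 0 0) (.cut .s 13074432 (.pos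 46 .mp ⟨⟨241526247, 0, 0, 0, 0, 57088083, 0, 0, 0, ⟨0, 0⟩, 0⟩, 0, 0⟩ 0 0) (.pos 46 .mp ⟨⟨247409624, 0, 0, 0, 0, 58770652, 0, 0, 0, ⟨0, 0⟩, 0⟩, 0, 0⟩ 0 0))))))) (.cut .s 13074432 (.cut .v 16842752 (.cut .s 13058048 (.cut .l 184549 (.cut .d (-8192) (.pos 45 .mp ⟨⟨229812279, 0, 0, 0, 0, 78468261, 0, 0, 0, ⟨0, 0⟩, 0⟩, 0, 0⟩ 0 0) (.cut .v 16809984 (.cut .l 92274 (.cut .d (-4096) (.pos 49 .mp ⟨⟨229282370, 0, 0, 0, 0, 78276492, 0, 0, 0, ⟨0, 0⟩, 0⟩, 0, 0⟩ 0 0) (.cut .v 16793600 (.cut .s 13049856 (.pos 83 .mp ⟨⟨231968537, 0, 0, 0, 0, 65742481, 0, 0, 0, ⟨0, 0⟩, 0⟩, 0, 0⟩ 0 0) (.cut .s 13053952 (.pos 83 .mp ⟨⟨234034094, 0, 0, 0, 0, 64484479,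 0, 0, 0, ⟨0, 0⟩, 0⟩, 0, 0⟩ 0 0) (.pos 83 .mp ⟨⟨234689333, 0, 0, 0, 0, 64783274, 0, 0, 0, ⟨0, 0⟩, 0⟩, 0, 0⟩ 0 0))) (.pos 84 .mp ⟨⟨268204980, 0, 0, 0, 0, 0, 0, 0, 0, ⟨0, 0⟩, 0⟩, 0, 0⟩ 0 0))) (.pos 49 .mp ⟨⟨233454829, 0, 0, 0, 0, 62251808, 0, 0, 0, ⟨0, 0⟩, 0⟩, 0, 0⟩ 0 0)) (.pos 50 .mp ⟨⟨268527716, 0, 0, 0, 0, 0, 0, 0, 0, ⟨0, 0⟩, 0⟩, 0, 0⟩ 0 0))) (.cut .s 13049856 (.pos 45 .mp ⟨⟨234026160, 0, 0, 0, 0, 61295195, 0, 0, 0, ⟨0, 0⟩, 0⟩, 0, 0⟩ 0 0) (.pos 45 .mp ⟨⟨235432728, 0, 0, 0, 0, 61755245, 0, 0, 0, ⟨0, 0⟩, 0⟩, 0, 0⟩ 0 0))) (.cut .l 184549 (.cut .d (-8192) (.pos 45 .mp ⟨⟨232567915, 0, 0, 0, 0, 79523307, 0, 0, 0, ⟨0, 0⟩, 0⟩, 0, 0⟩ 0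 0) (.cut .v 16809984 (.cut .l 92274 (.cut .d (-4096) (.pos 49 .mp ⟨⟨232024948, 0, 0, 0, 0, 79342143, 0, 0, 0, ⟨0, 0⟩, 0⟩, 0, 0⟩ 0 0) (.cut .v 16793600 (.cut .l 46137 (.cut .d (-2048) (.pos 83 .mp ⟨⟨231754932, 0, 0, 0, 0, 79248833, 0, 0, 0, ⟨0, 0⟩, 0⟩, 0, 0⟩ 0 0) (.cut .s 13066240 (.pos 83 .mp ⟨⟨233978848, 0, 0, 0, 0, 67999554, 0, 0, 0, ⟨0, 0⟩, 0⟩, 0, 0⟩ 0 0) (.pos 83 .mp ⟨⟨235406161, 0, 0, 0, 0, 68417423, 0, 0, 0, ⟨0, 0⟩, 0⟩, 0, 0⟩ 0 0))) (.pos 83 .mp ⟨⟨235253147, 0, 0, 0, 0, 64500437, 0, 0, 0, ⟨0, 0⟩, 0⟩, 0, 0⟩ 0 0)) (.pos 84 .mp ⟨⟨271438470, 0, 0, 0, 0, 0, 0, 0, 0, ⟨0, 0⟩, 0⟩, 0, 0⟩ 0 0))) (.pos 49 .mp ⟨⟨236257669, 0, 0, 0, 0,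 63213995, 0, 0, 0, ⟨0, 0⟩, 0⟩, 0, 0⟩ 0 0)) (.pos 50 .mp ⟨⟨271765124, 0, 0, 0, 0, 0, 0, 0, 0, ⟨0, 0⟩, 0⟩, 0, 0⟩ 0 0))) (.cut .s 13066240 (.pos 45 .mp ⟨⟨236848506, 0, 0, 0, 0, 62220303, 0, 0, 0, ⟨0, 0⟩, 0⟩, 0, 0⟩ 0 0) (.pos 45 .mp ⟨⟨238273553, 0, 0, 0, 0, 62690208, 0, 0, 0, ⟨0, 0⟩, 0⟩, 0, 0⟩ 0 0)))) (.pos 46 .mp ⟨⟨271790214, 0, 0, 0, 0, 0, 0, 0, 0, ⟨0, 0⟩, 0⟩, 0, 0⟩ 0 0)) (.cut .v 16842752 (.cut .s 13090816 (.cut .l 184549 (.cut .d (-8192) (.pos 45 .mp ⟨⟨235359455, 0, 0, 0, 0, 80623211, 0, 0, 0, ⟨0, 0⟩, 0⟩, 0, 0⟩ 0 0) (.cut .v 16809984 (.cut .l 92274 (.cut .d (-4096) (.pos 49 .mp ⟨⟨234803195, 0, 0, 0, 0, 80452884, 0, 0, 0, ⟨0, 0⟩,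 0⟩, 0, 0⟩ 0 0) (.cut .v 16793600 (.cut .l 46137 (.cut .d (-2048) (.pos 83 .mp ⟨⟨234526554, 0, 0, 0, 0, 80364954, 0, 0, 0, ⟨0, 0⟩, 0⟩, 0, 0⟩ 0 0) (.cut .s 13082624 (.pos 83 .mp ⟨⟨236824460, 0, 0, 0, 0, 68883160, 0, 0, 0, ⟨0, 0⟩, 0⟩, 0, 0⟩ 0 0) (.pos 83 .mp ⟨⟨238238232, 0, 0, 0, 0, 69387069, 0, 0, 0, ⟨0, 0⟩, 0⟩, 0, 0⟩ 0 0))) (.pos 83 .mp ⟨⟨238073296, 0, 0, 0, 0, 65509452, 0, 0, 0, ⟨0, 0⟩, 0⟩, 0, 0⟩ 0 0)) (.pos 84 .mp ⟨⟨274729324, 0, 0, 0, 0, 0, 0, 0, 0, ⟨0, 0⟩, 0⟩, 0, 0⟩ 0 0))) (.pos 49 .mp ⟨⟨239097108, 0, 0, 0, 0, 64195932, 0, 0, 0, ⟨0, 0⟩, 0⟩, 0, 0⟩ 0 0)) (.pos 50 .mp ⟨⟨275059963, 0, 0, 0, 0, 0, 0, 0, 0, ⟨0, 0⟩, 0⟩, 0, 0⟩ 0 0)))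 (.cut .s 13082624 (.pos 45 .mp ⟨⟨239707927, 0, 0, 0, 0, 63164801, 0, 0, 0, ⟨0, 0⟩, 0⟩, 0, 0⟩ 0 0) (.pos 45 .mp ⟨⟨241151689, 0, 0, 0, 0, 63643919, 0, 0, 0, ⟨0, 0⟩, 0⟩, 0, 0⟩ 0 0))) (.cut .l 184549 (.cut .d (-8192) (.pos 45 .mp ⟨⟨238187359, 0, 0, 0, 0, 81768615, 0, 0, 0, ⟨0, 0⟩, 0⟩, 0, 0⟩ 0 0) (.cut .v 16809984 (.cut .l 92274 (.cut .d (-4096) (.pos 49 .mp ⟨⟨237617568, 0, 0, 0, 0, 81609360, 0, 0, 0, ⟨0, 0⟩, 0⟩, 0, 0⟩ 0 0) (.cut .v 16793600 (.cut .l 46137 (.cut .d (-2048) (.pos 83 .mp ⟨⟨237334183, 0, 0, 0, 0, 81526928, 0, 0, 0, ⟨0, 0⟩, 0⟩, 0, 0⟩ 0 0) (.cut .s 13099008 (.pos 83 .mp ⟨⟨239661166, 0, 0, 0, 0, 69899332, 0, 0, 0, ⟨0, 0⟩,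 0⟩, 0, 0⟩ 0 0) (.pos 83 .mp ⟨⟨241093323, 0, 0, 0, 0, 70419909, 0, 0, 0, ⟨0, 0⟩, 0⟩, 0, 0⟩ 0 0))) (.pos 83 .mp ⟨⟨240930156, 0, 0, 0, 0, 66537482, 0, 0, 0, ⟨0, 0⟩, 0⟩, 0, 0⟩ 0 0)) (.pos 84 .mp ⟨⟨278078258, 0, 0, 0, 0, 0, 0, 0, 0, ⟨0, 0⟩, 0⟩, 0, 0⟩ 0 0))) (.pos 49 .mp ⟨⟨241973617, 0, 0, 0, 0, 65196340, 0, 0, 0, ⟨0, 0⟩, 0⟩, 0, 0⟩ 0 0)) (.pos 50 .mp ⟨⟨278412953, 0, 0, 0, 0, 0, 0, 0, 0, ⟨0, 0⟩, 0⟩, 0, 0⟩ 0 0))) (.cut .s 13099008 (.pos 45 .mp ⟨⟨242604900, 0, 0, 0, 0, 64127399, 0, 0, 0, ⟨0, 0⟩, 0⟩, 0, 0⟩ 0 0) (.cut .s 13103104 (.pos 45 .mp ⟨⟨243335066, 0, 0, 0, 0, 65429143, 0, 0, 0, ⟨0, 0⟩, 0⟩, 0, 0⟩ 0 0) (.pos 45 .mp ⟨⟨244067618, 0, 0,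 0, 0, 65676779, 0, 0, 0, ⟨0, 0⟩, 0⟩, 0, 0⟩ 0 0))))) (.pos 46 .mp ⟨⟨278438623, 0, 0, 0, 0, 0, 0, 0, 0, ⟨0, 0⟩, 0⟩, 0, 0⟩ 0 0)))) (.pos 36 .mp ⟨⟨283666927, 0, 0, 0, 0, 0, 0, 0, 0, ⟨0, 0⟩, 0⟩, 0, 0⟩ 0 0))) (.cut .s 13172736 (.cut .v 16908288 (.cut .d (-16384) (.cut .d (-24576) (.void 35 ⟨⟨0, 0, 0, 0, 0, 100000, 0, 0, 0, ⟨0, 0⟩, 0⟩, 0, 0⟩ 0 0) (.cut .l 184549 (.void 35 ⟨⟨0, 0, 0, 0, 0, 100000, 0, 0, 0, ⟨0, 0⟩, 0⟩, 0, 0⟩ 0 0) (.cut .l 276824 (.void 35 ⟨⟨0, 0, 0, 0, 0, 100000, 0, 0, 0, ⟨0, 0⟩, 0⟩, 0, 0⟩ 0 0) (.cut .v 16842752 (.cut .s 13139968 (.pos 45 .mp ⟨⟨221420185, 0, 0, 0, 0, 118069101, 0, 0, 0, ⟨0, 0⟩, 0⟩, 0, 0⟩ 0 0) (.pos 45 .mp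 ⟨⟨226749721, 0, 0, 0, 0, 121623857, 0, 0, 0, ⟨0, 0⟩, 0⟩, 0, 0⟩ 0 0)) (.cut .d (-20480) (.pos 46 .mp ⟨⟨254105552, 0, 0, 0, 0, 81849919, 0, 0, 0, ⟨0, 0⟩, 0⟩, 0, 0⟩ 0 0) (.cut .s 13139968 (.pos 46 .mp ⟨⟨253448712, 0, 0, 0, 0, 60564933, 0, 0, 0, ⟨0, 0⟩, 0⟩, 0, 0⟩ 0 0) (.pos 46 .mp ⟨⟨259647592, 0, 0, 0, 0, 62467572, 0, 0, 0, ⟨0, 0⟩, 0⟩, 0, 0⟩ 0 0))))))) (.cut .s 13139968 (.cut .v 16842752 (.cut .s 13123584 (.cut .l 184549 (.cut .d (-8192) (.pos 45 .mp ⟨⟨241052095, 0, 0, 0, 0, 82960173, 0, 0, 0, ⟨0, 0⟩, 0⟩, 0, 0⟩ 0 0) (.cut .v 16809984 (.cut .l 92274 (.cut .d (-4096) (.pos 49 .mp ⟨⟨240468533, 0, 0, 0, 0, 82812229, 0, 0, 0, ⟨0, 0⟩, 0⟩,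 0, 0⟩ 0 0) (.cut .v 16793600 (.cut .l 46137 (.cut .d (-2048) (.pos 83 .mp ⟨⟨240178283, 0, 0, 0, 0, 82735411, 0, 0, 0, ⟨0, 0⟩, 0⟩, 0, 0⟩ 0 0) (.cut .s 13115392 (.pos 83 .mp ⟨⟨242534762, 0, 0, 0, 0, 70948757, 0, 0, 0, ⟨0, 0⟩, 0⟩, 0, 0⟩ 0 0) (.pos 83 .mp ⟨⟨243985544, 0, 0, 0, 0, 71485835, 0, 0, 0, ⟨0, 0⟩, 0⟩, 0, 0⟩ 0 0))) (.pos 83 .mp ⟨⟨243824201, 0, 0, 0, 0, 67583243, 0, 0, 0, ⟨0, 0⟩, 0⟩, 0, 0⟩ 0 0)) (.pos 84 .mp ⟨⟨281486000, 0, 0, 0, 0, 0, 0, 0, 0, ⟨0, 0⟩, 0⟩, 0, 0⟩ 0 0))) (.pos 49 .mp ⟨⟨244887675, 0, 0, 0, 0, 66213926, 0, 0, 0, ⟨0, 0⟩, 0⟩, 0, 0⟩ 0 0)) (.pos 50 .mp ⟨⟨281824821, 0, 0, 0, 0, 0, 0, 0, 0, ⟨0, 0⟩, 0⟩, 0, 0⟩ 0 0))) (.cut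 .d (-8192) (.cut .s 13115392 (.pos 45 .mp ⟨⟨238003575, 0, 0, 0, 0, 82077484, 0, 0, 0, ⟨0, 0⟩, 0⟩, 0, 0⟩ 0 0) (.pos 45 .mp ⟨⟨239403571, 0, 0, 0, 0, 82741927, 0, 0, 0, ⟨0, 0⟩, 0⟩, 0, 0⟩ 0 0)) (.pos 45 .mp ⟨⟨0, 0, 0, 0, 0, 0, 0, 0, 0, ⟨0, 0⟩, 0⟩, 0, 0⟩ 0 0))) (.cut .l 184549 (.cut .d (-8192) (.pos 45 .mp ⟨⟨243954139, 0, 0, 0, 0, 84198549, 0, 0, 0, ⟨0, 0⟩, 0⟩, 0, 0⟩ 0 0) (.cut .v 16809984 (.cut .l 92274 (.cut .d (-4096) (.pos 49 .mp ⟨⟨243356561, 0, 0, 0, 0, 84062157, 0, 0, 0, ⟨0, 0⟩, 0⟩, 0, 0⟩ 0 0) (.cut .v 16793600 (.cut .l 46137 (.cut .d (-2048) (.pos 83 .mp ⟨⟨243059326, 0, 0, 0, 0, 83991075, 0, 0, 0, ⟨0, 0⟩, 0⟩, 0, 0⟩ 0 0) (.cut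 .s 13131776 (.pos 83 .mp ⟨⟨245445727, 0, 0, 0, 0, 72031100, 0, 0, 0, ⟨0, 0⟩, 0⟩, 0, 0⟩ 0 0) (.cut .s 13135872 (.pos 83 .mp ⟨⟨246973880, 0, 0, 0, 0, 72023586, 0, 0, 0, ⟨0, 0⟩, 0⟩, 0, 0⟩ 0 0) (.pos 83 .mp ⟨⟨247711542, 0, 0, 0, 0, 72302140, 0, 0, 0, ⟨0, 0⟩, 0⟩, 0, 0⟩ 0 0)))) (.pos 83 .mp ⟨⟨246755914, 0, 0, 0, 0, 68645433, 0, 0, 0, ⟨0, 0⟩, 0⟩, 0, 0⟩ 0 0)) (.pos 84 .mp ⟨⟨284953293, 0, 0, 0, 0, 0, 0, 0, 0, ⟨0, 0⟩, 0⟩, 0, 0⟩ 0 0))) (.pos 49 .mp ⟨⟨247839770, 0, 0, 0, 0, 67247380, 0, 0, 0, ⟨0, 0⟩, 0⟩, 0, 0⟩ 0 0)) (.pos 50 .mp ⟨⟨285296313, 0, 0, 0, 0, 0, 0, 0, 0, ⟨0, 0⟩, 0⟩, 0, 0⟩ 0 0))) (.cut .d (-8192) (.cut .s 13131776 (.pos 45 .mp ⟨⟨240819254,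 0, 0, 0, 0, 83400959, 0, 0, 0, ⟨0, 0⟩, 0⟩, 0, 0⟩ 0 0) (.pos 45 .mp ⟨⟨242250898, 0, 0, 0, 0, 84054064, 0, 0, 0, ⟨0, 0⟩, 0⟩, 0, 0⟩ 0 0)) (.pos 45 .mp ⟨⟨0, 0, 0, 0, 0, 0, 0, 0, 0, ⟨0, 0⟩, 0⟩, 0, 0⟩ 0 0)))) (.pos 46 .mp ⟨⟨285321586, 0, 0, 0, 0, 0, 0, 0, 0, ⟨0, 0⟩, 0⟩, 0, 0⟩ 0 0)) (.cut .v 16842752 (.cut .s 13156352 (.cut .l 184549 (.cut .d (-8192) (.pos 45 .mp ⟨⟨246893975, 0, 0, 0, 0, 85484421, 0, 0, 0, ⟨0, 0⟩, 0⟩, 0, 0⟩ 0 0) (.cut .v 16809984 (.cut .l 92274 (.cut .d (-4096) (.pos 49 .mp ⟨⟨246282135, 0, 0, 0, 0, 85359826, 0, 0, 0, ⟨0, 0⟩, 0⟩, 0, 0⟩ 0 0) (.cut .v 16793600 (.cut .l 46137 (.cut .d (-2048) (.pos 83 .mp ⟨⟨245977792, 0,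 0, 0, 0, 85294601, 0, 0, 0, ⟨0, 0⟩, 0⟩, 0, 0⟩ 0 0) (.cut .v 16785408 (.cut .s 13148160 (.pos 85 .mp ⟨⟨248161490, 0, 0, 0, 0, 73565102, 0, 0, 0, ⟨0, 0⟩, 0⟩, 0, 0⟩ 0 0) (.pos 85 .mp ⟨⟨249648924, 0, 0, 0, 0, 74137203, 0, 0, 0, ⟨0, 0⟩, 0⟩, 0, 0⟩ 0 0)) (.pos 86 .mp ⟨⟨288306925, 0, 0, 0, 0, 0, 0, 0, 0, ⟨0, 0⟩, 0⟩, 0, 0⟩ 0 0))) (.pos 83 .mp ⟨⟨249725787, 0, 0, 0, 0, 69722740, 0, 0, 0, ⟨0, 0⟩, 0⟩, 0, 0⟩ 0 0)) (.pos 84 .mp ⟨⟨288480895, 0, 0, 0, 0, 0, 0, 0, 0, ⟨0, 0⟩, 0⟩, 0, 0⟩ 0 0))) (.pos 49 .mp ⟨⟨250830399, 0, 0, 0, 0, 68295378, 0, 0, 0, ⟨0, 0⟩, 0⟩, 0, 0⟩ 0 0)) (.pos 50 .mp ⟨⟨288828185, 0, 0, 0, 0, 0, 0, 0, 0, ⟨0, 0⟩, 0⟩, 0, 0⟩ 0 0)))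 (.cut .d (-8192) (.cut .s 13148160 (.pos 45 .mp ⟨⟨243698780, 0, 0, 0, 0, 84700721, 0, 0, 0, ⟨0, 0⟩, 0⟩, 0, 0⟩ 0 0) (.pos 45 .mp ⟨⟨245163178, 0, 0, 0, 0, 85340406, 0, 0, 0, ⟨0, 0⟩, 0⟩, 0, 0⟩ 0 0)) (.pos 45 .mp ⟨⟨0, 0, 0, 0, 0, 0, 0, 0, 0, ⟨0, 0⟩, 0⟩, 0, 0⟩ 0 0))) (.cut .l 184549 (.cut .d (-8192) (.pos 45 .mp ⟨⟨249872099, 0, 0, 0, 0, 86818476, 0, 0, 0, ⟨0, 0⟩, 0⟩, 0, 0⟩ 0 0) (.cut .v 16809984 (.cut .l 92274 (.cut .d (-4096) (.pos 49 .mp ⟨⟨249245746, 0, 0, 0, 0, 86705928, 0, 0, 0, ⟨0, 0⟩, 0⟩, 0, 0⟩ 0 0) (.cut .v 16793600 (.cut .l 46137 (.cut .d (-2048) (.pos 83 .mp ⟨⟨248934171, 0, 0, 0, 0, 86646683, 0, 0, 0, ⟨0, 0⟩, 0⟩, 0, 0⟩ 0 0)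 (.cut .s 13164544 (.pos 83 .mp ⟨⟨251381720, 0, 0, 0, 0, 74293145, 0, 0, 0, ⟨0, 0⟩, 0⟩, 0, 0⟩ 0 0) (.pos 83 .mp ⟨⟨252889846, 0, 0, 0, 0, 74878673, 0, 0, 0, ⟨0, 0⟩, 0⟩, 0, 0⟩ 0 0))) (.pos 83 .mp ⟨⟨252734322, 0, 0, 0, 0, 70813829, 0, 0, 0, ⟨0, 0⟩, 0⟩, 0, 0⟩ 0 0)) (.pos 84 .mp ⟨⟨292069573, 0, 0, 0, 0, 0, 0, 0, 0, ⟨0, 0⟩, 0⟩, 0, 0⟩ 0 0))) (.pos 49 .mp ⟨⟨253860068, 0, 0, 0, 0, 69356577, 0, 0, 0, ⟨0, 0⟩, 0⟩, 0, 0⟩ 0 0)) (.pos 50 .mp ⟨⟨292421207, 0, 0, 0, 0, 0, 0, 0, 0, ⟨0, 0⟩, 0⟩, 0, 0⟩ 0 0))) (.cut .d (-8192) (.cut .s 13164544 (.pos 45 .mp ⟨⟨246644371, 0, 0, 0, 0, 85972592, 0, 0, 0, ⟨0, 0⟩, 0⟩, 0, 0⟩ 0 0) (.pos 45 .mp ⟨⟨248142643, 0,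 0, 0, 0, 86596748, 0, 0, 0, ⟨0, 0⟩, 0⟩, 0, 0⟩ 0 0)) (.pos 45 .mp ⟨⟨0, 0, 0, 0, 0, 0, 0, 0, 0, ⟨0, 0⟩, 0⟩, 0, 0⟩ 0 0)))) (.pos 46 .mp ⟨⟨292445045, 0, 0, 0, 0, 0, 0, 0, 0, ⟨0, 0⟩, 0⟩, 0, 0⟩ 0 0)))) (.pos 36 .mp ⟨⟨297951471, 0, 0, 0, 0, 0, 0, 0, 0, ⟨0, 0⟩, 0⟩, 0, 0⟩ 0 0)) (.cut .v 16908288 (.cut .d (-16384) (.cut .d (-24576) (.void 35 ⟨⟨0, 0, 0, 0, 0, 100000, 0, 0, 0, ⟨0, 0⟩, 0⟩, 0, 0⟩ 0 0) (.cut .d (-20480) (.void 35 ⟨⟨0, 0, 0, 0, 0, 100000, 0, 0, 0, ⟨0, 0⟩, 0⟩, 0, 0⟩ 0 0) (.cut .l 184549 (.void 35 ⟨⟨0, 0, 0, 0, 0, 100000, 0, 0, 0, ⟨0, 0⟩, 0⟩, 0, 0⟩ 0 0) (.cut .l 276824 (.void 35 ⟨⟨0, 0, 0, 0, 0, 100000, 0, 0, 0, ⟨0, 0⟩, 0⟩, 0, 0⟩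 0 0) (.cut .v 16842752 (.pos 45 .mp ⟨⟨209722140, 0, 0, 0, 0, 172966087, 0, 0, 0, ⟨0, 0⟩, 0⟩, 0, 0⟩ 0 0) (.cut .s 13205504 (.pos 46 .mp ⟨⟨266010497, 0, 0, 0, 0, 64474979, 0, 0, 0, ⟨0, 0⟩, 0⟩, 0, 0⟩ 0 0) (.pos 46 .mp ⟨⟨272541817, 0, 0, 0, 0, 66583305, 0, 0, 0, ⟨0, 0⟩, 0⟩, 0, 0⟩ 0 0))))))) (.cut .s 13205504 (.cut .v 16842752 (.cut .s 13189120 (.cut .l 184549 (.cut .d (-8192) (.pos 45 .mp ⟨⟨252889012, 0, 0, 0, 0, 88201417, 0, 0, 0, ⟨0, 0⟩, 0⟩, 0, 0⟩ 0 0) (.cut .v 16809984 (.cut .l 92274 (.cut .d (-4096) (.pos 49 .mp ⟨⟨252247893, 0, 0, 0, 0, 88101167, 0, 0, 0, ⟨0, 0⟩, 0⟩, 0, 0⟩ 0 0) (.cut .v 16793600 (.cut .l 46137 (.cut .d (-2048)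 (.pos 83 .mp ⟨⟨251928959, 0, 0, 0, 0, 88048028, 0, 0, 0, ⟨0, 0⟩, 0⟩, 0, 0⟩ 0 0) (.cut .s 13180928 (.pos 83 .mp ⟨⟨254407749, 0, 0, 0, 0, 75472113, 0, 0, 0, ⟨0, 0⟩, 0⟩, 0, 0⟩ 0 0) (.pos 83 .mp ⟨⟨255935495, 0, 0, 0, 0, 76073417, 0, 0, 0, ⟨0, 0⟩, 0⟩, 0, 0⟩ 0 0))) (.pos 83 .mp ⟨⟨255782029, 0, 0, 0, 0, 71917353, 0, 0, 0, ⟨0, 0⟩, 0⟩, 0, 0⟩ 0 0)) (.pos 84 .mp ⟨⟨295720113, 0, 0, 0, 0, 0, 0, 0, 0, ⟨0, 0⟩, 0⟩, 0, 0⟩ 0 0))) (.pos 49 .mp ⟨⟨256929293, 0, 0, 0, 0, 70429620, 0, 0, 0, ⟨0, 0⟩, 0⟩, 0, 0⟩ 0 0)) (.pos 50 .mp ⟨⟨296076165, 0, 0, 0, 0, 0, 0, 0, 0, ⟨0, 0⟩, 0⟩, 0, 0⟩ 0 0))) (.cut .d (-8192) (.cut .s 13180928 (.pos 45 .mp ⟨⟨249658276, 0,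 0, 0, 0, 87212336, 0, 0, 0, ⟨0, 0⟩, 0⟩, 0, 0⟩ 0 0) (.pos 45 .mp ⟨⟨251191557, 0, 0, 0, 0, 87818819, 0, 0, 0, ⟨0, 0⟩, 0⟩, 0, 0⟩ 0 0)) (.pos 45 .mp ⟨⟨0, 0, 0, 0, 0, 0, 0, 0, 0, ⟨0, 0⟩, 0⟩, 0, 0⟩ 0 0))) (.cut .d (-8192) (.cut .l 184549 (.pos 45 .mp ⟨⟨255945227, 0, 0, 0, 0, 89633957, 0, 0, 0, ⟨0, 0⟩, 0⟩, 0, 0⟩ 0 0) (.cut .s 13197312 (.pos 45 .mp ⟨⟨252742773, 0, 0, 0, 0, 88415650, 0, 0, 0, ⟨0, 0⟩, 0⟩, 0, 0⟩ 0 0) (.pos 45 .mp ⟨⟨254312214, 0, 0, 0, 0, 89002283, 0, 0, 0, ⟨0, 0⟩, 0⟩, 0, 0⟩ 0 0))) (.cut .l 184549 (.cut .v 16809984 (.cut .l 92274 (.cut .d (-4096) (.pos 49 .mp ⟨⟨255289086, 0, 0, 0, 0, 89546261, 0, 0, 0, ⟨0, 0⟩, 0⟩, 0, 0⟩ 0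 0) (.cut .v 16793600 (.cut .l 46137 (.cut .d (-2048) (.pos 83 .mp ⟨⟨254962664, 0, 0, 0, 0, 89499355, 0, 0, 0, ⟨0, 0⟩, 0⟩, 0, 0⟩ 0 0) (.cut .s 13197312 (.pos 83 .mp ⟨⟨257473149, 0, 0, 0, 0, 76682533, 0, 0, 0, ⟨0, 0⟩, 0⟩, 0, 0⟩ 0 0) (.pos 83 .mp ⟨⟨259020777, 0, 0, 0, 0, 77299412, 0, 0, 0, ⟨0, 0⟩, 0⟩, 0, 0⟩ 0 0))) (.pos 83 .mp ⟨⟨258869428, 0, 0, 0, 0, 73031946, 0, 0, 0, ⟨0, 0⟩, 0⟩, 0, 0⟩ 0 0)) (.pos 84 .mp ⟨⟨299433312, 0, 0, 0, 0, 0, 0, 0, 0, ⟨0, 0⟩, 0⟩, 0, 0⟩ 0 0))) (.pos 49 .mp ⟨⟨260038597, 0, 0, 0, 0, 71513130, 0, 0, 0, ⟨0, 0⟩, 0⟩, 0, 0⟩ 0 0)) (.pos 50 .mp ⟨⟨299793858, 0, 0, 0, 0, 0, 0, 0, 0, ⟨0, 0⟩, 0⟩, 0, 0⟩ 0 0)) (.pos 45 .mp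 ⟨⟨256126461, 0, 0, 0, 0, 0, 0, 0, 0, ⟨0, 0⟩, 0⟩, 0, 0⟩ 0 0)))) (.pos 46 .mp ⟨⟨299815160, 0, 0, 0, 0, 0, 0, 0, 0, ⟨0, 0⟩, 0⟩, 0, 0⟩ 0 0)) (.cut .v 16842752 (.cut .s 13221888 (.cut .d (-8192) (.cut .l 184549 (.pos 45 .mp ⟨⟨259041266, 0, 0, 0, 0, 91116823, 0, 0, 0, ⟨0, 0⟩, 0⟩, 0, 0⟩ 0 0) (.cut .s 13213696 (.pos 45 .mp ⟨⟨255900173, 0, 0, 0, 0, 89578165, 0, 0, 0, ⟨0, 0⟩, 0⟩, 0, 0⟩ 0 0) (.pos 45 .mp ⟨⟨257506942, 0, 0, 0, 0, 90142738, 0, 0, 0, ⟨0, 0⟩, 0⟩, 0, 0⟩ 0 0))) (.cut .l 184549 (.cut .v 16809984 (.cut .l 92274 (.cut .d (-4096) (.pos 49 .mp ⟨⟨258369842, 0, 0, 0, 0, 91041940, 0, 0, 0, ⟨0, 0⟩, 0⟩, 0, 0⟩ 0 0) (.cut .v 16793600 (.cut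 .l 46137 (.cut .d (-2048) (.pos 83 .mp ⟨⟨258035804, 0, 0, 0, 0, 91001397, 0, 0, 0, ⟨0, 0⟩, 0⟩, 0, 0⟩ 0 0) (.cut .s 13213696 (.pos 83 .mp ⟨⟨260578444, 0, 0, 0, 0, 77924001, 0, 0, 0, ⟨0, 0⟩, 0⟩, 0, 0⟩ 0 0) (.pos 83 .mp ⟨⟨262119423, 0, 0, 0, 0, 78614930, 0, 0, 0, ⟨0, 0⟩, 0⟩, 0, 0⟩ 0 0))) (.pos 83 .mp ⟨⟨261997049, 0, 0, 0, 0, 74156225, 0, 0, 0, ⟨0, 0⟩, 0⟩, 0, 0⟩ 0 0)) (.pos 84 .mp ⟨⟨303209984, 0, 0, 0, 0, 0, 0, 0, 0, ⟨0, 0⟩, 0⟩, 0, 0⟩ 0 0))) (.pos 49 .mp ⟨⟨263188516, 0, 0, 0, 0, 72605712, 0, 0, 0, ⟨0, 0⟩, 0⟩, 0, 0⟩ 0 0)) (.pos 50 .mp ⟨⟨303575100, 0, 0, 0, 0, 0, 0, 0, 0, ⟨0, 0⟩, 0⟩, 0, 0⟩ 0 0)) (.pos 45 .mp ⟨⟨259224289, 0, 0, 0, 0,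 0, 0, 0, 0, ⟨0, 0⟩, 0⟩, 0, 0⟩ 0 0))) (.cut .d (-8192) (.cut .l 184549 (.pos 45 .mp ⟨⟨262177658, 0, 0, 0, 0, 92650754, 0, 0, 0, ⟨0, 0⟩, 0⟩, 0, 0⟩ 0 0) (.pos 45 .mp ⟨⟨258199339, 0, 0, 0, 0, 94048378, 0, 0, 0, ⟨0, 0⟩, 0⟩, 0, 0⟩ 0 0)) (.cut .l 184549 (.cut .v 16809984 (.cut .l 92274 (.cut .d (-4096) (.pos 49 .mp ⟨⟨261490689, 0, 0, 0, 0, 92588949, 0, 0, 0, ⟨0, 0⟩, 0⟩, 0, 0⟩ 0 0) (.cut .v 16793600 (.cut .s 13230080 (.cut .s 13225984 (.pos 83 .mp ⟨⟨265370595, 0, 0, 0, 0, 75686687, 0, 0, 0, ⟨0, 0⟩, 0⟩, 0, 0⟩ 0 0) (.pos 83 .mp ⟨⟨266226653, 0, 0, 0, 0, 75895963, 0, 0, 0, ⟨0, 0⟩, 0⟩, 0, 0⟩ 0 0)) (.pos 83 .mp ⟨⟨266175820, 0, 0, 0, 0, 78360320,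 0, 0, 0, ⟨0, 0⟩, 0⟩, 0, 0⟩ 0 0)) (.pos 84 .mp ⟨⟨307050957, 0, 0, 0, 0, 0, 0, 0, 0, ⟨0, 0⟩, 0⟩, 0, 0⟩ 0 0))) (.pos 49 .mp ⟨⟨266379595, 0, 0, 0, 0, 73705955, 0, 0, 0, ⟨0, 0⟩, 0⟩, 0, 0⟩ 0 0)) (.pos 50 .mp ⟨⟨307420720, 0, 0, 0, 0, 0, 0, 0, 0, ⟨0, 0⟩, 0⟩, 0, 0⟩ 0 0)) (.pos 45 .mp ⟨⟨262361918, 0, 0, 0, 0, 0, 0, 0, 0, ⟨0, 0⟩, 0⟩, 0, 0⟩ 0 0)))) (.pos 46 .mp ⟨⟨307438317, 0, 0, 0, 0, 0, 0, 0, 0, ⟨0, 0⟩, 0⟩, 0, 0⟩ 0 0)))) (.pos 36 .mp ⟨⟨312977720, 0, 0, 0, 0, 0, 0, 0, 0, ⟨0, 0⟩, 0⟩, 0, 0⟩ 0 0)))) (.pos 34 .mp ⟨⟨310543853, 0, 0, 0, 0, 0, 0, 0, 0, ⟨0, 0⟩, 0⟩, 0, 0⟩ 0 0)))))) (.void 32 ⟨⟨100000, 0, 0, 0, 0, 0, 0, 0, 0, ⟨0, 0⟩, 0⟩, 0, 0⟩ 0 0)))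 (.void 30 ⟨⟨100000, 0, 0, 0, 0, 0, 0, 0, 0, ⟨0, 0⟩, 0⟩, 0, 0⟩ 0 0))) (.void 28 ⟨⟨100000, 0, 0, 0, 0, 0, 0, 0, 0, ⟨0, 0⟩, 0⟩, 0, 0⟩ 0 0))) (.void 26 ⟨⟨100000, 0, 0, 0, 0, 0, 0, 0, 0, ⟨0, 0⟩, 0⟩, 0, 0⟩ 0 0)))) (.void 24 ⟨⟨100000, 0, 0, 0, 0, 0, 0, 0, 0, ⟨0, 0⟩, 0⟩, 0, 0⟩ 0 0)) (.void 91 ⟨⟨100000, 0, 0, 0, 0, 0, 0, 0, 0, ⟨0, 0⟩, 0⟩, 0, 0⟩ 0 0)) (.void 112 ⟨⟨100000, 0, 0, 0, 0, 0, 0, 0, 0, ⟨0, 0⟩, 0⟩, 0, 0⟩ 0 0)) (.void 121 ⟨⟨93307, 0, 0, 6693, 0, 0, 0, 0, 0, ⟨0, 0⟩, 0⟩, 0, 0⟩ 0 0))) (.cut .v 16777216 (.cut .v 8388608 (.cut .v 4194304 (.cut .v 2097152 (.cut .v 1048576 (.pos 117 .pm ⟨⟨0, 0, 23383144, 0, 0, 0, 0, 0, 26054582, ⟨0, 0⟩,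 1983364⟩, 0, 0⟩ 0 0) (.pos 118 .pm ⟨⟨0, 0, 10463438, 0, 0, 0, 0, 0, 0, ⟨0, 0⟩, 0⟩, 0, 91631⟩ 0 0)) (.pos 114 .pm ⟨⟨0, 0, 7919008, 0, 0, 0, 0, 0, 0, ⟨0, 0⟩, 0⟩, 0, 117811⟩ 0 0)) (.pos 5 .pm ⟨⟨0, 0, 7527523, 0, 0, 0, 0, 0, 0, ⟨0, 0⟩, 0⟩, 0, 164936⟩ 0 0)) (.pos 3 .pm ⟨⟨0, 0, 0, 0, 0, 0, 0, 0, 0, ⟨0, 0⟩, 0⟩, 0, 0⟩ 0 0)) (.cut .v 268435456 (.cut .v 67108864 (.cut .d 2457270 (.cut .v 33554432 (.cut .d 1228635 (.cut .v 25165824 (.cut .d 614317 (.cut .v 20971520 (.cut .d 307158 (.cut .v 18874368 (.cut .d 153579 (.cut .v 17825792 (.cut .d 76789 (.cut .d 38394 (.cut .v 17301504 (.cut .d 19197 (.cut .v 17039360 (.cut .s 13107200 (.pos 33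 .pp ⟨⟨245462683, 0, 0, 0, 0, 0, 0, 0, 0, ⟨0, 0⟩, 0⟩, 1251127, 0⟩ 0 0) (.pos 33 .pp ⟨⟨267217987, 0, 0, 0, 0, 0, 0, 0, 0, ⟨0, 0⟩, 0⟩, 1984684, 0⟩ 0 0)) (.pos 34 .pp ⟨⟨282744028, 0, 0, 0, 0, 0, 0, 0, 0, ⟨0, 0⟩, 0⟩, 0, 0⟩ 0 0)) (.pos 31 .pp ⟨⟨240392666, 0, 0, 0, 0, 0, 0, 0, 0, ⟨0, 0⟩, 0⟩, 0, 24191⟩ 0 0)) (.pos 32 .pp ⟨⟨302303874, 0, 0, 0, 0, 0, 0, 0, 0, ⟨0, 0⟩, 0⟩, 0, 0⟩ 0 0)) (.pos 29 .pp ⟨⟨248078009, 0, 0, 0, 0, 0, 0, 0, 0, ⟨0, 0⟩, 0⟩, 0, 9632⟩ 0 0)) (.pos 29 .pp ⟨⟨0, 0, 0, 0, 0, 0, 0, 0, 0, ⟨0, 0⟩, 0⟩, 0, 494132⟩ 0 0)) (.cut .d 76789 (.pos 30 .pp ⟨⟨337386711, 0, 0, 0, 0, 0, 0, 0, 0, ⟨0, 0⟩, 0⟩, 0, 0⟩ 0 0) (.pos 30 .pp ⟨⟨290220761,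 0, 0, 0, 0, 0, 0, 0, 0, ⟨0, 0⟩, 0⟩, 0, 0⟩ 0 0))) (.pos 27 .pp ⟨⟨0, 0, 0, 0, 0, 0, 0, 0, 0, ⟨0, 0⟩, 0⟩, 0, 507810⟩ 0 0)) (.cut .d 153579 (.pos 28 .pp ⟨⟨407178976, 0, 0, 0, 0, 0, 0, 0, 0, ⟨0, 0⟩, 0⟩, 0, 0⟩ 0 0) (.cut .v 19922944 (.pos 53 .pp ⟨⟨299706905, 0, 0, 0, 0, 0, 0, 0, 0, ⟨0, 0⟩, 0⟩, 0, 0⟩ 0 0) (.pos 54 .pp ⟨⟨355845574, 0, 0, 0, 0, 0, 0, 0, 0, ⟨0, 0⟩, 0⟩, 0, 0⟩ 0 0)))) (.pos 25 .pp ⟨⟨0, 0, 0, 0, 0, 0, 0, 0, 0, ⟨0, 0⟩, 0⟩, 0, 532887⟩ 0 0)) (.cut .d 307158 (.cut .v 23068672 (.cut .v 22020096 (.cut .d 153579 (.void 57 ⟨⟨0, 0, 0, 0, 0, 0, 0, 0, 0, ⟨0, 0⟩, 0⟩, 100000, 0⟩ 0 0) (.cut .d 230368 (.pos 57 .pp ⟨⟨485342290, 0, 0, 0, 0,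 0, 0, 0, 0, ⟨0, 0⟩, 0⟩, 0, 0⟩ 0 0) (.pos 57 .pp ⟨⟨395625533, 0, 0, 0, 0, 0, 0, 0, 0, ⟨0, 0⟩, 0⟩, 0, 0⟩ 0 0))) (.pos 58 .pp ⟨⟨492601486, 0, 0, 0, 0, 0, 0, 0, 0, ⟨0, 0⟩, 0⟩, 0, 0⟩ 0 0)) (.void 56 ⟨⟨0, 0, 0, 0, 0, 0, 0, 0, 0, ⟨0, 0⟩, 0⟩, 100000, 0⟩ 0 0)) (.cut .d 460737 (.cut .v 23068672 (.cut .v 22020096 (.pos 57 .pp ⟨⟨338642316, 0, 0, 0, 0, 0, 16618, 0, 0, ⟨0, 0⟩, 0⟩, 0, 0⟩ 0 0) (.pos 58 .pp ⟨⟨31697377, 0, 0, 0, 0, 0, 0, 0, 0, ⟨0, 0⟩, 0⟩, 52614664, 0⟩ 0 0)) (.pos 56 .pp ⟨⟨0, 0, 0, 0, 0, 0, 0, 0, 0, ⟨0, 0⟩, 0⟩, 66188419, 0⟩ 0 0)) (.pos 26 .pp ⟨⟨0, 0, 0, 0, 0, 0, 244498, 0, 0, ⟨0, 0⟩, 0⟩, 44873421, 0⟩ 0 0)))) (.pos 23 .pp ⟨⟨0, 0,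 0, 0, 0, 0, 0, 0, 0, ⟨0, 0⟩, 0⟩, 0, 575518⟩ 0 0)) (.cut .d 614317 (.cut .v 29360128 (.pos 75 .pp ⟨⟨0, 0, 0, 0, 0, 0, 0, 0, 0, ⟨0, 0⟩, 0⟩, 94069589, 0⟩ 0 0) (.void 76 ⟨⟨0, 0, 0, 0, 0, 0, 0, 0, 0, ⟨0, 0⟩, 0⟩, 100000, 0⟩ 0 0)) (.pos 24 .pp ⟨⟨0, 0, 0, 0, 0, 0, 0, 0, 0, ⟨0, 0⟩, 0⟩, 60433549, 0⟩ 0 0))) (.pos 22 .pp ⟨⟨0, 0, 0, 0, 0, 0, 1914663, 0, 0, ⟨0, 0⟩, 0⟩, 0, 0⟩ 0 0)) (.cut .d 1228635 (.pos 91 .pp ⟨⟨0, 0, 0, 0, 0, 0, 0, 0, 0, ⟨0, 0⟩, 0⟩, 194524967, 0⟩ 0 0) (.pos 91 .pp ⟨⟨0, 0, 0, 0, 0, 0, 0, 0, 0, ⟨0, 0⟩, 0⟩, 76046323, 0⟩ 0 0))) (.pos 90 .pp ⟨⟨0, 0, 0, 0, 0, 0, 0, 0, 0, ⟨0, 0⟩, 0⟩, 0, 479598⟩ 0 0)) (.void 112 ⟨⟨0, 0, 0, 47487, 0,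 0, 0, 0, 0, ⟨0, 0⟩, 0⟩, 52513, 0⟩ 0 0)) (.void 121 ⟨⟨0, 0, 0, 0, 0, 0, 0, 0, 0, ⟨0, 0⟩, 0⟩, 100000, 0⟩ 0 0)))),
    by decide +kernel⟩

theorem covers23 : cell.Covers Vale.Agent.P237.Petty.Cor.Grid.N10.table row23.1 :=
  ⟨(.cut .d 0 (.cut .v 16777216 (.cut .v 8388608 (.void 2 ⟨⟨0, 0, 100000, 0, 0, 0, 0, 0, 0, ⟨0, 0⟩, 0⟩, 0, 0⟩ 0 0) (.cut .d (-8388608) (.void 3 ⟨⟨100000, 0, 0, 0, 0, 0, 0, 0, 0, ⟨0, 0⟩, 0⟩, 0, 0⟩ 0 0) (.cut .d (-4194304) (.void 3 ⟨⟨100000, 0, 0, 0, 0, 0, 0, 0, 0, ⟨0, 0⟩, 0⟩, 0, 0⟩ 0 0) (.cut .d (-2097152) (.void 3 ⟨⟨0, 0, 0, 0, 0, 100000, 0, 0, 0, ⟨0, 0⟩, 0⟩, 0, 0⟩ 0 0) (.cut .d (-1048576) (.void 3 ⟨⟨0, 0, 0, 0,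 0, 100000, 0, 0, 0, ⟨0, 0⟩, 0⟩, 0, 0⟩ 0 0) (.cut .d (-524288) (.void 3 ⟨⟨0, 0, 0, 0, 0, 100000, 0, 0, 0, ⟨0, 0⟩, 0⟩, 0, 0⟩ 0 0) (.cut .s 13369344 (.pos 3 .mm ⟨⟨0, 0, 0, 0, 0, 598193612, 0, 0, 0, ⟨0, 0⟩, 0⟩, 0, 0⟩ 0 0) (.pos 3 .mm ⟨⟨0, 0, 0, 0, 0, 669645821, 0, 0, 0, ⟨0, 0⟩, 0⟩, 0, 0⟩ 0 0)))))))) (.cut .v 268435456 (.cut .v 67108864 (.cut .v 33554432 (.cut .v 25165824 (.cut .d (-8388608) (.void 23 ⟨⟨100000, 0, 0, 0, 0, 0, 0, 0, 0, ⟨0, 0⟩, 0⟩, 0, 0⟩ 0 0) (.cut .d (-4194304) (.void 23 ⟨⟨100000, 0, 0, 0, 0, 0, 0, 0, 0, ⟨0, 0⟩, 0⟩, 0, 0⟩ 0 0) (.cut .v 20971520 (.cut .d (-2097152) (.void 25 ⟨⟨100000, 0, 0, 0, 0, 0, 0, 0, 0, ⟨0, 0⟩, 0⟩,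 0, 0⟩ 0 0) (.cut .v 18874368 (.cut .d (-1048576) (.void 27 ⟨⟨100000, 0, 0, 0, 0, 0, 0, 0, 0, ⟨0, 0⟩, 0⟩, 0, 0⟩ 0 0) (.cut .v 17825792 (.cut .d (-524288) (.void 29 ⟨⟨100000, 0, 0, 0, 0, 0, 0, 0, 0, ⟨0, 0⟩, 0⟩, 0, 0⟩ 0 0) (.cut .v 17301504 (.cut .d (-262144) (.void 31 ⟨⟨100000, 0, 0, 0, 0, 0, 0, 0, 0, ⟨0, 0⟩, 0⟩, 0, 0⟩ 0 0) (.cut .d (-131072) (.void 31 ⟨⟨100000, 0, 0, 0, 0, 0, 0, 0, 0, ⟨0, 0⟩, 0⟩, 0, 0⟩ 0 0) (.cut .d (-65536) (.void 31 ⟨⟨100000, 0, 0, 0, 0, 0, 0, 0, 0, ⟨0, 0⟩, 0⟩, 0, 0⟩ 0 0) (.cut .d (-32768) (.void 31 ⟨⟨0, 0, 0, 0, 0, 100000, 0, 0, 0, ⟨0, 0⟩, 0⟩, 0, 0⟩ 0 0) (.cut .v 17039360 (.cut .s 13369344 (.cut .d (-16384) (.cut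 .v 16908288 (.cut .d (-24576) (.void 35 ⟨⟨0, 0, 0, 0, 0, 100000, 0, 0, 0, ⟨0, 0⟩, 0⟩, 0, 0⟩ 0 0) (.cut .d (-20480) (.void 35 ⟨⟨0, 0, 0, 0, 0, 100000, 0, 0, 0, ⟨0, 0⟩, 0⟩, 0, 0⟩ 0 0) (.cut .l 184549 (.void 35 ⟨⟨0, 0, 0, 0, 0, 100000, 0, 0, 0, ⟨0, 0⟩, 0⟩, 0, 0⟩ 0 0) (.cut .l 276824 (.void 35 ⟨⟨0, 0, 0, 0, 0, 100000, 0, 0, 0, ⟨0, 0⟩, 0⟩, 0, 0⟩ 0 0) (.cut .v 16842752 (.cut .s 13303808 (.pos 45 .mp ⟨⟨235281378, 0, 0, 0, 0, 159032581, 0, 0, 0, ⟨0, 0⟩, 0⟩, 0, 0⟩ 0 0) (.pos 45 .mp ⟨⟨0, 0, 0, 0, 0, 656547990, 0, 0, 0, ⟨0, 0⟩, 0⟩, 0, 0⟩ 0 0)) (.cut .v 16875520 (.cut .s 13303808 (.cut .s 13271040 (.pos 96 .mp ⟨⟨278227436, 0, 0, 0, 0, 72125339,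 0, 0, 0, ⟨0, 0⟩, 0⟩, 0, 0⟩ 0 0) (.pos 96 .mp ⟨⟨285104664, 0, 0, 0, 0, 74207145, 0, 0, 0, ⟨0, 0⟩, 0⟩, 0, 0⟩ 0 0)) (.cut .s 13336576 (.pos 96 .mp ⟨⟨292172673, 0, 0, 0, 0, 76449825, 0, 0, 0, ⟨0, 0⟩, 0⟩, 0, 0⟩ 0 0) (.pos 96 .mp ⟨⟨299436768, 0, 0, 0, 0, 78849090, 0, 0, 0, ⟨0, 0⟩, 0⟩, 0, 0⟩ 0 0))) (.pos 97 .mp ⟨⟨341328450, 0, 0, 0, 0, 0, 0, 0, 0, ⟨0, 0⟩, 0⟩, 0, 0⟩ 0 0))))))) (.void 36 ⟨⟨100000, 0, 0, 0, 0, 0, 0, 0, 0, ⟨0, 0⟩, 0⟩, 0, 0⟩ 0 0)) (.cut .v 16908288 (.cut .s 13303808 (.cut .s 13271040 (.cut .v 16842752 (.cut .s 13254656 (.cut .d (-8192) (.cut .l 184549 (.pos 45 .mp ⟨⟨265363498, 0, 0, 0, 0, 94210759, 0, 0, 0, ⟨0, 0⟩, 0⟩, 0,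 0⟩ 0 0) (.pos 45 .mp ⟨⟨261327547, 0, 0, 0, 0, 95787788, 0, 0, 0, ⟨0, 0⟩, 0⟩, 0, 0⟩ 0 0)) (.cut .l 184549 (.cut .v 16809984 (.cut .l 92274 (.cut .d (-4096) (.pos 49 .mp ⟨⟨264653032, 0, 0, 0, 0, 94182968, 0, 0, 0, ⟨0, 0⟩, 0⟩, 0, 0⟩ 0 0) (.cut .v 16793600 (.cut .s 13246464 (.pos 83 .mp ⟨⟨267782709, 0, 0, 0, 0, 79005887, 0, 0, 0, ⟨0, 0⟩, 0⟩, 0, 0⟩ 0 0) (.cut .s 13250560 (.pos 83 .mp ⟨⟨270283614, 0, 0, 0, 0, 77311643, 0, 0, 0, ⟨0, 0⟩, 0⟩, 0, 0⟩ 0 0) (.pos 83 .mp ⟨⟨271035000, 0, 0, 0, 0, 77683424, 0, 0, 0, ⟨0, 0⟩, 0⟩, 0, 0⟩ 0 0))) (.pos 84 .mp ⟨⟨310955258, 0, 0, 0, 0, 0, 0, 0, 0, ⟨0, 0⟩, 0⟩, 0, 0⟩ 0 0))) (.pos 49 .mp ⟨⟨269615093, 0,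 0, 0, 0, 75100893, 0, 0, 0, ⟨0, 0⟩, 0⟩, 0, 0⟩ 0 0)) (.pos 50 .mp ⟨⟨311329747, 0, 0, 0, 0, 0, 0, 0, 0, ⟨0, 0⟩, 0⟩, 0, 0⟩ 0 0)) (.pos 45 .mp ⟨⟨266165560, 0, 0, 0, 0, 0, 0, 0, 0, ⟨0, 0⟩, 0⟩, 0, 0⟩ 0 0))) (.cut .d (-8192) (.cut .l 184549 (.pos 45 .mp ⟨⟨268596058, 0, 0, 0, 0, 95399168, 0, 0, 0, ⟨0, 0⟩, 0⟩, 0, 0⟩ 0 0) (.cut .s 13262848 (.pos 45 .mp ⟨⟨265190616, 0, 0, 0, 0, 94086304, 0, 0, 0, ⟨0, 0⟩, 0⟩, 0, 0⟩ 0 0) (.pos 45 .mp ⟨⟨266703123, 0, 0, 0, 0, 94934888, 0, 0, 0, ⟨0, 0⟩, 0⟩, 0, 0⟩ 0 0))) (.cut .l 184549 (.cut .v 16809984 (.cut .l 92274 (.cut .d (-4096) (.pos 49 .mp ⟨⟨267863115, 0, 0, 0, 0, 95402166, 0, 0, 0, ⟨0, 0⟩, 0⟩, 0, 0⟩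 0 0) (.cut .v 16793600 (.cut .l 46137 (.cut .d (-2048) (.pos 83 .mp ⟨⟨267499109, 0, 0, 0, 0, 95398502, 0, 0, 0, ⟨0, 0⟩, 0⟩, 0, 0⟩ 0 0) (.cut .s 13262848 (.pos 83 .mp ⟨⟨270097046, 0, 0, 0, 0, 81698216, 0, 0, 0, ⟨0, 0⟩, 0⟩, 0, 0⟩ 0 0) (.pos 83 .mp ⟨⟨271772635, 0, 0, 0, 0, 82168263, 0, 0, 0, ⟨0, 0⟩, 0⟩, 0, 0⟩ 0 0))) (.pos 83 .mp ⟨⟨271631676, 0, 0, 0, 0, 77887577, 0, 0, 0, ⟨0, 0⟩, 0⟩, 0, 0⟩ 0 0)) (.pos 84 .mp ⟨⟨314719905, 0, 0, 0, 0, 0, 0, 0, 0, ⟨0, 0⟩, 0⟩, 0, 0⟩ 0 0))) (.pos 49 .mp ⟨⟨272893846, 0, 0, 0, 0, 76236068, 0, 0, 0, ⟨0, 0⟩, 0⟩, 0, 0⟩ 0 0)) (.pos 50 .mp ⟨⟨315098969, 0, 0, 0, 0, 0, 0, 0, 0, ⟨0, 0⟩, 0⟩, 0, 0⟩ 0 0)) (.pos 45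 .mp ⟨⟨269410893, 0, 0, 0, 0, 0, 0, 0, 0, ⟨0, 0⟩, 0⟩, 0, 0⟩ 0 0)))) (.pos 46 .mp ⟨⟨315335902, 0, 0, 0, 0, 0, 0, 0, 0, ⟨0, 0⟩, 0⟩, 0, 0⟩ 0 0)) (.cut .v 16842752 (.cut .s 13287424 (.cut .d (-8192) (.cut .l 184549 (.pos 45 .mp ⟨⟨271871450, 0, 0, 0, 0, 96649760, 0, 0, 0, ⟨0, 0⟩, 0⟩, 0, 0⟩ 0 0) (.cut .s 13279232 (.pos 45 .mp ⟨⟨268231625, 0, 0, 0, 0, 95784708, 0, 0, 0, ⟨0, 0⟩, 0⟩, 0, 0⟩ 0 0) (.pos 45 .mp ⟨⟨269776470, 0, 0, 0, 0, 96635112, 0, 0, 0, ⟨0, 0⟩, 0⟩, 0, 0⟩ 0 0))) (.cut .l 184549 (.cut .v 16809984 (.cut .s 13279232 (.cut .s 13275136 (.pos 49 .mp ⟨⟨275799168, 0, 0, 0, 0, 77934854, 0, 0, 0, ⟨0, 0⟩, 0⟩, 0, 0⟩ 0 0) (.pos 49 .mp ⟨⟨276634935,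 0, 0, 0, 0, 78206623, 0, 0, 0, ⟨0, 0⟩, 0⟩, 0, 0⟩ 0 0)) (.cut .s 13283328 (.pos 49 .mp ⟨⟨277473548, 0, 0, 0, 0, 78481235, 0, 0, 0, ⟨0, 0⟩, 0⟩, 0, 0⟩ 0 0) (.pos 49 .mp ⟨⟨278315017, 0, 0, 0, 0, 78758685, 0, 0, 0, ⟨0, 0⟩, 0⟩, 0, 0⟩ 0 0))) (.pos 50 .mp ⟨⟨318940432, 0, 0, 0, 0, 0, 0, 0, 0, ⟨0, 0⟩, 0⟩, 0, 0⟩ 0 0)) (.pos 45 .mp ⟨⟨272699683, 0, 0, 0, 0, 0, 0, 0, 0, ⟨0, 0⟩, 0⟩, 0, 0⟩ 0 0))) (.cut .d (-8192) (.cut .l 184549 (.pos 45 .mp ⟨⟨275190241, 0, 0, 0, 0, 97963516, 0, 0, 0, ⟨0, 0⟩, 0⟩, 0, 0⟩ 0 0) (.cut .s 13295616 (.pos 45 .mp ⟨⟨271338011, 0, 0, 0, 0, 97485440, 0, 0, 0, ⟨0, 0⟩, 0⟩, 0, 0⟩ 0 0) (.pos 45 .mp ⟨⟨272916601, 0, 0, 0, 0, 98335028,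 0, 0, 0, ⟨0, 0⟩, 0⟩, 0, 0⟩ 0 0))) (.cut .l 184549 (.cut .v 16809984 (.cut .s 13295616 (.cut .s 13291520 (.pos 49 .mp ⟨⟨279159351, 0, 0, 0, 0, 79038966, 0, 0, 0, ⟨0, 0⟩, 0⟩, 0, 0⟩ 0 0) (.pos 49 .mp ⟨⟨280006561, 0, 0, 0, 0, 79322070, 0, 0, 0, ⟨0, 0⟩, 0⟩, 0, 0⟩ 0 0)) (.cut .s 13299712 (.pos 49 .mp ⟨⟨277264381, 0, 0, 0, 0, 86797962, 0, 0, 0, ⟨0, 0⟩, 0⟩, 0, 0⟩ 0 0) (.pos 49 .mp ⟨⟨278059697, 0, 0, 0, 0, 87202969, 0, 0, 0, ⟨0, 0⟩, 0⟩, 0, 0⟩ 0 0))) (.pos 50 .mp ⟨⟨322855092, 0, 0, 0, 0, 0, 0, 0, 0, ⟨0, 0⟩, 0⟩, 0, 0⟩ 0 0)) (.pos 45 .mp ⟨⟨276032511, 0, 0, 0, 0, 0, 0, 0, 0, ⟨0, 0⟩, 0⟩, 0, 0⟩ 0 0)))) (.pos 46 .mp ⟨⟨323103311, 0, 0, 0, 0, 0,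 0, 0, 0, ⟨0, 0⟩, 0⟩, 0, 0⟩ 0 0))) (.cut .s 13336576 (.cut .v 16842752 (.cut .s 13320192 (.cut .d (-8192) (.cut .l 184549 (.pos 45 .mp ⟨⟨278553006, 0, 0, 0, 0, 99341439, 0, 0, 0, ⟨0, 0⟩, 0⟩, 0, 0⟩ 0 0) (.cut .s 13312000 (.pos 45 .mp ⟨⟨274512596, 0, 0, 0, 0, 99183209, 0, 0, 0, ⟨0, 0⟩, 0⟩, 0, 0⟩ 0 0) (.pos 45 .mp ⟨⟨276126355, 0, 0, 0, 0, 100029306, 0, 0, 0, ⟨0, 0⟩, 0⟩, 0, 0⟩ 0 0))) (.cut .l 184549 (.cut .v 16809984 (.cut .s 13312000 (.cut .s 13307904 (.pos 49 .mp ⟨⟨278860179, 0, 0, 0, 0, 87606278, 0, 0, 0, ⟨0, 0⟩, 0⟩, 0, 0⟩ 0 0) (.cut .s 13309952 (.pos 49 .mp ⟨⟨282403991, 0, 0, 0, 0, 82057761, 0, 0, 0, ⟨0, 0⟩, 0⟩, 0, 0⟩ 0 0) (.pos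 49 .mp ⟨⟨282778038, 0, 0, 0, 0, 82318058, 0, 0, 0, ⟨0, 0⟩, 0⟩, 0, 0⟩ 0 0))) (.cut .d (-4096) (.pos 49 .mp ⟨⟨280927838, 0, 0, 0, 0, 89750397, 0, 0, 0, ⟨0, 0⟩, 0⟩, 0, 0⟩ 0 0) (.cut .s 13316096 (.pos 49 .mp ⟨⟨282133709, 0, 0, 0, 0, 84791628, 0, 0, 0, ⟨0, 0⟩, 0⟩, 0, 0⟩ 0 0) (.pos 49 .mp ⟨⟨282966874, 0, 0, 0, 0, 85144837, 0, 0, 0, ⟨0, 0⟩, 0⟩, 0, 0⟩ 0 0)))) (.pos 50 .mp ⟨⟨303161908, 0, 0, 0, 0, 47402151, 0, 0, 0, ⟨0, 0⟩, 0⟩, 0, 0⟩ 0 0)) (.pos 45 .mp ⟨⟨279409970, 0, 0, 0, 0, 0, 0, 0, 0, ⟨0, 0⟩, 0⟩, 0, 0⟩ 0 0))) (.cut .d (-8192) (.cut .l 184549 (.pos 45 .mp ⟨⟨281960333, 0, 0, 0, 0, 100784550, 0, 0, 0, ⟨0, 0⟩, 0⟩, 0, 0⟩ 0 0) (.cut .s 13328384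 (.pos 45 .mp ⟨⟨277758240, 0, 0, 0, 0, 100872642, 0, 0, 0, ⟨0, 0⟩, 0⟩, 0, 0⟩ 0 0) (.pos 45 .mp ⟨⟨279408613, 0, 0, 0, 0, 101712531, 0, 0, 0, ⟨0, 0⟩, 0⟩, 0, 0⟩ 0 0))) (.cut .l 184549 (.cut .v 16809984 (.cut .s 13328384 (.cut .d (-4096) (.pos 49 .mp ⟨⟨282575848, 0, 0, 0, 0, 90544123, 0, 0, 0, ⟨0, 0⟩, 0⟩, 0, 0⟩ 0 0) (.cut .s 13324288 (.pos 49 .mp ⟨⟨283804717, 0, 0, 0, 0, 85498039, 0, 0, 0, ⟨0, 0⟩, 0⟩, 0, 0⟩ 0 0) (.pos 49 .mp ⟨⟨284664489, 0, 0, 0, 0, 85817936, 0, 0, 0, ⟨0, 0⟩, 0⟩, 0, 0⟩ 0 0))) (.cut .d (-4096) (.pos 49 .mp ⟨⟨284245953, 0, 0, 0, 0, 91328474, 0, 0, 0, ⟨0, 0⟩, 0⟩, 0, 0⟩ 0 0) (.cut .s 13332480 (.pos 49 .mp ⟨⟨285540712, 0,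 0, 0, 0, 86115113, 0, 0, 0, ⟨0, 0⟩, 0⟩, 0, 0⟩ 0 0) (.pos 49 .mp ⟨⟨286418586, 0, 0, 0, 0, 86418178, 0, 0, 0, ⟨0, 0⟩, 0⟩, 0, 0⟩ 0 0)))) (.pos 50 .mp ⟨⟨306773296, 0, 0, 0, 0, 48355223, 0, 0, 0, ⟨0, 0⟩, 0⟩, 0, 0⟩ 0 0)) (.pos 45 .mp ⟨⟨282832662, 0, 0, 0, 0, 0, 0, 0, 0, ⟨0, 0⟩, 0⟩, 0, 0⟩ 0 0)))) (.cut .s 13320192 (.pos 46 .mp ⟨⟨301431947, 0, 0, 0, 0, 52416209, 0, 0, 0, ⟨0, 0⟩, 0⟩, 0, 0⟩ 0 0) (.pos 46 .mp ⟨⟨305016917, 0, 0, 0, 0, 53446418, 0, 0, 0, ⟨0, 0⟩, 0⟩, 0, 0⟩ 0 0))) (.cut .v 16842752 (.cut .s 13352960 (.cut .d (-8192) (.cut .l 184549 (.pos 45 .mp ⟨⟨285412822, 0, 0, 0, 0, 102293889, 0, 0, 0, ⟨0, 0⟩, 0⟩, 0, 0⟩ 0 0) (.cut .s 13344768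 (.pos 45 .mp ⟨⟨281077843, 0, 0, 0, 0, 102548282, 0, 0, 0, ⟨0, 0⟩, 0⟩, 0, 0⟩ 0 0) (.pos 45 .mp ⟨⟨282766296, 0, 0, 0, 0, 103379201, 0, 0, 0, ⟨0, 0⟩, 0⟩, 0, 0⟩ 0 0))) (.cut .l 184549 (.cut .v 16809984 (.cut .s 13344768 (.cut .d (-4096) (.pos 49 .mp ⟨⟨285938655, 0, 0, 0, 0, 92102533, 0, 0, 0, ⟨0, 0⟩, 0⟩, 0, 0⟩ 0 0) (.cut .s 13340672 (.pos 49 .mp ⟨⟨287298090, 0, 0, 0, 0, 86727200, 0, 0, 0, ⟨0, 0⟩, 0⟩, 0, 0⟩ 0 0) (.pos 49 .mp ⟨⟨288179202, 0, 0, 0, 0, 87042246, 0, 0, 0, ⟨0, 0⟩, 0⟩, 0, 0⟩ 0 0))) (.cut .d (-4096) (.pos 49 .mp ⟨⟨287654459, 0, 0, 0, 0, 92865377, 0, 0, 0, ⟨0, 0⟩, 0⟩, 0, 0⟩ 0 0) (.cut .s 13348864 (.pos 49 .mp ⟨⟨289061900, 0,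 0, 0, 0, 87363386, 0, 0, 0, ⟨0, 0⟩, 0⟩, 0, 0⟩ 0 0) (.pos 49 .mp ⟨⟨289946161, 0, 0, 0, 0, 87690689, 0, 0, 0, ⟨0, 0⟩, 0⟩, 0, 0⟩ 0 0)))) (.pos 50 .mp ⟨⟨310511411, 0, 0, 0, 0, 49208684, 0, 0, 0, ⟨0, 0⟩, 0⟩, 0, 0⟩ 0 0)) (.pos 45 .mp ⟨⟨286301204, 0, 0, 0, 0, 0, 0, 0, 0, ⟨0, 0⟩, 0⟩, 0, 0⟩ 0 0))) (.cut .d (-8192) (.cut .l 184549 (.pos 45 .mp ⟨⟨288911081, 0, 0, 0, 0, 103870521, 0, 0, 0, ⟨0, 0⟩, 0⟩, 0, 0⟩ 0 0) (.cut .s 13361152 (.pos 45 .mp ⟨⟨284474346, 0, 0, 0, 0, 104204586, 0, 0, 0, ⟨0, 0⟩, 0⟩, 0, 0⟩ 0 0) (.pos 45 .mp ⟨⟨286202367, 0, 0, 0, 0, 105023731, 0, 0, 0, ⟨0, 0⟩, 0⟩, 0, 0⟩ 0 0))) (.cut .l 184549 (.cut .v 16809984 (.cut .s 13361152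 (.cut .d (-4096) (.pos 49 .mp ⟨⟨289393874, 0, 0, 0, 0, 93616073, 0, 0, 0, ⟨0, 0⟩, 0⟩, 0, 0⟩ 0 0) (.cut .s 13357056 (.pos 49 .mp ⟨⟨290831965, 0, 0, 0, 0, 88024226, 0, 0, 0, ⟨0, 0⟩, 0⟩, 0, 0⟩ 0 0) (.pos 49 .mp ⟨⟨291719289, 0, 0, 0, 0, 88364068, 0, 0, 0, ⟨0, 0⟩, 0⟩, 0, 0⟩ 0 0))) (.cut .d (-4096) (.pos 49 .mp ⟨⟨291157415, 0, 0, 0, 0, 94353680, 0, 0, 0, ⟨0, 0⟩, 0⟩, 0, 0⟩ 0 0) (.cut .s 13365248 (.pos 49 .mp ⟨⟨292608109, 0, 0, 0, 0, 88710285, 0, 0, 0, ⟨0, 0⟩, 0⟩, 0, 0⟩ 0 0) (.pos 49 .mp ⟨⟨293498403, 0, 0, 0, 0, 89062951, 0, 0, 0, ⟨0, 0⟩, 0⟩, 0, 0⟩ 0 0)))) (.pos 50 .mp ⟨⟨314383326, 0, 0, 0, 0, 49950112, 0, 0, 0, ⟨0, 0⟩, 0⟩, 0, 0⟩ 0 0))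 (.pos 45 .mp ⟨⟨289816220, 0, 0, 0, 0, 0, 0, 0, 0, ⟨0, 0⟩, 0⟩, 0, 0⟩ 0 0)))) (.cut .s 13352960 (.pos 46 .mp ⟨⟨308728359, 0, 0, 0, 0, 54378079, 0, 0, 0, ⟨0, 0⟩, 0⟩, 0, 0⟩ 0 0) (.pos 46 .mp ⟨⟨312573369, 0, 0, 0, 0, 55198735, 0, 0, 0, ⟨0, 0⟩, 0⟩, 0, 0⟩ 0 0))))) (.cut .s 13303808 (.pos 36 .mp ⟨⟨323716481, 0, 0, 0, 0, 0, 0, 0, 0, ⟨0, 0⟩, 0⟩, 0, 0⟩ 0 0) (.pos 36 .mp ⟨⟨340128979, 0, 0, 0, 0, 0, 0, 0, 0, ⟨0, 0⟩, 0⟩, 0, 0⟩ 0 0)))) (.cut .d (-16384) (.cut .v 16908288 (.cut .d (-24576) (.void 35 ⟨⟨0, 0, 0, 0, 0, 100000, 0, 0, 0, ⟨0, 0⟩, 0⟩, 0, 0⟩ 0 0) (.cut .d (-20480) (.void 35 ⟨⟨0, 0, 0, 0, 0, 100000, 0, 0, 0, ⟨0, 0⟩, 0⟩, 0, 0⟩ 0 0) (.cut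 .l 184549 (.void 35 ⟨⟨100000, 0, 0, 0, 0, 0, 0, 0, 0, ⟨0, 0⟩, 0⟩, 0, 0⟩ 0 0) (.cut .l 276824 (.void 35 ⟨⟨0, 0, 0, 0, 0, 100000, 0, 0, 0, ⟨0, 0⟩, 0⟩, 0, 0⟩ 0 0) (.cut .v 16842752 (.pos 45 .mp ⟨⟨0, 0, 0, 0, 0, 704989528, 0, 0, 0, ⟨0, 0⟩, 0⟩, 0, 0⟩ 0 0) (.cut .v 16875520 (.cut .d (-18432) (.pos 96 .mp ⟨⟨296200832, 0, 0, 0, 0, 166045929, 0, 0, 0, ⟨0, 0⟩, 0⟩, 0, 0⟩ 0 0) (.cut .l 322961 (.pos 96 .mp ⟨⟨296317626, 0, 0, 0, 0, 226124285, 0, 0, 0, ⟨0, 0⟩, 0⟩, 0, 0⟩ 0 0) (.cut .s 13434880 (.cut .s 13402112 (.pos 96 .mp ⟨⟨304718804, 0, 0, 0, 0, 80429116, 0, 0, 0, ⟨0, 0⟩, 0⟩, 0, 0⟩ 0 0) (.pos 96 .mp ⟨⟨312324864, 0, 0, 0, 0, 83138298, 0, 0,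 0, ⟨0, 0⟩, 0⟩, 0, 0⟩ 0 0)) (.pos 96 .mp ⟨⟨328175427, 0, 0, 0, 0, 78687831, 0, 0, 0, ⟨0, 0⟩, 0⟩, 0, 0⟩ 0 0)))) (.pos 97 .mp ⟨⟨378200037, 0, 0, 0, 0, 0, 0, 0, 0, ⟨0, 0⟩, 0⟩, 0, 0⟩ 0 0))))))) (.void 36 ⟨⟨100000, 0, 0, 0, 0, 0, 0, 0, 0, ⟨0, 0⟩, 0⟩, 0, 0⟩ 0 0)) (.cut .v 16908288 (.cut .s 13434880 (.cut .s 13402112 (.cut .v 16842752 (.cut .s 13385728 (.cut .d (-8192) (.cut .l 184549 (.pos 45 .mp ⟨⟨292455733, 0, 0, 0, 0, 105515528, 0, 0, 0, ⟨0, 0⟩, 0⟩, 0, 0⟩ 0 0) (.cut .s 13377536 (.pos 45 .mp ⟨⟨287950940, 0, 0, 0, 0, 105835473, 0, 0, 0, ⟨0, 0⟩, 0⟩, 0, 0⟩ 0 0) (.pos 45 .mp ⟨⟨289719831, 0, 0, 0, 0, 106640442, 0, 0, 0, ⟨0, 0⟩, 0⟩, 0, 0⟩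 0 0))) (.cut .l 184549 (.cut .v 16809984 (.cut .s 13377536 (.cut .d (-4096) (.pos 49 .mp ⟨⟨292945599, 0, 0, 0, 0, 95077252, 0, 0, 0, ⟨0, 0⟩, 0⟩, 0, 0⟩ 0 0) (.cut .s 13373440 (.pos 49 .mp ⟨⟨294390147, 0, 0, 0, 0, 89422136, 0, 0, 0, ⟨0, 0⟩, 0⟩, 0, 0⟩ 0 0) (.pos 49 .mp ⟨⟨295283319, 0, 0, 0, 0, 89787916, 0, 0, 0, ⟨0, 0⟩, 0⟩, 0, 0⟩ 0 0))) (.cut .d (-4096) (.pos 49 .mp ⟨⟨294758945, 0, 0, 0, 0, 95785833, 0, 0, 0, ⟨0, 0⟩, 0⟩, 0, 0⟩ 0 0) (.cut .s 13381632 (.pos 49 .mp ⟨⟨296177894, 0, 0, 0, 0, 90160363, 0, 0, 0, ⟨0, 0⟩, 0⟩, 0, 0⟩ 0 0) (.pos 49 .mp ⟨⟨297073849, 0, 0, 0, 0, 90539552, 0, 0, 0, ⟨0, 0⟩, 0⟩, 0, 0⟩ 0 0)))) (.pos 50 .mp ⟨⟨318396219,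 0, 0, 0, 0, 50566858, 0, 0, 0, ⟨0, 0⟩, 0⟩, 0, 0⟩ 0 0)) (.pos 45 .mp ⟨⟨293378350, 0, 0, 0, 0, 0, 0, 0, 0, ⟨0, 0⟩, 0⟩, 0, 0⟩ 0 0))) (.cut .d (-8192) (.cut .l 184549 (.pos 45 .mp ⟨⟨296047408, 0, 0, 0, 0, 107230015, 0, 0, 0, ⟨0, 0⟩, 0⟩, 0, 0⟩ 0 0) (.cut .s 13393920 (.pos 45 .mp ⟨⟨291510037, 0, 0, 0, 0, 107436567, 0, 0, 0, ⟨0, 0⟩, 0⟩, 0, 0⟩ 0 0) (.pos 45 .mp ⟨⟨293321738, 0, 0, 0, 0, 108223567, 0, 0, 0, ⟨0, 0⟩, 0⟩, 0, 0⟩ 0 0))) (.cut .l 184549 (.cut .v 16809984 (.cut .s 13393920 (.cut .d (-4096) (.pos 49 .mp ⟨⟨296597980, 0, 0, 0, 0, 96478458, 0, 0, 0, ⟨0, 0⟩, 0⟩, 0, 0⟩ 0 0) (.cut .s 13389824 (.pos 49 .mp ⟨⟨297971160, 0, 0, 0, 0, 90925558,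 0, 0, 0, ⟨0, 0⟩, 0⟩, 0, 0⟩ 0 0) (.pos 49 .mp ⟨⟨298869801, 0, 0, 0, 0, 91318456, 0, 0, 0, ⟨0, 0⟩, 0⟩, 0, 0⟩ 0 0))) (.cut .d (-4096) (.pos 49 .mp ⟨⟨298463232, 0, 0, 0, 0, 97154156, 0, 0, 0, ⟨0, 0⟩, 0⟩, 0, 0⟩ 0 0) (.cut .s 13398016 (.pos 49 .mp ⟨⟨299769750, 0, 0, 0, 0, 91718324, 0, 0, 0, ⟨0, 0⟩, 0⟩, 0, 0⟩ 0 0) (.pos 49 .mp ⟨⟨300682614, 0, 0, 0, 0, 92102684, 0, 0, 0, ⟨0, 0⟩, 0⟩, 0, 0⟩ 0 0)))) (.pos 50 .mp ⟨⟨322557386, 0, 0, 0, 0, 51046036, 0, 0, 0, ⟨0, 0⟩, 0⟩, 0, 0⟩ 0 0)) (.pos 45 .mp ⟨⟨296988245, 0, 0, 0, 0, 0, 0, 0, 0, ⟨0, 0⟩, 0⟩, 0, 0⟩ 0 0)))) (.cut .s 13385728 (.pos 46 .mp ⟨⟨316559153, 0, 0, 0, 0, 55895697, 0, 0, 0, ⟨0, 0⟩, 0⟩,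 0, 0⟩ 0 0) (.pos 46 .mp ⟨⟨320693030, 0, 0, 0, 0, 56456043, 0, 0, 0, ⟨0, 0⟩, 0⟩, 0, 0⟩ 0 0))) (.cut .v 16842752 (.cut .s 13418496 (.cut .d (-8192) (.cut .l 184549 (.pos 45 .mp ⟨⟨299686754, 0, 0, 0, 0, 109015111, 0, 0, 0, ⟨0, 0⟩, 0⟩, 0, 0⟩ 0 0) (.cut .s 13410304 (.pos 45 .mp ⟨⟨295155323, 0, 0, 0, 0, 109000706, 0, 0, 0, ⟨0, 0⟩, 0⟩, 0, 0⟩ 0 0) (.pos 45 .mp ⟨⟨297011183, 0, 0, 0, 0, 109767242, 0, 0, 0, ⟨0, 0⟩, 0⟩, 0, 0⟩ 0 0))) (.cut .l 184549 (.cut .v 16809984 (.cut .s 13410304 (.cut .d (-4096) (.pos 49 .mp ⟨⟨300355233, 0, 0, 0, 0, 97811946, 0, 0, 0, ⟨0, 0⟩, 0⟩, 0, 0⟩ 0 0) (.cut .s 13406208 (.pos 49 .mp ⟨⟨301625200, 0, 0, 0, 0, 92438966,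 0, 0, 0, ⟨0, 0⟩, 0⟩, 0, 0⟩ 0 0) (.pos 49 .mp ⟨⟨302573607, 0, 0, 0, 0, 92773517, 0, 0, 0, ⟨0, 0⟩, 0⟩, 0, 0⟩ 0 0))) (.cut .s 13414400 (.cut .s 13412352 (.pos 49 .mp ⟨⟨304632519, 0, 0, 0, 0, 90694196, 0, 0, 0, ⟨0, 0⟩, 0⟩, 0, 0⟩ 0 0) (.pos 49 .mp ⟨⟨305157442, 0, 0, 0, 0, 90762225, 0, 0, 0, ⟨0, 0⟩, 0⟩, 0, 0⟩ 0 0)) (.pos 49 .mp ⟨⟨302655587, 0, 0, 0, 0, 97434463, 0, 0, 0, ⟨0, 0⟩, 0⟩, 0, 0⟩ 0 0))) (.pos 50 .mp ⟨⟨326874235, 0, 0, 0, 0, 51374521, 0, 0, 0, ⟨0, 0⟩, 0⟩, 0, 0⟩ 0 0)) (.pos 45 .mp ⟨⟨300646566, 0, 0, 0, 0, 0, 0, 0, 0, ⟨0, 0⟩, 0⟩, 0, 0⟩ 0 0))) (.cut .d (-8192) (.cut .l 184549 (.pos 45 .mp ⟨⟨303374426, 0, 0, 0, 0, 110871966, 0, 0,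 0, ⟨0, 0⟩, 0⟩, 0, 0⟩ 0 0) (.cut .s 13426688 (.pos 45 .mp ⟨⟨298889713, 0, 0, 0, 0, 110522428, 0, 0, 0, ⟨0, 0⟩, 0⟩, 0, 0⟩ 0 0) (.pos 45 .mp ⟨⟨300791309, 0, 0, 0, 0, 111265508, 0, 0, 0, ⟨0, 0⟩, 0⟩, 0, 0⟩ 0 0))) (.cut .l 184549 (.cut .v 16809984 (.cut .s 13426688 (.cut .s 13422592 (.pos 49 .mp ⟨⟨303626471, 0, 0, 0, 0, 97743145, 0, 0, 0, ⟨0, 0⟩, 0⟩, 0, 0⟩ 0 0) (.pos 49 .mp ⟨⟨304604395, 0, 0, 0, 0, 98046693, 0, 0, 0, ⟨0, 0⟩, 0⟩, 0, 0⟩ 0 0)) (.cut .s 13430784 (.pos 49 .mp ⟨⟨305589427, 0, 0, 0, 0, 98344983, 0, 0, 0, ⟨0, 0⟩, 0⟩, 0, 0⟩ 0 0) (.pos 49 .mp ⟨⟨306581637, 0, 0, 0, 0, 98637887, 0, 0, 0, ⟨0, 0⟩, 0⟩, 0, 0⟩ 0 0))) (.pos 50 .mp ⟨⟨331354297,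 0, 0, 0, 0, 51538945, 0, 0, 0, ⟨0, 0⟩, 0⟩, 0, 0⟩ 0 0)) (.pos 45 .mp ⟨⟨304353991, 0, 0, 0, 0, 0, 0, 0, 0, ⟨0, 0⟩, 0⟩, 0, 0⟩ 0 0)))) (.cut .s 13418496 (.pos 46 .mp ⟨⟨324982436, 0, 0, 0, 0, 56866610, 0, 0, 0, ⟨0, 0⟩, 0⟩, 0, 0⟩ 0 0) (.pos 46 .mp ⟨⟨329434925, 0, 0, 0, 0, 57113987, 0, 0, 0, ⟨0, 0⟩, 0⟩, 0, 0⟩ 0 0)))) (.cut .s 13467648 (.cut .v 16842752 (.cut .s 13451264 (.cut .d (-8192) (.cut .l 184549 (.pos 45 .mp ⟨⟨307111095, 0, 0, 0, 0, 112801753, 0, 0, 0, ⟨0, 0⟩, 0⟩, 0, 0⟩ 0 0) (.cut .s 13443072 (.pos 45 .mp ⟨⟨302716371, 0, 0, 0, 0, 111995724, 0, 0, 0, ⟨0, 0⟩, 0⟩, 0, 0⟩ 0 0) (.pos 45 .mp ⟨⟨304665304, 0, 0, 0, 0, 112712307, 0, 0, 0,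 ⟨0, 0⟩, 0⟩, 0, 0⟩ 0 0))) (.cut .l 184549 (.cut .v 16809984 (.cut .s 13443072 (.cut .s 13438976 (.pos 49 .mp ⟨⟨307581092, 0, 0, 0, 0, 98925277, 0, 0, 0, ⟨0, 0⟩, 0⟩, 0, 0⟩ 0 0) (.pos 49 .mp ⟨⟨308587863, 0, 0, 0, 0, 99207027, 0, 0, 0, ⟨0, 0⟩, 0⟩, 0, 0⟩ 0 0)) (.cut .s 13447168 (.pos 49 .mp ⟨⟨309699526, 0, 0, 0, 0, 99287058, 0, 0, 0, ⟨0, 0⟩, 0⟩, 0, 0⟩ 0 0) (.pos 49 .mp ⟨⟨310860242, 0, 0, 0, 0, 99277542, 0, 0, 0, ⟨0, 0⟩, 0⟩, 0, 0⟩ 0 0))) (.pos 50 .mp ⟨⟨336005221, 0, 0, 0, 0, 51525683, 0, 0, 0, ⟨0, 0⟩, 0⟩, 0, 0⟩ 0 0)) (.pos 45 .mp ⟨⟨308111207, 0, 0, 0, 0, 0, 0, 0, 0, ⟨0, 0⟩, 0⟩, 0, 0⟩ 0 0))) (.cut .d (-8192) (.cut .l 184549 (.pos 45 .mp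 ⟨⟨310897443, 0, 0, 0, 0, 114805670, 0, 0, 0, ⟨0, 0⟩, 0⟩, 0, 0⟩ 0 0) (.pos 45 .mp ⟨⟨306108524, 0, 0, 0, 0, 116447136, 0, 0, 0, ⟨0, 0⟩, 0⟩, 0, 0⟩ 0 0)) (.cut .l 184549 (.cut .v 16809984 (.cut .s 13459456 (.cut .s 13455360 (.pos 49 .mp ⟨⟨312035848, 0, 0, 0, 0, 99247134, 0, 0, 0, ⟨0, 0⟩, 0⟩, 0, 0⟩ 0 0) (.pos 49 .mp ⟨⟨313226474, 0, 0, 0, 0, 99195576, 0, 0, 0, ⟨0, 0⟩, 0⟩, 0, 0⟩ 0 0)) (.cut .s 13463552 (.pos 49 .mp ⟨⟨314432252, 0, 0, 0, 0, 99122612, 0, 0, 0, ⟨0, 0⟩, 0⟩, 0, 0⟩ 0 0) (.pos 49 .mp ⟨⟨315653312, 0, 0, 0, 0, 99027983, 0, 0, 0, ⟨0, 0⟩, 0⟩, 0, 0⟩ 0 0))) (.pos 50 .mp ⟨⟨340834784, 0, 0, 0, 0, 51320853, 0, 0, 0, ⟨0, 0⟩, 0⟩, 0, 0⟩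 0 0)) (.pos 45 .mp ⟨⟨311918919, 0, 0, 0, 0, 0, 0, 0, 0, ⟨0, 0⟩, 0⟩, 0, 0⟩ 0 0)))) (.pos 46 .mp ⟨⟨354035041, 0, 0, 0, 0, 25205936, 0, 0, 0, ⟨0, 0⟩, 0⟩, 0, 0⟩ 0 0)) (.cut .v 16842752 (.cut .s 13484032 (.cut .d (-8192) (.cut .l 184549 (.pos 45 .mp ⟨⟨314734167, 0, 0, 0, 0, 116884941, 0, 0, 0, ⟨0, 0⟩, 0⟩, 0, 0⟩ 0 0) (.pos 45 .mp ⟨⟨309889553, 0, 0, 0, 0, 118363271, 0, 0, 0, ⟨0, 0⟩, 0⟩, 0, 0⟩ 0 0)) (.cut .l 184549 (.cut .v 16809984 (.cut .l 92274 (.cut .d (-4096) (.pos 49 .mp ⟨⟨313739643, 0, 0, 0, 0, 117155874, 0, 0, 0, ⟨0, 0⟩, 0⟩, 0, 0⟩ 0 0) (.cut .v 16793600 (.cut .s 13475840 (.cut .s 13471744 (.pos 83 .mp ⟨⟨318607936, 0, 0, 0, 0, 95211589,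 0, 0, 0, ⟨0, 0⟩, 0⟩, 0, 0⟩ 0 0) (.pos 83 .mp ⟨⟨319685023, 0, 0, 0, 0, 95446588, 0, 0, 0, ⟨0, 0⟩, 0⟩, 0, 0⟩ 0 0)) (.pos 83 .mp ⟨⟨317335699, 0, 0, 0, 0, 103160395, 0, 0, 0, ⟨0, 0⟩, 0⟩, 0, 0⟩ 0 0)) (.pos 84 .mp ⟨⟨346843750, 0, 0, 0, 0, 48010851, 0, 0, 0, ⟨0, 0⟩, 0⟩, 0, 0⟩ 0 0))) (.pos 49 .mp ⟨⟨311496740, 0, 0, 0, 0, 110013127, 0, 0, 0, ⟨0, 0⟩, 0⟩, 0, 0⟩ 0 0)) (.pos 50 .mp ⟨⟨345850892, 0, 0, 0, 0, 50910310, 0, 0, 0, ⟨0, 0⟩, 0⟩, 0, 0⟩ 0 0)) (.pos 45 .mp ⟨⟨315777841, 0, 0, 0, 0, 0, 0, 0, 0, ⟨0, 0⟩, 0⟩, 0, 0⟩ 0 0))) (.cut .d (-8192) (.cut .l 184549 (.pos 45 .mp ⟨⟨318621975, 0, 0, 0, 0, 119040813, 0, 0, 0, ⟨0, 0⟩, 0⟩, 0, 0⟩ 0 0) (.pos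 45 .mp ⟨⟨313722103, 0, 0, 0, 0, 120323476, 0, 0, 0, ⟨0, 0⟩, 0⟩, 0, 0⟩ 0 0)) (.cut .l 184549 (.cut .v 16809984 (.cut .l 92274 (.cut .d (-4096) (.pos 49 .mp ⟨⟨317604681, 0, 0, 0, 0, 119335429, 0, 0, 0, ⟨0, 0⟩, 0⟩, 0, 0⟩ 0 0) (.cut .s 13492224 (.cut .s 13488128 (.pos 49 .mp ⟨⟨321384875, 0, 0, 0, 0, 99107390, 0, 0, 0, ⟨0, 0⟩, 0⟩, 0, 0⟩ 0 0) (.pos 49 .mp ⟨⟨322451618, 0, 0, 0, 0, 99400006, 0, 0, 0, ⟨0, 0⟩, 0⟩, 0, 0⟩ 0 0)) (.pos 49 .mp ⟨⟨323969823, 0, 0, 0, 0, 99579726, 0, 0, 0, ⟨0, 0⟩, 0⟩, 0, 0⟩ 0 0))) (.pos 49 .mp ⟨⟨315329291, 0, 0, 0, 0, 111715365, 0, 0, 0, ⟨0, 0⟩, 0⟩, 0, 0⟩ 0 0)) (.pos 50 .mp ⟨⟨351061579, 0, 0, 0, 0, 50279635, 0,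 0, 0, ⟨0, 0⟩, 0⟩, 0, 0⟩ 0 0)) (.pos 45 .mp ⟨⟨319688704, 0, 0, 0, 0, 0, 0, 0, 0, ⟨0, 0⟩, 0⟩, 0, 0⟩ 0 0)))) (.pos 46 .mp ⟨⟨364600348, 0, 0, 0, 0, 23438555, 0, 0, 0, ⟨0, 0⟩, 0⟩, 0, 0⟩ 0 0)))) (.cut .s 13434880 (.pos 36 .mp ⟨⟨357689424, 0, 0, 0, 0, 0, 0, 0, 0, ⟨0, 0⟩, 0⟩, 0, 0⟩ 0 0) (.pos 36 .mp ⟨⟨376420284, 0, 0, 0, 0, 0, 0, 0, 0, ⟨0, 0⟩, 0⟩, 0, 0⟩ 0 0))))) (.pos 34 .mp ⟨⟨379775082, 0, 0, 0, 0, 0, 0, 0, 0, ⟨0, 0⟩, 0⟩, 0, 0⟩ 0 0)))))) (.void 32 ⟨⟨100000, 0, 0, 0, 0, 0, 0, 0, 0, ⟨0, 0⟩, 0⟩, 0, 0⟩ 0 0))) (.void 30 ⟨⟨100000, 0, 0, 0, 0, 0, 0, 0, 0, ⟨0, 0⟩, 0⟩, 0, 0⟩ 0 0))) (.void 28 ⟨⟨100000, 0, 0, 0, 0, 0, 0, 0, 0, ⟨0, 0⟩, 0⟩, 0, 0⟩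 0 0))) (.void 26 ⟨⟨100000, 0, 0, 0, 0, 0, 0, 0, 0, ⟨0, 0⟩, 0⟩, 0, 0⟩ 0 0)))) (.void 24 ⟨⟨100000, 0, 0, 0, 0, 0, 0, 0, 0, ⟨0, 0⟩, 0⟩, 0, 0⟩ 0 0)) (.void 91 ⟨⟨100000, 0, 0, 0, 0, 0, 0, 0, 0, ⟨0, 0⟩, 0⟩, 0, 0⟩ 0 0)) (.void 112 ⟨⟨100000, 0, 0, 0, 0, 0, 0, 0, 0, ⟨0, 0⟩, 0⟩, 0, 0⟩ 0 0)) (.void 121 ⟨⟨93183, 0, 0, 6817, 0, 0, 0, 0, 0, ⟨0, 0⟩, 0⟩, 0, 0⟩ 0 0))) (.cut .v 16777216 (.cut .v 8388608 (.cut .v 4194304 (.cut .v 2097152 (.cut .v 1048576 (.pos 117 .pm ⟨⟨0, 0, 23330674, 0, 0, 0, 0, 0, 25132827, ⟨0, 0⟩, 1983364⟩, 0, 0⟩ 0 0) (.pos 118 .pm ⟨⟨0, 0, 12063564, 0, 0, 0, 0, 0, 0, ⟨0, 0⟩, 0⟩, 0, 76877⟩ 0 0)) (.pos 114 .pm ⟨⟨0, 0, 9755300,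 0, 0, 0, 0, 0, 0, ⟨0, 0⟩, 0⟩, 0, 82603⟩ 0 0)) (.pos 5 .pm ⟨⟨0, 0, 11347737, 0, 0, 0, 0, 0, 0, ⟨0, 0⟩, 0⟩, 0, 138379⟩ 0 0)) (.pos 3 .pm ⟨⟨0, 0, 0, 0, 0, 0, 0, 0, 0, ⟨0, 0⟩, 0⟩, 0, 0⟩ 0 0)) (.cut .v 268435456 (.cut .v 67108864 (.cut .d 2242500 (.cut .v 33554432 (.cut .d 1121250 (.cut .v 25165824 (.cut .d 560625 (.cut .v 20971520 (.cut .d 280312 (.cut .v 18874368 (.cut .d 140156 (.cut .v 17825792 (.cut .d 70078 (.cut .d 35039 (.cut .v 17301504 (.cut .d 17519 (.cut .v 17039360 (.cut .s 13369344 (.pos 33 .pp ⟨⟨296748202, 0, 0, 0, 0, 0, 0, 0, 0, ⟨0, 0⟩, 0⟩, 1786762, 0⟩ 0 0) (.pos 33 .pp ⟨⟨324745847, 0, 0, 0, 0, 0, 0, 0, 0, ⟨0, 0⟩, 0⟩,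 2523522, 0⟩ 0 0)) (.pos 34 .pp ⟨⟨343603449, 0, 0, 0, 0, 0, 0, 0, 0, ⟨0, 0⟩, 0⟩, 0, 0⟩ 0 0)) (.pos 31 .pp ⟨⟨290117003, 0, 0, 0, 0, 0, 0, 0, 0, ⟨0, 0⟩, 0⟩, 0, 23185⟩ 0 0)) (.pos 32 .pp ⟨⟨367217805, 0, 0, 0, 0, 0, 0, 0, 0, ⟨0, 0⟩, 0⟩, 0, 0⟩ 0 0)) (.pos 29 .pp ⟨⟨299259206, 0, 0, 0, 0, 0, 0, 0, 0, ⟨0, 0⟩, 0⟩, 0, 10925⟩ 0 0)) (.pos 29 .pp ⟨⟨0, 0, 0, 0, 0, 0, 0, 0, 0, ⟨0, 0⟩, 0⟩, 0, 424728⟩ 0 0)) (.cut .d 70078 (.pos 30 .pp ⟨⟨409300236, 0, 0, 0, 0, 0, 0, 0, 0, ⟨0, 0⟩, 0⟩, 0, 0⟩ 0 0) (.pos 30 .pp ⟨⟨351133172, 0, 0, 0, 0, 0, 0, 0, 0, ⟨0, 0⟩, 0⟩, 0, 0⟩ 0 0))) (.pos 27 .pp ⟨⟨0, 0, 0, 0, 0, 0, 0, 0, 0, ⟨0, 0⟩, 0⟩, 0, 436485⟩ 0 0)) (.cut .d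 140156 (.pos 28 .pp ⟨⟨492284373, 0, 0, 0, 0, 0, 0, 0, 0, ⟨0, 0⟩, 0⟩, 0, 0⟩ 0 0) (.cut .v 19922944 (.pos 53 .pp ⟨⟨362437577, 0, 0, 0, 0, 0, 0, 0, 0, ⟨0, 0⟩, 0⟩, 0, 0⟩ 0 0) (.pos 54 .pp ⟨⟨429451850, 0, 0, 0, 0, 0, 0, 0, 0, ⟨0, 0⟩, 0⟩, 0, 0⟩ 0 0)))) (.pos 25 .pp ⟨⟨0, 0, 0, 0, 0, 0, 0, 0, 0, ⟨0, 0⟩, 0⟩, 0, 458040⟩ 0 0)) (.cut .d 280312 (.cut .v 23068672 (.cut .v 22020096 (.cut .d 140156 (.void 57 ⟨⟨0, 0, 0, 0, 0, 0, 0, 0, 0, ⟨0, 0⟩, 0⟩, 100000, 0⟩ 0 0) (.cut .d 210234 (.pos 57 .pp ⟨⟨550117546, 0, 0, 0, 0, 0, 0, 0, 0, ⟨0, 0⟩, 0⟩, 0, 0⟩ 0 0) (.pos 57 .pp ⟨⟨475779510, 0, 0, 0, 0, 0, 0, 0, 0, ⟨0, 0⟩, 0⟩, 0, 0⟩ 0 0))) (.pos 58 .pp ⟨⟨593941684,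 0, 0, 0, 0, 0, 0, 0, 0, ⟨0, 0⟩, 0⟩, 0, 0⟩ 0 0)) (.void 56 ⟨⟨0, 0, 0, 0, 0, 0, 0, 0, 0, ⟨0, 0⟩, 0⟩, 100000, 0⟩ 0 0)) (.cut .d 420468 (.cut .v 23068672 (.cut .v 22020096 (.pos 57 .pp ⟨⟨409798439, 0, 0, 0, 0, 0, 0, 0, 0, ⟨0, 0⟩, 0⟩, 0, 0⟩ 0 0) (.pos 58 .pp ⟨⟨46267763, 0, 0, 0, 0, 0, 0, 0, 0, ⟨0, 0⟩, 0⟩, 62362726, 0⟩ 0 0)) (.pos 56 .pp ⟨⟨0, 0, 0, 0, 0, 0, 0, 0, 0, ⟨0, 0⟩, 0⟩, 79755481, 0⟩ 0 0)) (.pos 26 .pp ⟨⟨0, 0, 0, 0, 0, 0, 214634, 0, 0, ⟨0, 0⟩, 0⟩, 54198518, 0⟩ 0 0)))) (.pos 23 .pp ⟨⟨0, 0, 0, 0, 0, 0, 0, 0, 0, ⟨0, 0⟩, 0⟩, 0, 494683⟩ 0 0)) (.cut .d 560625 (.cut .v 29360128 (.pos 75 .pp ⟨⟨0, 0, 0, 0, 0, 0, 0, 0, 0, ⟨0, 0⟩, 0⟩, 113163949,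 0⟩ 0 0) (.void 76 ⟨⟨0, 0, 0, 0, 0, 0, 0, 0, 0, ⟨0, 0⟩, 0⟩, 100000, 0⟩ 0 0)) (.pos 24 .pp ⟨⟨0, 0, 0, 0, 0, 0, 0, 0, 0, ⟨0, 0⟩, 0⟩, 72878067, 0⟩ 0 0))) (.pos 22 .pp ⟨⟨0, 0, 0, 0, 0, 0, 1646699, 0, 0, ⟨0, 0⟩, 0⟩, 0, 0⟩ 0 0)) (.cut .d 1121250 (.pos 91 .pp ⟨⟨0, 0, 0, 0, 0, 0, 0, 0, 0, ⟨0, 0⟩, 0⟩, 231243867, 0⟩ 0 0) (.pos 91 .pp ⟨⟨0, 0, 0, 0, 0, 0, 0, 0, 0, ⟨0, 0⟩, 0⟩, 93605064, 0⟩ 0 0))) (.pos 90 .pp ⟨⟨0, 0, 0, 0, 0, 0, 0, 0, 0, ⟨0, 0⟩, 0⟩, 0, 412236⟩ 0 0)) (.void 112 ⟨⟨0, 0, 0, 47853, 0, 0, 0, 0, 0, ⟨0, 0⟩, 0⟩, 52147, 0⟩ 0 0)) (.void 121 ⟨⟨0, 0, 0, 0, 0, 0, 0, 0, 0, ⟨0, 0⟩, 0⟩, 100000, 0⟩ 0 0)))),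
    by decide +kernel⟩

end Vale.Agent.P237.Petty.Cor.Grid.Tiny.N10
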